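import Crest.Agent.R240.Basic

/-! Row 240: integrals depending smoothly on parameters, Hadamard's lemma, bump functions. -/

set_option autoImplicit false
set_option linter.unusedSectionVars false

open scoped ContDiff RealInnerProductSpace Topology
open MeasureTheory Set Filter

noncomputable section

namespace Crest.Agent.R240

section
variable {P α E F : Type} [NormedAddCommGroup P] [NormedSpace ℝ P] [FiniteDimensional ℝ P]
  [NormedAddCommGroup α] [NormedSpace ℝ α] [FiniteDimensional ℝ α] [MeasurableSpace α]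
  [BorelSpace α] [NormedAddCommGroup E] [NormedSpace ℝ E] [NormedAddCommGroup F] [NormedSpace ℝ F]
  [CompleteSpace F]

omit [CompleteSpace F] in
theorem param_aesm (μ : Measure α) {u : α → E}
    (hu : Integrable u μ) {κ : α → E →L[ℝ] F}
    (hκ : Continuous κ) : AEStronglyMeasurable (fun x => κ x (u x)) μ := by
  have : ProperSpace α := FiniteDimensional.proper_real α
  have h1 : AEStronglyMeasurable κ μ := hκ.aestronglyMeasurable
  exact (ContinuousLinearMap.id ℝ (E →L[ℝ] F)).aestronglyMeasurable_comp₂ h1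
    hu.aestronglyMeasurable

omit [CompleteSpace F] in
theorem param_integrable (μ : Measure α) {K : Set α} (hK : IsCompact K) {u : α → E}
    (hu : Integrable u μ) (huK : ∀ᵐ x ∂μ, x ∉ K → u x = 0) {κ : α → E →L[ℝ] F}
    (hκ : Continuous κ) : Integrable (fun x => κ x (u x)) μ := by
  obtain ⟨C, hC⟩ := hK.exists_bound_of_continuousOn hκ.continuousOn
  refine Integrable.mono' (hu.norm.const_mul C) (param_aesm μ hu hκ) ?_
  filter_upwards [huK] with x hx
  by_cases hxK : x ∈ K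
  · exact ((κ x).le_opNorm _).trans (mul_le_mul_of_nonneg_right (hC x hxK) (norm_nonneg _))
  · simp [hx hxK]

/-- derivative under the integral sign -/
theorem hasFDerivAt_param_integral (μ : Measure α) {K : Set α} (hK : IsCompact K) {u : α → E}
    (hu : Integrable u μ) (huK : ∀ᵐ x ∂μ, x ∉ K → u x = 0) {κ : P × α → E →L[ℝ] F}
    (hκ : ContDiff ℝ ∞ κ) (p : P) :
    DifferentiableAt ℝ (fun q => ∫ x, κ (q, x) (u x) ∂μ) p ∧
      ∀ v, fderiv ℝ (fun q => ∫ x, κ (q, x) (u x) ∂μ) p v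
        = ∫ x, fderiv ℝ κ (p, x) (v, 0) (u x) ∂μ := by
  have : ProperSpace P := FiniteDimensional.proper_real P
  have hd : Differentiable ℝ κ := hκ.differentiable (by simp)
  have hc : Continuous (fderiv ℝ κ) := hκ.continuous_fderiv (by simp)
  set κ' : P × α → E →L[ℝ] (P →L[ℝ] F) := fun z =>
    ((fderiv ℝ κ z).comp (ContinuousLinearMap.inl ℝ P α)).flip with hκ'
  have hc' : Continuous κ' := by
    have h1 : Continuous fun z : P × α => (fderiv ℝ κ z).comp (ContinuousLinearMap.inl ℝ P α) :=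
      hc.clm_comp continuous_const
    exact (ContinuousLinearMap.flipₗᵢ ℝ P E F).continuous.comp h1
  obtain ⟨C, hC⟩ := ((isCompact_closedBall p 1).prod hK).exists_bound_of_continuousOn
    (E := E →L[ℝ] (P →L[ℝ] F)) (f := κ') hc'.continuousOn
  have hint : Integrable (fun x => κ' (p, x) (u x)) μ :=
    param_integrable μ hK hu huK (κ := fun x => κ' (p, x)) (hc'.comp (by fun_prop))
  have key : HasFDerivAt (fun q => ∫ x, κ (q, x) (u x) ∂μ) (∫ x, κ' (p, x) (u x) ∂μ) p := by
    refine hasFDerivAt_integral_of_dominated_of_fderiv_le (F := fun q x => κ (q, x) (u x))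
      (F' := fun q x => κ' (q, x) (u x)) (bound := fun x => C * ‖u x‖)
      (Metric.closedBall_mem_nhds p one_pos) ?_ ?_ hint.aestronglyMeasurable ?_
      (hu.norm.const_mul C) ?_
    · exact Eventually.of_forall fun q =>
        param_aesm μ hu (κ := fun x => κ (q, x)) (hκ.continuous.comp (by fun_prop))
    · exact param_integrable μ hK hu huK (κ := fun x => κ (p, x))
        (hκ.continuous.comp (by fun_prop))
    · filter_upwards [huK] with x hx q hq
      by_cases hxK : x ∈ K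
      · exact ((κ' (q, x)).le_opNorm _).trans
          (mul_le_mul_of_nonneg_right (hC (q, x) ⟨hq, hxK⟩) (norm_nonneg _))
      · simp [hx hxK]
    · refine Eventually.of_forall fun x q _ => ?_
      have h1 : HasFDerivAt (fun q : P => κ (q, x))
          ((fderiv ℝ κ (q, x)).comp (ContinuousLinearMap.inl ℝ P α)) q :=
        (hd (q, x)).hasFDerivAt.comp q (hasFDerivAt_prodMk_left q x)
      have h2 := (ContinuousLinearMap.apply ℝ F (u x)).hasFDerivAt.comp q h1
      refine h2.congr_fderiv ?_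
      ext v
      simp [hκ']
  refine ⟨key.differentiableAt, fun v => ?_⟩
  rw [key.fderiv, ContinuousLinearMap.integral_apply hint]
  simp [hκ']

theorem integrable_param (μ : Measure α) {K : Set α} (hK : IsCompact K) {u : α → E}
    (hu : Integrable u μ) (huK : ∀ᵐ x ∂μ, x ∉ K → u x = 0) {κ : α → E →L[ℝ] F}
    (hκ : Continuous κ) : Integrable (fun x => κ x (u x)) μ :=
  param_integrable μ hK hu huK hκ

theorem param_contDiff_nat (μ : Measure α) {K : Set α} (hK : IsCompact K) {u : α → E}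
    (hu : Integrable u μ) (huK : ∀ᵐ x ∂μ, x ∉ K → u x = 0) (n : ℕ) :
    ∀ {κ : P × α → E →L[ℝ] F}, ContDiff ℝ ∞ κ →
      ContDiff ℝ n fun q => ∫ x, κ (q, x) (u x) ∂μ := by
  induction n with
  | zero =>
    intro κ hκ
    have : Differentiable ℝ fun q => ∫ x, κ (q, x) (u x) ∂μ := fun p =>
      (hasFDerivAt_param_integral μ hK hu huK hκ p).1
    simpa using this.continuous
  | succ n ih =>
    intro κ hκ
    rw [Nat.cast_succ, contDiff_succ_iff_fderiv_apply]
    refine ⟨fun p => (hasFDerivAt_param_integral μ hK hu huK hκ p).1, by simp, fun v => ?_⟩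
    have h1 : ContDiff ℝ ∞ fun z : P × α => fderiv ℝ κ z (v, 0) :=
      (hκ.fderiv_right (m := ∞) (by simp)).clm_apply contDiff_const
    have h2 := ih h1
    have h3 : (fun p => fderiv ℝ (fun q => ∫ x, κ (q, x) (u x) ∂μ) p v)
        = fun q => ∫ x, fderiv ℝ κ (q, x) (v, 0) (u x) ∂μ :=
      funext fun p => (hasFDerivAt_param_integral μ hK hu huK hκ p).2 v
    rw [h3]
    exact h2

/-- smoothness of parameter integrals -/
theorem contDiff_param_integral (μ : Measure α) {K : Set α} (hK : IsCompact K) {u : α → E}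
    (hu : Integrable u μ) (huK : ∀ᵐ x ∂μ, x ∉ K → u x = 0) {κ : P × α → E →L[ℝ] F}
    (hκ : ContDiff ℝ ∞ κ) : ContDiff ℝ ∞ fun q => ∫ x, κ (q, x) (u x) ∂μ :=
  contDiff_infty.2 fun n => param_contDiff_nat μ hK hu huK n hκ

theorem param_scalar (μ : Measure α) {K : Set α} (hK : IsCompact K)
    {f : α → ℝ} (hf : Integrable f μ) (hfK : ∀ᵐ x ∂μ, x ∉ K → f x = 0)
    {Φ : P × α → F} (hΦ : ContDiff ℝ ∞ Φ) :
    ContDiff ℝ ∞ (fun q => ∫ x, f x • Φ (q, x) ∂μ) ∧
      ∀ p v, fderiv ℝ (fun q => ∫ x, f x • Φ (q, x) ∂μ) p v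
        = ∫ x, f x • fderiv ℝ Φ (p, x) (v, 0) ∂μ := by
  set T : F →L[ℝ] ℝ →L[ℝ] F := (ContinuousLinearMap.lsmul ℝ ℝ : ℝ →L[ℝ] F →L[ℝ] F).flip with hT
  have hTa : ∀ (y : F) (c : ℝ), T y c = c • y := fun y c => by simp [hT]
  have hκ : ContDiff ℝ ∞ fun z => T (Φ z) := T.contDiff.comp hΦ
  have h1 := contDiff_param_integral μ hK hf hfK hκ
  have h2 := fun p => (hasFDerivAt_param_integral μ hK hf hfK hκ p).2
  simp only [hTa] at h1 h2
  refine ⟨h1, fun p v => ?_⟩
  rw [h2 p v]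
  refine integral_congr_ae (Eventually.of_forall fun x => ?_)
  have h3 : HasFDerivAt (fun z => T (Φ z)) (T.comp (fderiv ℝ Φ (p, x))) (p, x) :=
    T.hasFDerivAt.comp (p, x) (hΦ.differentiable (by simp) (p, x)).hasFDerivAt
  simp only [h3.fderiv, ContinuousLinearMap.comp_apply, hTa]

/-- version for a finite measure carried by a compact set, with a scalar weight -/
theorem contDiff_integral_cpt (μ : Measure α) {K : Set α} (hK : IsCompact K) (hμ : μ Kᶜ = 0)
    {f : α → ℝ} (hf : Integrable f μ) {Φ : P × α → F} (hΦ : ContDiff ℝ ∞ Φ) :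
    ContDiff ℝ ∞ (fun q => ∫ x, f x • Φ (q, x) ∂μ) ∧
      ∀ p v, fderiv ℝ (fun q => ∫ x, f x • Φ (q, x) ∂μ) p v
        = ∫ x, f x • fderiv ℝ Φ (p, x) (v, 0) ∂μ := by
  refine param_scalar μ hK hf ?_ hΦ
  have : ∀ᵐ x ∂μ, x ∈ K := hμ
  filter_upwards [this] with x hx hx'
  exact absurd hx hx'

theorem param_loc (μ : Measure α) [IsFiniteMeasureOnCompacts μ] {Φ : P × α → F}
    (hΦ : ContDiff ℝ ∞ Φ) {p : P} (hs : ∃ R : ℝ, ∀ᶠ q in 𝓝 p, ∀ x, R ≤ ‖x‖ → Φ (q, x) = 0) :
    ContDiffAt ℝ ∞ (fun q => ∫ x, Φ (q, x) ∂μ) p ∧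
      ∀ v, fderiv ℝ (fun q => ∫ x, Φ (q, x) ∂μ) p v = ∫ x, fderiv ℝ Φ (p, x) (v, 0) ∂μ := by
  have : ProperSpace α := FiniteDimensional.proper_real α
  obtain ⟨R, hR⟩ := hs
  set K : Set α := Metric.closedBall 0 R with hKd
  have hK : IsCompact K := isCompact_closedBall _ _
  have hKm : MeasurableSet K := hK.isClosed.measurableSet
  have hf : Integrable (K.indicator fun _ : α => (1 : ℝ)) μ :=
    (integrable_indicator_iff hKm).2 (integrableOn_const hK.measure_lt_top.ne (by simp))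
  have hout : ∀ x, x ∉ K → R < ‖x‖ := fun x hx => by
    simpa [hKd] using hx
  obtain ⟨h1, h2⟩ := param_scalar μ hK hf
    (Eventually.of_forall fun x hx => indicator_of_notMem hx _) hΦ
  have heq : (fun q => ∫ x, Φ (q, x) ∂μ) =ᶠ[𝓝 p]
      fun q => ∫ x, K.indicator (fun _ : α => (1 : ℝ)) x • Φ (q, x) ∂μ := by
    filter_upwards [hR] with q hq
    refine integral_congr_ae (Eventually.of_forall fun x => ?_)
    by_cases hx : x ∈ K
    · simp [hx]
    · simp [hx, hq x (hout x hx).le]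
  refine ⟨h1.contDiffAt.congr_of_eventuallyEq heq, fun v => ?_⟩
  rw [heq.fderiv_eq, h2 p v]
  refine integral_congr_ae (Eventually.of_forall fun x => ?_)
  by_cases hx : x ∈ K
  · simp [hx]
  · have h0 : Φ =ᶠ[𝓝 (p, x)] fun _ => 0 := by
      have hx' : ∀ᶠ y in 𝓝 x, R ≤ ‖y‖ :=
        (continuous_norm.continuousAt.eventually (lt_mem_nhds (hout x hx))).mono fun y hy => hy.le
      rw [nhds_prod_eq]
      filter_upwards [hR.prod_mk hx'] with z hz
      exact hz.1 z.2 hz.2
    simp [hx, h0.fderiv_eq]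

/-- version for a locally finite measure and an integrand with support locally uniformly
compact in the integration variable -/
theorem contDiff_integral_loc (μ : Measure α) [IsFiniteMeasureOnCompacts μ] {Φ : P × α → F}
    (hΦ : ContDiff ℝ ∞ Φ) (hs : ∀ p : P, ∃ R : ℝ, ∀ᶠ q in 𝓝 p, ∀ x, R ≤ ‖x‖ → Φ (q, x) = 0) :
    ContDiff ℝ ∞ (fun q => ∫ x, Φ (q, x) ∂μ) ∧
      ∀ p v, fderiv ℝ (fun q => ∫ x, Φ (q, x) ∂μ) p v = ∫ x, fderiv ℝ Φ (p, x) (v, 0) ∂μ :=
  ⟨contDiff_iff_contDiffAt.2 fun p => (param_loc μ hΦ (hs p)).1,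
    fun p => (param_loc μ hΦ (hs p)).2⟩

/-- local version: smoothness only on an open set of parameters -/
theorem fderiv_integral_loc (μ : Measure α) [IsFiniteMeasureOnCompacts μ] {Φ : P × α → F}
    {O : Set P} (hO : IsOpen O) (hΦ : ContDiffOn ℝ ∞ Φ (O ×ˢ univ)) {p : P} (hp : p ∈ O)
    (hs : ∃ R : ℝ, ∀ᶠ q in 𝓝 p, ∀ x, R ≤ ‖x‖ → Φ (q, x) = 0) :
    ContDiffAt ℝ ∞ (fun q => ∫ x, Φ (q, x) ∂μ) p ∧
      ∀ v, fderiv ℝ (fun q => ∫ x, Φ (q, x) ∂μ) p v = ∫ x, fderiv ℝ Φ (p, x) (v, 0) ∂μ := by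
  obtain ⟨ε, hε, hεO⟩ := Metric.isOpen_iff.1 hO p hp
  let b : ContDiffBump p := ⟨ε / 4, ε / 2, by linarith, by linarith⟩
  have hbO : tsupport b ⊆ O := by
    rw [b.tsupport_eq]
    exact (Metric.closedBall_subset_ball (show ε / 2 < ε by linarith)).trans hεO
  have hb1 : ∀ᶠ q in 𝓝 p, b q = 1 := b.eventuallyEq_one
  set Ψ : P × α → F := fun z => b z.1 • Φ z with hΨd
  have hΨ : ContDiff ℝ ∞ Ψ := by
    refine contDiff_iff_contDiffAt.2 fun z => ?_
    by_cases hz : z.1 ∈ O
    · have h1 : ContDiffAt ℝ ∞ Φ z :=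
        hΦ.contDiffAt ((hO.prod isOpen_univ).mem_nhds ⟨hz, mem_univ _⟩)
      exact ((b.contDiff (n := ⊤)).comp contDiff_fst).contDiffAt.smul h1
    · have h1 : (b : P → ℝ) =ᶠ[𝓝 z.1] 0 := notMem_tsupport_iff_eventuallyEq.1 fun h => hz (hbO h)
      have h2 : Ψ =ᶠ[𝓝 z] fun _ => 0 := by
        filter_upwards [continuous_fst.continuousAt.eventually h1] with w hw
        simp only [hΨd]
        rw [hw]
        simp
      exact contDiffAt_const.congr_of_eventuallyEq h2
  obtain ⟨R, hR⟩ := hs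
  obtain ⟨h1, h2⟩ := param_loc μ hΨ (p := p) ⟨R, hR.mono fun q hq x hx => by
    simp [hΨd, hq x hx]⟩
  have heq : (fun q => ∫ x, Φ (q, x) ∂μ) =ᶠ[𝓝 p] fun q => ∫ x, Ψ (q, x) ∂μ := by
    filter_upwards [hb1] with q hq
    simp [hΨd, hq]
  refine ⟨h1.congr_of_eventuallyEq heq, fun v => ?_⟩
  rw [heq.fderiv_eq, h2 v]
  refine integral_congr_ae (Eventually.of_forall fun x => ?_)
  have h3 : Ψ =ᶠ[𝓝 (p, x)] Φ := by
    have : ∀ᶠ z : P × α in 𝓝 (p, x), b z.1 = 1 :=
      (continuous_fst.continuousAt (x := (p, x))).eventually hb1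
    filter_upwards [this] with z hz
    simp [hΨd, hz]
  simp only [h3.fderiv_eq]

/-- Hadamard's lemma with parameters: `κ₁ (t, q) = ∫ s in 0..1, ∂ₜ κ (s t, q)` -/
theorem hadamard {κ : ℝ × P → F} (hκ : ContDiff ℝ ∞ κ) : ∃ κ₁ : ℝ × P → F, ContDiff ℝ ∞ κ₁ ∧
    (∀ t q, κ (t, q) = κ (0, q) + t • κ₁ (t, q)) ∧
    ∀ q, (∀ t, κ (t, q) = 0) → ∀ t, κ₁ (t, q) = 0 := by
  have hd : Differentiable ℝ κ := hκ.differentiable (by simp)
  set Φ : (ℝ × P) × ℝ → F := fun z => fderiv ℝ κ (z.2 * z.1.1, z.1.2) (1, 0) with hΦd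
  have hΦ : ContDiff ℝ ∞ Φ := by
    have h1 : ContDiff ℝ ∞ fun z : ℝ × P => fderiv ℝ κ z (1, 0) :=
      (hκ.fderiv_right (m := ∞) (by simp)).clm_apply contDiff_const
    exact h1.comp (f := fun z : (ℝ × P) × ℝ => (z.2 * z.1.1, z.1.2)) (by fun_prop)
  have hder : ∀ (t : ℝ) (q : P), HasDerivAt (fun s => κ (s, q)) (fderiv ℝ κ (t, q) (1, 0)) t := by
    intro t q
    have h1 : HasDerivAt (fun s : ℝ => (s, q)) ((1, 0) : ℝ × P) t :=
      (hasDerivAt_id t).prodMk (hasDerivAt_const t q)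
    exact (hd (t, q)).hasFDerivAt.comp_hasDerivAt t h1
  have hμ : (volume.restrict (Ioc (0 : ℝ) 1)) (Icc (0 : ℝ) 1)ᶜ = 0 := by
    rw [Measure.restrict_apply measurableSet_Icc.compl]
    have : (Icc (0 : ℝ) 1)ᶜ ∩ Ioc 0 1 = ∅ := by
      ext x
      simp only [mem_inter_iff, mem_compl_iff, mem_empty_iff_false, iff_false, not_and]
      exact fun h h' => h (Ioc_subset_Icc_self h')
    rw [this, measure_empty]
  have h1 := (contDiff_integral_cpt (volume.restrict (Ioc (0 : ℝ) 1)) isCompact_Icc hμ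
    (f := fun _ => (1 : ℝ)) (integrable_const _) hΦ).1
  simp only [one_smul] at h1
  refine ⟨_, h1, fun t q => ?_, fun q hq t => ?_⟩
  · have h2 : ∀ s : ℝ, HasDerivAt (fun s : ℝ => κ (s * t, q)) (t • Φ ((t, q), s)) s := by
      intro s
      have := (hder (s * t) q).scomp s (hasDerivAt_mul_const t)
      exact this
    have h3 := intervalIntegral.integral_eq_sub_of_hasDerivAt (a := 0) (b := 1)
      (fun s _ => h2 s) (by
        apply Continuous.intervalIntegrable
        exact (hΦ.continuous.comp (by fun_prop)).const_smul t)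
    rw [intervalIntegral.integral_smul, intervalIntegral.integral_of_le zero_le_one] at h3
    simp only [one_mul, zero_mul] at h3
    rw [h3]
    abel
  · have h2 : ∀ s : ℝ, Φ ((t, q), s) = 0 := by
      intro s
      have h3 := hder (s * t) q
      simp only [hq] at h3
      exact h3.unique (hasDerivAt_const _ _)
    simp [h2]

end

/-- a smooth bump on the line: `1` on `(-∞, 1/4]`, `0` on `[1, ∞)`, values in `[0, 1]` -/
def bump (s : ℝ) : ℝ := Real.smoothTransition ((1 - s) * (4 / 3))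

theorem bump_sm : ContDiff ℝ ∞ bump :=
  (Real.smoothTransition.contDiff (n := ⊤)).comp (f := fun s : ℝ => (1 - s) * (4 / 3))
    (by fun_prop)

theorem bump_nonneg (s : ℝ) : 0 ≤ bump s := Real.smoothTransition.nonneg _

theorem bump_le_one (s : ℝ) : bump s ≤ 1 := Real.smoothTransition.le_one _

theorem bump_eq_one {s : ℝ} (h : s ≤ 1 / 4) : bump s = 1 :=
  Real.smoothTransition.one_of_one_le (by linarith)

theorem bump_eq_zero {s : ℝ} (h : 1 ≤ s) : bump s = 0 :=
  Real.smoothTransition.zero_of_nonpos (by linarith)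

theorem bump_antitone : Antitone bump := fun a b hab =>
  Real.smoothTransition.monotone (by linarith)

theorem param_deriv_bump_zero {s : ℝ} (h : 1 ≤ s) : deriv bump s = 0 := by
  apply IsLocalMin.deriv_eq_zero
  refine Eventually.of_forall fun x => ?_
  rw [bump_eq_zero h]
  exact bump_nonneg x

theorem deriv_bump_bound : ∃ C, 0 ≤ C ∧ ∀ s, |deriv bump s| ≤ C := by
  have hc : Continuous (deriv bump) := bump_sm.continuous_deriv (by simp)
  obtain ⟨C, hC⟩ := (isCompact_Icc (a := (0 : ℝ)) (b := 1)).exists_bound_of_continuousOn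
    hc.continuousOn
  have h0 : 0 ≤ C := (norm_nonneg _).trans (hC 0 ⟨le_rfl, zero_le_one⟩)
  refine ⟨C, h0, fun s => ?_⟩
  by_cases hs : s ∈ Icc (0 : ℝ) 1
  · exact hC s hs
  · have : deriv bump s = 0 := by
      rcases le_or_gt 1 s with h | h
      · exact param_deriv_bump_zero h
      · have h' : s < 0 := by
          by_contra h''
          exact hs ⟨not_lt.1 h'', h.le⟩
        apply IsLocalMax.deriv_eq_zero
        refine Eventually.of_forall fun x => ?_
        rw [bump_eq_one (s := s) (by linarith)]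
        exact bump_le_one x
    rw [this, abs_zero]
    exact h0

theorem deriv_bump_eq_zero {s : ℝ} (h : 1 ≤ s) : deriv bump s = 0 := param_deriv_bump_zero h

end Crest.Agent.R240
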