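import Crest.Agent.R240.AlgF

/-! Row 240: pointwise linear algebra (unitary frames, the wedge pairing).

In a frame `F : X.Frame x` write `η i j = ev η (F.B (eb i)) (F.B (eb j))`,
`s₁ = η01 + η23, s₂ = η02 - η13, s₃ = η03 + η12`, `a₁ = η01 - η23, a₂ = η02 + η13, a₃ = η03 - η12`.
Then `wedge η η' = (s · s' - a · a') / 2` on the frame, `Pm` keeps `s₂, s₃` and `Pp` keeps
`s₁, a₁, a₂, a₃`; `⟪G.st x η, η'⟫ = wedge η η'` on the frame because `Vol` of the frame is `1`.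
A tensor in the range of `Pt x` equals `pb F.L (pb F.B ·)` of itself, so that its norm is
comparable with the norm of its six frame coordinates, uniformly (`Frame.norm_B_le`,
`exists_norm_L_le`). -/

set_option autoImplicit false

open scoped ContDiff RealInnerProductSpace Topology
open MeasureTheory Set Filter

noncomputable section

namespace Crest.Agent.R240

variable {N : ℕ}

theorem alg_ev_neg_left (η : E2 N) (a b : A N) : ev η (-a) b = -ev η a b := by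
  simpa using ev_smul_left η (-1) a b

theorem alg_ev_neg_right (η : E2 N) (a b : A N) : ev η a (-b) = -ev η a b := by
  simpa using ev_smul_right η (-1) a b

theorem alg_Jst : Jst (eb 0) = eb 1 ∧ Jst (eb 1) = -eb 0 ∧ Jst (eb 2) = eb 3 ∧ Jst (eb 3) = -eb 2 := by
  refine ⟨?_, ?_, ?_, ?_⟩ <;> ext i <;> fin_cases i <;> simp [Jst_apply, eb_apply]

theorem alg_ev_expand (B : A 4 →L[ℝ] A N) (η : E2 N) (u v : A 4) : ev η (B u) (B v) =
    ev η (B (eb 0)) (B (eb 1)) * (u 0 * v 1 - u 1 * v 0)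
      + ev η (B (eb 0)) (B (eb 2)) * (u 0 * v 2 - u 2 * v 0)
      + ev η (B (eb 0)) (B (eb 3)) * (u 0 * v 3 - u 3 * v 0)
      + ev η (B (eb 1)) (B (eb 2)) * (u 1 * v 2 - u 2 * v 1)
      + ev η (B (eb 1)) (B (eb 3)) * (u 1 * v 3 - u 3 * v 1)
      + ev η (B (eb 2)) (B (eb 3)) * (u 2 * v 3 - u 3 * v 2) := by
  rw [← ev_pb B η u v, ev_eq_sum]
  simp only [Fin.sum_univ_four, pb_apply, ev_self]
  rw [ev_swap η (B (eb 0)) (B (eb 1)), ev_swap η (B (eb 0)) (B (eb 2)),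
    ev_swap η (B (eb 0)) (B (eb 3)), ev_swap η (B (eb 1)) (B (eb 2)),
    ev_swap η (B (eb 1)) (B (eb 3)), ev_swap η (B (eb 2)) (B (eb 3))]
  ring

theorem alg_norm_pb (B : A 4 →L[ℝ] A N) (η : E2 N) : ‖pb B η‖ ^ 2 =
    (ev η (B (eb 0)) (B (eb 1)) ^ 2 + ev η (B (eb 0)) (B (eb 2)) ^ 2
      + ev η (B (eb 0)) (B (eb 3)) ^ 2 + ev η (B (eb 1)) (B (eb 2)) ^ 2
      + ev η (B (eb 1)) (B (eb 3)) ^ 2 + ev η (B (eb 2)) (B (eb 3)) ^ 2) / 2 := by
  rw [EuclideanSpace.real_norm_sq_eq, Fintype.sum_prod_type]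
  simp only [Fin.sum_univ_four, pb_apply, ev_self]
  rw [ev_swap η (B (eb 0)) (B (eb 1)), ev_swap η (B (eb 0)) (B (eb 2)),
    ev_swap η (B (eb 0)) (B (eb 3)), ev_swap η (B (eb 1)) (B (eb 2)),
    ev_swap η (B (eb 1)) (B (eb 3)), ev_swap η (B (eb 2)) (B (eb 3))]
  ring

namespace Pre
variable {X : Pre N} {x : A N}

theorem alg_volL_symm (β γ : E2 N) : ⟪X.volL x β, γ⟫ = ⟪β, X.volL x γ⟫ := by
  rw [← ContinuousLinearMap.adjoint_inner_right, adjoint_volL]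

theorem alg_J_volL (hx : x ∈ X.S) (β γ : E2 N) :
    ⟪pb (X.J x) (X.volL x β), γ⟫ = ⟪β, pb (X.J x) (X.volL x γ)⟫ := by
  have h1 : ∀ u v, X.om x (X.J x u) (X.J x v) = X.om x u v := by
    intro u v
    simp only [om, X.JJ x hx, X.πJ x hx, inner_neg_left, inner_neg_right]
    ring
  have h2 : ∀ u v, X.om x (X.J x u) v = -X.om x u (X.J x v) := by
    intro u v
    simp only [om, X.JJ x hx, X.πJ x hx, inner_neg_left, inner_neg_right]
    ring
  have h3 : ∀ a b, X.volL x (biv (X.J x a) (X.J x b)) = pb (X.J x) (X.volL x (biv a b)) := by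
    intro a b
    refine (anti_volL X x _).ext (anti_pb _ _) fun c d => ?_
    rw [ev_pb, ev_volL_biv, ev_volL_biv, Vol, Vol, h1, h1, h2 c a, h2 d b, h2 c b, h2 d a]
    ring
  have h4 : pb (X.J x) (X.volL x β) = X.volL x (ContinuousLinearMap.adjoint (pb (X.J x)) β) := by
    refine (anti_pb _ _).ext (anti_volL X x _) fun a b => ?_
    rw [ev_pb, ev, ev, alg_volL_symm, alg_volL_symm, ContinuousLinearMap.adjoint_inner_left, h3]
  rw [h4, alg_volL_symm, ContinuousLinearMap.adjoint_inner_left]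

theorem alg_P_volL (hx : x ∈ X.S) (β γ : E2 N) :
    ⟪X.Pm x (X.volL x β), γ⟫ = ⟪β, X.Pm x (X.volL x γ)⟫ ∧
      ⟪X.Pp x (X.volL x β), γ⟫ = ⟪β, X.Pp x (X.volL x γ)⟫ := by
  have h1 : ∀ β, pb (X.π x) (X.volL x β) = X.volL x β := Pt_volL hx
  simp only [Pm, Pp, pm, pp, smul_apply, sub_apply, add_apply, h1, inner_smul_left,
    inner_smul_right, inner_sub_left, inner_sub_right, inner_add_left, inner_add_right,
    alg_J_volL hx, alg_volL_symm, conj_trivial, and_self]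

theorem Pm_volL_Pp (hx : x ∈ X.S) (B : E2 N) :
    X.Pm x (X.volL x (ContinuousLinearMap.adjoint (X.Pp x) B)) = 0 := by
  refine ext_inner_right ℝ fun γ => ?_
  rw [(alg_P_volL hx _ _).1, ContinuousLinearMap.adjoint_inner_left, Pp_Pm hx, inner_zero_left,
    inner_zero_right]

theorem Pp_volL_Pm (hx : x ∈ X.S) (B : E2 N) :
    X.Pp x (X.volL x (ContinuousLinearMap.adjoint (X.Pm x) B)) = 0 := by
  refine ext_inner_right ℝ fun γ => ?_
  rw [(alg_P_volL hx _ _).2, ContinuousLinearMap.adjoint_inner_left, Pm_Pp hx, inner_zero_left,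
    inner_zero_right]

end Pre

namespace Geo
variable (G : Geo N) {x : A N}

theorem st_wedge (hx : x ∈ G.S) (F : G.Frame x) (η η' : E2 N) : ⟪G.st x η, η'⟫ =
    wedge η η' (F.B (eb 0)) (F.B (eb 1)) (F.B (eb 2)) (F.B (eb 3)) := by
  rw [← G.st_spec x hx η η' _ _ _ _ (F.πB _) (F.πB _) (F.πB _) (F.πB _), F.Vol_eq hx]
  simp only [F.LB, det4_eb, mul_one]

theorem st_symm (hx : x ∈ G.S) (η η' : E2 N) : ⟪G.st x η, η'⟫ = ⟪G.st x η', η⟫ := by
  obtain ⟨F⟩ := G.toSub.exists_frame hx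
  rw [G.st_wedge hx F, G.st_wedge hx F, wedge, wedge]
  ring

theorem st_Pt (hx : x ∈ G.S) (η : E2 N) : G.st x (G.Pt x η) = G.st x η := by
  obtain ⟨F⟩ := G.toSub.exists_frame hx
  refine ext_inner_right ℝ fun γ => ?_
  simp only [G.st_wedge hx F, wedge, Pre.Pt, ev_pb, F.πB]

theorem adjoint_Pt_st (hx : x ∈ G.S) (η : E2 N) :
    ContinuousLinearMap.adjoint (G.Pt x) (G.st x η) = G.st x η := by
  refine ext_inner_right ℝ fun γ => ?_
  rw [ContinuousLinearMap.adjoint_inner_left, G.st_symm hx, G.st_Pt hx, G.st_symm hx]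

theorem adjoint_Pm_st (hx : x ∈ G.S) (η : E2 N) :
    ContinuousLinearMap.adjoint (G.Pm x) (G.st x η) = G.st x (G.Pm x η) := by
  obtain ⟨F⟩ := G.toSub.exists_frame hx
  refine ext_inner_right ℝ fun γ => ?_
  rw [ContinuousLinearMap.adjoint_inner_left]
  simp only [G.st_wedge hx F, wedge, Pre.Pm, ev_pm, F.πB, F.JB, alg_Jst, map_neg, alg_ev_neg_left,
    alg_ev_neg_right]
  rw [ev_swap η (F.B (eb 0)) (F.B (eb 1)), ev_swap η (F.B (eb 2)) (F.B (eb 3)),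
    ev_swap γ (F.B (eb 0)) (F.B (eb 1)), ev_swap γ (F.B (eb 2)) (F.B (eb 3))]
  ring

theorem st_Pm_Pp (hx : x ∈ G.S) (η η' : E2 N) : ⟪G.st x (G.Pm x η), G.Pp x η'⟫ = 0 := by
  rw [← G.adjoint_Pm_st hx, ContinuousLinearMap.adjoint_inner_left, Pre.Pm_Pp hx, inner_zero_right]

theorem volL_st (hx : x ∈ G.S) (η : E2 N) : G.volL x (G.st x η) = G.Pt x η := by
  obtain ⟨F⟩ := G.toSub.exists_frame hx
  refine (Pre.anti_volL _ x _).ext (anti_pb _ _) fun a b => ?_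
  rw [ev, Pre.alg_volL_symm, G.st_wedge hx F, Pre.Pt, ev_pb, ← F.BL, ← F.BL, alg_ev_expand]
  simp only [wedge, Pre.ev_volL_biv, F.Vol_eq hx, F.LB, det4, eb_apply]
  simp
  ring

/-- the wedge pairing is positive definite on anti-invariant forms -/
theorem st_lower : ∃ c C, 0 < c ∧ 0 ≤ C ∧ ∀ x ∈ G.S, ∀ η,
    c * ‖G.Pt x η‖ ^ 2 - C * ‖G.Pp x η‖ ^ 2 ≤ ⟪G.st x η, η⟫ := by
  obtain ⟨C, hC, h⟩ := G.exists_norm_L_le
  refine ⟨2 / C ^ 4, 4, by positivity, by norm_num, fun x hx η => ?_⟩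
  obtain ⟨F⟩ := G.toSub.exists_frame hx
  have h1 : ‖F.L‖ ≤ C := F.L.opNorm_le_bound (by linarith) (h x hx F)
  have h2 : ‖F.B‖ ≤ 1 := F.B.opNorm_le_bound zero_le_one fun a => by simpa using F.norm_B_le a
  have h3 : G.Pt x η = pb F.L (pb F.B η) := by
    rw [pb_pb, Pre.Pt]
    congr 2
    ext1 v
    exact (F.BL v).symm
  have h4 : ‖G.Pt x η‖ ≤ C ^ 2 * ‖pb F.B η‖ := by
    rw [h3]
    refine ((pb F.L).le_opNorm _).trans ?_
    gcongr
    exact (norm_pb_le _).trans (by gcongr)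
  have h5 : ‖pb F.B (G.Pp x η)‖ ≤ ‖G.Pp x η‖ :=
    ((pb F.B).le_opNorm _).trans (mul_le_of_le_one_left (norm_nonneg _)
      ((norm_pb_le _).trans (pow_le_one₀ (norm_nonneg _) h2)))
  have h6 : 2 / C ^ 4 * ‖G.Pt x η‖ ^ 2 ≤ 2 * ‖pb F.B η‖ ^ 2 :=
    calc _ ≤ 2 / C ^ 4 * (C ^ 2 * ‖pb F.B η‖) ^ 2 := by gcongr
      _ = _ := by field_simp
  have h7 := pow_le_pow_left₀ (norm_nonneg _) h5 2
  rw [alg_norm_pb] at h6 h7
  simp only [Pre.Pp, ev_pp, F.πB, F.JB, alg_Jst, map_neg, alg_ev_neg_left, alg_ev_neg_right] at h7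
  rw [ev_swap η (F.B (eb 0)) (F.B (eb 1)), ev_swap η (F.B (eb 2)) (F.B (eb 3))] at h7
  rw [G.st_wedge hx F, wedge, Pre.Pp]
  nlinarith [sq_nonneg (ev η (F.B (eb 0)) (F.B (eb 1)) + ev η (F.B (eb 2)) (F.B (eb 3)))]

end Geo

end Crest.Agent.R240
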