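import Crest.Agent.R240.AlgF

/-! Row 240: algebra of complex lines (gap, distance to a line, positivity). -/

set_option autoImplicit false

open scoped ContDiff RealInnerProductSpace
open MeasureTheory Set

noncomputable section

namespace Crest.Agent.R240

variable {N : ℕ}

theorem alg2_ctr_add (L : E2 N) (a b : A N) : ctr L (a + b) = ctr L a + ctr L b := by
  obtain ⟨T, hT⟩ := exists_ctrL (N := N); simp only [← hT, map_add]
theorem alg2_ctr_sub (L : E2 N) (a b : A N) : ctr L (a - b) = ctr L a - ctr L b := by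
  obtain ⟨T, hT⟩ := exists_ctrL (N := N); simp only [← hT, map_sub]
theorem alg2_ctr_smul (L : E2 N) (s : ℝ) (a : A N) : ctr L (s • a) = s • ctr L a := by
  obtain ⟨T, hT⟩ := exists_ctrL (N := N); simp only [← hT, map_smul]
theorem alg2_sub_ctr (L L' : E2 N) (a : A N) : ctr (L - L') a = ctr L a - ctr L' a := by
  obtain ⟨T, hT⟩ := exists_ctrL (N := N)
  simp only [← hT, map_sub, sub_apply]
theorem alg2_smul_ctr (s : ℝ) (L : E2 N) (a : A N) : ctr (s • L) a = s • ctr L a := by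
  obtain ⟨T, hT⟩ := exists_ctrL (N := N)
  simp only [← hT, map_smul, smul_apply]
theorem alg2_c_sq : ((√2)⁻¹ : ℝ) * (√2)⁻¹ = 1 / 2 := by
  rw [← mul_inv, Real.mul_self_sqrt (by norm_num)]; norm_num

section Plane
variable {v e : A N} (hv : ‖v‖ = 1) (he : ‖e‖ = 1) (hve : ⟪v, e⟫ = 0)
include hv he hve

theorem alg2_norm_comb (x y : ℝ) : ‖x • v + y • e‖ ^ 2 = x ^ 2 + y ^ 2 := by
  rw [norm_add_sq_real, norm_smul, norm_smul, hv, he, inner_smul_left, inner_smul_right, hve]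
  simp
omit hv he hve in
theorem alg2_ctr_eq (a : A N) : ctr ((√2)⁻¹ • biv v e) a =
    ((√2)⁻¹ * ⟪e, a⟫) • v + (-((√2)⁻¹ * ⟪v, a⟫)) • e := by
  rw [alg2_smul_ctr, ctr_biv, smul_sub, smul_smul, smul_smul, neg_smul, sub_eq_add_neg]
theorem alg2_norm_ctr (a : A N) :
    2 * ‖ctr ((√2)⁻¹ • biv v e) a‖ ^ 2 = ⟪v, a⟫ ^ 2 + ⟪e, a⟫ ^ 2 := by
  rw [alg2_ctr_eq, alg2_norm_comb hv he hve]
  linear_combination (2 * ⟪e, a⟫ ^ 2 + 2 * ⟪v, a⟫ ^ 2) * alg2_c_sq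
theorem alg2_norm_sub (a : A N) (x y : ℝ) : ‖a - (x • v + y • e)‖ ^ 2 =
    perp2 ((√2)⁻¹ • biv v e) a + (x - ⟪v, a⟫) ^ 2 + (y - ⟪e, a⟫) ^ 2 := by
  rw [norm_sub_sq_real, alg2_norm_comb hv he hve, perp2, alg2_norm_ctr hv he hve, inner_add_right,
    inner_smul_right, inner_smul_right, real_inner_comm a v, real_inner_comm a e]
  ring
theorem alg2_ctr_ctr (a : A N) : ctr ((√2)⁻¹ • biv v e) (ctr ((√2)⁻¹ • biv v e) a) =
    (-(1 / 2) : ℝ) • (⟪v, a⟫ • v + ⟪e, a⟫ • e) := by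
  have h1 : ⟪v, v⟫ = 1 := by rw [real_inner_self_eq_norm_sq, hv]; norm_num
  have h2 : ⟪e, e⟫ = 1 := by rw [real_inner_self_eq_norm_sq, he]; norm_num
  have h3 : ⟪e, v⟫ = 0 := by rw [real_inner_comm, hve]
  rw [alg2_ctr_eq, alg2_ctr_eq a, inner_add_right, inner_add_right, inner_smul_right,
    inner_smul_right, inner_smul_right, inner_smul_right, h1, h2, h3, hve, smul_add, smul_smul,
    smul_smul]
  congr 2
  · linear_combination (-⟪v, a⟫) * alg2_c_sq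
  · linear_combination (-⟪e, a⟫) * alg2_c_sq
omit hv he hve in
theorem alg2_ctr_Y_ctr {Y : E2 N} (hY : Anti Y) (b : A N) :
    ctr ((√2)⁻¹ • biv v e) (ctr Y (ctr ((√2)⁻¹ • biv v e) b)) =
      (-(⟪(√2)⁻¹ • biv v e, Y⟫ / 2)) • ctr ((√2)⁻¹ • biv v e) b := by
  have h1 : ⟪v, ctr Y v⟫ = 0 := by
    have := hY.inner_ctr v v; rw [real_inner_comm] at this; linarith
  have h2 : ⟪e, ctr Y e⟫ = 0 := by
    have := hY.inner_ctr e e; rw [real_inner_comm] at this; linarith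
  have h3 : ⟪v, ctr Y e⟫ = -⟪e, ctr Y v⟫ := by
    have := hY.inner_ctr e v; rw [real_inner_comm] at this; exact this
  rw [inner_smul_left, biv, inner_sub_left, inner_tens_left, inner_tens_left, ← biv,
    alg2_ctr_eq (ctr Y _), alg2_ctr_eq b, alg2_ctr_add, alg2_ctr_smul, alg2_ctr_smul,
    inner_add_right, inner_add_right, inner_smul_right, inner_smul_right, inner_smul_right,
    inner_smul_right, h1, h2, h3, smul_add, smul_smul, smul_smul]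
  congr 2 <;> simp only [conj_trivial] <;> ring
end Plane

namespace Pre
variable {X : Pre N}

theorem alg2_decomp {z : A N × A N} (hz : z ∈ X.SM) : ∃ (e : A N) (s r : ℝ),
    ‖e‖ = 1 ∧ ⟪z.2, e⟫ = 0 ∧ 0 < r ∧ X.J z.1 z.2 = s • z.2 + r • e := by
  obtain ⟨h1, h2, h3⟩ := hz
  set v := z.2
  set s := ⟪v, X.J z.1 v⟫
  have hu : X.J z.1 v - s • v ≠ 0 := by
    intro h
    have h4 : X.J z.1 v = s • v := sub_eq_zero.1 h
    have h5 := X.JJ z.1 h1 v
    rw [h4, map_smul, h4, h2, smul_smul] at h5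
    have h6 : (s * s + 1) • v = 0 := by rw [add_smul, h5, one_smul, neg_add_cancel]
    rcases smul_eq_zero.1 h6 with h | h
    · nlinarith [mul_self_nonneg s]
    · rw [h, norm_zero] at h3; exact zero_ne_one h3
  have hr := norm_pos_iff.2 hu
  refine ⟨‖X.J z.1 v - s • v‖⁻¹ • (X.J z.1 v - s • v), s, ‖X.J z.1 v - s • v‖, ?_, ?_, hr, ?_⟩
  · rw [norm_smul, norm_inv, norm_norm, inv_mul_cancel₀ hr.ne']
  · rw [inner_smul_right, inner_sub_right, inner_smul_right, real_inner_self_eq_norm_sq, h3]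
    simp [s]
  · rw [smul_smul, mul_inv_cancel₀ hr.ne', one_smul, add_sub_cancel]
theorem alg2_Lb {z : A N × A N} {e : A N} {s r : ℝ} (h : X.J z.1 z.2 = s • z.2 + r • e) :
    X.Lb z = r • biv z.2 e := by
  rw [Lb, h]
  ext p
  simp [biv, tens_apply]
  ring
theorem alg2_norm_Lb {z : A N × A N} (hz : z ∈ X.SM) {e : A N} {s r : ℝ} (he : ‖e‖ = 1)
    (hve : ⟪z.2, e⟫ = 0) (hr : 0 < r) (h : X.J z.1 z.2 = s • z.2 + r • e) :
    ‖X.Lb z‖ = r * √2 := by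
  have : ‖biv z.2 e‖ ^ 2 = 2 := by rw [norm_biv_sq, hz.2.2, he, hve]; norm_num
  rw [alg2_Lb h, norm_smul, Real.norm_of_nonneg hr.le, ← this, Real.sqrt_sq (norm_nonneg _)]
theorem alg2_Lb_pos {z : A N × A N} (hz : z ∈ X.SM) : 0 < ‖X.Lb z‖ := by
  obtain ⟨e, s, r, he, hve, hr, h⟩ := alg2_decomp hz
  rw [alg2_norm_Lb hz he hve hr h]; positivity
theorem alg2_anti_Lh (z : A N × A N) : Anti (X.Lh z) := by
  intro k l
  have := anti_biv z.2 (X.J z.1 z.2) k l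
  simp only [Lh, Lb, PiLp.smul_apply, smul_eq_mul]
  rw [this]; ring

/-- `v` and `J v` are independent; `norm_biv_sq` and compactness of `SM` -/
theorem Lb_bounds (X : Pre N) : ∃ c C, 0 < c ∧ 0 < C ∧ ∀ z ∈ X.SM, c ≤ ‖X.Lb z‖ ∧ ‖X.Lb z‖ ≤ C := by
  have hc : Continuous fun z => ‖X.Lb z‖ := X.Lb_sm.continuous.norm
  rcases X.SM.eq_empty_or_nonempty with h | h
  · exact ⟨1, 1, one_pos, one_pos, by simp [h]⟩
  obtain ⟨z₁, h₁, hm⟩ := X.SM_compact.exists_isMinOn h hc.continuousOn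
  obtain ⟨z₂, h₂, hM⟩ := X.SM_compact.exists_isMaxOn h hc.continuousOn
  exact ⟨_, _, alg2_Lb_pos h₁, alg2_Lb_pos h₂, fun z hz => ⟨hm hz, hM hz⟩⟩

theorem norm_Lh {z : A N × A N} (hz : z ∈ X.SM) : ‖X.Lh z‖ = 1 := by
  rw [Lh, norm_smul, norm_inv, norm_norm, inv_mul_cancel₀ (alg2_Lb_pos hz).ne']

theorem Lb_eq_smul_Lh {z : A N × A N} (hz : z ∈ X.SM) : X.Lb z = ‖X.Lb z‖ • X.Lh z := by
  rw [Lh, smul_smul, mul_inv_cancel₀ (alg2_Lb_pos hz).ne', one_smul]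

theorem measurable_Lh (X : Pre N) : Measurable X.Lh := by
  have h := X.Lb_sm.continuous.measurable
  exact h.norm.inv.smul h

theorem gap_nonneg (z z' : A N × A N) : 0 ≤ X.gap z z' := sq_nonneg _

theorem gap_le {z z' : A N × A N} (hz : z ∈ X.SM) (hz' : z' ∈ X.SM) : X.gap z z' ≤ 4 := by
  have := norm_sub_le (X.Lh z) (X.Lh z')
  rw [norm_Lh hz, norm_Lh hz'] at this
  rw [gap]; nlinarith [norm_nonneg (X.Lh z - X.Lh z')]

theorem measurable_gap (X : Pre N) :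
    Measurable fun q : (A N × A N) × A N × A N => X.gap q.1 q.2 := by
  exact (((X.measurable_Lh.comp measurable_fst).sub
    (X.measurable_Lh.comp measurable_snd)).norm.pow_const 2)

theorem measurable_perp2 (X : Pre N) :
    Measurable fun q : (A N × A N) × A N × A N => perp2 (X.Lh q.2) (q.1.1 - q.2.1) := by
  obtain ⟨T, hT⟩ := exists_ctrL (N := N)
  have h1 : Continuous fun p : E2 N × A N => perp2 p.1 p.2 := by
    simp only [perp2, ← hT]; fun_prop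
  have h2 : Measurable fun q : (A N × A N) × A N × A N => (X.Lh q.2, q.1.1 - q.2.1) :=
    (X.measurable_Lh.comp measurable_snd).prodMk (measurable_fst.fst.sub measurable_snd.fst)
  have h3 := h1.measurable.comp h2
  simpa only [Function.comp_def] using h3

/-- `Lh z = biv e₁ e₂ / √2` for an orthonormal basis `e₁, e₂` of the span of `v`, `J v` -/
theorem exists_orthonormal_Lh {z : A N × A N} (hz : z ∈ X.SM) : ∃ (e : A N) (s r : ℝ),
    ‖e‖ = 1 ∧ ⟪z.2, e⟫ = 0 ∧ 0 < r ∧ X.J z.1 z.2 = s • z.2 + r • e ∧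
      X.Lh z = (√2)⁻¹ • biv z.2 e := by
  obtain ⟨e, s, r, he, hve, hr, h⟩ := alg2_decomp hz
  refine ⟨e, s, r, he, hve, hr, h, ?_⟩
  rw [Lh, alg2_norm_Lb hz he hve hr h, alg2_Lb h, smul_smul]
  congr 1
  field_simp

theorem perp2_nonneg {z : A N × A N} (hz : z ∈ X.SM) (a : A N) : 0 ≤ perp2 (X.Lh z) a := by
  obtain ⟨e, s, r, he, hve, -, -, h⟩ := exists_orthonormal_Lh hz
  have := alg2_norm_sub hz.2.2 he hve a ⟪z.2, a⟫ ⟪e, a⟫
  rw [h]; nlinarith [sq_nonneg ‖a - (⟪z.2, a⟫ • z.2 + ⟪e, a⟫ • e)‖]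

theorem perp2_le_norm_sq (L : E2 N) (a : A N) : perp2 L a ≤ ‖a‖ ^ 2 := by
  rw [perp2]; nlinarith [sq_nonneg ‖ctr L a‖]

theorem perp2_smul (L : E2 N) (s : ℝ) (a : A N) : perp2 L (s • a) = s ^ 2 * perp2 L a := by
  rw [perp2, perp2, alg2_ctr_smul, norm_smul, norm_smul, mul_pow, mul_pow, Real.norm_eq_abs, sq_abs]
  ring

/-- `perp2` is the squared distance to the complex line -/
theorem perp2_le {z : A N × A N} (hz : z ∈ X.SM) (a : A N) (s r : ℝ) :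
    perp2 (X.Lh z) a ≤ ‖a - s • z.2 - r • X.J z.1 z.2‖ ^ 2 := by
  obtain ⟨e, s', r', he, hve, -, hJ, h⟩ := exists_orthonormal_Lh hz
  have := alg2_norm_sub hz.2.2 he hve a (s + r * s') (r * r')
  have h2 : a - s • z.2 - r • X.J z.1 z.2 = a - ((s + r * s') • z.2 + (r * r') • e) := by
    rw [hJ]; module
  rw [h, h2, this]
  nlinarith [sq_nonneg (s + r * s' - ⟪z.2, a⟫), sq_nonneg (r * r' - ⟪e, a⟫)]

theorem norm_ctr_le_ctr_ctr {z : A N × A N} (hz : z ∈ X.SM) (a : A N) :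
    ‖ctr (X.Lh z) a‖ ≤ 2 * ‖ctr (X.Lh z) (ctr (X.Lh z) a)‖ := by
  obtain ⟨e, s, r, he, hve, -, -, h⟩ := exists_orthonormal_Lh hz
  rw [h, alg2_ctr_ctr hz.2.2 he hve, norm_smul]
  have h1 := alg2_norm_ctr hz.2.2 he hve a
  have h2 := alg2_norm_comb hz.2.2 he hve ⟪z.2, a⟫ ⟪e, a⟫
  have h3 : ‖(-(1 / 2) : ℝ)‖ = 1 / 2 := by norm_num
  rw [h3]
  refine abs_le_of_sq_le_sq' ?_ (by positivity) |>.2
  nlinarith [sq_nonneg ‖ctr ((√2)⁻¹ • biv z.2 e) a‖]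

/-- With `A = ctr L`, `A' = ctr L'`, `D = A - A'` (skew matrices of rank two): split
`a = -2 A' A' a + a⊥` with `‖a⊥‖² = perp2 L' a`; `A D A' = A D A - A D D` and
`A D A = -(⟪L, L - L'⟫ / 2) • A = -(gap / 4) • A` (for skew `Y` and `A = ctr (biv e₁ e₂)/√2`
one has `A Y A = -(⟪L, Y⟫ / 2) • A`). -/
theorem ctr_ctr_sub_le {z z' : A N × A N} (hz : z ∈ X.SM) (hz' : z' ∈ X.SM) (a : A N) :
    ‖ctr (X.Lh z) (ctr (X.Lh z) a - ctr (X.Lh z') a)‖ ≤
      4 * (X.gap z z' * ‖a‖ + √(X.gap z z') * √(perp2 (X.Lh z') a)) := by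
  obtain ⟨e, -, -, -, -, -, -, h⟩ := exists_orthonormal_Lh hz
  obtain ⟨e', -, -, he', hve', -, -, h'⟩ := exists_orthonormal_Lh hz'
  have n1 := norm_Lh hz
  have n2 := norm_Lh hz'
  set L := X.Lh z
  set L' := X.Lh z'
  set g := ‖L - L'‖ with hg
  have hg0 : 0 ≤ g := norm_nonneg _
  have hgap : X.gap z z' = g ^ 2 := rfl
  set p := a - (⟪z'.2, a⟫ • z'.2 + ⟪e', a⟫ • e') with hp
  have hp2 : √(perp2 L' a) = ‖p‖ := by
    have := alg2_norm_sub hz'.2.2 he' hve' a ⟪z'.2, a⟫ ⟪e', a⟫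
    rw [← h'] at this
    rw [← Real.sqrt_sq (norm_nonneg p), this]; congr 1; ring
  have ha : a = p + (-2 : ℝ) • ctr L' (ctr L' a) := by
    rw [h', alg2_ctr_ctr hz'.2.2 he' hve', hp]; module
  have hA : ∀ x, ‖ctr L x‖ ≤ ‖x‖ := fun x => by simpa [n1] using norm_ctr_le L x
  have hb : ‖ctr L' a‖ ≤ ‖a‖ := by simpa [n2] using norm_ctr_le L' a
  have hY : Anti (L - L') := fun k l => by
    simp only [PiLp.sub_apply]
    rw [alg2_anti_Lh z k l, alg2_anti_Lh z' k l]; ring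
  have hin : ⟪L, L - L'⟫ = g ^ 2 / 2 := by
    rw [hg, norm_sub_sq_real, inner_sub_right, real_inner_self_eq_norm_sq, n1, n2]; ring
  set b := ctr L' a
  have k1 : ctr L (ctr (L - L') (ctr L b)) = (-(g ^ 2 / 2 / 2)) • ctr L b := by
    rw [← hin, h]; exact alg2_ctr_Y_ctr (h ▸ hY) b
  have k2 : ctr L (ctr L a - b) = ctr L (ctr (L - L') p) + (-2 : ℝ) • ((-(g ^ 2 / 2 / 2)) • ctr L b -
      ctr L (ctr (L - L') (ctr (L - L') b))) := by
    rw [← k1, ← alg2_ctr_sub, ← alg2_ctr_sub, alg2_sub_ctr L L' b, sub_sub_cancel, ← alg2_ctr_smul,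
      ← alg2_ctr_smul, ← alg2_ctr_add, ← alg2_ctr_add, ← ha, alg2_sub_ctr]
  have b1 : ‖ctr L (ctr (L - L') p)‖ ≤ g * ‖p‖ := (hA _).trans (norm_ctr_le _ _)
  have b2 : ‖ctr L (ctr (L - L') (ctr (L - L') b))‖ ≤ g * (g * ‖a‖) :=
    (hA _).trans ((norm_ctr_le _ _).trans (mul_le_mul_of_nonneg_left
      ((norm_ctr_le _ _).trans (mul_le_mul_of_nonneg_left hb hg0)) hg0))
  have b3 : ‖(-(g ^ 2 / 2 / 2)) • ctr L b‖ ≤ g ^ 2 / 2 / 2 * ‖a‖ := by
    rw [norm_smul, norm_neg, Real.norm_of_nonneg (by positivity)]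
    exact mul_le_mul_of_nonneg_left ((hA _).trans hb) (by positivity)
  rw [k2, hgap, Real.sqrt_sq hg0, hp2]
  refine (norm_add_le _ _).trans ?_
  rw [norm_smul, show ‖(-2 : ℝ)‖ = 2 by norm_num]
  have b4 := norm_sub_le ((-(g ^ 2 / 2 / 2)) • ctr L b) (ctr L (ctr (L - L') (ctr (L - L') b)))
  have : 0 ≤ g ^ 2 * ‖a‖ := by positivity
  have : 0 ≤ g * ‖p‖ := by positivity
  nlinarith

end Pre

end Crest.Agent.R240
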