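import Crest.Agent.R240.Alg2
import Crest.Agent.R240.Alg

/-! Row 240: the algebraic positivity lemma. -/

set_option autoImplicit false

open scoped ContDiff RealInnerProductSpace Topology
open MeasureTheory Set Filter

noncomputable section

namespace Crest.Agent.R240

variable {N : ℕ}

theorem alg3_coord {R τ ρ ρ' b b' p p' a a' : ℝ} (hb : |b| ≤ R) (hb' : |b'| ≤ R)
    (hp : |p - ρ| ≤ 4 * τ) (hp' : |p' - ρ'| ≤ 4 * τ) (ha : |a - b| ≤ 4 * τ)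
    (ha' : |a' - b'| ≤ 4 * τ) (h1 : |p| ≤ 2 * R) (h1' : |p'| ≤ 2 * R) :
    (ρ' * b - ρ * b') ^ 2 / 2 - 576 * (R ^ 2 * τ ^ 2) ≤ (p' * a - p * a') ^ 2 := by
  have hR : 0 ≤ R := (abs_nonneg _).trans hb
  have hτ : 0 ≤ 4 * τ := (abs_nonneg _).trans hp
  have e1 : |p' * (a - b)| ≤ 2 * R * (4 * τ) := by
    rw [abs_mul]
    exact mul_le_mul h1' ha (abs_nonneg _) (by linarith)
  have e2 : |(p' - ρ') * b| ≤ 4 * τ * R := by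
    rw [abs_mul]
    exact mul_le_mul hp' hb (abs_nonneg _) hτ
  have e3 : |p * (a' - b')| ≤ 2 * R * (4 * τ) := by
    rw [abs_mul]
    exact mul_le_mul h1 ha' (abs_nonneg _) (by linarith)
  have e4 : |(p - ρ) * b'| ≤ 4 * τ * R := by
    rw [abs_mul]
    exact mul_le_mul hp hb' (abs_nonneg _) hτ
  rw [abs_le] at e1 e2 e3 e4
  have hE : (p' * a - p * a' - (ρ' * b - ρ * b')) ^ 2 ≤ (24 * (R * τ)) ^ 2 := by
    refine sq_le_sq' ?_ ?_ <;> nlinarith [e1.1, e1.2, e2.1, e2.2, e3.1, e3.2, e4.1, e4.2]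
  nlinarith [sq_nonneg (ρ' * b - ρ * b' + 2 * (p' * a - p * a' - (ρ' * b - ρ * b')))]

theorem alg3_coord' {R τ p p' n n' : ℝ} (hn : |n| ≤ 4 * τ) (hn' : |n'| ≤ 4 * τ)
    (h1 : |p| ≤ 2 * R) (h1' : |p'| ≤ 2 * R) : (p' * n - p * n') ^ 2 ≤ 256 * (R ^ 2 * τ ^ 2) := by
  have hR : 0 ≤ 2 * R := (abs_nonneg _).trans h1
  have e1 : |p' * n| ≤ 2 * R * (4 * τ) := by
    rw [abs_mul]
    exact mul_le_mul h1' hn (abs_nonneg _) hR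
  have e2 : |p * n'| ≤ 2 * R * (4 * τ) := by
    rw [abs_mul]
    exact mul_le_mul h1 hn' (abs_nonneg _) hR
  rw [abs_le] at e1 e2
  have hE : (p' * n - p * n') ^ 2 ≤ (16 * (R * τ)) ^ 2 := by
    refine sq_le_sq' ?_ ?_ <;> nlinarith [e1.1, e1.2, e2.1, e2.2]
  nlinarith

theorem alg3_real {R τ ρ ρ' b₁ b₂ b₃ b₁' b₂' b₃' p s₂ s₃ a₁ a₂ a₃ p' s₂' s₃' a₁' a₂' a₃' : ℝ}
    (hR : 1 ≤ R) (hτ : τ ≤ 1 / 32) (h0 : 1 / 4 ≤ ρ) (h1 : ρ ≤ R) (h0' : 1 / 4 ≤ ρ') (h1' : ρ' ≤ R)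
    (hb : b₁ ^ 2 + b₂ ^ 2 + b₃ ^ 2 = ρ ^ 2) (hb' : b₁' ^ 2 + b₂' ^ 2 + b₃' ^ 2 = ρ' ^ 2)
    (hp : |p - ρ| ≤ 4 * τ) (hs₂ : |s₂| ≤ 4 * τ) (hs₃ : |s₃| ≤ 4 * τ) (ha₁ : |a₁ - b₁| ≤ 4 * τ)
    (ha₂ : |a₂ - b₂| ≤ 4 * τ) (ha₃ : |a₃ - b₃| ≤ 4 * τ)
    (hp' : |p' - ρ'| ≤ 4 * τ) (hs₂' : |s₂'| ≤ 4 * τ) (hs₃' : |s₃'| ≤ 4 * τ)
    (ha₁' : |a₁' - b₁'| ≤ 4 * τ) (ha₂' : |a₂' - b₂'| ≤ 4 * τ) (ha₃' : |a₃' - b₃'| ≤ 4 * τ)
    (hq : p ^ 2 + s₂ ^ 2 + s₃ ^ 2 = a₁ ^ 2 + a₂ ^ 2 + a₃ ^ 2)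
    (hq' : p' ^ 2 + s₂' ^ 2 + s₃' ^ 2 = a₁' ^ 2 + a₂' ^ 2 + a₃' ^ 2) :
    ((ρ' * b₁ - ρ * b₁') ^ 2 + (ρ' * b₂ - ρ * b₂') ^ 2 + (ρ' * b₃ - ρ * b₃') ^ 2) / (32 * R ^ 2)
      - 35840 * R ^ 2 * τ ^ 2 ≤
      (p * p' + s₂ * s₂' + s₃ * s₃' - (a₁ * a₁' + a₂ * a₂' + a₃ * a₃')) / 2 := by
  have bd : ∀ {x y z r : ℝ}, x ^ 2 + y ^ 2 + z ^ 2 = r ^ 2 → 0 ≤ r → r ≤ R →
      |x| ≤ R ∧ |y| ≤ R ∧ |z| ≤ R := by
    intro x y z r h h2 h3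
    refine ⟨le_trans (abs_le_of_sq_le_sq ?_ h2) h3, le_trans (abs_le_of_sq_le_sq ?_ h2) h3,
      le_trans (abs_le_of_sq_le_sq ?_ h2) h3⟩ <;> nlinarith [sq_nonneg x, sq_nonneg y, sq_nonneg z]
  obtain ⟨c₁, c₂, c₃⟩ := bd hb (by linarith) h1
  obtain ⟨c₁', c₂', c₃'⟩ := bd hb' (by linarith) h1'
  have q1 := abs_le.1 hp
  have q2 := abs_le.1 hp'
  have p0 : 1 / 8 ≤ p := by linarith [q1.1]
  have p0' : 1 / 8 ≤ p' := by linarith [q2.1]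
  have p1 : p ≤ 2 * R := by linarith [q1.2]
  have p1' : p' ≤ 2 * R := by linarith [q2.2]
  have p2 : |p| ≤ 2 * R := by rwa [abs_of_nonneg (by linarith)]
  have p2' : |p'| ≤ 2 * R := by rwa [abs_of_nonneg (by linarith)]
  have d₁ := alg3_coord c₁ c₁' hp hp' ha₁ ha₁' p2 p2'
  have d₂ := alg3_coord c₂ c₂' hp hp' ha₂ ha₂' p2 p2'
  have d₃ := alg3_coord c₃ c₃' hp hp' ha₃ ha₃' p2 p2'
  have d₄ := alg3_coord' hs₂ hs₂' p2 p2'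
  have d₅ := alg3_coord' hs₃ hs₃' p2 p2'
  have key : (p * p' + s₂ * s₂' + s₃ * s₃' - (a₁ * a₁' + a₂ * a₂' + a₃ * a₃')) / 2 * (4 * (p * p')) =
      (p' * a₁ - p * a₁') ^ 2 + (p' * a₂ - p * a₂') ^ 2 + (p' * a₃ - p * a₃') ^ 2 -
        (p' * s₂ - p * s₂') ^ 2 - (p' * s₃ - p * s₃') ^ 2 := by
    linear_combination p' ^ 2 * hq + p ^ 2 * hq'
  have m0 : 1 / 64 ≤ p * p' :=
    le_trans (by norm_num) (mul_le_mul p0 p0' (by norm_num) (le_trans (by norm_num) p0))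
  have m1 : p * p' ≤ 4 * R ^ 2 :=
    (mul_le_mul p1 p1' (le_trans (by norm_num) p0') (by positivity)).trans (le_of_eq (by ring))
  refine le_of_mul_le_mul_right ?_ (by linarith : 0 < 4 * (p * p'))
  rw [key]
  set D := (ρ' * b₁ - ρ * b₁') ^ 2 + (ρ' * b₂ - ρ * b₂') ^ 2 + (ρ' * b₃ - ρ * b₃') ^ 2 with hD
  have hD0 : 0 ≤ D := by positivity
  have hR2 : 0 < R ^ 2 := by positivity
  have t1 : D / (32 * R ^ 2) * (4 * (p * p')) ≤ D / 2 := by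
    have : D / (32 * R ^ 2) * (4 * (4 * R ^ 2)) = D / 2 := by
      field_simp
      ring
    rw [← this]
    exact mul_le_mul_of_nonneg_left (by linarith) (by positivity)
  have t2 : 35840 * R ^ 2 * τ ^ 2 * (4 * (1 / 64)) ≤ 35840 * R ^ 2 * τ ^ 2 * (4 * (p * p')) :=
    mul_le_mul_of_nonneg_left (by linarith) (by positivity)
  rw [sub_mul]
  linarith only [t1, t2, d₁, d₂, d₃, d₄, d₅, hD]

theorem alg3_normalize {E : Type} [NormedAddCommGroup E] [NormedSpace ℝ E] {v : E} (w : E)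
    (hv : v ≠ 0) : ‖v‖ * ‖‖v‖⁻¹ • v - ‖w‖⁻¹ • w‖ ≤ 2 * ‖v - w‖ := by
  have h0 : ‖v‖ ≠ 0 := norm_ne_zero_iff.2 hv
  by_cases hw : w = 0
  · subst hw
    rw [smul_zero, sub_zero, sub_zero, norm_smul, norm_inv, norm_norm, inv_mul_cancel₀ h0]
    linarith [norm_nonneg v]
  have h1 : ‖w‖ ≠ 0 := norm_ne_zero_iff.2 hw
  have e : ‖v‖ • (‖v‖⁻¹ • v - ‖w‖⁻¹ • w) = (v - w) + (‖w‖ - ‖v‖) • (‖w‖⁻¹ • w) := by
    rw [smul_sub, sub_smul, smul_inv_smul₀ h0, smul_inv_smul₀ h1]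
    abel
  have e2 : ‖‖w‖⁻¹ • w‖ = 1 := by rw [norm_smul, norm_inv, norm_norm, inv_mul_cancel₀ h1]
  rw [← norm_norm v, ← norm_smul, norm_norm, e]
  refine (norm_add_le _ _).trans ?_
  rw [norm_smul, e2, mul_one, Real.norm_eq_abs, abs_sub_comm]
  linarith [abs_norm_sub_norm_le v w]

theorem alg3_normalize_smul {E : Type} [NormedAddCommGroup E] [NormedSpace ℝ E] (v : E) {r : ℝ}
    (hr : 0 < r) : ‖r • v‖⁻¹ • r • v = ‖v‖⁻¹ • v := by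
  rw [norm_smul, Real.norm_eq_abs, abs_of_pos hr, smul_smul, mul_inv, mul_comm r⁻¹,
    inv_mul_cancel_right₀ hr.ne']

theorem alg3_norm_sq (U : A 4) : ‖U‖ ^ 2 = U 0 ^ 2 + U 1 ^ 2 + U 2 ^ 2 + U 3 ^ 2 := by
  rw [EuclideanSpace.real_norm_sq_eq, Fin.sum_univ_four]

theorem alg3_norm_diff (U U' : A 4) (ρ ρ' : ℝ) (h : ρ = U 0 ^ 2 + U 1 ^ 2 + U 2 ^ 2 + U 3 ^ 2)
    (h' : ρ' = U' 0 ^ 2 + U' 1 ^ 2 + U' 2 ^ 2 + U' 3 ^ 2) :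
    ‖ρ' • biv U (Jst U) - ρ • biv U' (Jst U')‖ ^ 2 =
      (ρ' * (U 2 ^ 2 + U 3 ^ 2 - U 0 ^ 2 - U 1 ^ 2) -
          ρ * (U' 2 ^ 2 + U' 3 ^ 2 - U' 0 ^ 2 - U' 1 ^ 2)) ^ 2 +
        (ρ' * (2 * (U 0 * U 3 - U 1 * U 2)) - ρ * (2 * (U' 0 * U' 3 - U' 1 * U' 2))) ^ 2 +
        (ρ' * (-2 * (U 0 * U 2 + U 1 * U 3)) - ρ * (-2 * (U' 0 * U' 2 + U' 1 * U' 3))) ^ 2 := by
  obtain ⟨j0, j1, j2, j3⟩ := Jst_apply U
  obtain ⟨k0, k1, k2, k3⟩ := Jst_apply U'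
  rw [EuclideanSpace.real_norm_sq_eq, Fintype.sum_prod_type]
  simp only [Fin.sum_univ_four, biv, PiLp.sub_apply, PiLp.smul_apply, smul_eq_mul, tens_apply,
    j0, j1, j2, j3, k0, k1, k2, k3]
  subst h h'
  ring

theorem alg3_norm_biv (U : A 4) :
    ‖biv U (Jst U)‖ ^ 2 = 2 * (U 0 ^ 2 + U 1 ^ 2 + U 2 ^ 2 + U 3 ^ 2) ^ 2 := by
  obtain ⟨j0, j1, j2, j3⟩ := Jst_apply U
  rw [EuclideanSpace.real_norm_sq_eq, Fintype.sum_prod_type]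
  simp only [Fin.sum_univ_four, biv, PiLp.sub_apply, tens_apply, j0, j1, j2, j3]
  ring

/-- frame coordinates of a form close to the dual of a complex line -/
theorem alg3_near {X : Pre N} {x : A N} (hx : x ∈ X.S) (F : X.Frame x) (u : A N) {σ : E2 N}
    {τ : ℝ} (h : ‖σ - X.volL x (X.Lb (x, u))‖ ≤ τ) (i j : Fin 4) :
    |ev σ (F.B (eb i)) (F.B (eb j)) - det4 (eb i) (eb j) (F.L u) (Jst (F.L u))| ≤ 2 * τ := by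
  have e : det4 (eb i) (eb j) (F.L u) (Jst (F.L u)) =
      ev (X.volL x (X.Lb (x, u))) (F.B (eb i)) (F.B (eb j)) := by
    change _ = ev (X.volL x (biv u (X.J x u))) _ _
    rw [X.ev_volL_biv, F.Vol_eq hx, F.LB, F.LB, F.L_J hx]
  rw [e, ← ev_sub]
  refine (abs_ev_le _ _ _).trans ?_
  have h1 : ‖F.B (eb i)‖ ≤ 1 := (F.norm_B_le _).trans (norm_eb i).le
  have h2 : ‖F.B (eb j)‖ ≤ 1 := (F.norm_B_le _).trans (norm_eb j).le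
  have h3 : 0 ≤ 2 * ‖σ - X.volL x (X.Lb (x, u))‖ := by positivity
  refine ((mul_le_of_le_one_right (by positivity) h2).trans (mul_le_of_le_one_right h3 h1)).trans ?_
  linarith

theorem alg3_six {X : Pre N} {x : A N} (hx : x ∈ X.S) (F : X.Frame x) (u : A N) {σ : E2 N}
    {τ : ℝ} (h : ‖σ - X.volL x (X.Lb (x, u))‖ ≤ τ) :
    |ev σ (F.B (eb 0)) (F.B (eb 1)) + ev σ (F.B (eb 2)) (F.B (eb 3)) -
      (F.L u 0 ^ 2 + F.L u 1 ^ 2 + F.L u 2 ^ 2 + F.L u 3 ^ 2)| ≤ 4 * τ ∧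
    |ev σ (F.B (eb 0)) (F.B (eb 2)) - ev σ (F.B (eb 1)) (F.B (eb 3))| ≤ 4 * τ ∧
    |ev σ (F.B (eb 0)) (F.B (eb 3)) + ev σ (F.B (eb 1)) (F.B (eb 2))| ≤ 4 * τ ∧
    |ev σ (F.B (eb 0)) (F.B (eb 1)) - ev σ (F.B (eb 2)) (F.B (eb 3)) -
      (F.L u 2 ^ 2 + F.L u 3 ^ 2 - F.L u 0 ^ 2 - F.L u 1 ^ 2)| ≤ 4 * τ ∧
    |ev σ (F.B (eb 0)) (F.B (eb 2)) + ev σ (F.B (eb 1)) (F.B (eb 3)) -
      2 * (F.L u 0 * F.L u 3 - F.L u 1 * F.L u 2)| ≤ 4 * τ ∧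
    |ev σ (F.B (eb 0)) (F.B (eb 3)) - ev σ (F.B (eb 1)) (F.B (eb 2)) -
      -2 * (F.L u 0 * F.L u 2 + F.L u 1 * F.L u 3)| ≤ 4 * τ := by
  obtain ⟨j0, j1, j2, j3⟩ := Jst_apply (F.L u)
  have h01 := alg3_near hx F u h 0 1
  have h02 := alg3_near hx F u h 0 2
  have h03 := alg3_near hx F u h 0 3
  have h12 := alg3_near hx F u h 1 2
  have h13 := alg3_near hx F u h 1 3
  have h23 := alg3_near hx F u h 2 3
  simp only [det4, eb_apply, j0, j1, j2, j3, abs_le] at h01 h02 h03 h12 h13 h23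
  simp only [Fin.isValue, Fin.reduceEq, ↓reduceIte] at h01 h02 h03 h12 h13 h23
  simp only [abs_le]
  refine ⟨⟨?_, ?_⟩, ⟨?_, ?_⟩, ⟨?_, ?_⟩, ⟨?_, ?_⟩, ⟨?_, ?_⟩, ⟨?_, ?_⟩⟩ <;>
    linarith [h01.1, h01.2, h02.1, h02.2, h03.1, h03.2, h12.1, h12.2, h13.1, h13.2, h23.1, h23.2]

theorem alg3_gap {X : Pre N} {x : A N} (hx : x ∈ X.S) (F : X.Frame x) {C : ℝ} (hC : 1 ≤ C)
    (hL : ∀ v, ‖F.L v‖ ≤ C * ‖v‖) {u u' : A N} (hu : X.π x u = u) (hu' : X.π x u' = u') {ρ ρ' : ℝ}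
    (h : ρ = F.L u 0 ^ 2 + F.L u 1 ^ 2 + F.L u 2 ^ 2 + F.L u 3 ^ 2)
    (h0 : 1 / 4 ≤ ρ) (h0' : 1 / 4 ≤ ρ') :
    X.gap (x, u) (x, u') ≤
      1024 * C ^ 4 * ‖ρ' • biv (F.L u) (Jst (F.L u)) - ρ • biv (F.L u') (Jst (F.L u'))‖ ^ 2 := by
  have hB : ‖F.B‖ ≤ 1 := ContinuousLinearMap.opNorm_le_bound _ zero_le_one fun a => by
    rw [one_mul]
    exact F.norm_B_le a
  have hLn : ‖F.L‖ ≤ C := ContinuousLinearMap.opNorm_le_bound _ (by linarith) hL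
  have hLb : ∀ v, X.π x v = v →
      X.Lb (x, v) = ContinuousLinearMap.adjoint (pb F.B) (biv (F.L v) (Jst (F.L v))) := by
    intro v hv
    rw [adjoint_pb_biv, ← F.JB, F.BL, hv]
    rfl
  have hlow : ρ ≤ C ^ 2 * ‖X.Lb (x, u)‖ := by
    have e : biv (F.L u) (Jst (F.L u)) = ContinuousLinearMap.adjoint (pb F.L) (X.Lb (x, u)) := by
      change _ = ContinuousLinearMap.adjoint (pb F.L) (biv u (X.J x u))
      rw [adjoint_pb_biv, F.L_J hx]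
    have h1 : ρ ≤ ‖biv (F.L u) (Jst (F.L u))‖ := by
      refine le_trans (le_abs_self _) (abs_le_of_sq_le_sq ?_ (norm_nonneg _))
      rw [alg3_norm_biv, ← h]
      nlinarith [sq_nonneg ρ]
    refine h1.trans ?_
    rw [e]
    refine (ContinuousLinearMap.le_opNorm _ _).trans
      (mul_le_mul_of_nonneg_right ?_ (norm_nonneg _))
    rw [LinearIsometryEquiv.norm_map]
    exact (norm_pb_le _).trans (pow_le_pow_left₀ (norm_nonneg _) hLn 2)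
  have hup : ‖ρ' • X.Lb (x, u) - ρ • X.Lb (x, u')‖ ≤
      ‖ρ' • biv (F.L u) (Jst (F.L u)) - ρ • biv (F.L u') (Jst (F.L u'))‖ := by
    rw [hLb u hu, hLb u' hu', ← map_smul, ← map_smul, ← map_sub]
    refine (ContinuousLinearMap.le_opNorm _ _).trans (mul_le_of_le_one_left (norm_nonneg _) ?_)
    rw [LinearIsometryEquiv.norm_map]
    exact (norm_pb_le _).trans (pow_le_one₀ (norm_nonneg _) hB)
  have hn : 1 ≤ 16 * C ^ 2 * ‖ρ' • X.Lb (x, u)‖ := by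
    rw [norm_smul, Real.norm_eq_abs, abs_of_pos (by linarith : 0 < ρ')]
    nlinarith
  have hv : ρ' • X.Lb (x, u) ≠ 0 := by
    intro h0
    rw [h0, norm_zero, mul_zero] at hn
    linarith
  have hN := alg3_normalize (ρ • X.Lb (x, u')) hv
  rw [alg3_normalize_smul _ (by linarith : 0 < ρ'), alg3_normalize_smul _ (by linarith : 0 < ρ)]
    at hN
  have hfin : ‖X.Lh (x, u) - X.Lh (x, u')‖ ≤
      32 * C ^ 2 * ‖ρ' • biv (F.L u) (Jst (F.L u)) - ρ • biv (F.L u') (Jst (F.L u'))‖ := by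
    change ‖ρ' • X.Lb (x, u)‖ * ‖X.Lh (x, u) - X.Lh (x, u')‖ ≤ _ at hN
    have a1 := mul_le_mul_of_nonneg_right hn (norm_nonneg (X.Lh (x, u) - X.Lh (x, u')))
    have a2 := mul_le_mul_of_nonneg_left (hN.trans (mul_le_mul_of_nonneg_left hup zero_le_two))
      (by positivity : 0 ≤ 16 * C ^ 2)
    nlinarith
  refine (pow_le_pow_left₀ (norm_nonneg _) hfin 2).trans (le_of_eq ?_)
  ring

/-- Positivity. Two forms `σ`, `σ'` with vanishing square which are `τ`-close to the duals of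
complex lines of `T x`. In frame coordinates (see `Alg.lean`) `s₁ ≥ c`, and after dividing by
`s₁, s₁'`, with `n = (s₂, s₃)`, `|a|² = 1 + |n|²`:
`wedge σ σ' = s₁ s₁' (|a - a'|² - |n - n'|²) / 4`. The bivector `biv u (J u) / g(u,u)` is an
affine function of the `a`-coordinates of its dual, and normalisation is Lipschitz away
from zero. -/
theorem Geo.pos_alg (G : Geo N) : ∃ c C τ₀, 0 < c ∧ 0 ≤ C ∧ 0 < τ₀ ∧ ∀ x ∈ G.S,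
    ∀ (u u' : A N) (σ σ' : E2 N) (τ : ℝ), G.π x u = u → G.π x u' = u' →
      1 / 2 ≤ ‖u‖ → ‖u‖ ≤ 2 → 1 / 2 ≤ ‖u'‖ → ‖u'‖ ≤ 2 → 0 ≤ τ → τ ≤ τ₀ →
      ⟪G.st x σ, σ⟫ = 0 → ⟪G.st x σ', σ'⟫ = 0 →
      ‖σ - G.volL x (G.Lb (x, u))‖ ≤ τ → ‖σ' - G.volL x (G.Lb (x, u'))‖ ≤ τ →
      c * G.gap (x, u) (x, u') - C * τ ^ 2 ≤ ⟪G.st x σ, σ'⟫ := by
  obtain ⟨C, hC, hL⟩ := G.toPre.exists_norm_L_le
  refine ⟨1 / (1024 * C ^ 4 * (32 * (4 * C ^ 2) ^ 2)), 35840 * (4 * C ^ 2) ^ 2, 1 / 32,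
    by positivity, by positivity, by norm_num, ?_⟩
  intro x hx u u' σ σ' τ hu hu' l1 l2 l1' l2' _ hτ q q' n n'
  obtain ⟨F⟩ := G.toSub.exists_frame hx
  have hρ : ∀ v, G.π x v = v → 1 / 2 ≤ ‖v‖ → ‖v‖ ≤ 2 →
      1 / 4 ≤ F.L v 0 ^ 2 + F.L v 1 ^ 2 + F.L v 2 ^ 2 + F.L v 3 ^ 2 ∧
        F.L v 0 ^ 2 + F.L v 1 ^ 2 + F.L v 2 ^ 2 + F.L v 3 ^ 2 ≤ 4 * C ^ 2 := by
    intro v hv a1 a2
    have a3 := F.norm_B_le (F.L v)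
    rw [F.BL, hv] at a3
    have a4 : ‖F.L v‖ ≤ C * 2 := (hL x hx F v).trans (mul_le_mul_of_nonneg_left a2 (by linarith))
    rw [← alg3_norm_sq]
    constructor <;> nlinarith [norm_nonneg (F.L v)]
  obtain ⟨r0, r1⟩ := hρ u hu l1 l2
  obtain ⟨r0', r1'⟩ := hρ u' hu' l1' l2'
  obtain ⟨m1, m2, m3, m4, m5, m6⟩ := alg3_six hx F u n
  obtain ⟨m1', m2', m3', m4', m5', m6'⟩ := alg3_six hx F u' n'
  rw [G.st_wedge hx F] at q q' ⊢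
  unfold wedge at q q' ⊢
  have key := alg3_real (R := 4 * C ^ 2) (by nlinarith) hτ r0 r1 r0' r1' (by ring) (by ring)
    m1 m2 m3 m4 m5 m6 m1' m2' m3' m4' m5' m6' (by linear_combination 2 * q)
    (by linear_combination 2 * q')
  have hg := alg3_gap hx F hC (hL x hx F) hu hu' rfl r0 r0'
  rw [alg3_norm_diff _ _ _ _ rfl rfl] at hg
  refine le_trans (sub_le_sub_right ?_ _) (key.trans (le_of_eq (by ring)))
  rw [one_div, ← div_eq_inv_mul, ← div_div]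
  refine div_le_div_of_nonneg_right ?_ (by positivity)
  rw [div_le_iff₀' (by positivity)]
  exact hg

end Crest.Agent.R240
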