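import Crest.Agent.R240.Basic

/-! Row 240: pointwise linear algebra (unitary frames, the wedge pairing).

In a frame `F : X.Frame x` write `η i j = ev η (F.B (eb i)) (F.B (eb j))`,
`s₁ = η01 + η23, s₂ = η02 - η13, s₃ = η03 + η12`, `a₁ = η01 - η23, a₂ = η02 + η13, a₃ = η03 - η12`.
Then `wedge η η' = (s · s' - a · a') / 2` on the frame, `Pm` keeps `s₂, s₃` and `Pp` keeps
`s₁, a₁, a₂, a₃`; `⟪G.st x η, η'⟫ = wedge η η'` on the frame because `Vol` of the frame is `1`.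
A tensor in the range of `Pt x` equals `pb F.L (pb F.B ·)` of itself, so that its norm is
comparable with the norm of its six frame coordinates, uniformly (`Frame.norm_B_le`,
`exists_norm_L_le`). -/

set_option autoImplicit false

open scoped ContDiff RealInnerProductSpace
open MeasureTheory Set

noncomputable section

namespace Crest.Agent.R240

variable {N : ℕ}

theorem algf_normalize (G : A 4 →ₗ[ℝ] A 4 →ₗ[ℝ] ℝ) {v : A 4} (hv : 0 < G v v) :
    G ((√(G v v))⁻¹ • v) ((√(G v v))⁻¹ • v) = 1 := by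
  have h := Real.mul_self_sqrt hv.le
  have h0 : √(G v v) ≠ 0 := (Real.sqrt_pos.2 hv).ne'
  simp only [map_smul, LinearMap.smul_apply, smul_eq_mul]
  field_simp
  linarith

theorem algf_frame (G : A 4 →ₗ[ℝ] A 4 →ₗ[ℝ] ℝ) (J : A 4 →L[ℝ] A 4) (hs : ∀ a b, G a b = G b a)
    (hp : ∀ a, a ≠ 0 → 0 < G a a) (hJ : ∀ a, J (J a) = -a) (hG : ∀ a b, G (J a) (J b) = G a b) :
    ∃ B : A 4 ≃L[ℝ] A 4, (∀ a, J (B a) = B (Jst a)) ∧ ∀ a b, G (B a) (B b) = ⟪a, b⟫ := by
  have h0 : (eb 0 : A 4) ≠ 0 := fun h => by simpa [h] using norm_eb (0 : Fin 4)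
  obtain ⟨e, he⟩ : ∃ e, G e e = 1 := ⟨_, algf_normalize G (hp _ h0)⟩
  obtain ⟨f, hf, hef, hJf⟩ : ∃ f, G f f = 1 ∧ G e f = 0 ∧ G (J e) f = 0 := by
    have hk : LinearMap.ker ((G e).prod (G (J e))) ≠ ⊥ :=
      LinearMap.ker_ne_bot_of_finrank_lt (by simp)
    obtain ⟨v, hv, hv0⟩ := Submodule.exists_mem_ne_zero_of_ne_bot hk
    rw [LinearMap.mem_ker, LinearMap.prod_apply, Prod.ext_iff] at hv
    have h1 : G e v = 0 := hv.1
    have h2 : G (J e) v = 0 := hv.2
    exact ⟨_, algf_normalize G (hp _ hv0), by simp [h1], by simp [h2]⟩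
  have hsk : ∀ a, G a (J a) = 0 := fun a => by
    have := hG a (J a)
    rw [hJ, map_neg, hs (J a) a] at this
    linarith
  have h1 : G e (J f) = 0 := by
    have := hG e (J f)
    rw [hJ, map_neg, hJf] at this
    linarith
  let B0 : A 4 →ₗ[ℝ] A 4 :=
    { toFun := fun a => a 0 • e + a 1 • J e + a 2 • f + a 3 • J f
      map_add' := fun a b => by simp only [PiLp.add_apply]; module
      map_smul' := fun c a => by simp only [PiLp.smul_apply, smul_eq_mul, RingHom.id_apply]; module }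
  have hB : ∀ a, B0 a = a 0 • e + a 1 • J e + a 2 • f + a 3 • J f := fun _ => rfl
  have hg : ∀ a b, G (B0 a) (B0 b) = ⟪a, b⟫ := by
    intro a b
    simp only [hB, map_add, map_smul, LinearMap.add_apply, LinearMap.smul_apply, smul_eq_mul, hG,
      he, hf, hef, hJf, h1, hsk, hs (J e) e, hs f e, hs f (J e), hs (J f) e, hs (J f) f,
      PiLp.inner_apply, RCLike.inner_apply, conj_trivial, Fin.sum_univ_four]
    ring
  have hinj : Function.Injective B0 := by
    refine (injective_iff_map_eq_zero B0).2 fun a ha => ?_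
    have := hg a a
    rw [ha, map_zero] at this
    exact inner_self_eq_zero.1 this.symm
  refine ⟨(LinearEquiv.ofInjectiveEndo B0 hinj).toContinuousLinearEquiv, fun a => ?_, hg⟩
  change J (B0 a) = B0 (Jst a)
  obtain ⟨j0, j1, j2, j3⟩ := Jst_apply a
  rw [hB, hB, j0, j1, j2, j3]
  simp only [map_add, map_smul, hJ]
  module

theorem algf_pr_dψ {X : Pre N} (c : X.RawChart) {p : A 4} (hp : p ∈ c.U) (a : A 4) :
    c.pr (fderiv ℝ c.ψ p a) = a := by
  have h1 : HasFDerivAt (fun q => c.pr (c.ψ q)) (c.pr ∘L fderiv ℝ c.ψ p) p :=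
    c.pr.hasFDerivAt.comp p (c.ψ_sm.differentiable (by simp) p).hasFDerivAt
  have h2 : HasFDerivAt (fun q => c.pr (c.ψ q)) (ContinuousLinearMap.id ℝ (A 4)) p := by
    refine (hasFDerivAt_id p).congr_of_eventuallyEq ?_
    filter_upwards [c.U_open.mem_nhds hp] with q hq using c.pr_ψ q hq
  exact congrArg (fun T : A 4 →L[ℝ] A 4 => T a) (h1.unique h2)

/-- The range of `π x` is the range of the injective map `fderiv ψ p`, so has dimension four;
`g x` is a `J`-invariant inner product on it. Take a `g`-unit vector `e₀`, `e₁ = J e₀`, a unit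
vector `e₂` orthogonal to both, `e₃ = J e₂`; `L v = (g x v eᵢ)ᵢ`. -/
theorem Sub.exists_frame (X : Sub N) {x : A N} (hx : x ∈ X.S) : Nonempty (X.Frame x) := by
  obtain ⟨c, hc⟩ := X.chart x hx
  have hp := c.pr_mem x hx hc
  have hψ := c.ψ_pr x hx hc
  set T := fderiv ℝ c.ψ (c.pr x) with hT
  have h1 : ∀ a, X.π x (T a) = T a := by simpa only [hψ] using c.π_dψ _ hp
  have h2 : ∀ v, T (c.pr (X.π x v)) = X.π x v := by simpa only [hψ] using c.dψ_pr _ hp
  have h3 : ∀ a, c.pr (T a) = a := algf_pr_dψ c hp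
  have h4 : ∀ v, T (c.pr (X.J x v)) = X.J x v := fun v => by
    have := h2 (X.J x v)
    rwa [X.πJ x hx] at this
  let G : A 4 →ₗ[ℝ] A 4 →ₗ[ℝ] ℝ := LinearMap.mk₂ ℝ (fun a b => X.g x (T a) (T b))
    (fun a a' b => by simp only [Pre.g, map_add, inner_add_left]; ring)
    (fun s a b => by simp only [Pre.g, map_smul, real_inner_smul_left, smul_eq_mul]; ring)
    (fun a b b' => by simp only [Pre.g, map_add, inner_add_right]; ring)
    (fun s a b => by simp only [Pre.g, map_smul, real_inner_smul_right, smul_eq_mul]; ring)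
  have hG : ∀ a b, G a b = X.g x (T a) (T b) := fun _ _ => rfl
  obtain ⟨B, hB1, hB2⟩ := algf_frame G (c.pr ∘L X.J x ∘L T)
    (fun a b => by
      simp only [hG, Pre.g]
      rw [real_inner_comm (X.π x (T a)), real_inner_comm (X.J x (T a))])
    (fun a ha => by
      have hT0 : T a ≠ 0 := fun h => ha (by rw [← h3 a, h, map_zero])
      simp only [hG, Pre.g, h1]
      exact add_pos_of_pos_of_nonneg (real_inner_self_pos.2 hT0) real_inner_self_nonneg)
    (fun a => by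
      simp only [ContinuousLinearMap.comp_apply, h4, X.JJ x hx, map_neg, h1, h3])
    (fun a b => by
      simp only [hG, ContinuousLinearMap.comp_apply, h4]
      exact Pre.g_J_J hx _ _)
  refine ⟨⟨T ∘L (B : A 4 →L[ℝ] A 4), (B.symm : A 4 →L[ℝ] A 4) ∘L c.pr ∘L X.π x, fun a => h1 _,
    fun a => ?_, fun v => ?_, fun a => ?_, fun a b => hB2 a b⟩⟩
  · simp [h1, h3]
  · simp [h2]
  · have := congrArg T (hB1 a)
    simp only [ContinuousLinearMap.comp_apply, h4] at this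
    exact this

namespace Pre

theorem exists_bound (X : Pre N) : ∃ C, 1 ≤ C ∧ ∀ x ∈ X.S, ‖X.π x‖ ≤ C ∧ ‖X.J x‖ ≤ C := by
  obtain ⟨C, hC⟩ := X.cpt.exists_bound_of_continuousOn X.π_sm.continuous.continuousOn
  obtain ⟨C', hC'⟩ := X.cpt.exists_bound_of_continuousOn X.J_sm.continuous.continuousOn
  exact ⟨max 1 (max C C'), le_max_left _ _, fun x hx =>
    ⟨(hC x hx).trans ((le_max_left _ _).trans (le_max_right _ _)),
      (hC' x hx).trans ((le_max_right _ _).trans (le_max_right _ _))⟩⟩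

variable {X : Pre N} {x : A N}

theorem Frame.norm_B_le (F : X.Frame x) (a : A 4) : ‖F.B a‖ ≤ ‖a‖ := by
  have h := F.gB a a
  rw [g, F.πB, real_inner_self_eq_norm_sq, real_inner_self_eq_norm_sq,
    real_inner_self_eq_norm_sq] at h
  exact le_of_sq_le_sq (by nlinarith [sq_nonneg ‖X.J x (F.B a)‖]) (norm_nonneg _)

theorem exists_norm_L_le (X : Pre N) : ∃ C, 1 ≤ C ∧ ∀ x ∈ X.S, ∀ (F : X.Frame x) v,
    ‖F.L v‖ ≤ C * ‖v‖ := by
  obtain ⟨C, hC, h⟩ := X.exists_bound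
  refine ⟨2 * C, by linarith, fun x hx F v => ?_⟩
  have h1 := F.gB (F.L v) (F.L v)
  rw [F.BL, g, X.ππ x hx, X.Jπ x hx, real_inner_self_eq_norm_sq, real_inner_self_eq_norm_sq,
    real_inner_self_eq_norm_sq] at h1
  have h2 : ‖X.π x v‖ ≤ C * ‖v‖ := (X.π x).le_of_opNorm_le (h x hx).1 v
  have h3 : ‖X.J x v‖ ≤ C * ‖v‖ := (X.J x).le_of_opNorm_le (h x hx).2 v
  have h4 := pow_le_pow_left₀ (norm_nonneg _) h2 2
  have h5 := pow_le_pow_left₀ (norm_nonneg _) h3 2
  exact le_of_sq_le_sq (by nlinarith [sq_nonneg (C * ‖v‖)]) (by positivity)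

theorem Frame.L_π (F : X.Frame x) (v : A N) : F.L (X.π x v) = F.L v := by
  rw [← F.BL, F.LB]

theorem Frame.L_J (hx : x ∈ X.S) (F : X.Frame x) (v : A N) : F.L (X.J x v) = Jst (F.L v) := by
  rw [← X.Jπ x hx, ← F.BL, F.JB, F.LB]

theorem Frame.g_eq (hx : x ∈ X.S) (F : X.Frame x) (u v : A N) :
    X.g x u v = ⟪F.L u, F.L v⟫ := by
  rw [← F.gB, F.BL, F.BL, g_π hx]

theorem Frame.om_eq (hx : x ∈ X.S) (F : X.Frame x) (u v : A N) :
    X.om x u v = ⟪Jst (F.L u), F.L v⟫ := by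
  rw [om_eq_g hx, F.g_eq hx, F.L_J hx]

theorem Frame.Vol_eq (hx : x ∈ X.S) (F : X.Frame x) (a b c d : A N) :
    X.Vol x a b c d = det4 (F.L a) (F.L b) (F.L c) (F.L d) := by
  have key : ∀ u v : A 4, ⟪Jst u, v⟫ = u 0 * v 1 - u 1 * v 0 + u 2 * v 3 - u 3 * v 2 := by
    intro u v
    obtain ⟨j0, j1, j2, j3⟩ := Jst_apply u
    simp only [PiLp.inner_apply, RCLike.inner_apply, conj_trivial, Fin.sum_univ_four, j0, j1, j2,
      j3]
    ring
  simp only [Vol, F.om_eq hx, key, det4]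
  ring

theorem algf_pf_eq_det (c : X.RawChart) {p : A 4} (hp : p ∈ c.U) (F : X.Frame (c.ψ p)) :
    c.pf p = (F.L ∘L fderiv ℝ c.ψ p).det := by
  have h := det4_comp (F.L ∘L fderiv ℝ c.ψ p) (eb 0) (eb 1) (eb 2) (eb 3)
  rw [det4_eb, mul_one] at h
  rw [RawChart.pf, F.Vol_eq (c.ψ_S p hp), ← h]
  rfl

/-- `Vol` is the unique alternating four-form: in a chart it is `pf` times the determinant -/
theorem RawChart.Vol_eq (c : X.RawChart) {p : A 4} (hp : p ∈ c.U) (F : X.Frame (c.ψ p))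
    (u₁ u₂ u₃ u₄ : A N) : X.Vol (c.ψ p) u₁ u₂ u₃ u₄ =
      c.pf p * det4 (c.pr (X.π (c.ψ p) u₁)) (c.pr (X.π (c.ψ p) u₂)) (c.pr (X.π (c.ψ p) u₃))
        (c.pr (X.π (c.ψ p) u₄)) := by
  have h : ∀ u, F.L u = (F.L ∘L fderiv ℝ c.ψ p) (c.pr (X.π (c.ψ p) u)) := fun u => by
    rw [ContinuousLinearMap.comp_apply, c.dψ_pr p hp, F.L_π]
  rw [F.Vol_eq (c.ψ_S p hp), h u₁, h u₂, h u₃, h u₄, det4_comp, algf_pf_eq_det c hp F]

theorem RawChart.pr_dψ (c : X.RawChart) {p : A 4} (hp : p ∈ c.U) (a : A 4) :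
    c.pr (fderiv ℝ c.ψ p a) = a := by
  exact algf_pr_dψ c hp a

theorem RawChart.pf_eq_det (c : X.RawChart) {p : A 4} (hp : p ∈ c.U) (F : X.Frame (c.ψ p)) :
    c.pf p = (F.L ∘L fderiv ℝ c.ψ p).det := by
  exact algf_pf_eq_det c hp F

theorem RawChart.pf_ne_zero (c : X.RawChart) {p : A 4} (hp : p ∈ c.U) (F : X.Frame (c.ψ p)) :
    c.pf p ≠ 0 := by
  intro h0
  rw [algf_pf_eq_det c hp F] at h0
  have h : ∀ a, (c.pr ∘L F.B) ((F.L ∘L fderiv ℝ c.ψ p) a) = a := fun a => by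
    simp only [ContinuousLinearMap.comp_apply]
    rw [F.BL, c.π_dψ p hp, algf_pr_dψ c hp]
  have h1 := det4_eb
  rw [← h (eb 0), ← h (eb 1), ← h (eb 2), ← h (eb 3), det4_comp, det4_comp, h0] at h1
  simp at h1

theorem RawChart.pf_sm (c : X.RawChart) : ContDiff ℝ ∞ c.pf := by
  have h : ∀ k, ContDiff ℝ ∞ fun p => fderiv ℝ c.ψ p (eb k) := fun k =>
    (c.ψ_sm.fderiv_right (m := ∞) (by simp)).clm_apply contDiff_const
  exact X.Vol_sm c.ψ_sm (h 0) (h 1) (h 2) (h 3)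

end Pre

end Crest.Agent.R240
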