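import Crest.Agent.R240.Basic0

/-! Row 240: elementary API, second part (exterior derivative, projections). -/

set_option autoImplicit false

open scoped ContDiff RealInnerProductSpace
open MeasureTheory Set

noncomputable section

namespace Crest.Agent.R240

variable {N M K : ℕ}

/-! exterior derivative -/

theorem inner_grad (f : A N → ℝ) (x a : A N) : ⟪grad f x, a⟫ = fderiv ℝ f x a := by
  conv_rhs => rw [← sum_eb a]
  simp [grad, PiLp.inner_apply]

theorem contDiff_grad {f : A N → ℝ} (h : ContDiff ℝ ∞ f) : ContDiff ℝ ∞ (grad f) := by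
  exact contDiff_toLp fun k => (h.fderiv_right (m := ∞) (by simp)).clm_apply contDiff_const

theorem ev_d1 (ζ : A N → A N) (x a b : A N) :
    ev (d1 ζ x) a b = ⟪fderiv ℝ ζ x a, b⟫ - ⟪fderiv ℝ ζ x b, a⟫ := by
  have key : ∀ a b : A N, ⟪fderiv ℝ ζ x a, b⟫ = ∑ k, ∑ l, fderiv ℝ ζ x (eb k) l * (a k * b l) := by
    intro a b
    conv_lhs => rw [← sum_eb a]
    simp only [map_sum, map_smul, sum_inner, PiLp.inner_apply, RCLike.inner_apply, conj_trivial,
      PiLp.smul_apply, smul_eq_mul]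
    exact Finset.sum_congr rfl fun _ _ => Finset.sum_congr rfl fun _ _ => by ring
  rw [key, key, ev_eq_sum]
  simp only [← Finset.sum_sub_distrib, d1]
  exact Finset.sum_congr rfl fun _ _ => Finset.sum_congr rfl fun _ _ => by ring

theorem contDiff_d1 {ζ : A N → A N} (h : ContDiff ℝ ∞ ζ) : ContDiff ℝ ∞ (d1 ζ) := by
  exact contDiff_toLp fun p => contDiff_euclidean.1
    ((h.fderiv_right (m := ∞) (by simp)).clm_apply contDiff_const) p.2

theorem d1_add {ζ ζ' : A N → A N} (h : ContDiff ℝ ∞ ζ) (h' : ContDiff ℝ ∞ ζ') (x : A N) :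
    d1 (fun y => ζ y + ζ' y) x = d1 ζ x + d1 ζ' x := by
  ext p
  simp [d1, fderiv_fun_add (h.differentiable (by simp) x) (h'.differentiable (by simp) x)]

theorem d1_sum {ι : Type} (s : Finset ι) {ζ : ι → A N → A N} (h : ∀ i, ContDiff ℝ ∞ (ζ i))
    (x : A N) : d1 (fun y => ∑ i ∈ s, ζ i y) x = ∑ i ∈ s, d1 (ζ i) x := by
  ext p
  simp [d1, fderiv_fun_sum fun i _ => (h i).differentiable (by simp) x]

theorem d1_smul {f : A N → ℝ} {ζ : A N → A N} (hf : ContDiff ℝ ∞ f) (h : ContDiff ℝ ∞ ζ)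
    (x : A N) : d1 (fun y => f y • ζ y) x = f x • d1 ζ x + tens (grad f x) (ζ x) := by
  ext p
  simp [d1, fderiv_fun_smul (hf.differentiable (by simp) x) (h.differentiable (by simp) x),
    tens_apply, grad]

theorem fderiv_ev {P : Type} [NormedAddCommGroup P] [NormedSpace ℝ P] {η : P → E2 N}
    {a b : P → A N} {x : P} (hη : DifferentiableAt ℝ η x) (ha : DifferentiableAt ℝ a x)
    (hb : DifferentiableAt ℝ b x) (v : P) :
    fderiv ℝ (fun y => ev (η y) (a y) (b y)) x v = ev (fderiv ℝ η x v) (a x) (b x)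
      + ev (η x) (fderiv ℝ a x v) (b x) + ev (η x) (a x) (fderiv ℝ b x v) := by
  have c1 : ∀ p, HasFDerivAt (fun y => η y p)
      ((EuclideanSpace.proj p : E2 N →L[ℝ] ℝ) ∘L fderiv ℝ η x) x := fun p =>
    (EuclideanSpace.proj p : E2 N →L[ℝ] ℝ).hasFDerivAt.comp x hη.hasFDerivAt
  have c2 : ∀ p, HasFDerivAt (fun y => a y p)
      ((EuclideanSpace.proj p : A N →L[ℝ] ℝ) ∘L fderiv ℝ a x) x := fun p =>
    (EuclideanSpace.proj p : A N →L[ℝ] ℝ).hasFDerivAt.comp x ha.hasFDerivAt
  have c3 : ∀ p, HasFDerivAt (fun y => b y p)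
      ((EuclideanSpace.proj p : A N →L[ℝ] ℝ) ∘L fderiv ℝ b x) x := fun p =>
    (EuclideanSpace.proj p : A N →L[ℝ] ℝ).hasFDerivAt.comp x hb.hasFDerivAt
  have := HasFDerivAt.fun_sum (u := Finset.univ) fun k _ => HasFDerivAt.fun_sum
    (u := Finset.univ) fun l _ => (c1 (k, l)).mul (((c2 k).mul (c3 l)).sub ((c3 k).mul (c2 l)))
  simp only [ev_eq_sum]
  refine (congrArg (fun T : P →L[ℝ] ℝ => T v) this.fderiv).trans ?_
  simp only [sum_apply, add_apply, sub_apply, smul_apply,
    ContinuousLinearMap.comp_apply, PiLp.proj_apply, smul_eq_mul, ← Finset.sum_add_distrib,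
    Pi.mul_apply, Pi.sub_apply]
  exact Finset.sum_congr rfl fun _ _ => Finset.sum_congr rfl fun _ _ => by ring

theorem fderiv_ev_const {P : Type} [NormedAddCommGroup P] [NormedSpace ℝ P] {η : P → E2 N}
    {x : P} (hη : DifferentiableAt ℝ η x) (a b : A N) (v : P) :
    fderiv ℝ (fun y => ev (η y) a b) x v = ev (fderiv ℝ η x v) a b := by
  rw [fderiv_ev hη (differentiableAt_const _) (differentiableAt_const _)]
  simp [ev, biv, tens]

theorem fderiv_fderiv_symm {P F : Type} [NormedAddCommGroup P] [NormedSpace ℝ P]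
    [NormedAddCommGroup F] [NormedSpace ℝ F] {f : P → F} (hf : ContDiff ℝ ∞ f) (x a b : P) :
    fderiv ℝ (fun y => fderiv ℝ f y a) x b = fderiv ℝ (fun y => fderiv ℝ f y b) x a := by
  have h2 : DifferentiableAt ℝ (fderiv ℝ f) x :=
    (hf.fderiv_right (m := ∞) (by simp)).differentiable (by simp) x
  rw [fderiv_clm_apply h2 (differentiableAt_const _), fderiv_clm_apply h2 (differentiableAt_const _)]
  simp only [fderiv_fun_const, Pi.zero_apply, ContinuousLinearMap.comp_zero, zero_add,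
    ContinuousLinearMap.flip_apply]
  exact (hf.contDiffAt.isSymmSndFDerivAt (by
    simp only [minSmoothness_of_isRCLikeNormedField]; exact WithTop.coe_le_coe.2 le_top)) b a

theorem d2_d1 {ζ : A N → A N} (h : ContDiff ℝ ∞ ζ) (x a b c : A N) : d2 (d1 ζ) x a b c = 0 := by
  have hd := (contDiff_d1 h).differentiable (by simp) x
  have h2 : ∀ a, DifferentiableAt ℝ (fun y => fderiv ℝ ζ y a) x := fun a =>
    ((h.fderiv_right (m := ∞) (by simp)).differentiable (by simp) x).clm_apply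
      (differentiableAt_const _)
  have key : ∀ a b c, ev (fderiv ℝ (d1 ζ) x a) b c = ⟪fderiv ℝ (fun y => fderiv ℝ ζ y b) x a, c⟫
      - ⟪fderiv ℝ (fun y => fderiv ℝ ζ y c) x a, b⟫ := by
    intro a b c
    rw [← fderiv_ev_const hd]
    simp only [ev_d1]
    rw [fderiv_fun_sub ((h2 b).inner ℝ (differentiableAt_const _))
      ((h2 c).inner ℝ (differentiableAt_const _)), sub_apply,
      fderiv_inner_apply ℝ (h2 b) (differentiableAt_const _),
      fderiv_inner_apply ℝ (h2 c) (differentiableAt_const _)]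
    simp
  rw [d2, key, key, key, fderiv_fderiv_symm h x b a, fderiv_fderiv_symm h x c a,
    fderiv_fderiv_symm h x c b]
  ring

theorem d2_add {η η' : A N → E2 N} (h : ContDiff ℝ ∞ η) (h' : ContDiff ℝ ∞ η') (x a b c : A N) :
    d2 (fun y => η y + η' y) x a b c = d2 η x a b c + d2 η' x a b c := by
  simp only [d2, fderiv_fun_add (h.differentiable (by simp) x) (h'.differentiable (by simp) x),
    add_apply, ev_add]
  ring

theorem d2_smul (s : ℝ) {η : A N → E2 N} (h : ContDiff ℝ ∞ η) (x a b c : A N) :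
    d2 (fun y => s • η y) x a b c = s * d2 η x a b c := by
  simp only [d2, fderiv_fun_const_smul (h.differentiable (by simp) x), smul_apply, ev_smul]
  ring

/-- the pull-back of a one-form by a smooth map commutes with `d` -/
theorem ev_d1_pullback {ψ : A M → A N} (hψ : ContDiff ℝ ∞ ψ) {ζ : A N → A N}
    (h : ContDiff ℝ ∞ ζ) (p a b : A M) :
    fderiv ℝ (fun q => ⟪ζ (ψ q), fderiv ℝ ψ q b⟫) p a
      - fderiv ℝ (fun q => ⟪ζ (ψ q), fderiv ℝ ψ q a⟫) p b
      = ev (d1 ζ (ψ p)) (fderiv ℝ ψ p a) (fderiv ℝ ψ p b) := by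
  have h2 : ∀ a, DifferentiableAt ℝ (fun y => fderiv ℝ ψ y a) p := fun a =>
    ((hψ.fderiv_right (m := ∞) (by simp)).differentiable (by simp) p).clm_apply
      (differentiableAt_const _)
  have h1 : HasFDerivAt (fun q => ζ (ψ q)) (fderiv ℝ ζ (ψ p) ∘L fderiv ℝ ψ p) p :=
    (h.differentiable (by simp) _).hasFDerivAt.comp p (hψ.differentiable (by simp) _).hasFDerivAt
  rw [fderiv_inner_apply ℝ h1.differentiableAt (h2 b), fderiv_inner_apply ℝ h1.differentiableAt
    (h2 a), h1.fderiv, ev_d1, fderiv_fderiv_symm hψ p a b]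
  simp

/-- the pull-back of a two-form by a smooth map commutes with `d` -/
theorem d2_pullback {ψ : A M → A N} (hψ : ContDiff ℝ ∞ ψ) {η : A N → E2 N}
    (h : ContDiff ℝ ∞ η) (p a b c : A M) :
    d2 (fun q => pb (fderiv ℝ ψ q) (η (ψ q))) p a b c
      = d2 η (ψ p) (fderiv ℝ ψ p a) (fderiv ℝ ψ p b) (fderiv ℝ ψ p c) := by
  have h3 : ContDiff ℝ ∞ (fderiv ℝ ψ) := hψ.fderiv_right (m := ∞) (by simp)
  have h2 : ∀ a, DifferentiableAt ℝ (fun y => fderiv ℝ ψ y a) p := fun a =>
    (h3.differentiable (by simp) p).clm_apply (differentiableAt_const _)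
  have h1 : HasFDerivAt (fun q => η (ψ q)) (fderiv ℝ η (ψ p) ∘L fderiv ℝ ψ p) p :=
    (h.differentiable (by simp) _).hasFDerivAt.comp p (hψ.differentiable (by simp) _).hasFDerivAt
  have hd : DifferentiableAt ℝ (fun q => pb (fderiv ℝ ψ q) (η (ψ q))) p :=
    ((contDiff_pb h3).differentiable (by simp) p).clm_apply h1.differentiableAt
  simp only [d2, ← fderiv_ev_const hd, ev_pb, fderiv_ev h1.differentiableAt (h2 _) (h2 _),
    h1.fderiv, ContinuousLinearMap.comp_apply]
  rw [fderiv_fderiv_symm hψ p a b, fderiv_fderiv_symm hψ p a c, fderiv_fderiv_symm hψ p b c,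
    ev_swap (η (ψ p)) (fderiv ℝ (fun y => fderiv ℝ ψ y c) p a),
    ev_swap (η (ψ p)) (fderiv ℝ (fun y => fderiv ℝ ψ y c) p b)]
  ring

namespace Pre
variable (X : Pre N)

theorem Pt_sm : ContDiff ℝ ∞ X.Pt := by
  exact contDiff_pb X.π_sm

theorem Pm_sm : ContDiff ℝ ∞ X.Pm := by
  exact contDiff_pm X.π_sm X.J_sm

theorem Pp_sm : ContDiff ℝ ∞ X.Pp := by
  exact ((contDiff_pb X.π_sm).add (contDiff_pb X.J_sm)).const_smul _

theorem Lb_sm : ContDiff ℝ ∞ X.Lb := by
  exact contDiff_biv contDiff_snd ((X.J_sm.comp contDiff_fst).clm_apply contDiff_snd)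

theorem g_sm {P : Type} [NormedAddCommGroup P] [NormedSpace ℝ P] {x a b : P → A N}
    (hx : ContDiff ℝ ∞ x) (ha : ContDiff ℝ ∞ a) (hb : ContDiff ℝ ∞ b) :
    ContDiff ℝ ∞ fun p => X.g (x p) (a p) (b p) := by
  exact (((X.π_sm.comp hx).clm_apply ha).inner ℝ ((X.π_sm.comp hx).clm_apply hb)).add
    (((X.J_sm.comp hx).clm_apply ha).inner ℝ ((X.J_sm.comp hx).clm_apply hb))

theorem om_sm {P : Type} [NormedAddCommGroup P] [NormedSpace ℝ P] {x a b : P → A N}
    (hx : ContDiff ℝ ∞ x) (ha : ContDiff ℝ ∞ a) (hb : ContDiff ℝ ∞ b) :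
    ContDiff ℝ ∞ fun p => X.om (x p) (a p) (b p) := by
  exact (((X.J_sm.comp hx).clm_apply ha).inner ℝ ((X.π_sm.comp hx).clm_apply hb)).sub
    (((X.π_sm.comp hx).clm_apply ha).inner ℝ ((X.J_sm.comp hx).clm_apply hb))

theorem Vol_sm {P : Type} [NormedAddCommGroup P] [NormedSpace ℝ P] {x a b c d : P → A N}
    (hx : ContDiff ℝ ∞ x) (ha : ContDiff ℝ ∞ a) (hb : ContDiff ℝ ∞ b) (hc : ContDiff ℝ ∞ c)
    (hd : ContDiff ℝ ∞ d) : ContDiff ℝ ∞ fun p => X.Vol (x p) (a p) (b p) (c p) (d p) := by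
  exact (((X.om_sm hx ha hb).mul (X.om_sm hx hc hd)).sub
    ((X.om_sm hx ha hc).mul (X.om_sm hx hb hd))).add ((X.om_sm hx ha hd).mul (X.om_sm hx hb hc))

theorem volL_sm : ContDiff ℝ ∞ X.volL := by
  exact contDiff_matL fun p q => (X.Vol_sm contDiff_id contDiff_const contDiff_const
    contDiff_const contDiff_const).div_const _

theorem fv_cont {η : A N → E2 N} (h : Continuous η) : Continuous (X.fv η) := by
  exact (h.comp continuous_fst).inner X.Lb_sm.continuous

theorem SM_compact : IsCompact X.SM := by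
  refine (X.cpt.prod (isCompact_sphere (0 : A N) 1)).of_isClosed_subset ?_ ?_
  · refine (X.cpt.isClosed.preimage continuous_fst).inter (IsClosed.inter ?_ ?_)
    · exact isClosed_eq ((X.π_sm.continuous.comp continuous_fst).clm_apply continuous_snd)
        continuous_snd
    · exact isClosed_eq continuous_snd.norm continuous_const
  · exact fun z hz => ⟨hz.1, by simpa using hz.2.2⟩

theorem Pm_add_Pp (x : A N) (η : E2 N) : X.Pm x η + X.Pp x η = X.Pt x η := by
  simp only [Pm, Pp, Pt, pm, pp, smul_apply, sub_apply, add_apply]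
  module

theorem om_swap (x a b : A N) : X.om x b a = -X.om x a b := by
  simp only [om, real_inner_comm (X.J x a), real_inner_comm (X.J x b)]
  ring

theorem om_add_left (x a a' b : A N) : X.om x (a + a') b = X.om x a b + X.om x a' b := by
  simp only [om, map_add, inner_add_left]
  ring

theorem om_smul_left (x : A N) (s : ℝ) (a b : A N) : X.om x (s • a) b = s * X.om x a b := by
  simp only [om, map_smul, real_inner_smul_left]
  ring

theorem om_add_right (x a b b' : A N) : X.om x a (b + b') = X.om x a b + X.om x a b' := by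
  simp only [om, map_add, inner_add_right]
  ring

theorem om_smul_right (x : A N) (s : ℝ) (a b : A N) : X.om x a (s • b) = s * X.om x a b := by
  simp only [om, map_smul, real_inner_smul_right]
  ring

theorem Vol_swap₁₂ (x a b c d : A N) : X.Vol x b a c d = -X.Vol x a b c d := by
  simp only [Vol, X.om_swap x a b]
  ring

theorem Vol_swap₂₃ (x a b c d : A N) : X.Vol x a c b d = -X.Vol x a b c d := by
  simp only [Vol, X.om_swap x b c]
  ring

theorem Vol_swap₃₄ (x a b c d : A N) : X.Vol x a b d c = -X.Vol x a b c d := by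
  simp only [Vol, X.om_swap x c d]
  ring

theorem Vol_comm (x a b c d : A N) : X.Vol x c d a b = X.Vol x a b c d := by
  simp only [Vol, X.om_swap x a c, X.om_swap x a d, X.om_swap x b c, X.om_swap x b d]
  ring

theorem Vol_eq_sum (x a b c d : A N) :
    X.Vol x a b c d = ∑ k, ∑ l, a k * b l * X.Vol x (eb k) (eb l) c d := by
  let T : A N →ₗ[ℝ] A N →ₗ[ℝ] ℝ := LinearMap.mk₂ ℝ (fun a b => X.Vol x a b c d)
    (fun a a' b => by simp only [Vol, om_add_left]; ring)
    (fun s a b => by simp only [Vol, om_smul_left, smul_eq_mul]; ring)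
    (fun a b b' => by simp only [Vol, om_add_left, om_add_right]; ring)
    (fun s a b => by simp only [Vol, om_smul_left, om_smul_right, smul_eq_mul]; ring)
  change T a b = ∑ k, ∑ l, a k * b l * T (eb k) (eb l)
  conv_lhs => rw [← sum_eb a, ← sum_eb b]
  rw [LinearMap.map_sum₂]
  simp only [map_sum, map_smul, LinearMap.smul_apply, smul_eq_mul]
  exact Finset.sum_congr rfl fun _ _ => Finset.sum_congr rfl fun _ _ => by ring

theorem ev_volL (x : A N) (B : E2 N) (a b : A N) :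
    ev (X.volL x B) a b = (∑ q : Fin N × Fin N, X.Vol x a b (eb q.1) (eb q.2) * B q) / 2 := by
  have h : ∀ q : Fin N × Fin N, X.Vol x a b (eb q.1) (eb q.2) = (∑ k, ∑ l, (a k * b l - b k * a l)
      * X.Vol x (eb k) (eb l) (eb q.1) (eb q.2)) / 2 := by
    intro q
    have h1 := X.Vol_eq_sum x a b (eb q.1) (eb q.2)
    have h2 := X.Vol_eq_sum x b a (eb q.1) (eb q.2)
    rw [X.Vol_swap₁₂] at h2
    simp only [sub_mul, Finset.sum_sub_distrib]
    linarith
  simp only [h, ev_eq_sum, volL, matL_apply, Finset.sum_mul, Finset.sum_div]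
  rw [Finset.sum_comm (s := (Finset.univ : Finset (Fin N × Fin N)))]
  refine Finset.sum_congr rfl fun k _ => ?_
  rw [Finset.sum_comm]
  exact Finset.sum_congr rfl fun _ _ => Finset.sum_congr rfl fun _ _ => by ring

theorem ev_volL_biv (x a b c d : A N) : ev (X.volL x (biv c d)) a b = X.Vol x a b c d := by
  rw [ev_volL]
  have h1 := X.Vol_eq_sum x c d a b
  have h2 := X.Vol_eq_sum x d c a b
  rw [X.Vol_swap₁₂] at h2
  simp only [X.Vol_comm x a b] at h1 h2
  simp only [biv, PiLp.sub_apply, tens_apply, Fintype.sum_prod_type,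
    mul_comm (X.Vol _ _ _ _ _), sub_mul, Finset.sum_sub_distrib]
  linarith

theorem anti_volL (x : A N) (B : E2 N) : Anti (X.volL x B) := by
  intro k l
  simp only [volL, matL_apply, ← Finset.sum_neg_distrib]
  exact Finset.sum_congr rfl fun q _ => by rw [X.Vol_swap₁₂ x (eb l) (eb k)]; ring

theorem adjoint_volL (x : A N) : ContinuousLinearMap.adjoint (X.volL x) = X.volL x := by
  rw [volL, adjoint_matL]
  congr 1
  funext p q
  rw [X.Vol_comm]

variable {X} {x : A N} (hx : x ∈ X.S)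
include hx

theorem Pt_Pt (η : E2 N) : X.Pt x (X.Pt x η) = X.Pt x η := by
  exact (anti_pb _ _).ext (anti_pb _ _) fun a b => by simp only [Pt, ev_pb, X.ππ x hx]

theorem Pm_Pt (η : E2 N) : X.Pm x (X.Pt x η) = X.Pm x η := by
  exact (anti_pm _ _ _).ext (anti_pm _ _ _) fun a b => by
    simp only [Pt, Pm, ev_pb, ev_pm, X.ππ x hx, X.πJ x hx]

theorem Pt_Pm (η : E2 N) : X.Pt x (X.Pm x η) = X.Pm x η := by
  exact (anti_pb _ _).ext (anti_pm _ _ _) fun a b => by
    simp only [Pt, Pm, ev_pb, ev_pm, X.ππ x hx, X.Jπ x hx]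

omit hx in
theorem _root_.Crest.Agent.R240.ev_neg_neg (η : E2 N) (a b : A N) : ev η (-a) (-b) = ev η a b := by
  rw [← neg_one_smul ℝ a, ← neg_one_smul ℝ b, ev_smul_left, ev_smul_right]
  ring

theorem Pm_Pm (η : E2 N) : X.Pm x (X.Pm x η) = X.Pm x η := by
  exact (anti_pm _ _ _).ext (anti_pm _ _ _) fun a b => by
    simp only [Pm, ev_pm, X.ππ x hx, X.Jπ x hx, X.πJ x hx, X.JJ x hx, ev_neg_neg]; ring

theorem Pp_Pt (η : E2 N) : X.Pp x (X.Pt x η) = X.Pp x η := by
  exact (anti_pp _ _ _).ext (anti_pp _ _ _) fun a b => by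
    simp only [Pt, Pp, ev_pb, ev_pp, X.ππ x hx, X.πJ x hx]

theorem Pt_Pp (η : E2 N) : X.Pt x (X.Pp x η) = X.Pp x η := by
  exact (anti_pb _ _).ext (anti_pp _ _ _) fun a b => by
    simp only [Pt, Pp, ev_pb, ev_pp, X.ππ x hx, X.Jπ x hx]

theorem Pp_Pp (η : E2 N) : X.Pp x (X.Pp x η) = X.Pp x η := by
  exact (anti_pp _ _ _).ext (anti_pp _ _ _) fun a b => by
    simp only [Pp, ev_pp, X.ππ x hx, X.Jπ x hx, X.πJ x hx, X.JJ x hx, ev_neg_neg]; ring

theorem Pm_Pp (η : E2 N) : X.Pm x (X.Pp x η) = 0 := by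
  exact (anti_pm _ _ _).ext (fun k l => by simp) fun a b => by
    simp only [Pm, Pp, ev_pm, ev_pp, X.ππ x hx, X.Jπ x hx, X.πJ x hx, X.JJ x hx, ev_neg_neg]
    simp only [ev, inner_zero_left]; ring

theorem Pp_Pm (η : E2 N) : X.Pp x (X.Pm x η) = 0 := by
  exact (anti_pp _ _ _).ext (fun k l => by simp) fun a b => by
    simp only [Pm, Pp, ev_pm, ev_pp, X.ππ x hx, X.Jπ x hx, X.πJ x hx, X.JJ x hx, ev_neg_neg]
    simp only [ev, inner_zero_left]; ring

theorem om_eq_g (a b : A N) : X.om x a b = X.g x (X.J x a) b := by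
  simp only [om, g, X.πJ x hx, X.JJ x hx, inner_neg_left]
  ring

theorem g_J_J (a b : A N) : X.g x (X.J x a) (X.J x b) = X.g x a b := by
  simp only [g, X.πJ x hx, X.JJ x hx, inner_neg_neg]
  ring

theorem g_π (a b : A N) : X.g x (X.π x a) (X.π x b) = X.g x a b := by
  simp only [g, X.ππ x hx, X.Jπ x hx]

theorem Vol_π (a b c d : A N) :
    X.Vol x (X.π x a) (X.π x b) (X.π x c) (X.π x d) = X.Vol x a b c d := by
  simp only [Vol, om, X.ππ x hx, X.Jπ x hx]

theorem Pt_volL (B : E2 N) : X.Pt x (X.volL x B) = X.volL x B := by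
  refine (anti_pb _ _).ext (X.anti_volL _ _) fun a b => ?_
  simp only [Pt, ev_pb, ev_volL, Vol, om, X.ππ x hx, X.Jπ x hx]

omit hx in
theorem adjoint_Pt_Lb {z : A N × A N} (hz : z ∈ X.SM) :
    ContinuousLinearMap.adjoint (X.Pt z.1) (X.Lb z) = X.Lb z := by
  rw [Pt, Lb, adjoint_pb_biv, hz.2.1, X.πJ _ hz.1]

omit hx in
theorem adjoint_Pp_Lb {z : A N × A N} (hz : z ∈ X.SM) :
    ContinuousLinearMap.adjoint (X.Pp z.1) (X.Lb z) = X.Lb z := by
  refine ext_inner_left ℝ fun η => ?_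
  rw [ContinuousLinearMap.adjoint_inner_right]
  change ev (pp _ _ η) _ _ = ev η _ _
  rw [ev_pp, hz.2.1, X.πJ _ hz.1, X.JJ _ hz.1, hz.2.1, ← neg_one_smul ℝ z.2, ev_smul_right,
    ev_swap η z.2]
  ring

omit hx in
theorem fv_congr {η η' : A N → E2 N} (h : ∀ y ∈ X.S, X.Pp y (η y) = X.Pp y (η' y))
    {z : A N × A N} (hz : z ∈ X.SM) : X.fv η z = X.fv η' z := by
  rw [fv, fv, ← adjoint_Pp_Lb hz, ContinuousLinearMap.adjoint_inner_right,
    ContinuousLinearMap.adjoint_inner_right, h _ hz.1]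

omit hx in
theorem Closed_d1 {ζ : A N → A N} (h : ContDiff ℝ ∞ ζ) : X.Closed (d1 ζ) :=
  fun x _ a b c _ _ _ => d2_d1 h x a b c

end Pre

end Crest.Agent.R240
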