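import Crest.Agent.R240.Defs

/-! Row 240: elementary API for the definitions of `Defs.lean`. -/

set_option autoImplicit false

open scoped ContDiff RealInnerProductSpace
open MeasureTheory Set

noncomputable section

namespace Crest.Agent.R240

variable {N M K : ℕ}

/-- determinant of four vectors of `ℝ⁴` -/
def det4 (a b c d : A 4) : ℝ :=
  (a 0 * b 1 - a 1 * b 0) * (c 2 * d 3 - c 3 * d 2) - (a 0 * b 2 - a 2 * b 0) * (c 1 * d 3 - c 3 * d 1)
    + (a 0 * b 3 - a 3 * b 0) * (c 1 * d 2 - c 2 * d 1) + (a 1 * b 2 - a 2 * b 1) * (c 0 * d 3 - c 3 * d 0)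
    - (a 1 * b 3 - a 3 * b 1) * (c 0 * d 2 - c 2 * d 0) + (a 2 * b 3 - a 3 * b 2) * (c 0 * d 1 - c 1 * d 0)

/-- antisymmetric two-tensors -/
def Anti (η : E2 N) : Prop := ∀ k l, η (k, l) = -η (l, k)

/-- wedge product of two one-forms, in the normalisation of `d1`:
`d1 (f • ζ) = f • d1 ζ + tens (∇ f) ζ` -/
def grad (f : A N → ℝ) (x : A N) : A N := WithLp.toLp 2 fun k => fderiv ℝ f x (eb k)

theorem eb_apply (k l : Fin N) : eb k l = if l = k then 1 else 0 := by
  simp [eb, EuclideanSpace.single]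

theorem sum_eb (a : A N) : ∑ k, a k • eb k = a := by
  ext l
  simp [eb_apply]

theorem norm_eb (k : Fin N) : ‖eb k‖ = 1 := by
  simp [eb]

theorem inner_eb (a : A N) (k : Fin N) : ⟪a, eb k⟫ = a k := by
  simp [eb, EuclideanSpace.inner_single_right]

theorem matL_apply {ι κ : Type} [Fintype ι] [Fintype κ] [DecidableEq κ] (F : ι → κ → ℝ)
    (v : EuclideanSpace ℝ κ) (i : ι) : matL F v i = ∑ j, F i j * v j := by
  simp [matL, Matrix.toEuclideanLin, Matrix.mulVec, dotProduct]

theorem adjoint_matL {ι κ : Type} [Fintype ι] [Fintype κ] [DecidableEq κ] [DecidableEq ι]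
    (F : ι → κ → ℝ) : ContinuousLinearMap.adjoint (matL F) = matL fun j i => F i j := by
  symm
  rw [ContinuousLinearMap.eq_adjoint_iff]
  intro x y
  simp only [PiLp.inner_apply, matL_apply, RCLike.inner_apply, conj_trivial, Finset.mul_sum,
    Finset.sum_mul]
  rw [Finset.sum_comm]
  exact Finset.sum_congr rfl fun _ _ => Finset.sum_congr rfl fun _ _ => by ring

theorem contDiff_matL {P ι κ : Type} [NormedAddCommGroup P] [NormedSpace ℝ P] [Fintype ι]
    [Fintype κ] [DecidableEq κ] {F : P → ι → κ → ℝ} (h : ∀ i j, ContDiff ℝ ∞ fun x => F x i j) :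
    ContDiff ℝ ∞ fun x => matL (F x) := by
  refine contDiff_clm_apply_iff.2 fun v => contDiff_euclidean.2 fun i => ?_
  simp only [matL_apply]
  exact ContDiff.sum fun j _ => (h i j).mul contDiff_const

theorem contDiff_toLp {P ι : Type} [NormedAddCommGroup P] [NormedSpace ℝ P] [Fintype ι]
    {F : P → ι → ℝ} (h : ∀ i, ContDiff ℝ ∞ fun x => F x i) :
    ContDiff ℝ ∞ fun x => (WithLp.toLp 2 (F x) : EuclideanSpace ℝ ι) := by
  exact contDiff_euclidean.2 h

theorem contDiff_adjoint {P ι κ : Type} [NormedAddCommGroup P] [NormedSpace ℝ P] [Fintype ι]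
    [Fintype κ] {F : P → EuclideanSpace ℝ κ →L[ℝ] EuclideanSpace ℝ ι} (h : ContDiff ℝ ∞ F) :
    ContDiff ℝ ∞ fun x => ContinuousLinearMap.adjoint (F x) := by
  exact (ContinuousLinearMap.adjoint (𝕜 := ℝ) (E := EuclideanSpace ℝ κ)
    (F := EuclideanSpace ℝ ι)).toContinuousLinearEquiv.toContinuousLinearMap.contDiff.comp h

theorem Jst_apply (a : A 4) :
    Jst a 0 = -a 1 ∧ Jst a 1 = a 0 ∧ Jst a 2 = -a 3 ∧ Jst a 3 = a 2 := by
  simp [Jst, matL_apply, Fin.sum_univ_succ]

theorem det4_comp (L : A 4 →L[ℝ] A 4) (a b c d : A 4) :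
    det4 (L a) (L b) (L c) (L d) = L.det * det4 a b c d := by
  have key : ∀ a b c d : A 4, det4 a b c d =
      (EuclideanSpace.basisFun (Fin 4) ℝ).toBasis.det ![a, b, c, d] := by
    intro a b c d
    rw [Module.Basis.det_apply, ← Matrix.det_transpose]
    simp [Matrix.det_succ_row_zero, Fin.sum_univ_succ, det4, Fin.succAbove,
      Module.Basis.toMatrix_apply]
    ring
  rw [key, key, ContinuousLinearMap.det, ← Module.Basis.det_comp]
  congr 1
  funext i
  fin_cases i <;> rfl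

theorem det4_eb : det4 (eb 0) (eb 1) (eb 2) (eb 3) = 1 := by
  simp [det4, eb_apply]

/-! tensors -/

theorem tens_apply (a b : A N) (p : Fin N × Fin N) : tens a b p = a p.1 * b p.2 := rfl

theorem inner_tens (a b c d : A N) : ⟪tens a b, tens c d⟫ = ⟪a, c⟫ * ⟪b, d⟫ := by
  simp only [PiLp.inner_apply, tens_apply, RCLike.inner_apply, conj_trivial, Fintype.sum_prod_type,
    Finset.sum_mul_sum]
  exact Finset.sum_congr rfl fun _ _ => Finset.sum_congr rfl fun _ _ => by ring

theorem norm_tens (a b : A N) : ‖tens a b‖ = ‖a‖ * ‖b‖ := by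
  refine (pow_left_inj₀ (norm_nonneg _) (by positivity) two_ne_zero).1 ?_
  rw [← real_inner_self_eq_norm_sq, inner_tens, real_inner_self_eq_norm_sq,
    real_inner_self_eq_norm_sq, mul_pow]

theorem contDiff_tens {P : Type} [NormedAddCommGroup P] [NormedSpace ℝ P] {a b : P → A N}
    (ha : ContDiff ℝ ∞ a) (hb : ContDiff ℝ ∞ b) : ContDiff ℝ ∞ fun x => tens (a x) (b x) := by
  exact contDiff_toLp fun p => (contDiff_euclidean.1 ha p.1).mul (contDiff_euclidean.1 hb p.2)

theorem contDiff_biv {P : Type} [NormedAddCommGroup P] [NormedSpace ℝ P] {a b : P → A N}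
    (ha : ContDiff ℝ ∞ a) (hb : ContDiff ℝ ∞ b) : ContDiff ℝ ∞ fun x => biv (a x) (b x) := by
  exact (contDiff_tens ha hb).sub (contDiff_tens hb ha)

theorem norm_biv_sq (a b : A N) : ‖biv a b‖ ^ 2 = 2 * (‖a‖ ^ 2 * ‖b‖ ^ 2 - ⟪a, b⟫ ^ 2) := by
  rw [biv, norm_sub_sq_real, inner_tens, norm_tens, norm_tens, real_inner_comm a b]
  ring

theorem norm_biv_le (a b : A N) : ‖biv a b‖ ≤ 2 * ‖a‖ * ‖b‖ := by
  refine (norm_sub_le _ _).trans ?_
  rw [norm_tens, norm_tens]
  linarith

theorem anti_biv (a b : A N) : Anti (biv a b) := by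
  intro k l
  simp [biv, tens_apply]
  ring

theorem ev_eq_sum (η : E2 N) (a b : A N) :
    ev η a b = ∑ k, ∑ l, η (k, l) * (a k * b l - b k * a l) := by
  simp only [ev, biv, PiLp.inner_apply, RCLike.inner_apply, conj_trivial, Fintype.sum_prod_type,
    PiLp.sub_apply, tens_apply]
  exact Finset.sum_congr rfl fun _ _ => Finset.sum_congr rfl fun _ _ => by ring

theorem ev_swap (η : E2 N) (a b : A N) : ev η b a = -ev η a b := by
  rw [ev, ev, ← inner_neg_right, biv, biv, neg_sub]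

theorem ev_self (η : E2 N) (a : A N) : ev η a a = 0 := by
  simp [ev, biv]

theorem ev_add (η η' : E2 N) (a b : A N) : ev (η + η') a b = ev η a b + ev η' a b := by
  simp [ev, inner_add_left]

theorem ev_sub (η η' : E2 N) (a b : A N) : ev (η - η') a b = ev η a b - ev η' a b := by
  simp [ev, inner_sub_left]

theorem ev_smul (s : ℝ) (η : E2 N) (a b : A N) : ev (s • η) a b = s * ev η a b := by
  simp [ev, inner_smul_left]

theorem ev_add_left (η : E2 N) (a a' b : A N) : ev η (a + a') b = ev η a b + ev η a' b := by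
  simp only [ev_eq_sum, ← Finset.sum_add_distrib, PiLp.add_apply]
  exact Finset.sum_congr rfl fun _ _ => Finset.sum_congr rfl fun _ _ => by ring

theorem ev_smul_left (η : E2 N) (s : ℝ) (a b : A N) : ev η (s • a) b = s * ev η a b := by
  simp only [ev_eq_sum, Finset.mul_sum, PiLp.smul_apply, smul_eq_mul]
  exact Finset.sum_congr rfl fun _ _ => Finset.sum_congr rfl fun _ _ => by ring

theorem ev_add_right (η : E2 N) (a b b' : A N) : ev η a (b + b') = ev η a b + ev η a b' := by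
  simp only [ev_eq_sum, ← Finset.sum_add_distrib, PiLp.add_apply]
  exact Finset.sum_congr rfl fun _ _ => Finset.sum_congr rfl fun _ _ => by ring

theorem ev_smul_right (η : E2 N) (s : ℝ) (a b : A N) : ev η a (s • b) = s * ev η a b := by
  simp only [ev_eq_sum, Finset.mul_sum, PiLp.smul_apply, smul_eq_mul]
  exact Finset.sum_congr rfl fun _ _ => Finset.sum_congr rfl fun _ _ => by ring

theorem abs_ev_le (η : E2 N) (a b : A N) : |ev η a b| ≤ 2 * ‖η‖ * ‖a‖ * ‖b‖ := by
  refine (abs_real_inner_le_norm _ _).trans ?_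
  have := mul_le_mul_of_nonneg_left (norm_biv_le a b) (norm_nonneg η)
  linarith

theorem ev_tens (c d a b : A N) : ev (tens c d) a b = ⟪c, a⟫ * ⟪d, b⟫ - ⟪c, b⟫ * ⟪d, a⟫ := by
  rw [ev, biv, inner_sub_right, inner_tens, inner_tens]

theorem Anti.ev_eb {η : E2 N} (h : Anti η) (k l : Fin N) : ev η (eb k) (eb l) = 2 * η (k, l) := by
  have : ev η (eb k) (eb l) = η (k, l) - η (l, k) := by
    simp [ev_eq_sum, eb_apply, mul_sub, Finset.sum_sub_distrib]
  rw [this, h l k]
  ring

theorem Anti.ext {η η' : E2 N} (h : Anti η) (h' : Anti η')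
    (e : ∀ a b, ev η a b = ev η' a b) : η = η' := by
  ext ⟨k, l⟩
  have := e (eb k) (eb l)
  rw [h.ev_eb, h'.ev_eb] at this
  linarith

/-- for antisymmetric `L`: `⟪tens a b, L⟫ = ⟪a, ctr L b⟫ = -⟪ctr L a, b⟫` -/
theorem inner_tens_left (L : E2 N) (a b : A N) : ⟪tens a b, L⟫ = ⟪a, ctr L b⟫ := by
  simp only [PiLp.inner_apply, tens_apply, ctr, RCLike.inner_apply, conj_trivial,
    Fintype.sum_prod_type, Finset.sum_mul]
  exact Finset.sum_congr rfl fun _ _ => Finset.sum_congr rfl fun _ _ => by ring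

theorem Anti.inner_ctr {L : E2 N} (h : Anti L) (a b : A N) : ⟪ctr L a, b⟫ = -⟪a, ctr L b⟫ := by
  simp only [PiLp.inner_apply, ctr, RCLike.inner_apply, conj_trivial, Finset.sum_mul,
    Finset.mul_sum, ← Finset.sum_neg_distrib]
  rw [Finset.sum_comm]
  exact Finset.sum_congr rfl fun k _ => Finset.sum_congr rfl fun l _ => by rw [h k l]; ring

theorem ctr_biv (a b c : A N) : ctr (biv a b) c = ⟪b, c⟫ • a - ⟪a, c⟫ • b := by
  ext k
  simp only [ctr, biv, PiLp.sub_apply, tens_apply, PiLp.smul_apply, smul_eq_mul, PiLp.inner_apply,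
    RCLike.inner_apply, conj_trivial, Finset.sum_mul, ← Finset.sum_sub_distrib]
  exact Finset.sum_congr rfl fun _ _ => by ring

/-- `ctr` as a continuous bilinear map -/
theorem exists_ctrL : ∃ T : E2 N →L[ℝ] A N →L[ℝ] A N, ∀ L a, T L a = ctr L a := by
  refine ⟨LinearMap.toContinuousLinearMap
    { toFun := fun L => matL fun k l => L (k, l)
      map_add' := fun L L' => ?_
      map_smul' := fun s L => ?_ }, fun L a => ?_⟩
  · ext a k
    simp [matL_apply, add_mul, Finset.sum_add_distrib]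
  · ext a k
    simp [matL_apply, Finset.mul_sum, mul_assoc]
  · ext k
    simp [matL_apply, ctr]

theorem norm_ctr_le (L : E2 N) (a : A N) : ‖ctr L a‖ ≤ ‖L‖ * ‖a‖ := by
  have h1 : ‖ctr L a‖ ^ 2 ≤ ‖ctr L a‖ * (‖L‖ * ‖a‖) := by
    rw [← real_inner_self_eq_norm_sq, ← inner_tens_left]
    refine (real_inner_le_norm _ _).trans ?_
    rw [norm_tens]
    exact le_of_eq (by ring)
  rcases (norm_nonneg (ctr L a)).eq_or_lt with h | h
  · rw [← h]; positivity
  · nlinarith

/-! pull-back -/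

theorem pb_apply (B : A N →L[ℝ] A M) (η : E2 M) (k l : Fin N) :
    pb B η (k, l) = ev η (B (eb k)) (B (eb l)) / 2 := by
  simp only [pb, matL_apply, ev_eq_sum, Fintype.sum_prod_type, Finset.sum_div]
  exact Finset.sum_congr rfl fun _ _ => Finset.sum_congr rfl fun _ _ => by ring

theorem ev_sum_left (η : E2 N) {ι : Type} (s : Finset ι) (a : ι → A N) (b : A N) :
    ev η (∑ i ∈ s, a i) b = ∑ i ∈ s, ev η (a i) b := by
  classical
  induction s using Finset.induction_on with
  | empty => simpa using ev_smul_left η 0 0 b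
  | insert i s hi ih => rw [Finset.sum_insert hi, Finset.sum_insert hi, ev_add_left, ih]

theorem ev_sum_right (η : E2 N) {ι : Type} (s : Finset ι) (a : A N) (b : ι → A N) :
    ev η a (∑ i ∈ s, b i) = ∑ i ∈ s, ev η a (b i) := by
  classical
  induction s using Finset.induction_on with
  | empty => simpa using ev_smul_right η 0 a 0
  | insert i s hi ih => rw [Finset.sum_insert hi, Finset.sum_insert hi, ev_add_right, ih]

theorem anti_pb (B : A N →L[ℝ] A M) (η : E2 M) : Anti (pb B η) := by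
  intro k l
  rw [pb_apply, pb_apply, ev_swap]
  ring

theorem ev_pb (B : A N →L[ℝ] A M) (η : E2 M) (a b : A N) :
    ev (pb B η) a b = ev η (B a) (B b) := by
  have key : ∀ a b : A N, ev η (B a) (B b) =
      ∑ k, ∑ l, a k * b l * ev η (B (eb k)) (B (eb l)) := by
    intro a b
    conv_lhs => rw [← sum_eb a, ← sum_eb b]
    rw [map_sum, map_sum, ev_sum_left]
    simp only [map_smul, ev_sum_right, ev_smul_left, ev_smul_right]
    exact Finset.sum_congr rfl fun _ _ => Finset.sum_congr rfl fun _ _ => by ring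
  have h1 := key a b
  have h2 := key b a
  rw [ev_swap] at h2
  have : ev (pb B η) a b = ((∑ k, ∑ l, a k * b l * ev η (B (eb k)) (B (eb l)))
      - ∑ k, ∑ l, b k * a l * ev η (B (eb k)) (B (eb l))) / 2 := by
    simp only [ev_eq_sum (pb B η), pb_apply, ← Finset.sum_sub_distrib, Finset.sum_div]
    exact Finset.sum_congr rfl fun _ _ => Finset.sum_congr rfl fun _ _ => by ring
  rw [this]
  linarith

theorem pb_pb (B : A N →L[ℝ] A M) (C : A M →L[ℝ] A K) (η : E2 K) :
    pb B (pb C η) = pb (C ∘L B) η := by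
  exact (anti_pb _ _).ext (anti_pb _ _) fun a b => by simp [ev_pb]

theorem adjoint_pb_biv (B : A N →L[ℝ] A M) (a b : A N) :
    ContinuousLinearMap.adjoint (pb B) (biv a b) = biv (B a) (B b) := by
  refine ext_inner_left ℝ fun η => ?_
  rw [ContinuousLinearMap.adjoint_inner_right]
  exact ev_pb B η a b

theorem sum_inner_sq_le (B : A N →L[ℝ] A M) (y : A M) :
    ∑ k, ⟪y, B (eb k)⟫ ^ 2 ≤ ‖B‖ ^ 2 * ∑ l, y l ^ 2 := by
  have h1 : ∑ k, ⟪y, B (eb k)⟫ ^ 2 = ‖ContinuousLinearMap.adjoint B y‖ ^ 2 := by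
    rw [EuclideanSpace.real_norm_sq_eq]
    refine Finset.sum_congr rfl fun k _ => ?_
    rw [← inner_eb, ContinuousLinearMap.adjoint_inner_left]
  rw [h1, ← EuclideanSpace.real_norm_sq_eq, ← mul_pow]
  refine pow_le_pow_left₀ (norm_nonneg _) ?_ 2
  simpa using (ContinuousLinearMap.adjoint B).le_opNorm y

theorem norm_pb_le (B : A N →L[ℝ] A M) : ‖pb B‖ ≤ ‖B‖ ^ 2 := by
  refine ContinuousLinearMap.opNorm_le_bound _ (by positivity) fun η => ?_
  set T : Fin N → Fin N → ℝ := fun k l => ⟪ctr η (B (eb l)), B (eb k)⟫ with hT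
  have h1 : ∀ k l, pb B η (k, l) = (T k l - T l k) / 2 := by
    intro k l
    rw [pb_apply, ev, biv, inner_sub_right, real_inner_comm, real_inner_comm (tens _ _),
      inner_tens_left, inner_tens_left, real_inner_comm, real_inner_comm (ctr _ _)]
  have h2 : ∑ k, ∑ l, T k l ^ 2 ≤ (‖B‖ ^ 2 * ‖η‖) ^ 2 := by
    rw [Finset.sum_comm]
    have e1 : ∀ l, ∑ k, T k l ^ 2 ≤ ‖B‖ ^ 2 * ∑ k, ⟪(WithLp.toLp 2 fun j => η (k, j) : A M),
        B (eb l)⟫ ^ 2 := by
      intro l
      refine (sum_inner_sq_le B _).trans (le_of_eq ?_)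
      congr 1
      refine Finset.sum_congr rfl fun k _ => ?_
      simp [ctr, PiLp.inner_apply, mul_comm]
    refine (Finset.sum_le_sum fun l _ => e1 l).trans ?_
    rw [← Finset.mul_sum, Finset.sum_comm]
    have e2 : ∑ k, ∑ l, ⟪(WithLp.toLp 2 fun j => η (k, j) : A M), B (eb l)⟫ ^ 2
        ≤ ‖B‖ ^ 2 * ‖η‖ ^ 2 := by
      refine (Finset.sum_le_sum fun k _ => sum_inner_sq_le B _).trans (le_of_eq ?_)
      rw [← Finset.mul_sum, EuclideanSpace.real_norm_sq_eq, Fintype.sum_prod_type]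
    calc _ ≤ ‖B‖ ^ 2 * (‖B‖ ^ 2 * ‖η‖ ^ 2) := mul_le_mul_of_nonneg_left e2 (by positivity)
      _ = _ := by ring
  refine (pow_le_pow_iff_left₀ (norm_nonneg _) (by positivity) two_ne_zero).1 ?_
  rw [EuclideanSpace.real_norm_sq_eq, Fintype.sum_prod_type]
  have h3 : ∑ k, ∑ l, pb B η (k, l) ^ 2 ≤ ∑ k, ∑ l, (T k l ^ 2 / 2 + T l k ^ 2 / 2) :=
    Finset.sum_le_sum fun k _ => Finset.sum_le_sum fun l _ => by
      rw [h1]; nlinarith [sq_nonneg (T k l + T l k)]
  simp only [Finset.sum_add_distrib, ← Finset.sum_div] at h3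
  rw [Finset.sum_comm (f := fun k l => T l k ^ 2)] at h3
  linarith

theorem contDiff_pb {P : Type} [NormedAddCommGroup P] [NormedSpace ℝ P]
    {B : P → A N →L[ℝ] A M} (h : ContDiff ℝ ∞ B) : ContDiff ℝ ∞ fun x => pb (B x) := by
  have h1 : ∀ k l, ContDiff ℝ ∞ fun x => B x (eb k) l := fun k l =>
    contDiff_euclidean.1 (h.clm_apply contDiff_const) l
  exact contDiff_matL fun p q => (((h1 _ _).mul (h1 _ _)).sub ((h1 _ _).mul (h1 _ _))).div_const _

theorem contDiff_pm {P : Type} [NormedAddCommGroup P] [NormedSpace ℝ P]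
    {π J : P → A N →L[ℝ] A N} (h : ContDiff ℝ ∞ π) (h' : ContDiff ℝ ∞ J) :
    ContDiff ℝ ∞ fun x => pm (π x) (J x) := by
  exact ((contDiff_pb h).sub (contDiff_pb h')).const_smul _

theorem ev_pm (π J : A N →L[ℝ] A N) (η : E2 N) (a b : A N) :
    ev (pm π J η) a b = (ev η (π a) (π b) - ev η (J a) (J b)) / 2 := by
  simp only [pm, smul_apply, sub_apply, ev_smul, ev_sub, ev_pb]
  ring

theorem ev_pp (π J : A N →L[ℝ] A N) (η : E2 N) (a b : A N) :
    ev (pp π J η) a b = (ev η (π a) (π b) + ev η (J a) (J b)) / 2 := by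
  simp only [pp, smul_apply, add_apply, ev_smul, ev_add, ev_pb]
  ring

theorem anti_pm (π J : A N →L[ℝ] A N) (η : E2 N) : Anti (pm π J η) := by
  intro k l
  simp only [pm, smul_apply, sub_apply, PiLp.smul_apply, PiLp.sub_apply,
    smul_eq_mul]
  rw [anti_pb π η k l, anti_pb J η k l]
  ring

theorem anti_pp (π J : A N →L[ℝ] A N) (η : E2 N) : Anti (pp π J η) := by
  intro k l
  simp only [pp, smul_apply, add_apply, PiLp.smul_apply, PiLp.add_apply,
    smul_eq_mul]
  rw [anti_pb π η k l, anti_pb J η k l]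
  ring

end Crest.Agent.R240
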