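import Crest.Agent.R240.KerU
import Crest.Agent.R240.Alg

/-! Row 240: recovering `φ` from its smoothing.

Let `c t = mass k₀ t` (scalar kernel `ker₀`), bounded below on `S` by `k₀_ge`, `vol_ge`, and
`CB`-bounded. Take `Φ : ℝ → ℝ` smooth with `Φ s = s⁻¹` for `s ≥ c₁` and put
`w u = Φ (c t ·) • st u`, `e t = mass κₑ t` with `κₑ (t,x,w) = K (t,x,w) - k₀ (x,w) • volL (x + t w)`
(vanishing at `t = 0` by `lead`). On `S`, `mass K t = c t • volL + e t` and `volL_st` give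
`Pt u = Op K t (w u) - Rt u`, where `Rt u = UOp K t (w u) + e t (w u)`. Hence
`φ u = φ (Op K t (w u)) - φ (Rt u)`, and `Hn 1 j (Rt u) ≤ C Hn 1 j u`,
`Hn 1 j (Rt u) ≤ C t Hn 1 (j+1) u`. Iterating `m = k + 1` times,
`Hs i (Rt^[m] u) ≤ C t^(m-i) Hn 1 m u` for `i ≤ m`, so `Hn t m (Rt^[m] u) ≤ C t^m Hn 1 m u`. -/

set_option autoImplicit false

open scoped ContDiff RealInnerProductSpace Topology
open MeasureTheory Set Filter

noncomputable section

namespace Crest.Agent.R240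

variable {N : ℕ} {G : Geo N}

/-- a smooth function equal to `s⁻¹` for `s ≥ c₁` -/
theorem iter_exists_inv {c₁ : ℝ} (hc : 0 < c₁) :
    ∃ Φ : ℝ → ℝ, ContDiff ℝ ∞ Φ ∧ ∀ s, c₁ ≤ s → s * Φ s = 1 := by
  let χ : ℝ → ℝ := fun s => Real.smoothTransition (2 * s / c₁ - 1)
  have hχ : ContDiff ℝ ∞ χ := Real.smoothTransition.contDiff.comp (by fun_prop)
  have hpos : ∀ s, 0 < s * χ s + (1 - χ s) := by
    intro s
    have h0 : 0 ≤ χ s := Real.smoothTransition.nonneg _
    have h1 : χ s ≤ 1 := Real.smoothTransition.le_one _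
    by_cases hs : s ≤ 0
    · have : χ s = 0 := by
        apply Real.smoothTransition.zero_of_nonpos
        have : 2 * s / c₁ ≤ 0 := div_nonpos_of_nonpos_of_nonneg (by linarith) hc.le
        linarith
      rw [this]; norm_num
    · push Not at hs
      rcases h1.lt_or_eq with h | h
      · have := mul_nonneg hs.le h0
        linarith
      · rw [h]; linarith
  refine ⟨fun s => (s * χ s + (1 - χ s))⁻¹, ?_, ?_⟩
  · exact ContDiff.inv ((contDiff_id.mul hχ).add (contDiff_const.sub hχ)) fun s => (hpos s).ne'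
  · intro s hs
    have : χ s = 1 := by
      apply Real.smoothTransition.one_of_one_le
      have : 2 ≤ 2 * s / c₁ := by rw [le_div_iff₀ hc]; linarith
      linarith
    have hs0 : s ≠ 0 := by linarith
    simp only [this, mul_one, sub_self, add_zero]
    exact mul_inv_cancel₀ hs0

/-- the error kernel -/
def iter_ker (Q : KData G) : ℝ × A N × A N → E2 N →L[ℝ] E2 N :=
  fun q => Q.K q - Q.k₀ q.2 • G.volL (q.2.1 + q.1 • q.2.2)

theorem iter_ker_isKer (Q : KData G) : IsKer (iter_ker Q) Q.R where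
  sm := by
    unfold iter_ker
    exact Q.ker.sm.sub (Q.ker₀.sm.smul (G.volL_sm.comp (by fun_prop)))
  supp := by
    intro t x w hw
    have h1 := Q.ker.supp t x w hw
    have h2 : Q.k₀ (x, w) = 0 := Q.ker₀.supp t x w hw
    ext1 v
    simp [iter_ker, h1, h2]

theorem iter_ker_zero (Q : KData G) : ∀ x ∈ G.S, ∀ w, iter_ker Q (0, x, w) = 0 := by
  intro x hx w
  simp [iter_ker, Q.lead x hx w]

theorem iter_mass (Q : KData G) {t : ℝ} (ht : t ≠ 0) (y : A N) :
    mass G.m Q.K t y = mass G.m (fun q : ℝ × A N × A N => Q.k₀ q.2) t y • G.volL y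
      + mass G.m (iter_ker Q) t y := by
  have hc : ∀ {F : Type} [NormedAddCommGroup F] [NormedSpace ℝ F] {κ : ℝ × A N × A N → F},
      IsKer κ Q.R → Integrable (fun x => kerAt κ t x y) G.m := by
    intro F _ _ κ h
    exact G.B.integrable_cont ((h.kerAt_sm t).continuous.comp (by fun_prop : Continuous fun x : A N => (x, y)))
  unfold mass
  have e1 := integral_smul_const (μ := G.m)
    (fun x => kerAt (fun q : ℝ × A N × A N => Q.k₀ q.2) t x y) (G.volL y)
  have e2 := integral_add ((hc Q.ker₀).smul_const (G.volL y)) (hc (iter_ker_isKer Q))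
  refine Eq.trans ?_ (e2.trans (congrArg (· + _) e1))
  congr 1
  funext x
  have : x + t • t⁻¹ • (y - x) = y := by
    rw [smul_smul, mul_inv_cancel₀ ht, one_smul]; abel
  simp only [kerAt, iter_ker, this]
  simp only [smul_sub, smul_eq_mul, mul_smul]
  abel

theorem iter_mass_ge (Q : KData G) : ∃ c₁, 0 < c₁ ∧ ∀ t, 0 < t → t ≤ 1 → ∀ y ∈ G.S,
    c₁ ≤ mass G.m (fun q : ℝ × A N × A N => Q.k₀ q.2) t y := by
  obtain ⟨cv, hcv, hv⟩ := G.vol_ge
  have hc := Q.c_pos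
  refine ⟨Q.c * (cv * Q.c ^ 4), by positivity, fun t ht ht1 y hy => ?_⟩
  have hint : Integrable (fun x => kerAt (fun q : ℝ × A N × A N => Q.k₀ q.2) t x y) G.m :=
    G.B.integrable_cont ((Q.ker₀.kerAt_sm t).continuous.comp
      (by fun_prop : Continuous fun x : A N => (x, y)))
  have hr : Q.c * t ≤ 1 := by nlinarith [Q.c_le]
  have h1 := hv y hy (Q.c * t) (by positivity) hr
  have h2 : ∫ x, (Metric.closedBall y (Q.c * t)).indicator (fun _ => t⁻¹ ^ 4 * Q.c) x ∂G.m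
      ≤ mass G.m (fun q : ℝ × A N × A N => Q.k₀ q.2) t y := by
    unfold mass
    apply integral_mono_ae ((integrable_const _).indicator measurableSet_closedBall) hint
    filter_upwards [G.B.ae_mem] with x hx
    by_cases hxy : x ∈ Metric.closedBall y (Q.c * t)
    · rw [indicator_of_mem hxy]
      simp only [kerAt, smul_eq_mul]
      apply mul_le_mul_of_nonneg_left _ (by positivity)
      apply Q.k₀_ge x hx
      rw [Metric.mem_closedBall, dist_comm, dist_eq_norm] at hxy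
      rw [norm_smul, Real.norm_eq_abs, abs_of_pos (inv_pos.2 ht), inv_mul_le_iff₀ ht]
      linarith
    · rw [indicator_of_notMem hxy]
      simp only [kerAt, smul_eq_mul]
      exact mul_nonneg (by positivity) (Q.k₀_nonneg _)
  rw [integral_indicator measurableSet_closedBall, setIntegral_const, smul_eq_mul] at h2
  refine le_trans ?_ h2
  calc Q.c * (cv * Q.c ^ 4) = cv * (Q.c * t) ^ 4 * (t⁻¹ ^ 4 * Q.c) := by field_simp
    _ ≤ _ := mul_le_mul_of_nonneg_right h1 (by positivity)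

theorem KData.exists_remainder (Q : KData G) : ∃ t₁, 0 < t₁ ∧ t₁ ≤ Q.t₀ ∧
    ∃ (w Rt : ℝ → (A N → E2 N) → A N → E2 N) (C : ℕ → ℝ), (∀ j, 0 ≤ C j) ∧
      ∀ t, 0 < t → t ≤ t₁ → ∀ u, ContDiff ℝ ∞ u →
        ContDiff ℝ ∞ (w t u) ∧ ContDiff ℝ ∞ (Rt t u) ∧
        (∀ y ∈ G.S, G.Pt y (u y) = Op G.m Q.K t (w t u) y - Rt t u y) ∧
        G.B.L2 (w t u) ≤ C 0 * G.B.L2 u ∧
        ∀ j, G.B.Hn 1 j (Rt t u) ≤ C j * G.B.Hn 1 j u ∧
          G.B.Hn 1 j (Rt t u) ≤ C j * t * G.B.Hn 1 (j + 1) u := by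
  obtain ⟨c₁, hc₁, hge⟩ := iter_mass_ge Q
  obtain ⟨Φ, hΦ, hΦ1⟩ := iter_exists_inv hc₁
  have hR : 0 < Q.R := lt_of_lt_of_le one_pos Q.one_le_R
  obtain ⟨t₁, ht₁, ht₁1, hU⟩ := G.Hn_UOp_le hR Q.ker
  choose CU hCU0 hCU using hU
  let Ψ : ℝ → E2 N →L[ℝ] E2 N := fun s => Φ s • ContinuousLinearMap.id ℝ (E2 N)
  have hΨ : ContDiff ℝ ∞ Ψ := hΦ.smul contDiff_const
  let c : ℝ → A N → ℝ := fun t => mass G.m (fun q : ℝ × A N × A N => Q.k₀ q.2) t
  have hcs : ∀ t, ContDiff ℝ ∞ (c t) := fun t => G.mass_sm Q.ker₀ t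
  let w : ℝ → (A N → E2 N) → A N → E2 N := fun t u y => Ψ (c t y) (G.st y (u y))
  let e : ℝ → A N → E2 N →L[ℝ] E2 N := fun t => mass G.m (iter_ker Q) t
  have hes : ∀ t, ContDiff ℝ ∞ (e t) := fun t => G.mass_sm (iter_ker_isKer Q) t
  have hws : ∀ t u, ContDiff ℝ ∞ u → ContDiff ℝ ∞ (w t u) := fun t u hu =>
    (hΨ.comp (hcs t)).clm_apply (G.st_sm.clm_apply hu)
  -- bound for `w`
  have hw : ∀ j, ∃ C, 0 ≤ C ∧ ∀ t, 0 < t → t ≤ 1 → ∀ u, ContDiff ℝ ∞ u →
      G.B.Hn 1 j (w t u) ≤ C * G.B.Hn 1 j u := by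
    intro j
    obtain ⟨C₁, hC₁, h₁⟩ := G.CB_mass Q.ker₀ j
    obtain ⟨C₂, hC₂, h₂⟩ := G.B.CB_comp hΨ j C₁
    obtain ⟨K₁, hK₁, h₃⟩ := G.B.Hn_clm_apply (E := E2 N) (F := E2 N) j
    obtain ⟨K₂, hK₂, h₄⟩ := G.B.Hn_clm_apply' j G.st_sm
    refine ⟨K₁ * C₂ * K₂, by positivity, fun t ht ht1 u hu => ?_⟩
    have a1 := h₃ C₂ 1 (fun y => Ψ (c t y)) (fun y => G.st y (u y)) hC₂ zero_le_one le_rfl
      (hΨ.comp (hcs t)) (G.st_sm.clm_apply hu) (h₂ (c t) (hcs t) (h₁ t ht ht1))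
    have a2 := h₄ 1 u zero_le_one le_rfl hu
    calc G.B.Hn 1 j (w t u) ≤ K₁ * C₂ * G.B.Hn 1 j (fun y => G.st y (u y)) := a1
      _ ≤ K₁ * C₂ * (K₂ * G.B.Hn 1 j u) := mul_le_mul_of_nonneg_left a2 (by positivity)
      _ = _ := by ring
  choose Cw hCw0 hCw using hw
  -- bound for `e`
  have he : ∀ j, ∃ C, 0 ≤ C ∧ ∀ t, 0 < t → t ≤ 1 → ∀ v, ContDiff ℝ ∞ v →
      G.B.Hn 1 j (fun y => e t y (v y)) ≤ C * t * G.B.Hn 1 j v := by
    intro j
    obtain ⟨C₁, hC₁, h₁⟩ := G.CB_mass₀ (iter_ker_isKer Q) (iter_ker_zero Q) j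
    obtain ⟨K₁, hK₁, h₃⟩ := G.B.Hn_clm_apply (E := E2 N) (F := E2 N) j
    refine ⟨K₁ * C₁, by positivity, fun t ht ht1 v hv => ?_⟩
    have a1 := h₃ (C₁ * t) 1 (e t) v (by positivity) zero_le_one le_rfl (hes t) hv (h₁ t ht ht1)
    calc _ ≤ _ := a1
      _ = _ := by ring
  choose Ce hCe0 hCe using he
  let Rt : ℝ → (A N → E2 N) → A N → E2 N := fun t u y =>
    UOp G.m Q.K t (w t u) y + e t y (w t u y)
  refine ⟨min t₁ Q.t₀, lt_min ht₁ Q.t₀_pos, min_le_right _ _, w, Rt,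
    fun j => Cw 0 + (CU j + Ce j) * (Cw j + Cw (j + 1)), fun j => ?_, fun t ht htt u hu => ?_⟩
  · have := hCw0 0; have := hCw0 j; have := hCw0 (j + 1); have := hCU0 j; have := hCe0 j
    positivity
  have htt₁ : t ≤ t₁ := htt.trans (min_le_left _ _)
  have ht1 : t ≤ 1 := htt₁.trans ht₁1
  have hwu := hws t u hu
  have hUs := G.UOp_sm Q.ker t hwu
  have heu : ContDiff ℝ ∞ fun y => e t y (w t u y) := (hes t).clm_apply hwu
  refine ⟨hwu, hUs.add heu, fun y hy => ?_, ?_, fun j => ?_⟩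
  · have h1 := iter_mass Q ht.ne' y
    have h2 : c t y * Φ (c t y) = 1 := hΦ1 _ (hge t ht ht1 y hy)
    have h3 : c t y • G.volL y (w t u y) = G.Pt y (u y) := by
      simp only [w, Ψ, smul_apply, ContinuousLinearMap.id_apply, map_smul,
        smul_smul, h2, one_smul]
      exact G.volL_st hy (u y)
    simp only [Rt, UOp, h1, add_apply, smul_apply]
    rw [← h3]
    simp only [c, e]
    abel
  · have h1 := hCw 0 t ht ht1 u hu
    rw [G.B.Hn_zero, G.B.Hn_zero] at h1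
    refine h1.trans (mul_le_mul_of_nonneg_right ?_ (G.B.L2_nonneg u))
    have := hCw0 0; have := hCw0 (0 + 1); have := hCU0 0; have := hCe0 0
    have : 0 ≤ (CU 0 + Ce 0) * (Cw 0 + Cw (0 + 1)) := by positivity
    linarith
  · have h0 : G.B.Hn 1 j (Rt t u) ≤ _ := G.B.Hn_add_le zero_le_one j hUs heu
    obtain ⟨h1, h2⟩ := hCU j t ht htt₁ _ hwu
    have h3 := hCe j t ht ht1 _ hwu
    have h4 := hCw j t ht ht1 u hu
    have h5 := hCw (j + 1) t ht ht1 u hu
    have h6 : G.B.Hn 1 j (w t u) ≤ G.B.Hn 1 (j + 1) (w t u) :=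
      G.B.Hn_mono_order zero_le_one (Nat.le_succ j) _
    have p1 := G.B.Hn_nonneg zero_le_one j u
    have p2 := G.B.Hn_nonneg zero_le_one (j + 1) u
    have p3 := G.B.Hn_nonneg zero_le_one j (w t u)
    have q0 := hCw0 0
    have q1 := hCw0 j
    have q2 := hCw0 (j + 1)
    have q3 := hCU0 j
    have q4 := hCe0 j
    constructor
    · calc G.B.Hn 1 j (Rt t u) ≤ CU j * G.B.Hn 1 j (w t u) + Ce j * t * G.B.Hn 1 j (w t u) := by
            linarith
        _ ≤ CU j * G.B.Hn 1 j (w t u) + Ce j * 1 * G.B.Hn 1 j (w t u) := by gcongr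
        _ = (CU j + Ce j) * G.B.Hn 1 j (w t u) := by ring
        _ ≤ (CU j + Ce j) * (Cw j * G.B.Hn 1 j u) := by gcongr
        _ = ((CU j + Ce j) * Cw j) * G.B.Hn 1 j u := by ring
        _ ≤ _ := by
          apply mul_le_mul_of_nonneg_right _ p1
          have : 0 ≤ (CU j + Ce j) * Cw (j + 1) := by positivity
          nlinarith
    · calc G.B.Hn 1 j (Rt t u)
          ≤ CU j * t * G.B.Hn 1 (j + 1) (w t u) + Ce j * t * G.B.Hn 1 j (w t u) := by linarith
        _ ≤ CU j * t * G.B.Hn 1 (j + 1) (w t u) + Ce j * t * G.B.Hn 1 (j + 1) (w t u) := by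
          gcongr
        _ = (CU j + Ce j) * t * G.B.Hn 1 (j + 1) (w t u) := by ring
        _ ≤ (CU j + Ce j) * t * (Cw (j + 1) * G.B.Hn 1 (j + 1) u) := by gcongr
        _ = ((CU j + Ce j) * Cw (j + 1)) * t * G.B.Hn 1 (j + 1) u := by ring
        _ ≤ _ := by
          apply mul_le_mul_of_nonneg_right _ p2
          apply mul_le_mul_of_nonneg_right _ ht.le
          have : 0 ≤ (CU j + Ce j) * Cw j := by positivity
          nlinarith

theorem Dual.iter {k : ℕ} (P : Dual G k) (Q : KData G) : ∃ C t₁, 0 ≤ C ∧ 0 < t₁ ∧ t₁ ≤ Q.t₀ ∧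
    ∀ t a n, 0 < t → t ≤ t₁ → 0 ≤ a → 0 ≤ n → P.Bd t n →
      (∀ w, ContDiff ℝ ∞ w → |P.φ (Op G.m Q.K t w)| ≤ a * G.B.L2 w) →
      ∀ u, ContDiff ℝ ∞ u →
        |P.φ u| ≤ C * (a * G.B.L2 u + n * t ^ (k + 1) * G.B.Hn 1 (k + 1) u) := by
  obtain ⟨t₁, ht₁, ht₁0, w, Rt, C, hC0, h⟩ := Q.exists_remainder
  set m := k + 1 with hm
  let M : ℝ := 1 + ∑ j ∈ Finset.range (m + 1), C j
  have hM1 : 1 ≤ M := by
    have := Finset.sum_nonneg (s := Finset.range (m + 1)) fun j _ => hC0 j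
    simp only [M]; linarith
  have hM0 : 0 ≤ M := zero_le_one.trans hM1
  have hCM : ∀ j, j ≤ m → C j ≤ M := by
    intro j hj
    have := Finset.single_le_sum (s := Finset.range (m + 1)) (f := C) (fun j _ => hC0 j)
      (Finset.mem_range.2 (Nat.lt_succ_of_le hj))
    simp only [M]; linarith
  refine ⟨(m + 1) * M ^ m, t₁, by positivity, ht₁, ht₁0, ?_⟩
  intro t a n ht htt ha hn hBd hφ
  have h' := h t ht htt
  have hsm : ∀ p u, ContDiff ℝ ∞ u → ContDiff ℝ ∞ ((Rt t)^[p] u) := by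
    intro p
    induction p with
    | zero => intro u hu; exact hu
    | succ p ih => intro u hu; rw [Function.iterate_succ_apply']; exact (h' _ (ih u hu)).2.1
  have hA : ∀ q j, j ≤ m → ∀ u, ContDiff ℝ ∞ u →
      G.B.Hn 1 j ((Rt t)^[q] u) ≤ M ^ q * G.B.Hn 1 j u := by
    intro q j hj u hu
    induction q with
    | zero => simp
    | succ q ih =>
      rw [Function.iterate_succ_apply']
      have h1 := ((h' _ (hsm q u hu)).2.2.2.2 j).1
      have p1 := G.B.Hn_nonneg zero_le_one j ((Rt t)^[q] u)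
      calc _ ≤ _ := h1
        _ ≤ M * G.B.Hn 1 j ((Rt t)^[q] u) := mul_le_mul_of_nonneg_right (hCM j hj) p1
        _ ≤ M * (M ^ q * G.B.Hn 1 j u) := mul_le_mul_of_nonneg_left ih hM0
        _ = _ := by ring
  have hB : ∀ p j, j + p ≤ m → ∀ u, ContDiff ℝ ∞ u →
      G.B.Hn 1 j ((Rt t)^[p] u) ≤ M ^ p * t ^ p * G.B.Hn 1 (j + p) u := by
    intro p
    induction p with
    | zero => intro j _ u _; simp
    | succ p ih =>
      intro j hj u hu
      rw [Function.iterate_succ_apply']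
      have h1 := ((h' _ (hsm p u hu)).2.2.2.2 j).2
      have h2 := ih (j + 1) (by omega) u hu
      have p1 := G.B.Hn_nonneg zero_le_one (j + 1) ((Rt t)^[p] u)
      have e : j + 1 + p = j + (p + 1) := by omega
      rw [e] at h2
      calc _ ≤ _ := h1
        _ ≤ M * t * G.B.Hn 1 (j + 1) ((Rt t)^[p] u) :=
          mul_le_mul_of_nonneg_right (mul_le_mul_of_nonneg_right (hCM j (by omega)) ht.le) p1
        _ ≤ M * t * (M ^ p * t ^ p * G.B.Hn 1 (j + (p + 1)) u) :=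
          mul_le_mul_of_nonneg_left h2 (by positivity)
        _ = _ := by ring
  have hstep : ∀ u, ContDiff ℝ ∞ u → |P.φ u| ≤ a * (M * G.B.L2 u) + |P.φ (Rt t u)| := by
    intro u hu
    obtain ⟨hw, hR, hid, hL, -⟩ := h' u hu
    have hO : ContDiff ℝ ∞ (Op G.m Q.K t (w t u)) :=
      G.Op_sm Q.ker t (G.B.integrable_cont hw.continuous)
    have e1 : P.φ u = P.φ (Op G.m Q.K t (w t u) - Rt t u) := by
      apply P.φ_congr u _ hu (hO.sub hR)
      intro x hx
      show G.Pm x (u x) = G.Pm x (Op G.m Q.K t (w t u) x - Rt t u x)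
      rw [← hid x hx, Pre.Pm_Pt hx]
    rw [e1, map_sub]
    have h1 := hφ _ hw
    have h2 : G.B.L2 (w t u) ≤ M * G.B.L2 u :=
      hL.trans (mul_le_mul_of_nonneg_right (hCM 0 (Nat.zero_le _)) (G.B.L2_nonneg u))
    have h3 := mul_le_mul_of_nonneg_left h2 ha
    have h4 := abs_sub (P.φ (Op G.m Q.K t (w t u))) (P.φ (Rt t u))
    linarith
  intro u hu
  have hL := G.B.L2_nonneg u
  have hit : ∀ p : ℕ, |P.φ u| ≤ a * (p * M ^ p * G.B.L2 u) + |P.φ ((Rt t)^[p] u)| := by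
    intro p
    induction p with
    | zero => simp
    | succ p ih =>
      rw [Function.iterate_succ_apply']
      have h1 := hstep _ (hsm p u hu)
      have h2 := hA p 0 (Nat.zero_le _) u hu
      rw [G.B.Hn_zero, G.B.Hn_zero] at h2
      have h3 : M * G.B.L2 ((Rt t)^[p] u) ≤ M ^ (p + 1) * G.B.L2 u := by
        calc _ ≤ M * (M ^ p * G.B.L2 u) := mul_le_mul_of_nonneg_left h2 hM0
          _ = _ := by ring
      have h4 : (p : ℝ) * M ^ p * G.B.L2 u ≤ p * M ^ (p + 1) * G.B.L2 u := by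
        have : M ^ p ≤ M ^ (p + 1) := pow_le_pow_right₀ hM1 (Nat.le_succ p)
        gcongr
      have h5 := mul_le_mul_of_nonneg_left h3 ha
      have h6 := mul_le_mul_of_nonneg_left h4 ha
      push_cast
      nlinarith
  have hH := G.B.Hn_nonneg zero_le_one m u
  have hfin : G.B.Hn t m ((Rt t)^[m] u) ≤ (m + 1) * M ^ m * (t ^ m * G.B.Hn 1 m u) := by
    have : ∀ i ∈ Finset.range (m + 1), t ^ i * G.B.Hs i ((Rt t)^[m] u)
        ≤ M ^ m * (t ^ m * G.B.Hn 1 m u) := by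
      intro i hi
      have hi' : i ≤ m := Nat.lt_succ_iff.1 (Finset.mem_range.1 hi)
      obtain ⟨p, hp⟩ := Nat.exists_eq_add_of_le hi'
      have h1 := G.B.Hs_le_Hn zero_le_one (le_refl i) ((Rt t)^[m] u)
      rw [one_pow, one_mul] at h1
      have h2 := hA i i hi' _ (hsm p u hu)
      have h3 := hB p i hp.ge u hu
      rw [← Function.iterate_add_apply, ← hp] at h2
      rw [← hp] at h3
      calc t ^ i * G.B.Hs i ((Rt t)^[m] u)
          ≤ t ^ i * (M ^ i * (M ^ p * t ^ p * G.B.Hn 1 m u)) := by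
            apply mul_le_mul_of_nonneg_left _ (by positivity)
            exact h1.trans (h2.trans (mul_le_mul_of_nonneg_left h3 (by positivity)))
        _ = M ^ (i + p) * (t ^ (i + p) * G.B.Hn 1 m u) := by ring
        _ = _ := by rw [← hp]
    have h1 := Finset.sum_le_card_nsmul _ _ _ this
    rw [Finset.card_range, nsmul_eq_mul] at h1
    unfold Base.Hn at h1 ⊢
    push_cast at h1
    linarith
  have h1 := hit m
  have h2 := hBd _ (hsm m u hu)
  have h3 := mul_le_mul_of_nonneg_left hfin hn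
  have h4 : a * (m * M ^ m * G.B.L2 u) ≤ a * ((m + 1) * M ^ m * G.B.L2 u) := by
    gcongr; linarith
  rw [← hm] at h2
  calc |P.φ u| ≤ a * ((m + 1) * M ^ m * G.B.L2 u)
        + n * ((m + 1) * M ^ m * (t ^ m * G.B.Hn 1 m u)) := by linarith
    _ = _ := by ring

end Crest.Agent.R240
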