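import Crest.Agent.R240.Mono

/-! Row 240: consequences of the monotonicity formula (chains of dyadic scales). -/

set_option autoImplicit false

open scoped ContDiff RealInnerProductSpace Topology
open MeasureTheory Set Filter

noncomputable section

namespace Crest.Agent.R240

variable {N k : ℕ} {G : Geo N}

theorem mono2_chain {I : ℝ → ℝ} {C ρ ρ₁ B : ℝ} (hρ : 0 < ρ)
    (step : ∀ σ, ρ ≤ σ → 2 * σ ≤ ρ₁ → I σ ≤ I (2 * σ) + C * σ * B) (m : ℕ)
    (hm : 2 ^ m * ρ ≤ ρ₁) : I ρ ≤ I (2 ^ m * ρ) + C * (2 ^ m * ρ - ρ) * B := by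
  induction m with
  | zero => simp
  | succ m ih =>
    have h1 : (1 : ℝ) ≤ 2 ^ m := one_le_pow₀ (by norm_num)
    have h2 : ρ ≤ 2 ^ m * ρ := le_mul_of_one_le_left hρ.le h1
    have e : (2 : ℝ) ^ (m + 1) * ρ = 2 * (2 ^ m * ρ) := by ring
    rw [e] at hm ⊢
    have h3 := ih (by linarith)
    have h4 := step _ h2 hm
    calc I ρ ≤ I (2 * (2 ^ m * ρ)) + C * (2 ^ m * ρ) * B + C * (2 ^ m * ρ - ρ) * B := by linarith
      _ = _ := by ring

theorem mono2_near {ρ ρ₁ : ℝ} (hρ : 0 < ρ) (h : ρ ≤ ρ₁) :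
    ∃ m : ℕ, 2 ^ m * ρ ≤ ρ₁ ∧ ρ₁ ≤ 2 * (2 ^ m * ρ) := by
  obtain ⟨m, h1, h2⟩ := exists_nat_pow_near (x := ρ₁ / ρ) (y := 2) ((one_le_div hρ).2 h)
    (by norm_num)
  rw [le_div_iff₀ hρ] at h1
  rw [div_lt_iff₀ hρ] at h2
  refine ⟨m, h1, h2.le.trans (le_of_eq (by ring))⟩

namespace Dual
variable (P : Dual G k)

theorem Bd.mono {P : Dual G k} {r ρ n : ℝ} (h : P.Bd r n) (hn : 0 ≤ n) (hr : 0 ≤ r) (hρ : r ≤ ρ) :
    P.Bd ρ n := fun u hu =>
  (h u hu).trans (mul_le_mul_of_nonneg_left (G.B.Hn_mono_scale hr hρ _ _) hn)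

theorem hgt_nonneg (x : A N) (r : ℝ) : 0 ≤ P.hgt x r := by
  refine div_nonneg (integral_nonneg_of_ae (ae_restrict_of_ae ?_)) (by positivity)
  filter_upwards [P.ae_SM] with z hz using Pre.perp2_nonneg hz _

theorem mono2_meas (r : ℝ) :
    MeasurableSet {q : (A N × A N) × A N × A N | ‖q.1.1 - q.2.1‖ ≤ r} :=
  (isClosed_le (by fun_prop) continuous_const).measurableSet

theorem mono2_integrable (r : ℝ) : Integrable
    (indicator {q : (A N × A N) × A N × A N | ‖q.1.1 - q.2.1‖ ≤ r}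
      fun q => perp2 (G.Lh q.2) (q.1.1 - q.2.1)) (P.V.prod P.V) := by
  refine Integrable.of_bound
    ((G.toPre.measurable_perp2.indicator (mono2_meas r)).aestronglyMeasurable) (r ^ 2) ?_
  have h : ∀ᵐ q ∂P.V.prod P.V, q.2 ∈ G.SM := Measure.quasiMeasurePreserving_snd.ae P.ae_SM
  filter_upwards [h] with q hq
  by_cases hm : q ∈ {q : (A N × A N) × A N × A N | ‖q.1.1 - q.2.1‖ ≤ r}
  · rw [indicator_of_mem hm, Real.norm_of_nonneg (Pre.perp2_nonneg hq _)]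
    exact (Pre.perp2_le_norm_sq _ _).trans (pow_le_pow_left₀ (norm_nonneg _) hm 2)
  · rw [indicator_of_notMem hm, norm_zero]
    positivity

theorem mono2_hgt_eq (r : ℝ) (z : A N × A N) : P.hgt z.1 r =
    (∫ z', indicator {q : (A N × A N) × A N × A N | ‖q.1.1 - q.2.1‖ ≤ r}
      (fun q => perp2 (G.Lh q.2) (q.1.1 - q.2.1)) (z, z') ∂P.V) / r ^ 4 := by
  unfold hgt
  rw [← integral_indicator (isClosed_le (by fun_prop) continuous_const).measurableSet]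
  rfl

theorem mono2_integrable_hgt (r : ℝ) : Integrable (fun z : A N × A N => P.hgt z.1 r) P.V := by
  simp only [mono2_hgt_eq]
  exact (P.mono2_integrable r).integral_prod_left.div_const _

theorem height_eq (r : ℝ) : P.height r = ∫ z, P.hgt z.1 r ∂P.V := by
  simp only [mono2_hgt_eq]
  rw [integral_div, ← integral_prod _ (P.mono2_integrable r), integral_indicator (mono2_meas r)]
  rfl

/-- Let `Θ` be the supremum of `dens x s` over `x ∈ S`, `s ≥ r` (finite by `dens_le`). For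
`s` small, `ρ = s / c ≥ r`; chain `mono_step` from `ρ` up to a scale in `(ρ₁ / 2, ρ₁]`:
`c dens x s ≤ C₁ + C ρ₁ (Θ + n)`; choose `ρ₁` with `C ρ₁ ≤ c / 2` and absorb. -/
theorem DB_of_Bd : ∃ C, 0 ≤ C ∧ ∀ r n, 0 < r → 0 ≤ n → P.Bd r n → P.DB r (C * (1 + n)) := by
  obtain ⟨I, c, C, Λ, ρ₀, hc, hc1, hC, hΛ, hρ₀, -, H⟩ := P.mono_step
  set ρ₁ := min ρ₀ (c / (2 * (C + 1))) with hρ₁
  have h1 : 0 < ρ₁ := by positivity
  have h2 : ρ₁ ≤ ρ₀ := min_le_left _ _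
  have h3 : C * ρ₁ ≤ c / 2 := by
    have a : ρ₁ ≤ c / (2 * (C + 1)) := min_le_right _ _
    rw [le_div_iff₀ (by positivity)] at a
    nlinarith
  set K := C * (1 / (ρ₁ / 2) ^ 2) / c + 1 / (c * ρ₁) ^ 2 with hK
  have hK1 : 0 ≤ C * (1 / (ρ₁ / 2) ^ 2) / c := by positivity
  have hK2 : 0 ≤ 1 / (c * ρ₁) ^ 2 := by positivity
  refine ⟨8 * K + 4, by positivity, fun r n hr hn hB => ?_⟩
  set T : Set ℝ := insert 0 {d | ∃ x ∈ G.S, ∃ s, r ≤ s ∧ d = P.dens x s} with hT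
  have hTb : BddAbove T := by
    refine ⟨1 / r ^ 2, ?_⟩
    rintro d (rfl | ⟨x, -, s, hs, rfl⟩)
    · positivity
    · refine (P.dens_le x s).trans ?_
      gcongr
  set Θ := sSup T with hΘ
  have hΘ0 : 0 ≤ Θ := le_csSup hTb (mem_insert _ _)
  have hΘ1 : ∀ x ∈ G.S, ∀ s, r ≤ s → P.dens x s ≤ Θ := fun x hx s hs =>
    le_csSup hTb (mem_insert_of_mem _ ⟨x, hx, s, hs, rfl⟩)
  have hΘ2 : Θ ≤ K + (Θ + n) / 2 := by
    refine csSup_le ⟨0, mem_insert _ _⟩ ?_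
    rintro d (rfl | ⟨x, hx, s, hs, rfl⟩)
    · positivity
    have hs0 : 0 < s := hr.trans_le hs
    by_cases hρ : s / c ≤ ρ₁
    · have a0 : 0 < s / c := by positivity
      have a1 : s ≤ s / c := le_div_self hs0.le hc hc1
      obtain ⟨m, hm1, hm2⟩ := mono2_near a0 hρ
      have a2 := mono2_chain (I := I x) (C := C) (B := Θ + n) (ρ₁ := ρ₁) a0 (fun σ b1 b2 => by
        have b0 : 0 < σ := a0.trans_le b1
        have b3 : r ≤ σ := hs.trans (a1.trans b1)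
        have b4 := (H x hx σ b0 (by linarith)).2.2 n hn (hB.mono hn hr.le b3) (by linarith)
        have b5 := hΘ1 x hx (Λ * σ) (b3.trans (le_mul_of_one_le_left b0.le hΛ))
        have b6 : 0 ≤ c * P.hgt x (c * σ) := mul_nonneg hc.le (P.hgt_nonneg _ _)
        have b7 : C * σ * (P.dens x (Λ * σ) + n) ≤ C * σ * (Θ + n) := by gcongr
        linarith) m hm1
      set σ := 2 ^ m * (s / c) with hσ
      have a3 : 0 < σ := by positivity
      have a4 := (H x hx (s / c) a0 (hρ.trans h2)).1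
      rw [mul_div_cancel₀ _ hc.ne'] at a4
      have a5 := (H x hx σ a3 (hm1.trans h2)).2.1
      have a6 : P.dens x (Λ * σ) ≤ 1 / (ρ₁ / 2) ^ 2 := by
        refine (P.dens_le _ _).trans ?_
        have : ρ₁ / 2 ≤ Λ * σ := le_trans (by linarith) (le_mul_of_one_le_left a3.le hΛ)
        gcongr
      have a7 : C * (σ - s / c) * (Θ + n) ≤ c / 2 * (Θ + n) := by
        refine mul_le_mul_of_nonneg_right (le_trans ?_ h3) (by positivity)
        exact mul_le_mul_of_nonneg_left (by linarith) hC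
      have a8 : C * P.dens x (Λ * σ) ≤ C * (1 / (ρ₁ / 2) ^ 2) := mul_le_mul_of_nonneg_left a6 hC
      have a9 : P.dens x s ≤ C * (1 / (ρ₁ / 2) ^ 2) / c + (Θ + n) / 2 := by
        refine le_of_mul_le_mul_left ?_ hc
        rw [mul_add, mul_div_cancel₀ _ hc.ne']
        linarith
      linarith
    · rw [not_le, lt_div_iff₀ hc] at hρ
      have a1 : P.dens x s ≤ 1 / (c * ρ₁) ^ 2 := by
        refine (P.dens_le _ _).trans ?_
        have : c * ρ₁ ≤ s := by linarith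
        gcongr
      have a2 : 0 ≤ (Θ + n) / 2 := by positivity
      linarith
  intro x ρ hρ
  have a1 := P.dens_le_of_S (hr.trans_le hρ) hΘ0 (fun y hy => hΘ1 y hy _ (by linarith)) x
  have hK0 : 0 ≤ K := add_nonneg hK1 hK2
  nlinarith [mul_nonneg hK0 hn]

theorem dens_le_dens {n : ℝ} (hn : 0 ≤ n) (h : ∀ r, 0 < r → P.Bd r n) :
    ∃ c C ε₀, 0 < c ∧ 0 ≤ C ∧ 0 < ε₀ ∧ ∀ x ∈ G.S, ∀ s ε, 0 < s → s ≤ c * ε → ε ≤ ε₀ →
      P.dens x s ≤ C * P.dens x ε + C * ε := by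
  obtain ⟨I, c, C, Λ, ρ₀, hc, hc1, hC, hΛ, hρ₀, -, H⟩ := P.mono_step
  obtain ⟨C₀, hC₀, hD⟩ := P.DB_of_Bd
  set Θ := C₀ * (1 + n) with hΘ
  have hΘ0 : 0 ≤ Θ := by positivity
  have hΘ1 : ∀ x s, 0 < s → P.dens x s ≤ Θ := fun x s hs => hD s n hs hn (h s hs) x s le_rfl
  have hΛ0 : 0 < Λ := by linarith
  refine ⟨c / Λ, (4 * C + C * (Θ + n)) / c, ρ₀, by positivity, by positivity, hρ₀,
    fun x hx s ε hs hsε hε => ?_⟩
  have a0 : 0 < s / c := by positivity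
  have hρ : s / c ≤ ε / Λ := by
    rw [div_le_iff₀ hc]
    exact hsε.trans (le_of_eq (by ring))
  have hε0 : 0 < ε := by
    have : 0 < ε / Λ := a0.trans_le hρ
    exact (div_pos_iff_of_pos_right hΛ0).1 this
  have h2 : ε / Λ ≤ ε := div_le_self hε0.le hΛ
  obtain ⟨m, hm1, hm2⟩ := mono2_near a0 hρ
  have a2 := mono2_chain (I := I x) (C := C) (B := Θ + n) (ρ₁ := ε / Λ) a0 (fun σ b1 b2 => by
    have b0 : 0 < σ := a0.trans_le b1
    have b4 := (H x hx σ b0 (by linarith)).2.2 n hn (h σ b0) (by linarith)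
    have b5 := hΘ1 x (Λ * σ) (by positivity)
    have b6 : 0 ≤ c * P.hgt x (c * σ) := mul_nonneg hc.le (P.hgt_nonneg _ _)
    have b7 : C * σ * (P.dens x (Λ * σ) + n) ≤ C * σ * (Θ + n) := by gcongr
    linarith) m hm1
  set σ := 2 ^ m * (s / c) with hσ
  have a3 : 0 < σ := by positivity
  have a4 := (H x hx (s / c) a0 (by linarith)).1
  rw [mul_div_cancel₀ _ hc.ne'] at a4
  have a5 := (H x hx σ a3 (by linarith)).2.1
  have a6 : P.dens x (Λ * σ) ≤ 4 * P.dens x ε := by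
    have b1 : Λ * σ ≤ ε := by
      rw [le_div_iff₀ hΛ0] at hm1
      linarith
    have b2 : ε / (Λ * σ) ≤ 2 := by
      rw [div_le_iff₀ hΛ0] at hm2
      rw [div_le_iff₀ (by positivity)]
      linarith
    refine (P.dens_le_of_subset (y := x) (ρ := ε) (by positivity) (by simpa using b1)).trans ?_
    refine mul_le_mul_of_nonneg_right ?_ (P.dens_nonneg _ _)
    calc (ε / (Λ * σ)) ^ 2 ≤ 2 ^ 2 := pow_le_pow_left₀ (by positivity) b2 2
      _ = 4 := by norm_num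
  have a7 : C * (σ - s / c) * (Θ + n) ≤ C * ε * (Θ + n) := by
    refine mul_le_mul_of_nonneg_right ?_ (by positivity)
    exact mul_le_mul_of_nonneg_left (by linarith) hC
  have a8 : C * P.dens x (Λ * σ) ≤ C * (4 * P.dens x ε) := mul_le_mul_of_nonneg_left a6 hC
  refine le_of_mul_le_mul_left ?_ hc
  rw [mul_add, ← mul_assoc, ← mul_assoc, mul_div_cancel₀ _ hc.ne']
  have a9 : 0 ≤ C * (Θ + n) * P.dens x ε := mul_nonneg (by positivity) (P.dens_nonneg _ _)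
  have a10 : 0 ≤ C * ε := by positivity
  nlinarith

/-- the partial sums of `hgt x (c ρ₀ / 2^j)` are bounded uniformly in `x ∈ S` (telescoping) -/
theorem height_tendsto {n : ℝ} (hn : 0 ≤ n) (h : ∀ r, 0 < r → P.Bd r n) :
    ∃ r₀, 0 < r₀ ∧ Tendsto (fun j : ℕ => P.height (r₀ / 2 ^ j)) atTop (𝓝 0) := by
  obtain ⟨I, c, C, Λ, ρ₀, hc, hc1, hC, hΛ, hρ₀, -, H⟩ := P.mono_step
  obtain ⟨C₀, hC₀, hD⟩ := P.DB_of_Bd
  set Θ := C₀ * (1 + n) with hΘ
  have hΘ0 : 0 ≤ Θ := by positivity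
  have hΘ1 : ∀ x s, 0 < s → P.dens x s ≤ Θ := fun x s hs => hD s n hs hn (h s hs) x s le_rfl
  have hΛ0 : 0 < Λ := by linarith
  refine ⟨c * ρ₀ / 2, by positivity, ?_⟩
  have key : ∀ x ∈ G.S, ∀ m : ℕ, I x (ρ₀ / 2 ^ m) +
      c * ∑ j ∈ Finset.range m, P.hgt x (c * ρ₀ / 2 / 2 ^ j) ≤
      I x ρ₀ + C * (ρ₀ - ρ₀ / 2 ^ m) * (Θ + n) := by
    intro x hx m
    induction m with
    | zero => simp
    | succ m ih =>
      have b0 : 0 < ρ₀ / 2 ^ (m + 1) := by positivity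
      have e1 : 2 * (ρ₀ / 2 ^ (m + 1)) = ρ₀ / 2 ^ m := by ring
      have e2 : c * (ρ₀ / 2 ^ (m + 1)) = c * ρ₀ / 2 / 2 ^ m := by ring
      have b1 : ρ₀ / 2 ^ m ≤ ρ₀ := div_le_self hρ₀.le (one_le_pow₀ (by norm_num))
      have b4 := (H x hx _ b0 (by linarith)).2.2 n hn (h _ b0) (by linarith)
      have b5 := hΘ1 x (Λ * (ρ₀ / 2 ^ (m + 1))) (by positivity)
      have b7 : C * (ρ₀ / 2 ^ (m + 1)) * (P.dens x (Λ * (ρ₀ / 2 ^ (m + 1))) + n) ≤
          C * (ρ₀ / 2 ^ (m + 1)) * (Θ + n) := by gcongr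
      rw [e1, e2] at b4
      rw [Finset.sum_range_succ, mul_add]
      have e3 : C * (ρ₀ - ρ₀ / 2 ^ (m + 1)) * (Θ + n) =
          C * (ρ₀ - ρ₀ / 2 ^ m) * (Θ + n) + C * (ρ₀ / 2 ^ (m + 1)) * (Θ + n) := by
        rw [← e1]
        ring
      rw [e3]
      linarith
  have key2 : ∀ x ∈ G.S, ∀ m : ℕ, ∑ j ∈ Finset.range m, P.hgt x (c * ρ₀ / 2 / 2 ^ j) ≤
      (C * Θ + C * ρ₀ * (Θ + n)) / c := by
    intro x hx m
    have b0 : 0 < ρ₀ / 2 ^ m := by positivity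
    have b1 : ρ₀ / 2 ^ m ≤ ρ₀ := div_le_self hρ₀.le (one_le_pow₀ (by norm_num))
    have a1 := key x hx m
    have a2 := (H x hx _ b0 b1).1
    have a3 : 0 ≤ c * P.dens x (c * (ρ₀ / 2 ^ m)) := mul_nonneg hc.le (P.dens_nonneg _ _)
    have a4 := (H x hx ρ₀ hρ₀ le_rfl).2.1
    have a5 : C * P.dens x (Λ * ρ₀) ≤ C * Θ :=
      mul_le_mul_of_nonneg_left (hΘ1 x _ (by positivity)) hC
    have a6 : C * (ρ₀ - ρ₀ / 2 ^ m) * (Θ + n) ≤ C * ρ₀ * (Θ + n) := by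
      refine mul_le_mul_of_nonneg_right ?_ (by positivity)
      exact mul_le_mul_of_nonneg_left (by linarith) hC
    rw [le_div_iff₀ hc, mul_comm]
    linarith
  refine Summable.tendsto_atTop_zero (summable_of_sum_range_le
    (c := (C * Θ + C * ρ₀ * (Θ + n)) / c) (fun j => P.height_nonneg _) fun m => ?_)
  simp only [height_eq]
  rw [← integral_finsetSum _ fun j _ => P.mono2_integrable_hgt _]
  calc _ ≤ ∫ _z, (C * Θ + C * ρ₀ * (Θ + n)) / c ∂P.V := by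
        refine integral_mono_ae (integrable_finsetSum _ fun j _ => P.mono2_integrable_hgt _)
          (integrable_const _) ?_
        filter_upwards [P.ae_SM] with z hz using key2 z.1 hz.1 m
    _ = _ := by simp

end Dual

end Crest.Agent.R240
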