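import Crest.Agent.R240.Energy2
import Crest.Agent.R240.Mono2
import Crest.Agent.R240.Iter

/-! Row 240: bootstrap, `φ` is bounded on `L²`. -/

set_option autoImplicit false

open scoped ContDiff RealInnerProductSpace Topology
open MeasureTheory Set Filter

noncomputable section

namespace Crest.Agent.R240

variable {N k : ℕ} {G : Geo N}

namespace Dual
variable (P : Dual G k) (Q : KData G)

theorem Bd.mono_right {P : Dual G k} {r n n' : ℝ} (h : P.Bd r n) (hr : 0 ≤ r) (hn : n ≤ n') :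
    P.Bd r n' := fun u hu =>
  (h u hu).trans (mul_le_mul_of_nonneg_right hn (G.B.Hn_nonneg hr _ _))

theorem Bd_init : ∃ C₀, 0 ≤ C₀ ∧ ∀ t, 0 < t → t ≤ 1 → P.Bd t (C₀ * t⁻¹ ^ k) := by
  obtain ⟨C, hC⟩ := P.φ_bd
  refine ⟨|C|, abs_nonneg _, fun t ht ht1 u hu => ?_⟩
  have h1 := G.B.Hn_one_le ht ht1 k u
  have h2 := G.B.Hn_mono_order ht.le (Nat.le_succ k) u
  have h3 : 0 ≤ G.B.Hn 1 k u := G.B.Hn_nonneg zero_le_one _ _
  have h4 : G.B.Hn 1 k u ≤ t⁻¹ ^ k * G.B.Hn t (k + 1) u := by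
    have htk : 0 < t ^ k := pow_pos ht k
    rw [inv_pow, ← div_eq_inv_mul, le_div_iff₀ htk]
    linarith
  calc |P.φ u| ≤ C * G.B.Hn 1 k u := hC u hu
    _ ≤ |C| * G.B.Hn 1 k u := mul_le_mul_of_nonneg_right (le_abs_self C) h3
    _ ≤ |C| * (t⁻¹ ^ k * G.B.Hn t (k + 1) u) := mul_le_mul_of_nonneg_left h4 (abs_nonneg _)
    _ = _ := by ring

theorem IsPhi.bound {P : Dual G k} {Q : KData G} {t : ℝ} {g : A N → E2 N} (h : P.IsPhi Q t g)
    (w : A N → E2 N) (hw : ContDiff ℝ ∞ w) : |P.φ (Op G.m Q.K t w)| ≤ G.B.L2 g * G.B.L2 w := by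
  have hw2 : MemLp w 2 G.B.m := G.B.memLp_cont hw.continuous 2
  rw [h.2 w hw2]
  exact G.B.abs_integral_inner_le h.1 hw2

theorem L2_phi_le : ∃ C, 0 ≤ C ∧ ∀ η, 0 < η → ∃ C', 0 ≤ C' ∧ ∀ t n g, 0 < t → t ≤ Q.t₀ → 0 ≤ n →
    P.Bd t n → P.IsPhi Q t g → G.B.L2 g ≤ C' + (η + C * t) * n := by
  obtain ⟨c, CA, hc, -, hCA, hA⟩ := P.energyA Q
  obtain ⟨CD, hCD, hD⟩ := P.DB_of_Bd
  refine ⟨√CA, Real.sqrt_nonneg _, fun η hη => ?_⟩
  set Kc := (CA + CA ^ 2 / (2 * η ^ 2)) * CD with hKc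
  have hK0 : 0 ≤ Kc := by positivity
  refine ⟨√(Kc + Kc ^ 2 / (2 * η ^ 2)), Real.sqrt_nonneg _, fun t n g ht ht0 hn hB hg => ?_⟩
  have hΘ : 0 ≤ CD * (1 + n) := by positivity
  have h1 := hA t n _ g ht ht0 hn hΘ hB (hD t n ht hn hB) hg
  have h2 := P.tilt_nonneg (c * t)
  set s := √(CD * (1 + n)) with hs
  have hs2 : s ^ 2 = CD * (1 + n) := Real.sq_sqrt hΘ
  set C' := √(Kc + Kc ^ 2 / (2 * η ^ 2)) with hC'
  have hC2 : C' ^ 2 = Kc + Kc ^ 2 / (2 * η ^ 2) := Real.sq_sqrt (by positivity)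
  have hC0 : 0 ≤ C' := Real.sqrt_nonneg _
  have hq : √CA ^ 2 = CA := Real.sq_sqrt hCA
  have hq0 : 0 ≤ √CA := Real.sqrt_nonneg _
  have hη2 : 0 < η ^ 2 := by positivity
  have e1 : CA * (n * s) ≤ η ^ 2 * n ^ 2 / 2 + CA ^ 2 / (2 * η ^ 2) * s ^ 2 := by
    have : 0 ≤ (η ^ 2 * n - CA * s) ^ 2 / (2 * η ^ 2) := by positivity
    have e : (η ^ 2 * n - CA * s) ^ 2 / (2 * η ^ 2)
        = η ^ 2 * n ^ 2 / 2 + CA ^ 2 / (2 * η ^ 2) * s ^ 2 - CA * (n * s) := by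
      field_simp
      ring
    linarith
  have e2 : Kc * n ≤ η ^ 2 * n ^ 2 / 2 + Kc ^ 2 / (2 * η ^ 2) := by
    have : 0 ≤ (η ^ 2 * n - Kc) ^ 2 / (2 * η ^ 2) := by positivity
    have e : (η ^ 2 * n - Kc) ^ 2 / (2 * η ^ 2)
        = η ^ 2 * n ^ 2 / 2 + Kc ^ 2 / (2 * η ^ 2) - Kc * n := by
      field_simp
      ring
    linarith
  have e3 : G.B.L2 g ^ 2 ≤ C' ^ 2 + (η * n) ^ 2 + (√CA * t * n) ^ 2 := by
    have e4 : (√CA * t * n) ^ 2 = CA * (t * n) ^ 2 := by rw [mul_assoc, mul_pow, hq]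
    have e5 : CA * (CD * (1 + n)) + CA ^ 2 / (2 * η ^ 2) * s ^ 2 = Kc + Kc * n := by
      rw [hs2, hKc]; ring
    rw [e4, hC2]
    nlinarith
  have a0 : 0 ≤ η * n := by positivity
  have a1 : 0 ≤ √CA * t * n := by positivity
  have e6 : G.B.L2 g ^ 2 ≤ (C' + (η + √CA * t) * n) ^ 2 := by
    have : (C' + (η + √CA * t) * n) ^ 2 = C' ^ 2 + (η * n) ^ 2 + (√CA * t * n) ^ 2
        + 2 * (C' * (η * n) + C' * (√CA * t * n) + η * n * (√CA * t * n)) := by ring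
    rw [this]
    have : 0 ≤ C' * (η * n) + C' * (√CA * t * n) + η * n * (√CA * t * n) := by positivity
    linarith
  exact (pow_le_pow_iff_left₀ (G.B.L2_nonneg g) (by positivity) two_ne_zero).1 e6

include Q in
theorem boot_step : ∃ M C₁ s₀, 1 ≤ M ∧ 0 ≤ C₁ ∧ 0 < s₀ ∧ s₀ ≤ 1 ∧ ∀ s n, 0 < s → s ≤ s₀ → 0 ≤ n →
    P.Bd (s / M) n → P.Bd s (C₁ + M⁻¹ ^ k / 2 * n) := by
  obtain ⟨CI, tI, hCI, htI, htI0, hI⟩ := P.iter Q
  obtain ⟨C, hC, hL⟩ := P.L2_phi_le Q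
  set M := 4 * CI + 1 with hM
  have hM1 : 1 ≤ M := by linarith
  have hM0 : 0 < M := by linarith
  set q := M⁻¹ ^ k / 2 with hq
  have hq0 : 0 < q := by positivity
  obtain ⟨C', hC', hL'⟩ := hL (q / (4 * (CI + 1))) (by positivity)
  refine ⟨M, CI * C', min 1 (min tI (q / (4 * (CI + 1) * (C + 1)))), hM1, by positivity,
    by positivity, min_le_left _ _, fun s n hs hs0 hn hB u hu => ?_⟩
  have hs1 : s ≤ 1 := hs0.trans (min_le_left _ _)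
  have hsI : s ≤ tI := hs0.trans ((min_le_right _ _).trans (min_le_left _ _))
  have hsq : s ≤ q / (4 * (CI + 1) * (C + 1)) :=
    hs0.trans ((min_le_right _ _).trans (min_le_right _ _))
  have ht : 0 < s / M := by positivity
  have hts : s / M ≤ s := div_le_self hs.le hM1
  obtain ⟨g, hg⟩ := P.exists_isPhi Q ht (hts.trans hs1)
  have h1 := hL' _ n g ht ((hts.trans hsI).trans htI0) hn hB hg
  have h2 := hI _ _ n ht (hts.trans hsI) (G.B.L2_nonneg g) hn hB hg.bound u hu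
  have h3 := G.B.Hn_one_le hs hs1 (k + 1) u
  have h4 := G.B.L2_le_Hn hs.le (k + 1) u
  have h5 := G.B.L2_nonneg u
  set H := G.B.Hn s (k + 1) u with hH
  have hH0 : 0 ≤ H := h5.trans h4
  have h6 : (s / M) ^ (k + 1) * G.B.Hn 1 (k + 1) u ≤ M⁻¹ ^ (k + 1) * H := by
    rw [div_eq_mul_inv, mul_pow, mul_comm (s ^ (k + 1)), mul_assoc]
    exact mul_le_mul_of_nonneg_left h3 (by positivity)
  have h7 : CI * M⁻¹ ^ (k + 1) ≤ q / 2 := by
    have : CI * M⁻¹ ≤ 1 / 4 := by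
      rw [← div_eq_mul_inv, div_le_iff₀ hM0]; linarith
    calc CI * M⁻¹ ^ (k + 1) = CI * M⁻¹ * M⁻¹ ^ k := by ring
      _ ≤ 1 / 4 * M⁻¹ ^ k := mul_le_mul_of_nonneg_right this (by positivity)
      _ = q / 2 := by rw [hq]; ring
  have h8 : CI * (q / (4 * (CI + 1))) ≤ q / 4 := by
    rw [← mul_div_assoc, div_le_div_iff₀ (by positivity) (by positivity)]
    nlinarith
  have h9 : CI * (C * (s / M)) ≤ q / 4 := by
    have e1 : s * (4 * (CI + 1) * (C + 1)) ≤ q := (le_div_iff₀ (by positivity)).1 hsq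
    have e2 : CI * (C * (s / M)) ≤ (CI + 1) * ((C + 1) * s) := by
      gcongr <;> linarith
    nlinarith
  have h10 : CI * G.B.L2 g ≤ CI * C' + q / 2 * n := by
    have := mul_le_mul_of_nonneg_left h1 hCI
    have e : CI * ((q / (4 * (CI + 1)) + C * (s / M)) * n) ≤ q / 2 * n := by
      rw [← mul_assoc]
      refine mul_le_mul_of_nonneg_right ?_ hn
      rw [mul_add]; linarith
    nlinarith
  calc |P.φ u| ≤ CI * (G.B.L2 g * G.B.L2 u + n * (s / M) ^ (k + 1) * G.B.Hn 1 (k + 1) u) := h2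
    _ = CI * G.B.L2 g * G.B.L2 u + CI * n * ((s / M) ^ (k + 1) * G.B.Hn 1 (k + 1) u) := by ring
    _ ≤ (CI * C' + q / 2 * n) * H + CI * n * (M⁻¹ ^ (k + 1) * H) := by
      gcongr
    _ = (CI * C' + q / 2 * n) * H + CI * M⁻¹ ^ (k + 1) * (n * H) := by ring
    _ ≤ (CI * C' + q / 2 * n) * H + q / 2 * (n * H) := by gcongr
    _ = (CI * C' + q * n) * H := by ring

include Q in
theorem boot : ∃ n, 0 ≤ n ∧ ∀ u, ContDiff ℝ ∞ u → |P.φ u| ≤ n * G.B.L2 u := by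
  obtain ⟨C₀, hC₀, h0⟩ := P.Bd_init
  obtain ⟨M, C₁, s₀, hM, hC₁, hs₀, hs₁, hstep⟩ := P.boot_step Q
  have hM0 : 0 < M := by linarith
  have key : ∀ j : ℕ, ∀ s, 0 < s → s ≤ s₀ → P.Bd s (2 * C₁ + (1 / 2) ^ j * (C₀ * s⁻¹ ^ k)) := by
    intro j
    induction j with
    | zero =>
      intro s hs hss
      exact (h0 s hs (hss.trans hs₁)).mono_right hs.le (by simp; positivity)
    | succ j ih =>
      intro s hs hss
      have ht : 0 < s / M := by positivity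
      have h1 := ih (s / M) ht ((div_le_self hs.le hM).trans hss)
      refine (hstep s _ hs hss (by positivity) h1).mono_right hs.le ?_
      have e1 : M⁻¹ ^ k ≤ 1 := pow_le_one₀ (by positivity) (inv_le_one_of_one_le₀ hM)
      have e2 : M⁻¹ ^ k * (s / M)⁻¹ ^ k = s⁻¹ ^ k := by
        rw [← mul_pow]; congr 1; field_simp
      have e3 : M⁻¹ ^ k / 2 * (2 * C₁ + (1 / 2) ^ j * (C₀ * (s / M)⁻¹ ^ k))
          = M⁻¹ ^ k * C₁ + (1 / 2) ^ (j + 1) * (C₀ * (M⁻¹ ^ k * (s / M)⁻¹ ^ k)) := by ring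
      rw [e3, e2]
      nlinarith
  refine ⟨2 * C₁, by positivity, fun u hu => ?_⟩
  have h1 : ∀ s, 0 < s → s ≤ s₀ → |P.φ u| ≤ 2 * C₁ * G.B.Hn s (k + 1) u := by
    intro s hs hss
    have ht : Tendsto (fun j : ℕ => (2 * C₁ + (1 / 2 : ℝ) ^ j * (C₀ * s⁻¹ ^ k)) *
        G.B.Hn s (k + 1) u) atTop (𝓝 ((2 * C₁ + 0 * (C₀ * s⁻¹ ^ k)) * G.B.Hn s (k + 1) u)) :=
      ((((tendsto_pow_atTop_nhds_zero_of_lt_one (by norm_num) (by norm_num)).mul_const _).const_add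
        _).mul_const _)
    have := ge_of_tendsto' ht fun j => key j s hs hss u hu
    simpa using this
  have ht : Tendsto (fun s => 2 * C₁ * G.B.Hn s (k + 1) u) (𝓝[>] 0) (𝓝 (2 * C₁ * G.B.L2 u)) :=
    ((G.B.Hn_tendsto (k + 1) u).const_mul _).mono_left nhdsWithin_le_nhds
  refine ge_of_tendsto ht ?_
  filter_upwards [Ioc_mem_nhdsGT hs₀] with s hs using h1 s hs.1 hs.2

end Dual

end Crest.Agent.R240
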