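import Crest.Agent.R240.ChartA

/-! Row 240: local geometry of `S`, normalised charts, atlases. -/

set_option autoImplicit false

open scoped ContDiff RealInnerProductSpace Topology
open MeasureTheory Set Filter

noncomputable section

namespace Crest.Agent.R240

variable {N : ℕ}

namespace Pre.RawChart
variable {X : Pre N} (c : X.RawChart)

theorem chart_diff (p : A 4) : HasFDerivAt c.ψ (fderiv ℝ c.ψ p) p :=
  (c.ψ_sm.differentiable (by simp) p).hasFDerivAt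

theorem chart_fderiv_comp (M : A 4 →L[ℝ] A 4) (q : A 4) :
    fderiv ℝ (fun q => c.ψ (M q)) q = fderiv ℝ c.ψ (M q) ∘L M :=
  ((c.chart_diff (M q)).comp q M.hasFDerivAt).fderiv

/-- linear change of coordinates -/
def chart_reparam (M M' : A 4 →L[ℝ] A 4) (h : ∀ a, M' (M a) = a) (h' : ∀ a, M (M' a) = a) :
    X.RawChart where
  ψ q := c.ψ (M' q)
  pr := M ∘L c.pr
  U := M' ⁻¹' c.U
  W := c.W
  U_open := c.U_open.preimage M'.continuous
  W_open := c.W_open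
  ψ_sm := c.ψ_sm.comp M'.contDiff
  pr_mem x hx hW := by simpa [h] using c.pr_mem x hx hW
  ψ_pr x hx hW := by simpa [h] using c.ψ_pr x hx hW
  ψ_S p hp := c.ψ_S _ hp
  ψ_W p hp := c.ψ_W _ hp
  pr_ψ p hp := by simp [c.pr_ψ _ hp, h']
  π_dψ p hp a := by simp [chart_fderiv_comp, c.π_dψ _ hp]
  dψ_pr p hp v := by simp [chart_fderiv_comp, h, c.dψ_pr _ hp]

/-- restriction to the set where the density is positive -/
def chart_pos : X.Chart where
  ψ := c.ψ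
  pr := c.pr
  U := c.U ∩ {p | 0 < c.pf p}
  W := c.W ∩ {y | 0 < c.pf (c.pr y)}
  U_open := c.U_open.inter (isOpen_lt continuous_const c.pf_sm.continuous)
  W_open := c.W_open.inter (isOpen_lt continuous_const (c.pf_sm.continuous.comp c.pr.continuous))
  ψ_sm := c.ψ_sm
  pr_mem x hx hW := ⟨c.pr_mem x hx hW.1, hW.2⟩
  ψ_pr x hx hW := c.ψ_pr x hx hW.1
  ψ_S p hp := c.ψ_S p hp.1
  ψ_W p hp := ⟨c.ψ_W p hp.1, by simpa [c.pr_ψ p hp.1] using hp.2⟩
  pr_ψ p hp := c.pr_ψ p hp.1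
  π_dψ p hp := c.π_dψ p hp.1
  dψ_pr p hp := c.dψ_pr p hp.1
  pf_pos _ hp := hp.2

theorem chart_taylor (p : A 4) (r : ℝ) : ∃ K, 0 ≤ K ∧ ∀ a ∈ Metric.closedBall p r,
    ∀ b ∈ Metric.closedBall p r, ‖c.ψ b - c.ψ a - fderiv ℝ c.ψ a (b - a)‖ ≤ K * ‖b - a‖ ^ 2 := by
  have h1 : ContDiff ℝ 1 (fderiv ℝ c.ψ) := c.ψ_sm.fderiv_right (by norm_cast)
  obtain ⟨K, hK⟩ := h1.contDiffOn.exists_lipschitzOnWith one_ne_zero (convex_closedBall p r)
    (isCompact_closedBall p r)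
  refine ⟨K, K.2, fun a ha b hb => ?_⟩
  rw [sq, ← mul_assoc]
  refine Convex.norm_image_sub_le_of_norm_fderiv_le'
    (s := Metric.closedBall p r ∩ Metric.closedBall a ‖b - a‖)
    (fun q _ => (c.chart_diff q).differentiableAt) (fun q hq => ?_)
    ((convex_closedBall _ _).inter (convex_closedBall _ _))
    ⟨ha, Metric.mem_closedBall_self (norm_nonneg _)⟩ ⟨hb, mem_closedBall_iff_norm.mpr le_rfl⟩
  exact (hK.norm_sub_le hq.1 ha).trans
    (mul_le_mul_of_nonneg_left (mem_closedBall_iff_norm.mp hq.2) K.2)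

end Pre.RawChart

namespace Sub
variable (X : Sub N)

theorem chart_point {x : A N} (hx : x ∈ X.S) : ∃ c : X.RawChart, ∃ p ∈ c.U, c.ψ p = x :=
  let ⟨c, hc⟩ := X.chart x hx; ⟨c, _, c.pr_mem x hx hc, c.ψ_pr x hx hc⟩

theorem tangent {x : A N} (hx : x ∈ X.S) (v : A N) : X.π x v ∈ tangentConeAt ℝ X.S x := by
  obtain ⟨c, p, hp, rfl⟩ := X.chart_point hx
  rw [← c.dψ_pr p hp]
  refine tangentConeAt_mono (s := c.ψ '' c.U) (image_subset_iff.mpr c.ψ_S)
    ((c.chart_diff p).hasFDerivWithinAt.mapsTo_tangent_cone ?_)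
  rw [tangentConeAt_of_mem_nhds (c.U_open.mem_nhds hp)]
  trivial

theorem chart_fderiv_eq_zero {E : Type} [NormedAddCommGroup E] [NormedSpace ℝ E] {u : A N → E}
    {x : A N} (hx : x ∈ X.S) (hu : DifferentiableAt ℝ u x) (h : ∀ᶠ y in 𝓝 x, y ∈ X.S → u y = 0)
    (v : A N) : fderiv ℝ u x (X.π x v) = 0 := by
  obtain ⟨c, p, hp, rfl⟩ := X.chart_point hx
  have h1 : (fun q => u (c.ψ q)) =ᶠ[𝓝 p] fun _ => 0 := by
    filter_upwards [c.U_open.mem_nhds hp, (c.chart_diff p).continuousAt.eventually h] with q hq h2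
    exact h2 (c.ψ_S q hq)
  have h2 := (hu.hasFDerivAt.comp p (c.chart_diff p)).unique
    ((hasFDerivAt_const 0 p).congr_of_eventuallyEq h1)
  rw [← c.dψ_pr p hp]
  exact DFunLike.congr_fun h2 _

/-- `π` and `J` are Lipschitz on `S` (smooth on a large ball) -/
theorem lipschitz : ∃ C, 0 ≤ C ∧ ∀ x ∈ X.S, ∀ y ∈ X.S,
    ‖X.π y - X.π x‖ ≤ C * ‖y - x‖ ∧ ‖X.J y - X.J x‖ ≤ C * ‖y - x‖ := by
  obtain ⟨K, hK⟩ := LocallyLipschitzOn.exists_lipschitzOnWith_of_compact X.cpt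
    (X.π_sm.of_le (by norm_cast)).locallyLipschitz.locallyLipschitzOn
  obtain ⟨K', hK'⟩ := LocallyLipschitzOn.exists_lipschitzOnWith_of_compact X.cpt
    (X.J_sm.of_le (by norm_cast)).locallyLipschitz.locallyLipschitzOn
  refine ⟨K + K', by positivity, fun x hx y hy => ?_⟩
  have h1 : 0 ≤ K * ‖y - x‖ := by positivity
  have h2 : 0 ≤ K' * ‖y - x‖ := by positivity
  constructor
  · linarith [hK.norm_sub_le hy hx]
  · linarith [hK'.norm_sub_le hy hx]

/-- Normalised positive charts: compose a raw chart with the linear isomorphism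
`M = F.L ∘ dψ` (new `ψ = ψ ∘ M⁻¹`, new `pr = M ∘ pr`), so that `pf = 1` at the centre, and shrink
`U`, `W` to keep `pf > 0` (`W ∩ (pf ∘ pr)⁻¹ (0, ∞)`, `U ∩ pf⁻¹ (0, ∞)`). -/
theorem exists_chart {x : A N} (hx : x ∈ X.S) : ∃ (c : X.Chart) (F : X.Frame x), x ∈ c.W ∧
    fderiv ℝ c.ψ (c.pr x) = F.B ∧ ∀ v, c.pr (X.π x v) = F.L v := by
  obtain ⟨F⟩ := X.exists_frame hx
  obtain ⟨c, p, hp, rfl⟩ := X.chart_point hx
  have hB : ∀ a, fderiv ℝ c.ψ p (c.pr (F.B a)) = F.B a := fun a => by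
    rw [← F.πB, c.dψ_pr p hp]
  have h : ∀ a, (c.pr ∘L F.B) ((F.L ∘L fderiv ℝ c.ψ p) a) = a := fun a => by
    simp only [ContinuousLinearMap.comp_apply, F.BL, c.π_dψ p hp, c.pr_dψ hp]
  have h' : ∀ a, (F.L ∘L fderiv ℝ c.ψ p) ((c.pr ∘L F.B) a) = a := fun a => by
    simp only [ContinuousLinearMap.comp_apply, hB, F.LB]
  let c' := c.chart_reparam _ _ h h'
  have e0 : (c.pr ∘L F.B) (c'.pr (c.ψ p)) = p := (h _).trans (c.pr_ψ p hp)
  have e1 : fderiv ℝ c'.ψ (c'.pr (c.ψ p)) = F.B := by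
    refine (c.chart_fderiv_comp _ _).trans ?_
    rw [e0]
    exact ContinuousLinearMap.ext hB
  refine ⟨c'.chart_pos, F, ⟨c.ψ_W p hp, ?_⟩, e1, fun v => ?_⟩
  · show 0 < c'.pf (c'.pr (c.ψ p))
    rw [Pre.RawChart.pf, e1, c'.ψ_pr _ hx (c.ψ_W p hp), F.Vol_eq hx]
    simp only [F.LB, det4_eb, one_pos]
  · show F.L (fderiv ℝ c.ψ p (c.pr (X.π (c.ψ p) v))) = F.L v
    rw [c.dψ_pr p hp, F.L_π]

/-- A finite family of charts with closed balls, and a Lebesgue number `δ`: every point `x` of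
`S` has a chart `i` with `pr x` in the half ball, all points of `S` within `δ` of `x` lying in `W`
and in the image of the ball. -/
theorem exists_atlas : ∃ (n : ℕ) (c : Fin n → X.Chart) (p : Fin n → A 4) (r : Fin n → ℝ) (δ : ℝ),
    0 < δ ∧ (∀ i, 0 < r i) ∧ (∀ i, Metric.closedBall (p i) (r i) ⊆ (c i).U) ∧
      ∀ x ∈ X.S, ∃ i, (c i).pr x ∈ Metric.closedBall (p i) (r i / 2) ∧
        ∀ y ∈ X.S, ‖y - x‖ ≤ δ → y ∈ (c i).W ∧ (c i).pr y ∈ Metric.closedBall (p i) (r i) := by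
  choose c F hc _ using fun x : X.S => X.exists_chart x.2
  choose r hr hU using fun x : X.S =>
    Metric.nhds_basis_closedBall.mem_iff.mp ((c x).U_open.mem_nhds ((c x).pr_mem x x.2 (hc x)))
  let O : X.S → Set (A N) := fun x => (c x).W ∩ (c x).pr ⁻¹' Metric.ball ((c x).pr x) (r x / 2)
  have hO : ∀ x, IsOpen (O x) := fun x =>
    (c x).W_open.inter (Metric.isOpen_ball.preimage (c x).pr.continuous)
  obtain ⟨t, ht⟩ := X.cpt.elim_finite_subcover O hO fun x hx =>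
    mem_iUnion.mpr ⟨⟨x, hx⟩, hc _, Metric.mem_ball_self (half_pos (hr _))⟩
  let e : Fin t.card → X.S := fun i => t.equivFin.symm i
  obtain ⟨δ, hδ, h⟩ := lebesgue_number_lemma_of_metric X.cpt (fun i => hO (e i)) fun x hx => by
    obtain ⟨z, hz, hx'⟩ := mem_iUnion₂.mp (ht hx)
    exact mem_iUnion.mpr ⟨t.equivFin ⟨z, hz⟩, by simpa [e] using hx'⟩
  refine ⟨t.card, fun i => c (e i), fun i => (c (e i)).pr (e i), fun i => r (e i), δ / 2,
    half_pos hδ, fun i => hr _, fun i => hU _, fun x hx => ?_⟩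
  obtain ⟨i, hi⟩ := h x hx
  refine ⟨i, Metric.ball_subset_closedBall (hi (Metric.mem_ball_self hδ)).2, fun y _ hy => ?_⟩
  have := hi (mem_ball_iff_norm.mpr (hy.trans_lt (half_lt_self hδ)))
  exact ⟨this.1, Metric.closedBall_subset_closedBall (half_le_self (hr _).le)
    (Metric.ball_subset_closedBall this.2)⟩

/-- chords of `S` are tangent up to second order (locally by Taylor's formula for `ψ` on a
closed ball, globally by a Lebesgue number argument) -/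
theorem quad : ∃ C, 0 ≤ C ∧ ∀ x ∈ X.S, ∀ y ∈ X.S, ‖(y - x) - X.π x (y - x)‖ ≤ C * ‖y - x‖ ^ 2 := by
  obtain ⟨n, c, p, r, δ, hδ, -, hU, h⟩ := X.exists_atlas
  obtain ⟨B, hB, hπ⟩ := X.exists_bound
  choose K hK0 hK using fun i => (c i).chart_taylor (p i) (r i)
  have h0 : ∀ i, 0 ≤ K i * ‖(c i).pr‖ ^ 2 := fun i => mul_nonneg (hK0 i) (sq_nonneg _)
  have hs : 0 ≤ ∑ i, K i * ‖(c i).pr‖ ^ 2 := Finset.sum_nonneg fun i _ => h0 i
  refine ⟨(1 + B) * (∑ i, K i * ‖(c i).pr‖ ^ 2 + 1 / δ), by positivity, fun x hx y hy => ?_⟩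
  have h1 : ∀ w, ‖w - X.π x w‖ ≤ (1 + B) * ‖w‖ := fun w => by
    linarith [norm_sub_le w (X.π x w), (X.π x).le_of_opNorm_le (hπ x hx).1 w]
  rw [mul_assoc]
  rcases le_total ‖y - x‖ δ with hd | hd
  · obtain ⟨i, -, hi⟩ := h x hx
    obtain ⟨x1, x2⟩ := hi x hx (by simpa using hδ.le)
    obtain ⟨y1, y2⟩ := hi y hy hd
    have h2 := hK i _ x2 _ y2
    have h3 := (c i).π_dψ _ (hU i x2) ((c i).pr y - (c i).pr x)
    rw [(c i).ψ_pr x hx x1] at h2 h3
    rw [(c i).ψ_pr y hy y1] at h2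
    have h4 := h1 (y - x - fderiv ℝ (c i).ψ ((c i).pr x) ((c i).pr y - (c i).pr x))
    rw [map_sub (X.π x), h3, sub_sub_sub_cancel_right] at h4
    refine h4.trans (mul_le_mul_of_nonneg_left (h2.trans ?_) (by linarith))
    have h5 : ‖(c i).pr y - (c i).pr x‖ ^ 2 ≤ ‖(c i).pr‖ ^ 2 * ‖y - x‖ ^ 2 := by
      rw [← map_sub, ← mul_pow]
      exact pow_le_pow_left₀ (norm_nonneg _) ((c i).pr.le_opNorm _) 2
    refine (mul_le_mul_of_nonneg_left h5 (hK0 i)).trans ?_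
    rw [← mul_assoc]
    exact mul_le_mul_of_nonneg_right (le_add_of_le_of_nonneg
      (Finset.single_le_sum (fun i _ => h0 i) (Finset.mem_univ i)) (by positivity)) (sq_nonneg _)
  · refine (h1 _).trans (mul_le_mul_of_nonneg_left ?_ (by linarith))
    refine le_trans ?_ (mul_le_mul_of_nonneg_right (le_add_of_nonneg_left hs) (sq_nonneg _))
    rw [one_div, inv_mul_eq_div, le_div_iff₀ hδ, sq]
    exact mul_le_mul_of_nonneg_left hd (norm_nonneg _)

/-- `π (∂π) π = 0` along tangent directions, from `π ∘ π = π` on `S` -/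
theorem π_dπ_π {x : A N} (hx : x ∈ X.S) (v b : A N) :
    X.π x (fderiv ℝ X.π x (X.π x v) (X.π x b)) = 0 := by
  have h1 := (X.π_sm.differentiable (by simp) x).hasFDerivAt
  have h2 := h1.clm_apply (hasFDerivAt_const (X.π x b) x)
  have h3 := (h1.clm_apply h2).sub h2
  have h4 := X.chart_fderiv_eq_zero hx h3.differentiableAt
    (Eventually.of_forall fun y hy => sub_eq_zero.mpr (X.ππ y hy _)) v
  rw [h3.fderiv] at h4
  simpa [X.ππ x hx] using h4

/-- closedness depends only on the tangential values on `S` (use `d2_pullback` in a chart) -/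
theorem Closed_congr {η η' : A N → E2 N} (hη : ContDiff ℝ ∞ η) (hη' : ContDiff ℝ ∞ η')
    (h : ∀ x ∈ X.S, X.Pt x (η x) = X.Pt x (η' x)) (hc : X.Closed η) : X.Closed η' := by
  intro x hx a b d ha hb hd
  have h0 := hc x hx a b d ha hb hd
  obtain ⟨c, p, hp, rfl⟩ := X.chart_point hx
  have h1 : (fun q => pb (fderiv ℝ c.ψ q) (η (c.ψ q))) =ᶠ[𝓝 p]
      fun q => pb (fderiv ℝ c.ψ q) (η' (c.ψ q)) := by
    filter_upwards [c.U_open.mem_nhds hp] with q hq
    have e : X.π (c.ψ q) ∘L fderiv ℝ c.ψ q = fderiv ℝ c.ψ q :=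
      ContinuousLinearMap.ext (c.π_dψ q hq)
    rw [← e, ← pb_pb, ← pb_pb]
    exact congrArg _ (h _ (c.ψ_S q hq))
  rw [← ha, ← hb, ← hd, ← c.dψ_pr p hp a, ← c.dψ_pr p hp b, ← c.dψ_pr p hp d] at h0 ⊢
  rw [← d2_pullback c.ψ_sm hη] at h0
  rw [← d2_pullback c.ψ_sm hη', ← h0, d2, d2, h1.fderiv_eq]

/-- the tangential part of `d1 ζ` depends only on the values on `S` near the point -/
theorem Pt_d1_congr {ζ ζ' : A N → A N} (hζ : ContDiff ℝ ∞ ζ) (hζ' : ContDiff ℝ ∞ ζ') {x : A N}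
    (hx : x ∈ X.S) (h : ∀ᶠ y in 𝓝 x, y ∈ X.S → ζ y = ζ' y) :
    X.Pt x (d1 ζ x) = X.Pt x (d1 ζ' x) := by
  have d := hζ.differentiable (by simp) x
  have d' := hζ'.differentiable (by simp) x
  have h1 : ∀ v, fderiv ℝ ζ x (X.π x v) = fderiv ℝ ζ' x (X.π x v) := fun v => by
    have := X.chart_fderiv_eq_zero hx (d.sub d') (h.mono fun y hy hS => sub_eq_zero.mpr (hy hS)) v
    rwa [fderiv_sub d d', sub_apply, sub_eq_zero] at this
  exact (anti_pb _ _).ext (anti_pb _ _) fun a b => by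
    simp only [Pre.Pt, ev_pb, ev_d1, h1]

end Sub

theorem Geo.tan (G : Geo N) : G.B.Tan := fun _ hx v => G.toSub.tangent hx v

end Crest.Agent.R240
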