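import Crest.Agent.R240.SobL2

/-! Row 240: calculus of the Sobolev seminorms `Hs`, `Hn` and of the bounds `CB`. -/

set_option autoImplicit false

open scoped ContDiff RealInnerProductSpace Topology
open MeasureTheory Set Filter

noncomputable section

namespace Crest.Agent.R240

variable {N : ℕ} {E F : Type} [NormedAddCommGroup E] [NormedSpace ℝ E] [NormedAddCommGroup F]
  [NormedSpace ℝ F]

namespace Base
variable (B : Base N)

/-! `Hs` and `Hn` for smooth functions -/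

theorem sob_Hs_succ (i : ℕ) (u : A N → E) : B.Hs (i + 1) u = ∑ k, B.Hs i (D B.π k u) := rfl

theorem sob_Hs_zero_fun (i : ℕ) : B.Hs i (fun _ => (0 : E)) = 0 := by
  induction i with
  | zero => exact lpNorm_fun_zero 2 B.m
  | succ i ih =>
    rw [sob_Hs_succ]
    refine Finset.sum_eq_zero fun k _ => ?_
    have : D B.π k (fun _ => (0 : E)) = fun _ => 0 := by
      funext x
      simp [D]
    rw [this, ih]

theorem Hs_nonneg (i : ℕ) (u : A N → E) : 0 ≤ B.Hs i u := by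
  induction i generalizing u with
  | zero => exact B.L2_nonneg u
  | succ i ih => exact Finset.sum_nonneg fun k _ => ih _

theorem Hn_nonneg {t : ℝ} (ht : 0 ≤ t) (j : ℕ) (u : A N → E) : 0 ≤ B.Hn t j u := by
  exact Finset.sum_nonneg fun i _ => mul_nonneg (pow_nonneg ht i) (B.Hs_nonneg i u)

theorem Hn_zero (t : ℝ) (u : A N → E) : B.Hn t 0 u = B.L2 u := by
  simp [Hn, Hs]

theorem Hn_succ (t : ℝ) (j : ℕ) (u : A N → E) :
    B.Hn t (j + 1) u = B.L2 u + t * ∑ k, B.Hn t j (D B.π k u) := by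
  unfold Hn
  rw [Finset.sum_range_succ', add_comm, Finset.sum_comm, Finset.mul_sum]
  congr 1
  · simp [Hs]
  · refine Finset.sum_congr rfl fun i _ => ?_
    rw [← Finset.mul_sum, pow_succ, sob_Hs_succ]
    ring

theorem Hn_zero_fun (t : ℝ) (j : ℕ) : B.Hn t j (fun _ => (0 : E)) = 0 := by
  exact Finset.sum_eq_zero fun i _ => by rw [sob_Hs_zero_fun, mul_zero]

theorem Hs_add_le (i : ℕ) {u v : A N → E} (hu : ContDiff ℝ ∞ u) (hv : ContDiff ℝ ∞ v) :
    B.Hs i (fun x => u x + v x) ≤ B.Hs i u + B.Hs i v := by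
  induction i generalizing u v with
  | zero => exact B.L2_add_le (B.memLp_cont hu.continuous 2) (B.memLp_cont hv.continuous 2)
  | succ i ih =>
    rw [sob_Hs_succ, sob_Hs_succ, sob_Hs_succ, ← Finset.sum_add_distrib]
    refine Finset.sum_le_sum fun k _ => ?_
    rw [D_add _ _ hu hv]
    exact ih (D_sm B.π_sm k hu) (D_sm B.π_sm k hv)

theorem Hs_const_smul (i : ℕ) (s : ℝ) {u : A N → E} (hu : ContDiff ℝ ∞ u) :
    B.Hs i (fun x => s • u x) = |s| * B.Hs i u := by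
  induction i generalizing u with
  | zero => exact B.L2_const_smul s (B.memLp_cont hu.continuous 2)
  | succ i ih =>
    rw [sob_Hs_succ, sob_Hs_succ, Finset.mul_sum]
    refine Finset.sum_congr rfl fun k _ => ?_
    rw [D_const_smul _ _ _ hu]
    exact ih (D_sm B.π_sm k hu)

theorem Hn_add_le {t : ℝ} (ht : 0 ≤ t) (j : ℕ) {u v : A N → E} (hu : ContDiff ℝ ∞ u)
    (hv : ContDiff ℝ ∞ v) : B.Hn t j (fun x => u x + v x) ≤ B.Hn t j u + B.Hn t j v := by
  unfold Hn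
  rw [← Finset.sum_add_distrib]
  refine Finset.sum_le_sum fun i _ => ?_
  rw [← mul_add]
  exact mul_le_mul_of_nonneg_left (B.Hs_add_le i hu hv) (pow_nonneg ht i)

theorem Hn_sub_le {t : ℝ} (ht : 0 ≤ t) (j : ℕ) {u v : A N → E} (hu : ContDiff ℝ ∞ u)
    (hv : ContDiff ℝ ∞ v) : B.Hn t j (fun x => u x - v x) ≤ B.Hn t j u + B.Hn t j v := by
  have h1 := B.Hn_add_le ht j hu (hv.const_smul (-1 : ℝ))
  have h2 : B.Hn t j (fun x => (-1 : ℝ) • v x) = B.Hn t j v := by
    unfold Hn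
    refine Finset.sum_congr rfl fun i _ => ?_
    rw [B.Hs_const_smul i _ hv]
    simp
  rw [h2] at h1
  simpa [sub_eq_add_neg] using h1

theorem Hn_const_smul (t : ℝ) (j : ℕ) (s : ℝ) {u : A N → E} (hu : ContDiff ℝ ∞ u) :
    B.Hn t j (fun x => s • u x) = |s| * B.Hn t j u := by
  unfold Hn
  rw [Finset.mul_sum]
  refine Finset.sum_congr rfl fun i _ => ?_
  rw [B.Hs_const_smul i _ hu]
  ring

theorem Hn_sum_le {t : ℝ} (ht : 0 ≤ t) (j : ℕ) {ι : Type} (s : Finset ι) {u : ι → A N → E}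
    (hu : ∀ i, ContDiff ℝ ∞ (u i)) :
    B.Hn t j (fun x => ∑ i ∈ s, u i x) ≤ ∑ i ∈ s, B.Hn t j (u i) := by
  classical
  induction s using Finset.induction_on with
  | empty => simp [Hn_zero_fun]
  | insert i s hi ih =>
    simp only [Finset.sum_insert hi]
    refine (B.Hn_add_le ht j (hu i) (ContDiff.sum fun i _ => hu i)).trans ?_
    linarith

theorem Hs_le_Hn {t : ℝ} (ht : 0 ≤ t) {i j : ℕ} (h : i ≤ j) (u : A N → E) :
    t ^ i * B.Hs i u ≤ B.Hn t j u := by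
  exact Finset.single_le_sum (f := fun i => t ^ i * B.Hs i u)
    (fun i _ => mul_nonneg (pow_nonneg ht i) (B.Hs_nonneg i u))
    (Finset.mem_range.2 (Nat.lt_succ_of_le h))

theorem L2_le_Hn {t : ℝ} (ht : 0 ≤ t) (j : ℕ) (u : A N → E) : B.L2 u ≤ B.Hn t j u := by
  simpa [Hs] using B.Hs_le_Hn ht (Nat.zero_le j) u

theorem Hn_mono_order {t : ℝ} (ht : 0 ≤ t) {i j : ℕ} (h : i ≤ j) (u : A N → E) :
    B.Hn t i u ≤ B.Hn t j u := by
  exact Finset.sum_le_sum_of_subset_of_nonneg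
    (Finset.range_subset_range.2 (Nat.succ_le_succ h))
    fun i _ _ => mul_nonneg (pow_nonneg ht i) (B.Hs_nonneg i u)

theorem Hn_mono_scale {s t : ℝ} (hs : 0 ≤ s) (h : s ≤ t) (j : ℕ) (u : A N → E) :
    B.Hn s j u ≤ B.Hn t j u := by
  exact Finset.sum_le_sum fun i _ =>
    mul_le_mul_of_nonneg_right (pow_le_pow_left₀ hs h i) (B.Hs_nonneg i u)

theorem Hn_one_le {t : ℝ} (ht : 0 < t) (ht1 : t ≤ 1) (j : ℕ) (u : A N → E) :
    t ^ j * B.Hn 1 j u ≤ B.Hn t j u := by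
  unfold Hn
  rw [Finset.mul_sum]
  refine Finset.sum_le_sum fun i hi => ?_
  rw [one_pow, one_mul]
  exact mul_le_mul_of_nonneg_right
    (pow_le_pow_of_le_one ht.le ht1 (Nat.lt_succ_iff.1 (Finset.mem_range.1 hi))) (B.Hs_nonneg i u)

theorem Hn_tendsto (j : ℕ) (u : A N → E) :
    Tendsto (fun t => B.Hn t j u) (𝓝 0) (𝓝 (B.L2 u)) := by
  have hc : Continuous fun t : ℝ => B.Hn t j u := by
    unfold Hn
    fun_prop
  have h0 : B.Hn 0 j u = B.L2 u := by
    cases j with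
    | zero => exact B.Hn_zero 0 u
    | succ j => rw [Hn_succ]; simp
  simpa [h0] using hc.tendsto 0

theorem Hn_D_le (k : Fin N) (j : ℕ) (u : A N → E) : B.Hn 1 j (D B.π k u) ≤ B.Hn 1 (j + 1) u := by
  rw [Hn_succ, one_mul]
  have h1 := Finset.single_le_sum (f := fun k => B.Hn 1 j (D B.π k u))
    (fun k _ => B.Hn_nonneg zero_le_one j _) (Finset.mem_univ k)
  linarith [B.L2_nonneg u]

variable {B} in
theorem sob_CB_bound {C : ℝ} {j : ℕ} {u : A N → E} (h : B.CB C j u) :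
    ∀ x ∈ B.S, ‖u x‖ ≤ C := by
  cases j with
  | zero => exact h
  | succ j => exact h.1

variable {B} in
theorem sob_CB_mono {C C' : ℝ} {i j : ℕ} {u : A N → E} (h : B.CB C j u) (hC : C ≤ C')
    (hi : i ≤ j) : B.CB C' i u := by
  induction i generalizing j u with
  | zero => exact fun x hx => (sob_CB_bound h x hx).trans hC
  | succ i ih =>
    obtain ⟨j, rfl⟩ : ∃ j', j = j' + 1 := ⟨j - 1, by omega⟩
    exact ⟨fun x hx => (h.1 x hx).trans hC, fun k => ih (h.2 k) (by omega)⟩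

theorem sob_exists_CB (j : ℕ) {u : A N → E} (hu : ContDiff ℝ ∞ u) :
    ∃ C, 0 ≤ C ∧ B.CB C j u := by
  have h0 : ∀ {u : A N → E}, ContDiff ℝ ∞ u → ∃ C, 0 ≤ C ∧ ∀ x ∈ B.S, ‖u x‖ ≤ C := by
    intro u hu
    obtain ⟨C, hC⟩ := B.cpt.exists_bound_of_continuousOn hu.continuous.continuousOn
    exact ⟨max C 0, le_max_right _ _, fun x hx => (hC x hx).trans (le_max_left _ _)⟩
  induction j generalizing u with
  | zero => exact h0 hu
  | succ j ih =>
    obtain ⟨C₀, h1, h2⟩ := h0 hu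
    choose C hC0 hC using fun k => ih (D_sm B.π_sm k hu)
    have hs : 0 ≤ ∑ k, C k := Finset.sum_nonneg fun k _ => hC0 k
    refine ⟨C₀ + ∑ k, C k, by positivity, fun x hx => (h2 x hx).trans (by linarith), fun k =>
      sob_CB_mono (hC k) ?_ le_rfl⟩
    have := Finset.single_le_sum (f := C) (fun k _ => hC0 k) (Finset.mem_univ k)
    linarith

variable {B} in
theorem sob_CB_add {C C' : ℝ} {j : ℕ} {u v : A N → E} (hu : ContDiff ℝ ∞ u)
    (hv : ContDiff ℝ ∞ v) (h : B.CB C j u) (h' : B.CB C' j v) :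
    B.CB (C + C') j (fun x => u x + v x) := by
  induction j generalizing u v with
  | zero => exact fun x hx => (norm_add_le _ _).trans (add_le_add (h x hx) (h' x hx))
  | succ j ih =>
    refine ⟨fun x hx => (norm_add_le _ _).trans (add_le_add (h.1 x hx) (h'.1 x hx)), fun k => ?_⟩
    rw [D_add _ _ hu hv]
    exact ih (D_sm B.π_sm k hu) (D_sm B.π_sm k hv) (h.2 k) (h'.2 k)

variable {B} in
theorem sob_CB_clm (L : E →L[ℝ] F) {C : ℝ} {j : ℕ} {u : A N → E} (hu : ContDiff ℝ ∞ u)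
    (h : B.CB C j u) : B.CB (‖L‖ * C) j (fun x => L (u x)) := by
  induction j generalizing u with
  | zero =>
    exact fun x hx => (L.le_opNorm _).trans (mul_le_mul_of_nonneg_left (h x hx) (norm_nonneg _))
  | succ j ih =>
    refine ⟨fun x hx =>
      (L.le_opNorm _).trans (mul_le_mul_of_nonneg_left (h.1 x hx) (norm_nonneg _)), fun k => ?_⟩
    have e : D B.π k (fun x => L (u x)) = fun x => L (D B.π k u x) := by
      funext x
      have h5 : HasFDerivAt (fun x => L (u x)) _ x :=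
        L.hasFDerivAt.comp x ((hu.differentiable (by simp)) x).hasFDerivAt
      simp [D, h5.fderiv]
    rw [e]
    exact ih (D_sm B.π_sm k hu) (h.2 k)

theorem sob_Hn_clm_apply (j : ℕ) : ∃ K, 0 ≤ K ∧
    ∀ (C t : ℝ) (b : A N → E →L[ℝ] F) (u : A N → E),
    0 ≤ C → 0 ≤ t → t ≤ 1 → ContDiff ℝ ∞ b → ContDiff ℝ ∞ u → B.CB C j b →
      B.Hn t j (fun x => b x (u x)) ≤ K * C * B.Hn t j u := by
  have h0 : ∀ {j : ℕ} {C : ℝ} {b : A N → E →L[ℝ] F} {u : A N → E}, 0 ≤ C → ContDiff ℝ ∞ b →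
      ContDiff ℝ ∞ u → B.CB C j b → B.L2 (fun x => b x (u x)) ≤ C * B.L2 u :=
    fun hC hb hu h => B.L2_le_mul (hb.clm_apply hu).continuous.aestronglyMeasurable
      (B.memLp_cont hu.continuous 2) hC fun x hx => (ContinuousLinearMap.le_opNorm _ _).trans
        (mul_le_mul_of_nonneg_right (sob_CB_bound h x hx) (norm_nonneg _))
  induction j with
  | zero =>
    refine ⟨1, zero_le_one, fun C t b u hC _ _ hb hu h => ?_⟩
    rw [Hn_zero, Hn_zero, one_mul]
    exact h0 hC hb hu h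
  | succ j ih =>
    obtain ⟨K, hK0, hK⟩ := ih
    refine ⟨1 + N * K + K, by positivity, fun C t b u hC ht ht1 hb hu h => ?_⟩
    have h1 : ∀ k, B.Hn t j (D B.π k fun x => b x (u x)) ≤
        K * C * B.Hn t j u + K * C * B.Hn t j (D B.π k u) := by
      intro k
      have hb' := D_sm B.π_sm k hb
      have hu' := D_sm B.π_sm k hu
      rw [D_clm_apply _ _ hb hu]
      exact (B.Hn_add_le ht j (hb'.clm_apply hu) (hb.clm_apply hu')).trans (add_le_add
        (hK C t _ _ hC ht ht1 hb' hu (h.2 k))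
        (hK C t _ _ hC ht ht1 hb hu' (sob_CB_mono h le_rfl j.le_succ)))
    have h2 := Finset.sum_le_sum fun k (_ : k ∈ Finset.univ) => h1 k
    rw [Finset.sum_add_distrib, Finset.sum_const, Finset.card_univ, Fintype.card_fin,
      nsmul_eq_mul, ← Finset.mul_sum] at h2
    have h3 := B.Hn_mono_order ht j.le_succ u
    have h4 := B.L2_le_Hn ht (j + 1) u
    have h5 : t * ∑ k, B.Hn t j (D B.π k u) ≤ B.Hn t (j + 1) u := by
      rw [Hn_succ]
      linarith [B.L2_nonneg u]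
    have h6 := h0 hC hb hu h
    have h7 := B.Hn_nonneg ht j u
    rw [Hn_succ]
    have h8 : t * (N * (K * C * B.Hn t j u)) ≤ N * K * C * B.Hn t (j + 1) u :=
      calc t * (N * (K * C * B.Hn t j u)) ≤ 1 * (N * (K * C * B.Hn t j u)) :=
            mul_le_mul_of_nonneg_right ht1 (by positivity)
        _ = N * K * C * B.Hn t j u := by ring
        _ ≤ _ := mul_le_mul_of_nonneg_left h3 (by positivity)
    have h9 := mul_le_mul_of_nonneg_left h2 ht
    have h10 := mul_le_mul_of_nonneg_left h5 (mul_nonneg hK0 hC)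
    have h11 := mul_le_mul_of_nonneg_left h4 hC
    nlinarith

theorem sob_Hn_clm_apply' (j : ℕ) {b : A N → E →L[ℝ] F} (hb : ContDiff ℝ ∞ b) : ∃ K, 0 ≤ K ∧
    ∀ (t : ℝ) (u : A N → E), 0 ≤ t → t ≤ 1 → ContDiff ℝ ∞ u →
      B.Hn t j (fun x => b x (u x)) ≤ K * B.Hn t j u := by
  obtain ⟨K, hK0, hK⟩ := B.sob_Hn_clm_apply (E := E) (F := F) j
  obtain ⟨C, hC0, hC⟩ := B.sob_exists_CB j hb
  exact ⟨K * C, mul_nonneg hK0 hC0, fun t u ht ht1 hu => hK C t b u hC0 ht ht1 hb hu hC⟩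

/-- `d1` costs one derivative, after projection to the tangent space
(`pb (π x) (d1 ζ x)` is a combination of the `D π k ζ` with smooth coefficients). -/
theorem Hn_d1_le (j : ℕ) : ∃ C, 0 ≤ C ∧ ∀ ζ : A N → A N, ContDiff ℝ ∞ ζ →
    B.Hn 1 j (fun x => pb (B.π x) (d1 ζ x)) ≤ C * B.Hn 1 (j + 1) ζ := by
  classical
  set b : Fin N → A N → A N →L[ℝ] E2 N := fun m x => matL fun (p : Fin N × Fin N) (q : Fin N) =>
    ((if p.1 = m then B.π x (eb p.2) q else 0) - (if p.2 = m then B.π x (eb p.1) q else 0)) / 2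
    with hb
  have hπ : ∀ k l, ContDiff ℝ ∞ fun x => B.π x (eb k) l := fun k l =>
    contDiff_euclidean.1 (B.π_sm.clm_apply contDiff_const) l
  have hbs : ∀ m, ContDiff ℝ ∞ (b m) := by
    intro m
    refine contDiff_matL fun p q => ContDiff.div_const (ContDiff.sub ?_ ?_) _
    · split_ifs
      · exact hπ _ _
      · exact contDiff_const
    · split_ifs
      · exact hπ _ _
      · exact contDiff_const
  choose K hK0 hK using fun m => B.sob_Hn_clm_apply' j (hbs m)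
  refine ⟨∑ m, K m, Finset.sum_nonneg fun m _ => hK0 m, fun ζ hζ => ?_⟩
  have e : (fun x => pb (B.π x) (d1 ζ x)) = fun x => ∑ m, b m x (D B.π m ζ x) := by
    funext x
    ext ⟨k, l⟩
    have e1 : ∀ m, b m x (D B.π m ζ x) (k, l) =
        ((if k = m then ⟪D B.π m ζ x, B.π x (eb l)⟫ else 0)
          - (if l = m then ⟪D B.π m ζ x, B.π x (eb k)⟫ else 0)) / 2 := by
      intro m
      simp only [hb, matL_apply, PiLp.inner_apply, RCLike.inner_apply, conj_trivial]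
      split_ifs <;> simp [Finset.sum_div, ← Finset.sum_sub_distrib, ← Finset.sum_neg_distrib] <;>
        exact Finset.sum_congr rfl fun _ _ => by ring
    rw [pb_apply, ev_d1, WithLp.ofLp_sum, Finset.sum_apply]
    simp only [e1, ← Finset.sum_div, Finset.sum_sub_distrib, Finset.sum_ite_eq, Finset.mem_univ,
      if_true]
    rfl
  rw [e, Finset.sum_mul]
  refine (B.Hn_sum_le zero_le_one j _ fun m => (hbs m).clm_apply (D_sm B.π_sm m hζ)).trans ?_
  refine Finset.sum_le_sum fun m _ => (hK m 1 _ zero_le_one le_rfl (D_sm B.π_sm m hζ)).trans ?_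
  exact mul_le_mul_of_nonneg_left (B.Hn_D_le m j ζ) (hK0 m)

/-! dependence on the values on `S` only -/

variable {B} in
theorem Tan.fderiv_eq_zero (hB : B.Tan) {u : A N → E} {x : A N} (hx : x ∈ B.S)
    (hu : DifferentiableAt ℝ u x) (h : ∀ᶠ y in 𝓝 x, y ∈ B.S → u y = 0) (v : A N) :
    fderiv ℝ u x (B.π x v) = 0 := by
  have hx0 : u x = 0 := h.self_of_nhds hx
  have h1 : HasFDerivWithinAt u (0 : A N →L[ℝ] E) B.S x := by
    refine (hasFDerivWithinAt_const (0 : E) x B.S).congr_of_eventuallyEq ?_ hx0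
    filter_upwards [nhdsWithin_le_nhds h, self_mem_nhdsWithin] with y h1 h2 using h1 h2
  exact hu.hasFDerivAt.hasFDerivWithinAt.unique_on h1 (hB x hx v)

variable {B} in
theorem Tan.D_congr (hB : B.Tan) {u v : A N → E} (hu : ContDiff ℝ ∞ u) (hv : ContDiff ℝ ∞ v)
    (h : ∀ x ∈ B.S, u x = v x) (k : Fin N) : ∀ x ∈ B.S, D B.π k u x = D B.π k v x := by
  intro x hx
  have h1 := hB.fderiv_eq_zero hx (((hu.sub hv).differentiable (by simp)) x)
    (Eventually.of_forall fun y hy => by simp [h y hy]) (eb k)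
  have h2 := congrFun (D_sub B.π k hu hv) x
  exact sub_eq_zero.1 (h2.symm.trans h1)

variable {B} in
theorem Tan.Hs_congr (hB : B.Tan) (i : ℕ) {u v : A N → E} (hu : ContDiff ℝ ∞ u)
    (hv : ContDiff ℝ ∞ v) (h : ∀ x ∈ B.S, u x = v x) : B.Hs i u = B.Hs i v := by
  induction i generalizing u v with
  | zero => exact B.L2_congr_ae (B.ae_mem.mono fun x hx => h x hx)
  | succ i ih =>
    rw [sob_Hs_succ, sob_Hs_succ]
    exact Finset.sum_congr rfl fun k _ =>
      ih (D_sm B.π_sm k hu) (D_sm B.π_sm k hv) (hB.D_congr hu hv h k)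

variable {B} in
theorem Tan.Hn_congr (hB : B.Tan) (t : ℝ) (j : ℕ) {u v : A N → E} (hu : ContDiff ℝ ∞ u)
    (hv : ContDiff ℝ ∞ v) (h : ∀ x ∈ B.S, u x = v x) : B.Hn t j u = B.Hn t j v := by
  exact Finset.sum_congr rfl fun i _ => by rw [hB.Hs_congr i hu hv h]

variable {B} in
theorem Tan.CB_congr (hB : B.Tan) {C : ℝ} {j : ℕ} {u v : A N → E} (hu : ContDiff ℝ ∞ u)
    (hv : ContDiff ℝ ∞ v) (h : ∀ x ∈ B.S, u x = v x) (hC : B.CB C j u) : B.CB C j v := by
  induction j generalizing u v with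
  | zero => exact fun x hx => h x hx ▸ hC x hx
  | succ j ih =>
    exact ⟨fun x hx => h x hx ▸ hC.1 x hx, fun k =>
      ih (D_sm B.π_sm k hu) (D_sm B.π_sm k hv) (hB.D_congr hu hv h k) (hC.2 k)⟩

/-! uniform bounds and products -/

variable {B} in
theorem CB.bound {C : ℝ} {j : ℕ} {u : A N → E} (h : B.CB C j u) : ∀ x ∈ B.S, ‖u x‖ ≤ C := by
  exact sob_CB_bound h

variable {B} in
theorem CB.mono {C C' : ℝ} {i j : ℕ} {u : A N → E} (h : B.CB C j u) (hC : C ≤ C') (hi : i ≤ j) :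
    B.CB C' i u := by
  exact sob_CB_mono h hC hi

theorem exists_CB (j : ℕ) {u : A N → E} (hu : ContDiff ℝ ∞ u) : ∃ C, 0 ≤ C ∧ B.CB C j u := by
  exact B.sob_exists_CB j hu

variable {B} in
theorem CB.const_smul {C : ℝ} {j : ℕ} {u : A N → E} (hu : ContDiff ℝ ∞ u) (h : B.CB C j u)
    (s : ℝ) : B.CB (|s| * C) j (fun x => s • u x) := by
  induction j generalizing u with
  | zero =>
    intro x hx
    rw [norm_smul, Real.norm_eq_abs]
    exact mul_le_mul_of_nonneg_left (h x hx) (abs_nonneg s)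
  | succ j ih =>
    refine ⟨fun x hx => ?_, fun k => ?_⟩
    · rw [norm_smul, Real.norm_eq_abs]
      exact mul_le_mul_of_nonneg_left (h.1 x hx) (abs_nonneg s)
    · rw [D_const_smul _ _ _ hu]
      exact ih (D_sm B.π_sm k hu) (h.2 k)

variable {B} in
theorem CB.clm_apply {C C' : ℝ} (hC : 0 ≤ C) (hC' : 0 ≤ C') {j : ℕ} {b : A N → E →L[ℝ] F}
    {u : A N → E} (hb : ContDiff ℝ ∞ b) (hu : ContDiff ℝ ∞ u) (h : B.CB C j b)
    (h' : B.CB C' j u) : B.CB (2 ^ j * C * C') j (fun x => b x (u x)) := by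
  have h0 : ∀ {j : ℕ} {b : A N → E →L[ℝ] F} {u : A N → E}, B.CB C j b → B.CB C' j u →
      ∀ x ∈ B.S, ‖b x (u x)‖ ≤ C * C' := fun h h' x hx =>
    ((ContinuousLinearMap.le_opNorm _ _).trans
      (mul_le_mul (h.bound x hx) (h'.bound x hx) (norm_nonneg _) hC))
  induction j generalizing b u with
  | zero =>
    rw [pow_zero, one_mul]
    exact h0 h h'
  | succ j ih =>
    refine ⟨fun x hx => (h0 h h' x hx).trans ?_, fun k => ?_⟩
    · rw [mul_assoc]
      exact le_mul_of_one_le_left (mul_nonneg hC hC') (one_le_pow₀ one_le_two)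
    · rw [D_clm_apply _ _ hb hu]
      have hb' := D_sm B.π_sm k hb
      have hu' := D_sm B.π_sm k hu
      have := sob_CB_add (hb'.clm_apply hu) (hb.clm_apply hu')
        (ih hb' hu (h.2 k) (h'.mono le_rfl j.le_succ)) (ih hb hu' (h.mono le_rfl j.le_succ) (h'.2 k))
      exact this.mono (le_of_eq (by ring)) le_rfl

/-- composition with a fixed smooth function -/
theorem CB_comp {Φ : ℝ → E} (hΦ : ContDiff ℝ ∞ Φ) (j : ℕ) (C : ℝ) : ∃ C', 0 ≤ C' ∧
    ∀ c : A N → ℝ, ContDiff ℝ ∞ c → B.CB C j c → B.CB C' j (fun x => Φ (c x)) := by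
  have h0 : ∀ {Φ : ℝ → E}, ContDiff ℝ ∞ Φ → ∃ C', 0 ≤ C' ∧ ∀ s, ‖s‖ ≤ C → ‖Φ s‖ ≤ C' := by
    intro Φ hΦ
    obtain ⟨C', hC'⟩ := (isCompact_closedBall (0 : ℝ) C).exists_bound_of_continuousOn
      hΦ.continuous.continuousOn
    exact ⟨max C' 0, le_max_right _ _, fun s hs =>
      (hC' s (mem_closedBall_zero_iff.2 hs)).trans (le_max_left _ _)⟩
  induction j generalizing Φ with
  | zero =>
    obtain ⟨C', h1, h2⟩ := h0 hΦ
    exact ⟨C', h1, fun c _ hc x hx => h2 _ (hc x hx)⟩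
  | succ j ih =>
    obtain ⟨C₀, h1, h2⟩ := h0 hΦ
    have hΦ' : ContDiff ℝ ∞ (deriv Φ) := hΦ.deriv'
    obtain ⟨C₁, h3, h4⟩ := ih hΦ'
    set L : ℝ →L[ℝ] E →L[ℝ] E := ContinuousLinearMap.lsmul ℝ ℝ with hL
    refine ⟨max C₀ (2 ^ j * (‖L‖ * |C|) * C₁), le_max_of_le_left h1, fun c hc hcb =>
      ⟨fun x hx => (h2 _ (hcb.1 x hx)).trans (le_max_left _ _), fun k => ?_⟩⟩
    have e : D B.π k (fun x => Φ (c x)) = fun x => L (D B.π k c x) (deriv Φ (c x)) := by
      funext x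
      have h5 : HasFDerivAt (fun x => Φ (c x)) _ x :=
        ((hΦ.differentiable (by simp)) (c x)).hasDerivAt.hasFDerivAt.comp x
          ((hc.differentiable (by simp)) x).hasFDerivAt
      simp [D, h5.fderiv, hL]
    rw [e]
    have hc' := D_sm B.π_sm k hc
    refine CB.mono (CB.clm_apply (by positivity) h3 (L.contDiff.comp hc') (hΦ'.comp hc)
      (sob_CB_clm L hc' ((hcb.2 k).mono (le_abs_self C) le_rfl))
      (h4 c hc (hcb.mono le_rfl j.le_succ))) (le_max_right _ _) le_rfl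

/-- products; the constant depends only on `N` and `j` -/
theorem Hn_clm_apply (j : ℕ) : ∃ K, 0 ≤ K ∧ ∀ (C t : ℝ) (b : A N → E →L[ℝ] F) (u : A N → E),
    0 ≤ C → 0 ≤ t → t ≤ 1 → ContDiff ℝ ∞ b → ContDiff ℝ ∞ u → B.CB C j b →
      B.Hn t j (fun x => b x (u x)) ≤ K * C * B.Hn t j u := by
  exact B.sob_Hn_clm_apply j

/-- products with a fixed smooth coefficient -/
theorem Hn_clm_apply' (j : ℕ) {b : A N → E →L[ℝ] F} (hb : ContDiff ℝ ∞ b) : ∃ K, 0 ≤ K ∧
    ∀ (t : ℝ) (u : A N → E), 0 ≤ t → t ≤ 1 → ContDiff ℝ ∞ u →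
      B.Hn t j (fun x => b x (u x)) ≤ K * B.Hn t j u := by
  exact B.sob_Hn_clm_apply' j hb

theorem Hn_smul' (j : ℕ) {f : A N → ℝ} (hf : ContDiff ℝ ∞ f) : ∃ K, 0 ≤ K ∧
    ∀ (t : ℝ) (u : A N → E), 0 ≤ t → t ≤ 1 → ContDiff ℝ ∞ u →
      B.Hn t j (fun x => f x • u x) ≤ K * B.Hn t j u := by
  exact B.Hn_clm_apply' j (b := fun x => ContinuousLinearMap.lsmul ℝ ℝ (f x))
    ((ContinuousLinearMap.lsmul ℝ ℝ : ℝ →L[ℝ] E →L[ℝ] E).contDiff.comp hf)

/-- the top order part of a product -/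
theorem Hs_clm_apply_top (j : ℕ) {b : A N → E →L[ℝ] F} (hb : ContDiff ℝ ∞ b) : ∃ K, 0 ≤ K ∧
    ∀ (θ : ℝ) (u : A N → E), 0 ≤ θ → ContDiff ℝ ∞ u → (∀ x ∈ B.S, ‖b x‖ ≤ θ) →
      B.Hs (j + 1) (fun x => b x (u x)) ≤ θ * B.Hs (j + 1) u + K * B.Hn 1 j u := by
  have hb' := fun k => D_sm B.π_sm k hb
  induction j with
  | zero =>
    choose K hK0 hK using fun k => B.Hn_clm_apply' 0 (hb' k)
    refine ⟨∑ k, K k, Finset.sum_nonneg fun k _ => hK0 k, fun θ u hθ hu hbθ => ?_⟩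
    rw [sob_Hs_succ, sob_Hs_succ, Finset.mul_sum, Finset.sum_mul, ← Finset.sum_add_distrib]
    refine Finset.sum_le_sum fun k _ => ?_
    have hu' := D_sm B.π_sm k hu
    rw [D_clm_apply _ _ hb hu]
    refine (B.Hs_add_le 0 ((hb' k).clm_apply hu) (hb.clm_apply hu')).trans ?_
    have h1 := hK k 1 u zero_le_one le_rfl hu
    rw [Hn_zero] at h1
    have h2 : B.L2 (fun x => b x (D B.π k u x)) ≤ θ * B.L2 (D B.π k u) :=
      B.L2_le_mul (hb.clm_apply hu').continuous.aestronglyMeasurable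
        (B.memLp_cont hu'.continuous 2) hθ fun x hx => (ContinuousLinearMap.le_opNorm _ _).trans
          (mul_le_mul_of_nonneg_right (hbθ x hx) (norm_nonneg _))
    change B.L2 _ + B.L2 _ ≤ θ * B.L2 _ + _
    linarith
  | succ j ih =>
    obtain ⟨K', hK'0, hK'⟩ := ih
    choose K hK0 hK using fun k => B.Hn_clm_apply' (j + 1) (hb' k)
    refine ⟨∑ k, (K k + K'), Finset.sum_nonneg fun k _ => add_nonneg (hK0 k) hK'0,
      fun θ u hθ hu hbθ => ?_⟩
    rw [sob_Hs_succ, sob_Hs_succ B (j + 1) u, Finset.mul_sum, Finset.sum_mul,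
      ← Finset.sum_add_distrib]
    refine Finset.sum_le_sum fun k _ => ?_
    have hu' := D_sm B.π_sm k hu
    rw [D_clm_apply _ _ hb hu]
    refine (B.Hs_add_le _ ((hb' k).clm_apply hu) (hb.clm_apply hu')).trans ?_
    have h1 := hK k 1 u zero_le_one le_rfl hu
    have h2 := hK' θ _ hθ hu' hbθ
    have h3 := B.Hs_le_Hn zero_le_one (le_refl (j + 1)) fun x => D B.π k b x (u x)
    have h4 := mul_le_mul_of_nonneg_left (B.Hn_D_le k j u) hK'0
    rw [one_pow, one_mul] at h3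
    linarith

end Base

end Crest.Agent.R240
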