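import Crest.Agent.R240.AlgF
import Crest.Agent.R240.Sob

/-! Row 240: charts, gluing of smooth functions, partitions of unity. -/

set_option autoImplicit false

open scoped ContDiff RealInnerProductSpace Topology
open MeasureTheory Set Filter

noncomputable section

namespace Crest.Agent.R240

variable {N : ℕ}

/-- a function on a closed set which is locally the restriction of smooth functions is the
restriction of a smooth function (`exists_contMDiffMap_forall_mem_convex_of_local` or a smooth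
partition of unity) -/
theorem exists_smooth_ext {P E : Type} [NormedAddCommGroup P] [NormedSpace ℝ P]
    [FiniteDimensional ℝ P] [NormedAddCommGroup E] [NormedSpace ℝ E] {S : Set P} (hS : IsClosed S)
    (f : P → E) (h : ∀ x ∈ S, ∃ (W : Set P) (g : P → E), IsOpen W ∧ x ∈ W ∧
      ContDiffOn ℝ ∞ g W ∧ ∀ y ∈ S, y ∈ W → g y = f y) :
    ∃ g : P → E, ContDiff ℝ ∞ g ∧ ∀ y ∈ S, g y = f y := by
  obtain ⟨g, hg⟩ := exists_contMDiffMap_forall_mem_convex_of_local (n := ⊤)
    (modelWithCornersSelf ℝ P) (t := fun x => {v : E | x ∈ S → v = f x})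
    (fun x => by
      by_cases hx : x ∈ S
      · simp [hx]
      · simpa [hx] using convex_univ)
    (fun x => by
      by_cases hx : x ∈ S
      · obtain ⟨W, g, hW, hxW, hg, hf⟩ := h x hx
        exact ⟨W, hW.mem_nhds hxW, g, hg.contMDiffOn, fun y hy hyS => hf y hyS hy⟩
      · exact ⟨Sᶜ, hS.isOpen_compl.mem_nhds hx, 0, contMDiffOn_const,
          fun y hy hyS => absurd hyS hy⟩)
  exact ⟨g, g.contMDiff.contDiff, hg⟩

/-- smooth cut-off functions -/
theorem exists_cutoff {P : Type} [NormedAddCommGroup P] [NormedSpace ℝ P] [FiniteDimensional ℝ P]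
    {K W : Set P} (hK : IsCompact K) (hW : IsOpen W) (h : K ⊆ W) :
    ∃ χ : P → ℝ, ContDiff ℝ ∞ χ ∧ HasCompactSupport χ ∧ tsupport χ ⊆ W ∧
      (∀ x, 0 ≤ χ x ∧ χ x ≤ 1) ∧ ∀ x ∈ K, ∀ᶠ y in 𝓝 x, χ y = 1 := by
  obtain ⟨L, hL, h1, h2⟩ := exists_compact_between hK hW h
  obtain ⟨f, hf1, hf0, hf⟩ := exists_contMDiffMap_one_nhds_of_subset_interior (n := ⊤)
    (modelWithCornersSelf ℝ P) hK.isClosed h1
  have hs : tsupport f ⊆ L :=
    closure_minimal (fun x hx => by_contra fun hx' => hx (hf0 x hx')) hL.isClosed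
  exact ⟨f, f.contMDiff.contDiff, hL.of_isClosed_subset (isClosed_tsupport _) hs, hs.trans h2,
    hf, eventually_nhdsSet_iff_forall.1 hf1⟩

/-- finite smooth partitions of unity on a compact set -/
theorem exists_pou {P : Type} [NormedAddCommGroup P] [NormedSpace ℝ P] [FiniteDimensional ℝ P]
    {S : Set P} (hS : IsCompact S) (O : P → Set P) (hO : ∀ x ∈ S, IsOpen (O x) ∧ x ∈ O x) :
    ∃ (n : ℕ) (a : Fin n → P) (χ : Fin n → P → ℝ), (∀ i, a i ∈ S) ∧ (∀ i, ContDiff ℝ ∞ (χ i)) ∧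
      (∀ i, HasCompactSupport (χ i)) ∧ (∀ i, tsupport (χ i) ⊆ O (a i)) ∧ (∀ i x, 0 ≤ χ i x) ∧
      (∀ x, ∑ i, χ i x ≤ 1) ∧ ∀ x ∈ S, ∀ᶠ y in 𝓝 x, ∑ i, χ i y = 1 := by
  obtain ⟨t, ht⟩ := hS.elim_finite_subcover (fun x : S => O x) (fun x => (hO x x.2).1)
    fun x hx => mem_iUnion.2 ⟨⟨x, hx⟩, (hO x hx).2⟩
  let a : Fin t.card → S := fun i => t.equivFin.symm i
  have hop : ∀ i, IsOpen (O (a i)) := fun i => (hO _ (a i).2).1
  have hcov : S ⊆ ⋃ i, O (a i) := by
    intro x hx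
    obtain ⟨y, hy, hxy⟩ := mem_iUnion₂.1 (ht hx)
    exact mem_iUnion.2 ⟨t.equivFin ⟨y, hy⟩, by simpa [a] using hxy⟩
  obtain ⟨L, hL, h1, h2⟩ := exists_compact_between hS (isOpen_iUnion hop) hcov
  obtain ⟨ρ, hρ⟩ := SmoothPartitionOfUnity.exists_isSubordinate (modelWithCornersSelf ℝ P)
    hL.isClosed (fun i => O (a i)) hop h2
  obtain ⟨χ, h3, h4, -, h5, h6⟩ := exists_cutoff hS isOpen_univ (subset_univ _)
  refine ⟨t.card, fun i => a i, fun i x => χ x * ρ i x, fun i => (a i).2,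
    fun i => h3.mul (ρ i).contMDiff.contDiff, fun i => h4.mul_right,
    fun i => (tsupport_mul_subset_right).trans (hρ i),
    fun i x => mul_nonneg (h5 x).1 (ρ.nonneg i x), fun x => ?_, fun x hx => ?_⟩
  · rw [← Finset.mul_sum, ← finsum_eq_sum_of_fintype]
    exact mul_le_one₀ (h5 x).2 (ρ.sum_nonneg x) (ρ.sum_le_one x)
  · filter_upwards [h6 x hx, mem_interior_iff_mem_nhds.1 (h1 hx)] with y hy hy'
    rw [← Finset.mul_sum, ← finsum_eq_sum_of_fintype, hy, ρ.sum_eq_one hy', mul_one]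

/-- extension by zero of a function smooth on an open set and vanishing outside a compact
subset -/
theorem contDiff_indicator {P E : Type} [NormedAddCommGroup P] [NormedSpace ℝ P]
    [NormedAddCommGroup E] [NormedSpace ℝ E] {U K : Set P} (hU : IsOpen U) (hK : IsCompact K)
    (hKU : K ⊆ U) {f : P → E} (hf : ContDiffOn ℝ ∞ f U) (h0 : ∀ p ∈ U, p ∉ K → f p = 0) :
    ContDiff ℝ ∞ (U.indicator f) := by
  refine contDiff_iff_contDiffAt.2 fun x => ?_
  by_cases hx : x ∈ U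
  · refine (hf.contDiffAt (hU.mem_nhds hx)).congr_of_eventuallyEq ?_
    filter_upwards [hU.mem_nhds hx] with y hy
    exact indicator_of_mem hy f
  · refine (contDiffAt_const (c := (0 : E))).congr_of_eventuallyEq ?_
    filter_upwards [hK.isClosed.isOpen_compl.mem_nhds fun h => hx (hKU h)] with y hy
    by_cases hyU : y ∈ U
    · rw [indicator_of_mem hyU, h0 y hyU hy]
    · exact indicator_of_notMem hyU f

namespace Pre.RawChart
variable {X : Pre N} (c : X.RawChart)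

theorem image_eq : c.ψ '' c.U = X.S ∩ c.W := by
  ext x
  constructor
  · rintro ⟨p, hp, rfl⟩
    exact ⟨c.ψ_S p hp, c.ψ_W p hp⟩
  · exact fun h => ⟨c.pr x, c.pr_mem x h.1 h.2, c.ψ_pr x h.1 h.2⟩

theorem injOn : InjOn c.ψ c.U := by
  intro p hp q hq h
  rw [← c.pr_ψ p hp, h, c.pr_ψ q hq]

/-- chain rule relating the derivations `D π k` with the coordinate derivatives -/
theorem D_comp {E : Type} [NormedAddCommGroup E] [NormedSpace ℝ E] {u : A N → E}
    (hu : ContDiff ℝ ∞ u) {p : A 4} (hp : p ∈ c.U) (k : Fin N) :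
    D X.π k u (c.ψ p) = ∑ j, c.pr (X.π (c.ψ p) (eb k)) j •
      D (fun _ => ContinuousLinearMap.id ℝ (A 4)) j (fun q => u (c.ψ q)) p := by
  have h1 : fderiv ℝ (fun q => u (c.ψ q)) p = (fderiv ℝ u (c.ψ p)).comp (fderiv ℝ c.ψ p) :=
    fderiv_comp p (hu.differentiable (by simp) _) (c.ψ_sm.differentiable (by simp) _)
  simp only [D, h1, ContinuousLinearMap.id_apply, ContinuousLinearMap.comp_apply, ← map_smul,
    ← map_sum, sum_eb, c.dψ_pr p hp]

theorem D_comp' {E : Type} [NormedAddCommGroup E] [NormedSpace ℝ E] {u : A N → E}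
    (hu : ContDiff ℝ ∞ u) {p : A 4} (hp : p ∈ c.U) (j : Fin 4) :
    D (fun _ => ContinuousLinearMap.id ℝ (A 4)) j (fun q => u (c.ψ q)) p
      = ∑ k, fderiv ℝ c.ψ p (eb j) k • D X.π k u (c.ψ p) := by
  have h1 : fderiv ℝ (fun q => u (c.ψ q)) p = (fderiv ℝ u (c.ψ p)).comp (fderiv ℝ c.ψ p) :=
    fderiv_comp p (hu.differentiable (by simp) _) (c.ψ_sm.differentiable (by simp) _)
  simp only [D, h1, ContinuousLinearMap.id_apply, ContinuousLinearMap.comp_apply, ← map_smul,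
    ← map_sum, sum_eb, c.π_dψ p hp]

/-- a compactly supported function of the chart, transported to the ambient space -/
theorem exists_lift {E : Type} [NormedAddCommGroup E] [NormedSpace ℝ E] {K : Set (A 4)}
    (hK : IsCompact K) (hKU : K ⊆ c.U) {f : A 4 → E} (hf : ContDiff ℝ ∞ f)
    (h0 : ∀ p, p ∉ K → f p = 0) : ∃ u : A N → E, ContDiff ℝ ∞ u ∧ (∀ p ∈ c.U, u (c.ψ p) = f p) ∧
      ∀ x ∈ X.S, x ∉ c.ψ '' K → u x = 0 := by
  have hz : ∀ y ∈ X.S, y ∉ c.ψ '' K → c.W.indicator (fun x => f (c.pr x)) y = 0 := by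
    intro y hy hyK
    by_cases hyW : y ∈ c.W
    · rw [indicator_of_mem hyW]
      exact h0 _ fun h => hyK ⟨_, h, c.ψ_pr y hy hyW⟩
    · exact indicator_of_notMem hyW _
  obtain ⟨u, hu, h1⟩ := exists_smooth_ext X.cpt.isClosed (c.W.indicator fun x => f (c.pr x))
    fun x _ => by
      by_cases hx : x ∈ c.W
      · exact ⟨c.W, fun x => f (c.pr x), c.W_open, hx, (hf.comp c.pr.contDiff).contDiffOn,
          fun y _ hy => (indicator_of_mem hy fun x => f (c.pr x)).symm⟩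
      · refine ⟨(c.ψ '' K)ᶜ, 0, (hK.image c.ψ_sm.continuous).isClosed.isOpen_compl, ?_,
          contDiffOn_const, fun y hy hyK => (hz y hy hyK).symm⟩
        rintro ⟨p, hp, rfl⟩
        exact hx (c.ψ_W p (hKU hp))
  refine ⟨u, hu, fun p hp => ?_, fun x hx hxK => (h1 x hx).trans (hz x hx hxK)⟩
  rw [h1 _ (c.ψ_S p hp), indicator_of_mem (c.ψ_W p hp), c.pr_ψ p hp]

end Pre.RawChart

end Crest.Agent.R240
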