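import Crest.Agent.R240.Dens

/-! Row 240: auxiliary lemmas for `Cut.lean`. -/

set_option autoImplicit false

open scoped ContDiff RealInnerProductSpace Topology
open MeasureTheory Set Filter

noncomputable section

namespace Crest.Agent.R240

variable {N k : ℕ} {G : Geo N}

/-- the radial bump at scale `ε` -/
def cut_kw (ε : ℝ) (w : A N) : ℝ := ε⁻¹ ^ 2 * bump (‖w‖ ^ 2 / ε ^ 2)

/-- its gradient -/
def cut_aw (ε : ℝ) (w : A N) : A N := (2 * ε⁻¹ ^ 4 * deriv bump (‖w‖ ^ 2 / ε ^ 2)) • w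

theorem cut_kw_sm (ε : ℝ) : ContDiff ℝ ∞ (cut_kw ε : A N → ℝ) := by
  unfold cut_kw
  exact contDiff_const.mul (bump_sm.comp ((contDiff_norm_sq ℝ).div_const _))

theorem cut_deriv_bump_cont : Continuous (deriv bump) :=
  bump_sm.continuous_deriv (by simp)

theorem cut_aw_cont (ε : ℝ) : Continuous (cut_aw ε : A N → A N) := by
  unfold cut_aw
  have := cut_deriv_bump_cont
  fun_prop

theorem cut_hasFDerivAt_kw (ε : ℝ) (w : A N) :
    HasFDerivAt (cut_kw ε) (innerSL ℝ (cut_aw ε w)) w := by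
  have h1 : HasFDerivAt (fun w : A N => ‖w‖ ^ 2 / ε ^ 2) ((ε ^ 2)⁻¹ • (2 • innerSL ℝ w)) w := by
    have := ((hasStrictFDerivAt_norm_sq w).hasFDerivAt).const_mul (ε ^ 2)⁻¹
    simpa [div_eq_inv_mul] using this
  have h2 : HasDerivAt bump (deriv bump (‖w‖ ^ 2 / ε ^ 2)) (‖w‖ ^ 2 / ε ^ 2) :=
    (bump_sm.differentiable (by simp) _).hasDerivAt
  have h3 := (h2.comp_hasFDerivAt w h1).const_mul (ε⁻¹ ^ 2)
  have e : innerSL ℝ (cut_aw ε w) =
      ε⁻¹ ^ 2 • deriv bump (‖w‖ ^ 2 / ε ^ 2) • (ε ^ 2)⁻¹ • 2 • (innerSL ℝ) w := by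
    ext v
    simp [cut_aw, inner_smul_left]
    ring
  rw [e]
  exact h3

theorem cut_kw_nonneg (ε : ℝ) (w : A N) : 0 ≤ cut_kw ε w :=
  mul_nonneg (sq_nonneg _) (bump_nonneg _)

theorem cut_kw_le (ε : ℝ) (w : A N) : cut_kw ε w ≤ ε⁻¹ ^ 2 := by
  unfold cut_kw
  exact mul_le_of_le_one_right (sq_nonneg _) (bump_le_one _)

theorem cut_one_le {ε : ℝ} (hε : 0 < ε) {w : A N} (h : ε ≤ ‖w‖) : 1 ≤ ‖w‖ ^ 2 / ε ^ 2 := by
  rw [one_le_div (by positivity)]; gcongr

theorem cut_kw_zero {ε : ℝ} (hε : 0 < ε) {w : A N} (h : ε ≤ ‖w‖) : cut_kw ε w = 0 := by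
  unfold cut_kw; rw [bump_eq_zero (cut_one_le hε h), mul_zero]

theorem cut_kw_eq {ε : ℝ} (hε : 0 < ε) {w : A N} (h : ‖w‖ ≤ ε / 2) : cut_kw ε w = ε⁻¹ ^ 2 := by
  unfold cut_kw
  rw [bump_eq_one, mul_one]
  rw [div_le_iff₀ (by positivity)]
  have := norm_nonneg w
  nlinarith

theorem cut_aw_zero {ε : ℝ} (hε : 0 < ε) {w : A N} (h : ε ≤ ‖w‖) : cut_aw ε w = 0 := by
  unfold cut_aw; rw [deriv_bump_eq_zero (cut_one_le hε h)]; simp

theorem cut_coef_le {C : ℝ} (hC : ∀ s, |deriv bump s| ≤ C) (ε s : ℝ) :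
    |2 * ε⁻¹ ^ 4 * deriv bump s| ≤ 2 * C * ε⁻¹ ^ 4 := by
  rw [abs_mul, abs_of_nonneg (by positivity : 0 ≤ 2 * ε⁻¹ ^ 4)]
  have := hC s
  have h2 : 0 ≤ ε⁻¹ ^ 4 := by positivity
  nlinarith

theorem cut_norm_aw_le {C : ℝ} (hC : ∀ s, |deriv bump s| ≤ C) {ε : ℝ} (hε : 0 < ε) (w : A N) :
    ‖cut_aw ε w‖ ≤ 2 * C * ε⁻¹ ^ 3 := by
  have hC0 : 0 ≤ C := (abs_nonneg _).trans (hC 0)
  rcases le_total ε ‖w‖ with h | h
  · rw [cut_aw_zero hε h, norm_zero]; positivity
  · unfold cut_aw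
    rw [norm_smul, Real.norm_eq_abs]
    calc _ ≤ 2 * C * ε⁻¹ ^ 4 * ε := by
          gcongr
          exact cut_coef_le hC _ _
      _ = _ := by field_simp

theorem cut_one_sub_bump {s : ℝ} (hs : 0 ≤ s) : |1 - bump s| ≤ 4 * s := by
  rw [abs_of_nonneg (sub_nonneg.2 (bump_le_one s))]
  rcases le_total s (1 / 4) with h | h
  · rw [bump_eq_one h]; linarith
  · have := bump_nonneg s; linarith

theorem cut_grad_comp {f : A N → ℝ} (hf : ContDiff ℝ ∞ f) (δ : ℝ) (x : A N) :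
    grad (fun y => bump (f y / δ)) x = (deriv bump (f x / δ) / δ) • grad f x := by
  refine ext_inner_right ℝ (fun v => ?_)
  rw [inner_smul_left, inner_grad, inner_grad]
  have h1 : HasFDerivAt (fun y => f y / δ) (δ⁻¹ • fderiv ℝ f x) x := by
    have := ((hf.differentiable (by simp) x).hasFDerivAt).const_mul δ⁻¹
    simpa [div_eq_inv_mul] using this
  have h2 : HasDerivAt bump (deriv bump (f x / δ)) (f x / δ) :=
    (bump_sm.differentiable (by simp) _).hasDerivAt
  have h3 := (h2.comp_hasFDerivAt x h1).fderiv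
  have : (fun y => bump (f y / δ)) = bump ∘ fun y => f y / δ := rfl
  rw [this, h3]
  simp [div_eq_inv_mul]
  ring

theorem cut_grad_kw (ε : ℝ) (x y : A N) :
    grad (fun y => cut_kw ε (x - y)) y = -cut_aw ε (x - y) := by
  refine ext_inner_right ℝ (fun v => ?_)
  rw [inner_grad]
  have h1 : HasFDerivAt (fun y : A N => x - y) (-ContinuousLinearMap.id ℝ (A N)) y :=
    (hasFDerivAt_id y).const_sub x
  have h3 := ((cut_hasFDerivAt_kw ε (x - y)).comp y h1).fderiv
  have : (fun y => cut_kw ε (x - y)) = cut_kw ε ∘ fun y => x - y := rfl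
  rw [this, h3]
  simp

theorem cut_d1_const (e x : A N) : d1 (fun _ => e) x = 0 := by
  ext p; simp [d1]

theorem cut_ctr_smul_left (s : ℝ) (L : E2 N) (a : A N) : ctr (s • L) a = s • ctr L a := by
  obtain ⟨T, hT⟩ := exists_ctrL (N := N)
  rw [← hT, ← hT]; simp

theorem cut_ctr_smul_right (s : ℝ) (L : E2 N) (a : A N) : ctr L (s • a) = s • ctr L a := by
  obtain ⟨T, hT⟩ := exists_ctrL (N := N)
  rw [← hT, ← hT]; simp

theorem cut_ctr_cont : Continuous fun q : E2 N × A N => ctr q.1 q.2 := by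
  obtain ⟨T, hT⟩ := exists_ctrL (N := N)
  simp only [← hT]
  fun_prop

theorem cut_le_sqrt_mul {X a b : ℝ} (ha : 0 ≤ a) (hb : 0 ≤ b)
    (h : ∀ t, 0 < t → X ≤ (t * a + b / t) / 2) : X ≤ √a * √b := by
  refine le_of_forall_pos_le_add (fun η hη => ?_)
  have hA := Real.sqrt_nonneg a
  have hB := Real.sqrt_nonneg b
  have ea := Real.mul_self_sqrt ha
  have eb' := Real.mul_self_sqrt hb
  set u := √a
  set v := √b
  set θ := η / (u + v + 1) with hθ
  have hθ0 : 0 < θ := by positivity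
  have h1 := h ((v + θ) / (u + θ)) (by positivity)
  have h2 : (v + θ) / (u + θ) * a ≤ (v + θ) * u := by
    rw [div_mul_eq_mul_div, div_le_iff₀ (by positivity), ← ea]
    have : 0 ≤ (v + θ) * u * θ := by positivity
    nlinarith
  have h3 : b / ((v + θ) / (u + θ)) ≤ (u + θ) * v := by
    rw [div_div_eq_mul_div, div_le_iff₀ (by positivity), ← eb']
    have : 0 ≤ (u + θ) * v * θ := by positivity
    nlinarith
  have h4 : θ * (u + v + 1) = η := by rw [hθ]; field_simp
  nlinarith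

theorem cut_integral_sqrt_mul {α : Type} [MeasurableSpace α] {μ : Measure α} {f g : α → ℝ}
    (hf : Integrable f μ) (hg : Integrable g μ) (hf0 : ∀ᵐ x ∂μ, 0 ≤ f x)
    (hg0 : ∀ᵐ x ∂μ, 0 ≤ g x) :
    Integrable (fun x => √(f x) * √(g x)) μ ∧
      ∫ x, √(f x) * √(g x) ∂μ ≤ √(∫ x, f x ∂μ) * √(∫ x, g x ∂μ) := by
  have key : ∀ t, 0 < t → ∀ᵐ x ∂μ, √(f x) * √(g x) ≤ (t * f x + g x / t) / 2 := by
    intro t ht
    filter_upwards [hf0, hg0] with x h1 h2
    have ea := Real.mul_self_sqrt h1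
    have eb' := Real.mul_self_sqrt h2
    set u := √(f x)
    set v := √(g x)
    rw [← ea, ← eb']
    have : (t * (u * u) + v * v / t) / 2 - u * v = (t * u - v) ^ 2 / (2 * t) := by
      field_simp; ring
    have h3 : 0 ≤ (t * u - v) ^ 2 / (2 * t) := by positivity
    linarith
  have hi : ∀ t : ℝ, Integrable (fun x => (t * f x + g x / t) / 2) μ := fun t =>
    ((hf.const_mul t).add (hg.div_const t)).div_const 2
  constructor
  · refine (hi 1).mono' ?_ ?_
    · exact (Real.continuous_sqrt.comp_aestronglyMeasurable hf.1).mul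
        (Real.continuous_sqrt.comp_aestronglyMeasurable hg.1)
    · filter_upwards [key 1 one_pos] with x hx
      rwa [Real.norm_eq_abs, abs_of_nonneg (by positivity)]
  · refine cut_le_sqrt_mul (integral_nonneg_of_ae hf0) (integral_nonneg_of_ae hg0) ?_
    intro t ht
    refine (integral_mono_of_nonneg (ae_of_all _ fun x => by positivity) (hi t) (key t ht)).trans
      (le_of_eq ?_)
    rw [integral_div, integral_add (hf.const_mul t) (hg.div_const t), integral_const_mul,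
      integral_div]

namespace Dual
variable (P : Dual G k)

theorem cut_meas (x : A N) (r : ℝ) :
    MeasurableSet {z : A N × A N | z.1 ∈ Metric.closedBall x r} :=
  measurable_fst measurableSet_closedBall

theorem cut_integral_ind (x : A N) {r : ℝ} (hr : 0 < r) (c : ℝ) :
    ∫ z, indicator {z : A N × A N | z.1 ∈ Metric.closedBall x r} (fun _ => c) z ∂P.V
      = c * r ^ 2 * P.dens x r := by
  rw [integral_indicator_const _ (cut_meas x r), dens, smul_eq_mul]
  field_simp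

theorem cut_integrable_ind (x : A N) (r c : ℝ) :
    Integrable (indicator {z : A N × A N | z.1 ∈ Metric.closedBall x r} (fun _ => c)) P.V :=
  (integrable_const c).indicator (cut_meas x r)

theorem cut_theta_eq (ε : ℝ) : P.theta bump ε =
    fun x => ∫ z, ‖G.Lb z‖ • cut_kw ε (x - z.1) ∂P.V := by
  funext x
  unfold theta cut_kw
  simp only [smul_eq_mul, mul_comm]

theorem cut_theta_aux (ε : ℝ) :
    ContDiff ℝ ∞ (P.theta bump ε) ∧ ∀ x, grad (P.theta bump ε) x =
      ∫ z, ‖G.Lb z‖ • cut_aw ε (x - z.1) ∂P.V := by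
  have hL : Continuous G.Lb := G.Lb_sm.continuous
  have hΦ : ContDiff ℝ ∞ (fun q : A N × A N × A N => cut_kw ε (q.1 - q.2.1)) :=
    (cut_kw_sm ε).comp (contDiff_fst.sub (contDiff_fst.comp contDiff_snd))
  obtain ⟨h1, h2⟩ := contDiff_integral_cpt P.V G.SM_compact P.V_SM
    (P.integrable_cont hL.norm) hΦ
  rw [cut_theta_eq]
  refine ⟨h1, fun x => ?_⟩
  refine ext_inner_right ℝ (fun v => ?_)
  have hc : Continuous fun z : A N × A N => ‖G.Lb z‖ • cut_aw ε (x - z.1) := by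
    have := cut_aw_cont (N := N) ε
    fun_prop
  rw [inner_grad, h2, real_inner_comm, ← integral_inner (P.integrable_cont hc)]
  refine integral_congr_ae (ae_of_all _ fun z => ?_)
  have h3 : HasFDerivAt (fun q : A N × A N × A N => q.1 - q.2.1)
      (ContinuousLinearMap.fst ℝ _ _ - (ContinuousLinearMap.fst ℝ _ _).comp
        (ContinuousLinearMap.snd ℝ _ _)) (x, z) :=
    (ContinuousLinearMap.fst ℝ (A N) (A N × A N) - (ContinuousLinearMap.fst ℝ (A N) (A N)).comp
        (ContinuousLinearMap.snd ℝ (A N) (A N × A N))).hasFDerivAt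
  have h4 := ((cut_hasFDerivAt_kw ε (x - z.1)).comp (x, z) h3).fderiv
  have : (fun q : A N × A N × A N => cut_kw ε (q.1 - q.2.1))
      = cut_kw ε ∘ fun q : A N × A N × A N => q.1 - q.2.1 := rfl
  simp only []
  rw [this, h4]
  simp [inner_smul_right, real_inner_comm]

end Dual

end Crest.Agent.R240
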