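import Crest.Agent.R240.Dens
import Crest.Agent.R240.CutAux

/-! Row 240: cutting off the part of the current of positive density. -/

set_option autoImplicit false

open scoped ContDiff RealInnerProductSpace Topology
open MeasureTheory Set Filter

noncomputable section

namespace Crest.Agent.R240

variable {N k : ℕ} {G : Geo N}

namespace Dual
variable (P : Dual G k)

theorem theta_sm (ε : ℝ) : ContDiff ℝ ∞ (P.theta bump ε) := by
  exact (P.cut_theta_aux ε).1

theorem grad_theta {ε : ℝ} (hε : 0 < ε) (x : A N) : grad (P.theta bump ε) x =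
    ∫ z, ‖G.Lb z‖ • ((2 * ε⁻¹ ^ 4 * deriv bump (‖x - z.1‖ ^ 2 / ε ^ 2)) • (x - z.1)) ∂P.V := by
  exact (P.cut_theta_aux ε).2 x

theorem theta_bounds : ∃ c C, 0 < c ∧ 0 ≤ C ∧ ∀ ε, 0 < ε → ∀ x,
    c * P.dens x (ε / 2) ≤ P.theta bump ε x ∧ P.theta bump ε x ≤ C * P.dens x ε ∧
      ‖grad (P.theta bump ε) x‖ ≤ C * (P.dens x ε / ε) := by
  obtain ⟨c₀, C₀, hc₀, hC₀, hb⟩ := G.Lb_bounds
  obtain ⟨C₁, hC₁, hd⟩ := deriv_bump_bound
  have hL : Continuous G.Lb := G.Lb_sm.continuous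
  refine ⟨c₀ / 4, C₀ + 2 * C₀ * C₁, by positivity, by positivity, fun ε hε x => ?_⟩
  have hk : Continuous fun z : A N × A N => ‖G.Lb z‖ • cut_kw ε (x - z.1) := by
    have := (cut_kw_sm (N := N) ε).continuous
    fun_prop
  have hd0 := P.dens_nonneg x ε
  refine ⟨?_, ?_, ?_⟩
  · rw [cut_theta_eq]
    have e := P.cut_integral_ind x (half_pos hε) (c₀ * ε⁻¹ ^ 2)
    have e2 : c₀ * ε⁻¹ ^ 2 * (ε / 2) ^ 2 = c₀ / 4 := by field_simp; ring
    rw [e2] at e
    rw [← e]
    refine integral_mono_ae (P.cut_integrable_ind _ _ _) (P.integrable_cont hk) ?_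
    filter_upwards [P.ae_SM] with z hz
    by_cases h : z ∈ {z : A N × A N | z.1 ∈ Metric.closedBall x (ε / 2)}
    · rw [indicator_of_mem h, cut_kw_eq hε (by rwa [← mem_closedBall_iff_norm']), smul_eq_mul]
      gcongr
      exact (hb z hz).1
    · rw [indicator_of_notMem h]
      exact mul_nonneg (norm_nonneg _) (cut_kw_nonneg _ _)
  · rw [cut_theta_eq]
    have e := P.cut_integral_ind x hε (C₀ * ε⁻¹ ^ 2)
    have e2 : C₀ * ε⁻¹ ^ 2 * ε ^ 2 = C₀ := by field_simp
    rw [e2] at e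
    refine le_trans ?_ (mul_le_mul_of_nonneg_right (le_add_of_nonneg_right (by positivity)) hd0)
    rw [← e]
    refine integral_mono_ae (P.integrable_cont hk) (P.cut_integrable_ind _ _ _) ?_
    filter_upwards [P.ae_SM] with z hz
    by_cases h : z ∈ {z : A N × A N | z.1 ∈ Metric.closedBall x ε}
    · rw [indicator_of_mem h, smul_eq_mul]
      exact mul_le_mul (hb z hz).2 (cut_kw_le _ _) (cut_kw_nonneg _ _) hC₀.le
    · rw [indicator_of_notMem h, cut_kw_zero hε, smul_zero]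
      rw [mem_ofPred_eq, mem_closedBall_iff_norm'] at h
      exact (not_le.1 h).le
  · rw [(P.cut_theta_aux ε).2]
    have e := P.cut_integral_ind x hε (C₀ * (2 * C₁ * ε⁻¹ ^ 3))
    have e2 : C₀ * (2 * C₁ * ε⁻¹ ^ 3) * ε ^ 2 * P.dens x ε = 2 * C₀ * C₁ * (P.dens x ε / ε) := by
      field_simp
    rw [e2] at e
    refine le_trans ?_ (mul_le_mul_of_nonneg_right (le_add_of_nonneg_left hC₀.le)
      (by positivity))
    rw [← e]
    refine norm_integral_le_of_norm_le (P.cut_integrable_ind _ _ _) ?_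
    filter_upwards [P.ae_SM] with z hz
    by_cases h : z ∈ {z : A N × A N | z.1 ∈ Metric.closedBall x ε}
    · rw [indicator_of_mem h, norm_smul, norm_norm]
      exact mul_le_mul (hb z hz).2 (cut_norm_aw_le hd hε _) (norm_nonneg _) hC₀.le
    · rw [indicator_of_notMem h, cut_aw_zero hε, smul_zero, norm_zero]
      rw [mem_ofPred_eq, mem_closedBall_iff_norm'] at h
      exact (not_le.1 h).le

/-- Let `a x y = (2 ε⁻⁴ bump' (‖x - y‖² / ε²)) • (x - y)`. `P.closed` for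
`d1 (y ↦ (ε⁻² bump (‖x - y‖² / ε²)) • e) = - tens (a x y) e` gives
`⟪∫ ctr (Lb z) (a x z.1) dV, e⟫ = ∫ ⟪gb y, tens (a x y) e⟫ dm` (up to sign). -/
theorem norm_integral_ctr_le : ∃ C, 0 ≤ C ∧ ∀ gb, P.Rep gb → ∀ ε, 0 < ε → ∀ x,
    ‖∫ z, ctr (G.Lb z) ((2 * ε⁻¹ ^ 4 * deriv bump (‖x - z.1‖ ^ 2 / ε ^ 2)) • (x - z.1)) ∂P.V‖
      ≤ C * ε⁻¹ ^ 3 * ∫ y in Metric.closedBall x ε, ‖gb y‖ ∂G.m := by
  obtain ⟨C₁, hC₁, hd⟩ := deriv_bump_bound
  refine ⟨2 * C₁, by positivity, fun gb hg ε hε x => ?_⟩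
  have hL : Continuous G.Lb := G.Lb_sm.continuous
  change ‖∫ z, ctr (G.Lb z) (cut_aw ε (x - z.1)) ∂P.V‖ ≤ _
  have hgi : Integrable (fun y => ‖gb y‖) G.m := (G.integrable_of_memLp hg.1).norm
  have hc : Continuous fun z : A N × A N => ctr (G.Lb z) (cut_aw ε (x - z.1)) := by
    have := cut_aw_cont (N := N) ε
    exact cut_ctr_cont.comp (f := fun z : A N × A N => (G.Lb z, cut_aw ε (x - z.1)))
      (by fun_prop)
  set I := ∫ z, ctr (G.Lb z) (cut_aw ε (x - z.1)) ∂P.V with hI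
  set K := 2 * C₁ * ε⁻¹ ^ 3 * ∫ y in Metric.closedBall x ε, ‖gb y‖ ∂G.m with hK
  have hK0 : 0 ≤ K := mul_nonneg (by positivity) (integral_nonneg fun _ => norm_nonneg _)
  have key : ∀ e : A N, ⟪I, e⟫ ≤ ‖e‖ * K := by
    intro e
    have hf : ContDiff ℝ ∞ (fun y : A N => cut_kw ε (x - y)) :=
      (cut_kw_sm ε).comp (contDiff_const.sub contDiff_id)
    have hζ : ContDiff ℝ ∞ (fun y : A N => cut_kw ε (x - y) • e) := hf.smul contDiff_const
    have hd1 : ∀ y, d1 (fun y : A N => cut_kw ε (x - y) • e) y = tens (-cut_aw ε (x - y)) e := by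
      intro y
      rw [d1_smul hf contDiff_const, cut_d1_const, smul_zero, zero_add, cut_grad_kw]
    have h1 := P.closed _ (contDiff_d1 hζ) (Pre.Closed_d1 hζ)
    rw [hg.2 _ (contDiff_d1 hζ)] at h1
    have h2 : ∫ z, G.fv (d1 (fun y : A N => cut_kw ε (x - y) • e)) z ∂P.V = ⟪I, e⟫ := by
      rw [hI, real_inner_comm, ← integral_inner (P.integrable_cont hc)]
      refine integral_congr_ae (ae_of_all _ fun z => ?_)
      simp only [Pre.fv]
      rw [hd1, inner_tens_left, real_inner_comm _ e,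
        (show Anti (G.Lb z) from anti_biv _ _).inner_ctr, inner_neg_left]
    rw [h2] at h1
    have h3 : ‖∫ y, ⟪gb y, d1 (fun y : A N => cut_kw ε (x - y) • e) y⟫ ∂G.m‖ ≤
        ∫ y, indicator (Metric.closedBall x ε)
          (fun y => ‖e‖ * (2 * C₁ * ε⁻¹ ^ 3) * ‖gb y‖) y ∂G.m := by
      refine norm_integral_le_of_norm_le
        ((hgi.const_mul _).indicator measurableSet_closedBall) (ae_of_all _ fun y => ?_)
      rw [hd1]
      refine (norm_inner_le_norm _ _).trans ?_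
      rw [norm_tens, norm_neg]
      by_cases h : y ∈ Metric.closedBall x ε
      · rw [indicator_of_mem h]
        have := cut_norm_aw_le hd hε (x - y)
        calc _ ≤ ‖gb y‖ * (2 * C₁ * ε⁻¹ ^ 3 * ‖e‖) := by gcongr
          _ = _ := by ring
      · rw [indicator_of_notMem h, cut_aw_zero hε]
        · simp
        · rw [mem_closedBall_iff_norm'] at h
          exact (not_le.1 h).le
    rw [integral_indicator measurableSet_closedBall, integral_const_mul, Real.norm_eq_abs,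
      mul_assoc, ← hK] at h3
    have := neg_abs_le (∫ y, ⟪gb y, d1 (fun y : A N => cut_kw ε (x - y) • e) y⟫ ∂G.m)
    linarith
  have h := key I
  rw [real_inner_self_eq_norm_mul_norm] at h
  rcases (norm_nonneg I).eq_or_lt with h0 | h0
  · rw [← h0]; exact hK0
  · exact le_of_mul_le_mul_left h h0

/-- `norm_ctr_le_ctr_ctr`, then
`ctr L (ctr L ∇θ) = ∫ ‖Lb z'‖ • ctr L (ctr L a - ctr L' a) dV + ctr L (∫ ctr (Lb z') a dV)`;
`ctr_ctr_sub_le`, `perp2_smul`, Cauchy-Schwarz on `V.prod V`, `norm_integral_ctr_le`,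
`integral_mul_dens`. -/
theorem integral_ctr_grad_le : ∃ C, 0 ≤ C ∧ ∀ gb, P.Rep gb → ∀ ε, 0 < ε →
    ∫ z, ‖ctr (G.Lh z) (grad (P.theta bump ε) z.1)‖ ∂P.V ≤
      C * (ε * P.tilt ε + √(P.tilt ε) * √(P.height ε)
        + ∫ x, ‖gb x‖ * (P.dens x ε / ε) ∂G.m) := by
  obtain ⟨c₀, C₀, hc₀, hC₀, hb⟩ := G.Lb_bounds
  obtain ⟨C₁, hC₁, hd⟩ := deriv_bump_bound
  obtain ⟨C₂, hC₂, hI⟩ := P.norm_integral_ctr_le
  obtain ⟨T, hT⟩ := exists_ctrL (N := N)
  have hL : Continuous G.Lb := G.Lb_sm.continuous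
  refine ⟨16 * C₀ * C₁ + 2 * C₂, by positivity, fun gb hg ε hε => ?_⟩
  have hgi : Integrable (fun y => ‖gb y‖) G.m := (G.integrable_of_memLp hg.1).norm
  have haw := cut_aw_cont (N := N) ε
  set near : Set ((A N × A N) × A N × A N) := {q | ‖q.1.1 - q.2.1‖ ≤ ε} with hnear
  have mnear : MeasurableSet near := by
    refine IsClosed.measurableSet (isClosed_le (by fun_prop) continuous_const)
  set gp : (A N × A N) × A N × A N → ℝ := fun q => G.gap q.1 q.2 with hgp
  set pe : (A N × A N) × A N × A N → ℝ := fun q => perp2 (G.Lh q.2) (q.1.1 - q.2.1) with hpe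
  have hae : ∀ᵐ q ∂(P.V.prod P.V), q.1 ∈ G.SM ∧ q.2 ∈ G.SM :=
    (Measure.quasiMeasurePreserving_fst.ae P.ae_SM).and
      (Measure.quasiMeasurePreserving_snd.ae P.ae_SM)
  have igp : IntegrableOn gp near (P.V.prod P.V) := by
    refine Integrable.integrableOn (Integrable.of_bound
      (Pre.measurable_gap G.toPre).aestronglyMeasurable 4 ?_)
    filter_upwards [hae] with q hq
    rw [Real.norm_eq_abs, abs_of_nonneg (Pre.gap_nonneg _ _)]
    exact Pre.gap_le hq.1 hq.2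
  have pe0 : ∀ᵐ q ∂((P.V.prod P.V).restrict near), 0 ≤ pe q := by
    refine ae_restrict_of_ae ?_
    filter_upwards [hae] with q hq
    exact Pre.perp2_nonneg hq.2 _
  have ipe : IntegrableOn pe near (P.V.prod P.V) := by
    refine Integrable.of_bound (Pre.measurable_perp2 G.toPre).aestronglyMeasurable (ε ^ 2) ?_
    filter_upwards [pe0, ae_restrict_mem mnear] with q hq hq'
    rw [Real.norm_eq_abs, abs_of_nonneg hq]
    refine (Pre.perp2_le_norm_sq _ _).trans ?_
    have : ‖q.1.1 - q.2.1‖ ≤ ε := hq'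
    gcongr
  obtain ⟨isq, hsq⟩ := cut_integral_sqrt_mul igp ipe
    (ae_of_all _ fun q => Pre.gap_nonneg _ _) pe0
  set H : (A N × A N) × A N × A N → ℝ := indicator near
    (fun q => 8 * C₀ * C₁ * (ε⁻¹ ^ 3 * gp q + ε⁻¹ ^ 4 * (√(gp q) * √(pe q)))) with hH
  have iH : Integrable H (P.V.prod P.V) := by
    rw [hH, integrable_indicator_iff mnear]
    exact ((igp.const_mul _).add (isq.const_mul _)).const_mul _
  have eH : ∫ q, H q ∂(P.V.prod P.V) ≤
      8 * C₀ * C₁ * (ε * P.tilt ε + √(P.tilt ε) * √(P.height ε)) := by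
    rw [hH, integral_indicator mnear, integral_const_mul,
      integral_add (igp.const_mul _) (isq.const_mul _), integral_const_mul, integral_const_mul]
    have e1 : ∫ q in near, gp q ∂(P.V.prod P.V) = ε ^ 4 * P.tilt ε := by
      unfold tilt; field_simp; rfl
    have e2 : ∫ q in near, pe q ∂(P.V.prod P.V) = ε ^ 4 * P.height ε := by
      unfold height; field_simp; rfl
    rw [e1, e2, Real.sqrt_mul (by positivity), Real.sqrt_mul (by positivity)] at hsq
    have e3 : √(ε ^ 4) * √(ε ^ 4) = ε ^ 4 := Real.mul_self_sqrt (by positivity)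
    rw [e1]
    have e4 : ε⁻¹ ^ 3 * (ε ^ 4 * P.tilt ε) = ε * P.tilt ε := by field_simp
    rw [e4]
    refine mul_le_mul_of_nonneg_left (add_le_add le_rfl ?_) (by positivity)
    calc _ ≤ ε⁻¹ ^ 4 * (√(ε ^ 4) * √(P.tilt ε) * (√(ε ^ 4) * √(P.height ε))) := by gcongr
      _ = ε⁻¹ ^ 4 * (√(ε ^ 4) * √(ε ^ 4)) * (√(P.tilt ε) * √(P.height ε)) := by ring
      _ = _ := by rw [e3]; field_simp
  set B : A N × A N → ℝ := fun z => ∫ y in Metric.closedBall z.1 ε, ‖gb y‖ ∂G.m with hB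
  have iB : Integrable B P.V := by
    have ms : MeasurableSet {q : (A N × A N) × A N | ‖q.2 - q.1.1‖ ≤ ε} :=
      IsClosed.measurableSet (isClosed_le (by fun_prop) continuous_const)
    have h1 : Integrable (fun q : (A N × A N) × A N => ‖gb q.2‖) (P.V.prod G.m) :=
      hgi.comp_snd _
    have h2 := (h1.indicator ms).integral_prod_left
    refine h2.congr (ae_of_all _ fun z => ?_)
    simp only [hB]
    rw [← integral_indicator measurableSet_closedBall]
    refine integral_congr_ae (ae_of_all _ fun y => ?_)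
    simp only [indicator, mem_ofPred_eq, mem_closedBall_iff_norm]
  have eB : ε⁻¹ ^ 3 * ∫ z, B z ∂P.V = ∫ x, ‖gb x‖ * (P.dens x ε / ε) ∂G.m := by
    have h1 := P.integral_mul_dens hgi hε
    simp only [← mul_div_assoc]
    rw [integral_div, h1]
    simp only [hB]
    field_simp
  have hJ0 : 0 ≤ ∫ x, ‖gb x‖ * (P.dens x ε / ε) ∂G.m :=
    integral_nonneg fun x => mul_nonneg (norm_nonneg _) (div_nonneg (P.dens_nonneg _ _) hε.le)
  have pt : ∀ᵐ z ∂P.V, ‖ctr (G.Lh z) (grad (P.theta bump ε) z.1)‖ ≤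
      2 * ((∫ z', H (z, z') ∂P.V) + C₂ * ε⁻¹ ^ 3 * B z) := by
    filter_upwards [P.ae_SM, iH.prod_right_ae] with z hz hz2
    refine (Pre.norm_ctr_le_ctr_ctr hz _).trans (mul_le_mul_of_nonneg_left ?_ (by norm_num))
    have c1 : Continuous fun z' : A N × A N => ‖G.Lb z'‖ • cut_aw ε (z.1 - z'.1) := by fun_prop
    have c2 : Continuous fun z' : A N × A N => T (G.Lb z') (cut_aw ε (z.1 - z'.1)) := by fun_prop
    have i1 := P.integrable_cont c1
    have i2 := P.integrable_cont c2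
    have h1 := hI gb hg ε hε z.1
    change ‖∫ z', ctr (G.Lb z') (cut_aw ε (z.1 - z'.1)) ∂P.V‖ ≤ C₂ * ε⁻¹ ^ 3 * B z at h1
    simp only [← hT] at h1
    set I := ∫ z', T (G.Lb z') (cut_aw ε (z.1 - z'.1)) ∂P.V with hIdef
    rw [(P.cut_theta_aux ε).2, ← hT, ← hT]
    have h2 : T (G.Lh z) (T (G.Lh z) (∫ z', ‖G.Lb z'‖ • cut_aw ε (z.1 - z'.1) ∂P.V)) =
        (∫ z', T (G.Lh z) (T (G.Lh z) (‖G.Lb z'‖ • cut_aw ε (z.1 - z'.1))
          - T (G.Lb z') (cut_aw ε (z.1 - z'.1))) ∂P.V) + T (G.Lh z) I := by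
      have i3 : Integrable (fun z' : A N × A N => T (G.Lh z) (‖G.Lb z'‖ • cut_aw ε (z.1 - z'.1))
          - T (G.Lb z') (cut_aw ε (z.1 - z'.1))) P.V := ((T (G.Lh z)).integrable_comp i1).sub i2
      rw [(T (G.Lh z)).integral_comp_comm i3,
        integral_sub ((T (G.Lh z)).integrable_comp i1) i2, (T (G.Lh z)).integral_comp_comm i1,
        map_sub, sub_add_cancel]
    rw [h2]
    refine (norm_add_le _ _).trans (add_le_add ?_ ?_)
    · refine norm_integral_le_of_norm_le hz2 ?_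
      filter_upwards [P.ae_SM] with z' hz'
      by_cases h : (z, z') ∈ near
      · have e : T (G.Lh z) (T (G.Lh z) (‖G.Lb z'‖ • cut_aw ε (z.1 - z'.1))
            - T (G.Lb z') (cut_aw ε (z.1 - z'.1))) = ‖G.Lb z'‖ •
              ctr (G.Lh z) (ctr (G.Lh z) (cut_aw ε (z.1 - z'.1))
                - ctr (G.Lh z') (cut_aw ε (z.1 - z'.1))) := by
          have := Pre.Lb_eq_smul_Lh hz'
          set s := ‖G.Lb z'‖
          rw [this]
          simp only [← hT, map_smul, map_sub, smul_apply, smul_sub]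
        rw [e, norm_smul, norm_norm, hH, indicator_of_mem h]
        have h3 := Pre.ctr_ctr_sub_le hz hz' (cut_aw ε (z.1 - z'.1))
        have h4 := cut_norm_aw_le hd hε (z.1 - z'.1)
        have h5 : √(perp2 (G.Lh z') (cut_aw ε (z.1 - z'.1))) ≤
            2 * C₁ * ε⁻¹ ^ 4 * √(pe (z, z')) := by
          unfold cut_aw
          rw [Pre.perp2_smul, Real.sqrt_mul (sq_nonneg _), Real.sqrt_sq_eq_abs]
          gcongr
          exact cut_coef_le hd _ _
        have h6 := Pre.gap_nonneg (X := G.toPre) z z'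
        calc _ ≤ C₀ * (4 * (G.gap z z' * (2 * C₁ * ε⁻¹ ^ 3)
              + √(G.gap z z') * (2 * C₁ * ε⁻¹ ^ 4 * √(pe (z, z'))))) := by
              refine mul_le_mul (hb z' hz').2 (h3.trans ?_) (norm_nonneg _) hC₀.le
              gcongr
          _ = _ := by simp only [hgp]; ring
      · rw [hH, indicator_of_notMem h, cut_aw_zero hε (not_le.1 h).le]
        simp
    · rw [hT]
      refine (norm_ctr_le _ _).trans ?_
      rw [Pre.norm_Lh hz, one_mul]
      exact h1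
  refine (integral_mono_of_nonneg (ae_of_all _ fun z => norm_nonneg _)
    ((iH.integral_prod_left.add (iB.const_mul _)).const_mul 2) pt).trans ?_
  simp only [Pi.add_apply]
  rw [integral_const_mul, integral_add iH.integral_prod_left (iB.const_mul _),
    integral_const_mul, ← integral_prod _ iH, mul_assoc C₂, eB]
  have h7 : 0 ≤ ε * P.tilt ε + √(P.tilt ε) * √(P.height ε) := by
    have := P.tilt_nonneg ε
    positivity
  have h8 : 0 ≤ C₀ * C₁ := by positivity
  nlinarith [mul_nonneg hC₂ h7, mul_nonneg h8 hJ0]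

/-- With `F = bump (θ / δ)`: `P.closed` for `d1 (F • ζ) = F • d1 ζ + tens (grad F) ζ` shows that
the expression equals
`-∫ ⟪tens (grad F) ζ, Lb⟫ dV + ∫ ⟪gb, (1 - F) • d1 ζ⟫ dm - ∫ ⟪gb, tens (grad F) ζ⟫ dm`;
`1 - F ≤ 4 θ / δ`, `‖grad F‖ ≤ C ‖grad θ‖ / δ`; `inner_tens_left`, `Anti.inner_ctr`,
`tendsto_integral_dens`. -/
theorem cut {gb : A N → E2 N} (hg : P.Rep gb) {Θ T δ : ℝ} (hΘ : ∀ x r, 0 < r → P.dens x r ≤ Θ)
    (hδ : 0 < δ) {ε : ℕ → ℝ} (hε : ∀ j, 0 < ε j) (hε0 : Tendsto ε atTop (𝓝 0))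
    (hT : ∀ᶠ j in atTop, P.tilt (ε j) ≤ T) (hh : Tendsto (fun j => P.height (ε j)) atTop (𝓝 0))
    (ζ : A N → A N) (hζ : ContDiff ℝ ∞ ζ) :
    Tendsto (fun j => ∫ z, bump (P.theta bump (ε j) z.1 / δ) * G.fv (d1 ζ) z ∂P.V + P.φ (d1 ζ))
      atTop (𝓝 0) := by
  obtain ⟨c₀, C₀, hc₀, hC₀, hb⟩ := G.Lb_bounds
  obtain ⟨C₁, hC₁, hd⟩ := deriv_bump_bound
  obtain ⟨c₂, C₂, hc₂, hC₂, hθ⟩ := P.theta_bounds
  obtain ⟨C₃, hC₃, h3⟩ := P.integral_ctr_grad_le
  have hL : Continuous G.Lb := G.Lb_sm.continuous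
  have hdζ := contDiff_d1 hζ
  obtain ⟨Z₁, hZ₁⟩ := G.cpt.exists_bound_of_continuousOn hζ.continuous.continuousOn
  obtain ⟨Z₂, hZ₂⟩ := G.cpt.exists_bound_of_continuousOn hdζ.continuous.continuousOn
  set Z := max (max Z₁ Z₂) 0 with hZ
  have hZ0 : 0 ≤ Z := le_max_right _ _
  have hZ1 : ∀ x ∈ G.S, ‖ζ x‖ ≤ Z := fun x hx =>
    (hZ₁ x hx).trans ((le_max_left _ _).trans (le_max_left _ _))
  have hZ2 : ∀ x ∈ G.S, ‖d1 ζ x‖ ≤ Z := fun x hx =>
    (hZ₂ x hx).trans ((le_max_right _ _).trans (le_max_left _ _))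
  set J : ℕ → ℝ := fun j => ∫ x, ‖gb x‖ * (P.dens x (ε j) / ε j) ∂G.m with hJ
  have hJ0 : Tendsto J atTop (𝓝 0) :=
    (P.tendsto_integral_dens hΘ hg.1).comp
      (tendsto_nhdsWithin_iff.2 ⟨hε0, Eventually.of_forall hε⟩)
  have hlim : Tendsto (fun j => C₀ * (C₁ / δ) * Z * (C₃ * (ε j * T + √T * √(P.height (ε j)) + J j))
      + (4 * C₂ / δ * Z + C₁ / δ * C₂ * Z) * J j) atTop (𝓝 0) := by
    have h1 : Tendsto (fun j => √(P.height (ε j))) atTop (𝓝 0) := by
      simpa using hh.sqrt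
    have := (((((hε0.mul_const T).add (h1.const_mul √T)).add hJ0).const_mul C₃).const_mul
      (C₀ * (C₁ / δ) * Z)).add (hJ0.const_mul (4 * C₂ / δ * Z + C₁ / δ * C₂ * Z))
    simpa using this
  refine squeeze_zero_norm' ?_ hlim
  filter_upwards [hT, hε0.eventually (ge_mem_nhds one_pos)] with j hTj hε1
  have hεj := hε j
  set e := ε j with he
  have hθs := P.theta_sm e
  set θ := P.theta bump e with hθe
  have hF : ContDiff ℝ ∞ (fun y => bump (θ y / δ)) := bump_sm.comp (hθs.div_const δ)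
  have hζ' : ContDiff ℝ ∞ (fun y => bump (θ y / δ) • ζ y) := hF.smul hζ
  have hgF := contDiff_grad hF
  have hgθ := contDiff_grad hθs
  have hcl := P.closed _ (contDiff_d1 hζ') (Pre.Closed_d1 hζ')
  set t : A N → E2 N := fun y => tens (grad (fun y => bump (θ y / δ)) y) (ζ y) with ht
  have hts : ContDiff ℝ ∞ t := contDiff_tens hgF hζ
  set u : A N → E2 N := fun y => (1 - bump (θ y / δ)) • d1 ζ y - t y with hu
  have hus : ContDiff ℝ ∞ u := ((contDiff_const.sub hF).smul hdζ).sub hts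
  have e1 : d1 ζ = d1 (fun y => bump (θ y / δ) • ζ y) + u := by
    funext y
    rw [Pi.add_apply, d1_smul hF hζ]
    simp only [hu, ht, sub_smul, one_smul]
    abel
  have e2 : ∫ z, G.fv (d1 (fun y => bump (θ y / δ) • ζ y)) z ∂P.V =
      ∫ z, bump (θ z.1 / δ) * G.fv (d1 ζ) z ∂P.V + ∫ z, G.fv t z ∂P.V := by
    have c1 : Continuous fun z : A N × A N => bump (θ z.1 / δ) * G.fv (d1 ζ) z :=
      (hF.continuous.comp continuous_fst).mul (G.fv_cont hdζ.continuous)
    rw [← integral_add (P.integrable_cont c1) (P.integrable_cont (G.fv_cont hts.continuous))]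
    refine integral_congr_ae (ae_of_all _ fun z => ?_)
    simp only [Pre.fv]
    rw [d1_smul hF hζ, inner_add_left, real_inner_smul_left]
  have e3 : ∫ z, bump (θ z.1 / δ) * G.fv (d1 ζ) z ∂P.V + P.φ (d1 ζ) =
      -∫ z, G.fv t z ∂P.V + ∫ x, ⟪gb x, u x⟫ ∂G.m := by
    have : P.φ (d1 ζ) = P.φ (d1 (fun y => bump (θ y / δ) • ζ y)) + P.φ u := by
      rw [← map_add, ← e1]
    rw [this, hg.2 u hus]
    linarith
  have hcoef : ∀ y, |deriv bump (θ y / δ) / δ| ≤ C₁ / δ := by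
    intro y
    rw [abs_div, abs_of_pos hδ]
    gcongr
    exact hd _
  rw [e3]
  refine (norm_add_le _ _).trans (add_le_add ?_ ?_)
  · rw [norm_neg]
    have i1 : Integrable (fun z => ‖ctr (G.Lh z) (grad θ z.1)‖) P.V := by
      refine (P.integrable_cont (hgθ.continuous.comp continuous_fst).norm).mono' ?_ ?_
      · exact (cut_ctr_cont.measurable.comp ((Pre.measurable_Lh G.toPre).prodMk
          (hgθ.continuous.comp continuous_fst).measurable)).norm.aestronglyMeasurable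
      · filter_upwards [P.ae_SM] with z hz
        rw [norm_norm]
        refine (norm_ctr_le _ _).trans ?_
        rw [Pre.norm_Lh hz, one_mul]
        exact le_rfl
    refine (norm_integral_le_of_norm_le (i1.const_mul (C₀ * (C₁ / δ) * Z)) ?_).trans ?_
    · filter_upwards [P.ae_SM] with z hz
      have a1 : G.fv t z = -⟪ctr (G.Lb z) (grad (fun y => bump (θ y / δ)) z.1), ζ z.1⟫ := by
        simp only [Pre.fv, ht]
        rw [inner_tens_left, (show Anti (G.Lb z) from anti_biv _ _).inner_ctr, neg_neg]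
      rw [a1, norm_neg]
      refine (norm_inner_le_norm _ _).trans ?_
      have a2 : ctr (G.Lb z) (grad (fun y => bump (θ y / δ)) z.1) =
          ‖G.Lb z‖ • (deriv bump (θ z.1 / δ) / δ) • ctr (G.Lh z) (grad θ z.1) := by
        rw [cut_grad_comp hθs, cut_ctr_smul_right, smul_comm, ← cut_ctr_smul_left ‖G.Lb z‖,
          ← Pre.Lb_eq_smul_Lh hz]
      rw [a2, norm_smul, norm_smul, norm_norm, Real.norm_eq_abs]
      have b1 := (hb z hz).2
      have b2 := hcoef z.1
      have b3 := hZ1 z.1 hz.1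
      calc _ ≤ C₀ * (C₁ / δ * ‖ctr (G.Lh z) (grad θ z.1)‖) * Z := by gcongr
        _ = _ := by ring
    · rw [integral_const_mul]
      refine mul_le_mul_of_nonneg_left ((h3 gb hg e hεj).trans ?_) (by positivity)
      gcongr
  · refine (norm_integral_le_of_norm_le ((P.integrable_norm_mul_dens hg.1 e e).const_mul
      (4 * C₂ / δ * Z + C₁ / δ * C₂ * Z)) ?_).trans (by rw [integral_const_mul])
    filter_upwards [G.B.ae_mem] with x hx
    refine (norm_inner_le_norm _ _).trans ?_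
    obtain ⟨b1, b2, b3⟩ := hθ e hεj x
    have d0 := P.dens_nonneg x e
    have θ0 : 0 ≤ θ x := le_trans (mul_nonneg hc₂.le (P.dens_nonneg _ _)) b1
    have d1' : P.dens x e ≤ P.dens x e / e := by
      rw [le_div_iff₀ hεj]; exact mul_le_of_le_one_right d0 hε1
    have b4 : |1 - bump (θ x / δ)| ≤ 4 * C₂ / δ * (P.dens x e / e) := by
      refine (cut_one_sub_bump (div_nonneg θ0 hδ.le)).trans ?_
      calc 4 * (θ x / δ) ≤ 4 * (C₂ * (P.dens x e / e) / δ) := by
            gcongr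
            exact b2.trans (mul_le_mul_of_nonneg_left d1' hC₂)
        _ = _ := by ring
    have b5 : ‖grad (fun y => bump (θ y / δ)) x‖ ≤ C₁ / δ * (C₂ * (P.dens x e / e)) := by
      rw [cut_grad_comp hθs, norm_smul, Real.norm_eq_abs]
      exact mul_le_mul (hcoef x) b3 (norm_nonneg _) (by positivity)
    have b6 : ‖u x‖ ≤ 4 * C₂ / δ * (P.dens x e / e) * Z + C₁ / δ * (C₂ * (P.dens x e / e)) * Z := by
      refine (norm_sub_le _ _).trans (add_le_add ?_ ?_)
      · rw [norm_smul, Real.norm_eq_abs]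
        exact mul_le_mul b4 (hZ2 x hx) (norm_nonneg _) (by positivity)
      · simp only [ht]
        rw [norm_tens]
        exact mul_le_mul b5 (hZ1 x hx) (norm_nonneg _) (by positivity)
    calc _ ≤ ‖gb x‖ * (4 * C₂ / δ * (P.dens x e / e) * Z
          + C₁ / δ * (C₂ * (P.dens x e / e)) * Z) := by gcongr
      _ = _ := by ring

end Dual

end Crest.Agent.R240
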