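import Mathlib

/-!
Row 240 (tamed implies compatible on four-manifolds): definitions.

The manifold is a compact subset `S` of a Euclidean space `A N`; all fields (projection `π` onto
the tangent spaces, almost complex structure `J`, forms) are smooth functions on the whole of
`A N`, of which only the values on `S` matter.
-/

set_option autoImplicit false

open scoped ContDiff RealInnerProductSpace
open MeasureTheory Set

noncomputable section

namespace Crest.Agent.R240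

/-- ambient space -/
abbrev A (N : ℕ) : Type := EuclideanSpace ℝ (Fin N)

/-- two-tensors: two-forms and bivectors -/
abbrev E2 (N : ℕ) : Type := EuclideanSpace ℝ (Fin N × Fin N)

variable {N M : ℕ}

/-- basis vectors -/
def eb (k : Fin N) : A N := EuclideanSpace.single k 1

/-- a matrix as a continuous linear map between Euclidean spaces -/
def matL {ι κ : Type} [Fintype ι] [Fintype κ] [DecidableEq κ] (F : ι → κ → ℝ) :
    EuclideanSpace ℝ κ →L[ℝ] EuclideanSpace ℝ ι :=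
  LinearMap.toContinuousLinearMap (Matrix.toEuclideanLin (Matrix.of F))

/-- tensor product of two vectors -/
def tens (a b : A N) : E2 N := WithLp.toLp 2 fun p => a p.1 * b p.2

/-- the bivector `a ∧ b` -/
def biv (a b : A N) : E2 N := tens a b - tens b a

/-- the two-form represented by `η`, evaluated on `a`, `b` -/
def ev (η : E2 N) (a b : A N) : ℝ := ⟪η, biv a b⟫

/-- contraction of a two-tensor with a vector -/
def ctr (L : E2 N) (a : A N) : A N := WithLp.toLp 2 fun k => ∑ l, L (k, l) * a l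

/-- pull-back of two-forms (with antisymmetric values) -/
def pb (B : A N →L[ℝ] A M) : E2 M →L[ℝ] E2 N :=
  matL fun p q => (B (eb p.1) q.1 * B (eb p.2) q.2 - B (eb p.2) q.1 * B (eb p.1) q.2) / 2

/-- exterior derivative of the one-form `⟪ζ, ·⟫` -/
def d1 (ζ : A N → A N) (x : A N) : E2 N := WithLp.toLp 2 fun p => fderiv ℝ ζ x (eb p.1) p.2

/-- exterior derivative of a two-form, evaluated on three vectors -/
def d2 (η : A N → E2 N) (x a b c : A N) : ℝ :=
  ev (fderiv ℝ η x a) b c - ev (fderiv ℝ η x b) a c + ev (fderiv ℝ η x c) a b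

/-- wedge product of two two-forms on four vectors -/
def wedge (η η' : E2 N) (a b c d : A N) : ℝ :=
  ev η a b * ev η' c d - ev η a c * ev η' b d + ev η a d * ev η' b c
    + ev η b c * ev η' a d - ev η b d * ev η' a c + ev η c d * ev η' a b

/-- the standard complex structure of `ℝ⁴` -/
def Jst : A 4 →L[ℝ] A 4 := matL ![![0, -1, 0, 0], ![1, 0, 0, 0], ![0, 0, 0, -1], ![0, 0, 1, 0]]

/-- projection onto the `J`-anti-invariant two-forms of the range of `π` -/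
def pm (π J : A N →L[ℝ] A N) : E2 N →L[ℝ] E2 N := (1 / 2 : ℝ) • (pb π - pb J)

/-- projection onto the `J`-invariant two-forms of the range of `π` -/
def pp (π J : A N →L[ℝ] A N) : E2 N →L[ℝ] E2 N := (1 / 2 : ℝ) • (pb π + pb J)

/-- squared distance from `a` to the plane of the unit simple bivector `L` -/
def perp2 (L : E2 N) (a : A N) : ℝ := ‖a‖ ^ 2 - 2 * ‖ctr L a‖ ^ 2

/-! ### Sobolev seminorms -/

/-- a compact set with a finite measure and a smooth field of linear maps -/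
structure Base (N : ℕ) where
  S : Set (A N)
  cpt : IsCompact S
  π : A N → A N →L[ℝ] A N
  π_sm : ContDiff ℝ ∞ π
  m : Measure (A N)
  fin : IsFiniteMeasure m
  m_S : m Sᶜ = 0

instance (B : Base N) : IsFiniteMeasure B.m := B.fin

section Sob
variable {E : Type} [NormedAddCommGroup E] [NormedSpace ℝ E]

/-- the derivation along the `k`-th vector field `π x (eb k)` -/
def D (π : A N → A N →L[ℝ] A N) (k : Fin N) (u : A N → E) (x : A N) : E :=
  fderiv ℝ u x (π x (eb k))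

/-- `L²` norm -/
def Base.L2 (B : Base N) (u : A N → E) : ℝ := lpNorm u 2 B.m

/-- homogeneous Sobolev seminorm of order `i` -/
def Base.Hs (B : Base N) : ℕ → (A N → E) → ℝ
  | 0, u => B.L2 u
  | i + 1, u => ∑ k, B.Hs i (D B.π k u)

/-- Sobolev norm of order `j` at scale `t` -/
def Base.Hn (B : Base N) (t : ℝ) (j : ℕ) (u : A N → E) : ℝ :=
  ∑ i ∈ Finset.range (j + 1), t ^ i * B.Hs i u

/-- all derivatives up to order `j` are bounded by `C` on `S` -/
def Base.CB (B : Base N) (C : ℝ) : ℕ → (A N → E) → Prop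
  | 0, u => ∀ x ∈ B.S, ‖u x‖ ≤ C
  | j + 1, u => (∀ x ∈ B.S, ‖u x‖ ≤ C) ∧ ∀ k, B.CB C j (D B.π k u)

end Sob

/-- a closed ball of `ℝ⁴` with Lebesgue measure -/
def ballBase (p₀ : A 4) (r : ℝ) : Base 4 where
  S := Metric.closedBall p₀ r
  cpt := isCompact_closedBall _ _
  π := fun _ => ContinuousLinearMap.id ℝ _
  π_sm := contDiff_const
  m := volume.restrict (Metric.closedBall p₀ r)
  fin := ⟨by
    rw [Measure.restrict_apply_univ]
    exact (isCompact_closedBall _ _).measure_lt_top⟩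
  m_S := by
    rw [Measure.restrict_apply measurableSet_closedBall.compl]
    simp

/-! ### the geometric data -/

/-- compact set, tangent projections and almost complex structure -/
structure Pre (N : ℕ) where
  S : Set (A N)
  cpt : IsCompact S
  π : A N → A N →L[ℝ] A N
  π_sm : ContDiff ℝ ∞ π
  J : A N → A N →L[ℝ] A N
  J_sm : ContDiff ℝ ∞ J
  ππ : ∀ x ∈ S, ∀ a, π x (π x a) = π x a
  πJ : ∀ x ∈ S, ∀ a, π x (J x a) = J x a
  Jπ : ∀ x ∈ S, ∀ a, J x (π x a) = J x a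
  JJ : ∀ x ∈ S, ∀ a, J x (J x a) = -π x a

namespace Pre
variable (X : Pre N)

/-- a `J`-invariant metric on the tangent spaces -/
def g (x a b : A N) : ℝ := ⟪X.π x a, X.π x b⟫ + ⟪X.J x a, X.J x b⟫

/-- its fundamental two-form -/
def om (x a b : A N) : ℝ := ⟪X.J x a, X.π x b⟫ - ⟪X.π x a, X.J x b⟫

/-- the volume form `om ∧ om / 2` -/
def Vol (x a b c d : A N) : ℝ :=
  X.om x a b * X.om x c d - X.om x a c * X.om x b d + X.om x a d * X.om x b c

/-- tangential part -/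
def Pt (x : A N) : E2 N →L[ℝ] E2 N := pb (X.π x)
/-- anti-invariant part -/
def Pm (x : A N) : E2 N →L[ℝ] E2 N := pm (X.π x) (X.J x)
/-- invariant part -/
def Pp (x : A N) : E2 N →L[ℝ] E2 N := pp (X.π x) (X.J x)

/-- contraction of the volume form with a bivector -/
def volL (x : A N) : E2 N →L[ℝ] E2 N :=
  matL fun p q => X.Vol x (eb p.1) (eb p.2) (eb q.1) (eb q.2) / 4

/-- closed two-forms -/
def Closed (η : A N → E2 N) : Prop :=
  ∀ x ∈ X.S, ∀ a b c, X.π x a = a → X.π x b = b → X.π x c = c → d2 η x a b c = 0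

/-- taming two-forms -/
def Tames (η : A N → E2 N) : Prop :=
  ∀ x ∈ X.S, ∀ v, X.π x v = v → v ≠ 0 → 0 < ev (η x) v (X.J x v)

/-- the unit sphere bundle -/
def SM : Set (A N × A N) := {z | z.1 ∈ X.S ∧ X.π z.1 z.2 = z.2 ∧ ‖z.2‖ = 1}

/-- the bivector of the complex line through `z.2` -/
def Lb (z : A N × A N) : E2 N := biv z.2 (X.J z.1 z.2)

/-- the unit bivector of the complex line through `z.2` -/
def Lh (z : A N × A N) : E2 N := ‖X.Lb z‖⁻¹ • X.Lb z

/-- squared distance of two complex lines -/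
def gap (z z' : A N × A N) : ℝ := ‖X.Lh z - X.Lh z'‖ ^ 2

/-- the function `η(v, J v)` on the sphere bundle -/
def fv (η : A N → E2 N) (z : A N × A N) : ℝ := ⟪η z.1, X.Lb z⟫

/-- a unitary frame of the tangent space at `x` -/
structure Frame (x : A N) where
  B : A 4 →L[ℝ] A N
  L : A N →L[ℝ] A 4
  πB : ∀ a, X.π x (B a) = B a
  LB : ∀ a, L (B a) = a
  BL : ∀ v, B (L v) = X.π x v
  JB : ∀ a, X.J x (B a) = B (Jst a)
  gB : ∀ a b, X.g x (B a) (B b) = ⟪a, b⟫

/-- a local parametrisation of `S` as a graph over a linear projection -/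
structure RawChart where
  ψ : A 4 → A N
  pr : A N →L[ℝ] A 4
  U : Set (A 4)
  W : Set (A N)
  U_open : IsOpen U
  W_open : IsOpen W
  ψ_sm : ContDiff ℝ ∞ ψ
  pr_mem : ∀ x ∈ X.S, x ∈ W → pr x ∈ U
  ψ_pr : ∀ x ∈ X.S, x ∈ W → ψ (pr x) = x
  ψ_S : ∀ p ∈ U, ψ p ∈ X.S
  ψ_W : ∀ p ∈ U, ψ p ∈ W
  pr_ψ : ∀ p ∈ U, pr (ψ p) = p
  π_dψ : ∀ p ∈ U, ∀ a, X.π (ψ p) (fderiv ℝ ψ p a) = fderiv ℝ ψ p a
  dψ_pr : ∀ p ∈ U, ∀ v, fderiv ℝ ψ p (pr (X.π (ψ p) v)) = X.π (ψ p) v

variable {X} in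
/-- density of the volume form in a chart -/
def RawChart.pf (c : X.RawChart) (p : A 4) : ℝ :=
  X.Vol (c.ψ p) (fderiv ℝ c.ψ p (eb 0)) (fderiv ℝ c.ψ p (eb 1)) (fderiv ℝ c.ψ p (eb 2))
    (fderiv ℝ c.ψ p (eb 3))

/-- positively oriented charts -/
structure Chart extends X.RawChart where
  pf_pos : ∀ p ∈ U, 0 < toRawChart.pf p

end Pre

/-- a compact four-dimensional submanifold with an almost complex structure -/
structure Sub (N : ℕ) extends Pre N where
  chart : ∀ x ∈ S, ∃ c : toPre.RawChart, x ∈ c.W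

/-- the same with volume measure, star operator and divergences -/
structure Geo (N : ℕ) extends Sub N where
  m : Measure (A N)
  fin : IsFiniteMeasure m
  m_S : m Sᶜ = 0
  m_chart : ∀ c : toPre.Chart, m.restrict c.W =
    Measure.map c.ψ ((volume.restrict c.U).withDensity fun p => ENNReal.ofReal (c.pf p))
  st : A N → E2 N →L[ℝ] E2 N
  st_sm : ContDiff ℝ ∞ st
  st_spec : ∀ x ∈ S, ∀ η η' a b c d, π x a = a → π x b = b → π x c = c → π x d = d →
    ⟪st x η, η'⟫ * toPre.Vol x a b c d = wedge η η' a b c d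
  dv : Fin N → A N → ℝ
  dv_sm : ∀ k, ContDiff ℝ ∞ (dv k)
  dv_spec : ∀ k (u : A N → ℝ), ContDiff ℝ ∞ u → ∫ x, D π k u x ∂m = -∫ x, dv k x * u x ∂m

/-- the underlying base -/
def Geo.B (G : Geo N) : Base N := ⟨G.S, G.cpt, G.π, G.π_sm, G.m, G.fin, G.m_S⟩

instance (G : Geo N) : IsFiniteMeasure G.m := G.fin

/-! ### kernels -/

section Ker
variable {F E E' : Type} [NormedAddCommGroup F] [NormedSpace ℝ F] [NormedAddCommGroup E]
  [NormedSpace ℝ E] [NormedAddCommGroup E'] [NormedSpace ℝ E']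

/-- smooth functions of `(t, x, w)` vanishing for `‖w‖ ≥ R` -/
structure IsKer (κ : ℝ × A N × A N → F) (R : ℝ) : Prop where
  sm : ContDiff ℝ ∞ κ
  supp : ∀ t x w, R ≤ ‖w‖ → κ (t, x, w) = 0

/-- the kernel at scale `t` -/
def kerAt (κ : ℝ × A N × A N → F) (t : ℝ) (x y : A N) : F := t⁻¹ ^ 4 • κ (t, x, t⁻¹ • (y - x))

/-- the integral operator -/
def Op (m : Measure (A N)) (κ : ℝ × A N × A N → E →L[ℝ] E') (t : ℝ) (u : A N → E) (y : A N) :
    E' := ∫ x, kerAt κ t x y (u x) ∂m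

/-- the total mass of the kernel -/
def mass (m : Measure (A N)) (κ : ℝ × A N × A N → F) (t : ℝ) (y : A N) : F :=
  ∫ x, kerAt κ t x y ∂m

end Ker

/-- the smoothing kernel: a closed four-form on `S × S` concentrated near the diagonal -/
structure KData (G : Geo N) where
  K : ℝ × A N × A N → E2 N →L[ℝ] E2 N
  k₀ : A N × A N → ℝ
  R : ℝ
  t₀ : ℝ
  c : ℝ
  C : ℝ
  one_le_R : 1 ≤ R
  t₀_pos : 0 < t₀
  t₀_le : t₀ ≤ 1
  c_pos : 0 < c
  c_le : c ≤ 1
  C_pos : 0 < C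
  ker : IsKer K R
  ker₀ : IsKer (fun q : ℝ × A N × A N => k₀ q.2) R
  k₀_nonneg : ∀ q, 0 ≤ k₀ q
  k₀_ge : ∀ x ∈ G.S, ∀ w, ‖w‖ ≤ c → c ≤ k₀ (x, w)
  lead : ∀ x ∈ G.S, ∀ w, K (0, x, w) = k₀ (x, w) • G.volL x
  K_tan : ∀ x ∈ G.S, ∀ t w b, K (t, x, w) (ContinuousLinearMap.adjoint (G.Pt x) b) = K (t, x, w) b
  pos : ∀ t, 0 < t → t ≤ t₀ → ∀ x ∈ G.S, ∀ z ∈ G.SM, ∀ z' ∈ G.SM,
    k₀ (x, t⁻¹ • (z.1 - x)) * k₀ (x, t⁻¹ • (z'.1 - x)) * (c * G.gap z z' - C * t ^ 2) ≤
      ⟪G.st x (ContinuousLinearMap.adjoint (K (t, x, t⁻¹ • (z.1 - x))) (G.Lb z)),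
        ContinuousLinearMap.adjoint (K (t, x, t⁻¹ • (z'.1 - x))) (G.Lb z')⟫
  closed : ∀ t, 0 < t → t ≤ t₀ → ∀ w : A N → E2 N, MemLp w 2 G.m →
    (∀ ζ : A N → A N, ContDiff ℝ ∞ ζ → ∫ x, ⟪w x, G.Pt x (d1 ζ x)⟫ ∂G.m = 0) →
    G.Closed (Op G.m K t w)
  exact : ∀ t, 0 < t → t ≤ t₀ → ∀ ζ : A N → A N, ContDiff ℝ ∞ ζ →
    ∃ ζ' : A N → A N, ContDiff ℝ ∞ ζ' ∧
      ∀ y ∈ G.S, G.Pt y (Op G.m K t (fun x => G.st x (d1 ζ x)) y) = G.Pt y (d1 ζ' y)

/-! ### the dual object -/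

/-- a probability measure on the sphere bundle and a functional on anti-invariant forms whose
sum kills all closed forms -/
structure Dual (G : Geo N) (k : ℕ) where
  V : Measure (A N × A N)
  prob : IsProbabilityMeasure V
  V_SM : V G.SMᶜ = 0
  φ : (A N → E2 N) →ₗ[ℝ] ℝ
  φ_congr : ∀ u u', ContDiff ℝ ∞ u → ContDiff ℝ ∞ u' →
    (∀ x ∈ G.S, G.Pm x (u x) = G.Pm x (u' x)) → φ u = φ u'
  φ_bd : ∃ C, ∀ u, ContDiff ℝ ∞ u → |φ u| ≤ C * G.B.Hn 1 k u
  closed : ∀ η, ContDiff ℝ ∞ η → G.Closed η → ∫ z, G.fv η z ∂V + φ η = 0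

namespace Dual
variable {G : Geo N} {k : ℕ} (P : Dual G k)

instance : IsProbabilityMeasure P.V := P.prob

/-- `φ` is bounded by `n` for the Sobolev norm of order `k + 1` at scale `t` -/
def Bd (t n : ℝ) : Prop := ∀ u, ContDiff ℝ ∞ u → |P.φ u| ≤ n * G.B.Hn t (k + 1) u

/-- two-dimensional density ratio of the projected measure -/
def dens (x : A N) (r : ℝ) : ℝ := P.V.real {z | z.1 ∈ Metric.closedBall x r} / r ^ 2

/-- all density ratios at scales `≥ r` are at most `Θ` -/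
def DB (r Θ : ℝ) : Prop := ∀ x ρ, r ≤ ρ → P.dens x ρ ≤ Θ

/-- tilt energy at scale `r` -/
def tilt (r : ℝ) : ℝ :=
  (∫ q in {q : (A N × A N) × A N × A N | ‖q.1.1 - q.2.1‖ ≤ r}, G.gap q.1 q.2 ∂P.V.prod P.V) / r ^ 4

/-- height excess at scale `r` -/
def height (r : ℝ) : ℝ :=
  (∫ q in {q : (A N × A N) × A N × A N | ‖q.1.1 - q.2.1‖ ≤ r},
    perp2 (G.Lh q.2) (q.1.1 - q.2.1) ∂P.V.prod P.V) / r ^ 4

/-- the smoothing at scale `t` of the positive current with weight `f` -/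
def Psm (Q : KData G) (f : A N × A N → ℝ) (t : ℝ) (x : A N) : E2 N :=
  ∫ z, f z • ContinuousLinearMap.adjoint (kerAt Q.K t x z.1) (G.Lb z) ∂P.V

/-- `g` represents the smoothing of `φ` at scale `t` -/
def IsPhi (Q : KData G) (t : ℝ) (g : A N → E2 N) : Prop :=
  MemLp g 2 G.m ∧ ∀ w, MemLp w 2 G.m → P.φ (Op G.m Q.K t w) = ∫ x, ⟪g x, w x⟫ ∂G.m

/-- `g` represents `φ` -/
def Rep (g : A N → E2 N) : Prop :=
  MemLp g 2 G.m ∧ ∀ u, ContDiff ℝ ∞ u → P.φ u = ∫ x, ⟪g x, u x⟫ ∂G.m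

/-- smoothed density at scale `ε` with profile `χ` -/
def theta (χ : ℝ → ℝ) (ε : ℝ) (x : A N) : ℝ :=
  ∫ z, ε⁻¹ ^ 2 * χ (‖x - z.1‖ ^ 2 / ε ^ 2) * ‖G.Lb z‖ ∂P.V

end Dual

end Crest.Agent.R240
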