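import Crest.Agent.R240.KerOp
import Crest.Agent.R240.Alg2
import Crest.Agent.R240.Alg

/-! Row 240: density ratios, the smoothed positive current, uniform integrability. -/

set_option autoImplicit false

open scoped ContDiff RealInnerProductSpace Topology
open MeasureTheory Set Filter

noncomputable section

namespace Crest.Agent.R240

variable {N k : ℕ} {G : Geo N}

/-- measurable weights with values in `[0, 1]` -/
structure IsWt (f : A N × A N → ℝ) : Prop where
  meas : Measurable f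
  nonneg : ∀ z, 0 ≤ f z
  le_one : ∀ z, f z ≤ 1

theorem isWt_one : IsWt (fun _ : A N × A N => (1 : ℝ)) :=
  ⟨measurable_const, fun _ => zero_le_one, fun _ => le_rfl⟩

namespace Dual
variable (P : Dual G k)

theorem ae_SM : ∀ᵐ z ∂P.V, z ∈ G.SM := by
  exact mem_ae_iff.2 P.V_SM

theorem integrable_cont {E : Type} [NormedAddCommGroup E] {f : A N × A N → E}
    (hf : Continuous f) : Integrable f P.V := by
  have h := hf.continuousOn.integrableOn_compact (μ := P.V) G.SM_compact
  rwa [IntegrableOn, Measure.restrict_eq_self_of_ae_mem P.ae_SM] at h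

theorem dens_nonneg (x : A N) (r : ℝ) : 0 ≤ P.dens x r := by
  exact div_nonneg measureReal_nonneg (sq_nonneg r)

theorem dens_le (x : A N) (r : ℝ) : P.dens x r ≤ 1 / r ^ 2 := by
  exact div_le_div_of_nonneg_right measureReal_le_one (sq_nonneg r)

theorem dens_le_of_subset {x y : A N} {r ρ : ℝ} (hr : 0 < r) (h : ‖x - y‖ + r ≤ ρ) :
    P.dens x r ≤ (ρ / r) ^ 2 * P.dens y ρ := by
  have hρ : 0 < ρ := lt_of_lt_of_le (by positivity) h
  have h1 : P.V.real {z | z.1 ∈ Metric.closedBall x r} ≤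
      P.V.real {z | z.1 ∈ Metric.closedBall y ρ} := by
    refine measureReal_mono fun z hz => ?_
    refine Metric.closedBall_subset_closedBall' ?_ hz
    rw [dist_eq_norm]
    linarith
  unfold dens
  calc _ ≤ P.V.real {z | z.1 ∈ Metric.closedBall y ρ} / r ^ 2 := by gcongr
    _ = _ := by field_simp

theorem dens_measSet (r : ℝ) :
    MeasurableSet {q : A N × A N × A N | q.2.1 ∈ Metric.closedBall q.1 r} := by
  have : IsClosed {q : A N × A N × A N | dist q.2.1 q.1 ≤ r} :=
    isClosed_le (by fun_prop) continuous_const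
  exact this.measurableSet

theorem dens_measSet' (x : A N) (r : ℝ) :
    MeasurableSet {z : A N × A N | z.1 ∈ Metric.closedBall x r} :=
  measurable_fst measurableSet_closedBall

theorem measurable_dens (r : ℝ) : Measurable fun x => P.dens x r := by
  exact ((measurable_measure_prodMk_left (ν := P.V) (dens_measSet r)).ennreal_toReal).div_const _

/-- a ball which misses `S` has density zero, the others are contained in a ball of the double
radius centred on `S` -/
theorem dens_le_of_S {r Θ : ℝ} (hr : 0 < r) (hΘ : 0 ≤ Θ) (h : ∀ x ∈ G.S, P.dens x (2 * r) ≤ Θ)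
    (x : A N) : P.dens x r ≤ 4 * Θ := by
  by_cases hx : ∃ y ∈ G.S, y ∈ Metric.closedBall x r
  · obtain ⟨y, hy, hxy⟩ := hx
    have h1 := P.dens_le_of_subset (x := x) (y := y) (ρ := 2 * r) hr (by
      rw [Metric.mem_closedBall, dist_comm, dist_eq_norm] at hxy
      linarith)
    have h2 : (2 * r / r) ^ 2 = 4 := by
      field_simp
      norm_num
    rw [h2] at h1
    have := h y hy
    linarith
  · have h1 : P.V {z | z.1 ∈ Metric.closedBall x r} = 0 :=
      measure_mono_null (t := G.SMᶜ) (fun z hz (hz' : z ∈ G.SM) => hx ⟨z.1, hz'.1, hz⟩) P.V_SM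
    unfold dens
    rw [Measure.real, h1]
    simpa using hΘ

/-- Fubini -/
theorem integral_mul_dens {h : A N → ℝ} (hh : Integrable h G.m) {r : ℝ} (hr : 0 < r) :
    ∫ x, h x * P.dens x r ∂G.m
      = (∫ z, ∫ x in Metric.closedBall z.1 r, h x ∂G.m ∂P.V) / r ^ 2 := by
  have hi : Integrable (Function.uncurry fun (x : A N) (z : A N × A N) =>
      ({q : A N × A N × A N | q.2.1 ∈ Metric.closedBall q.1 r}.indicator (fun q => h q.1) (x, z)))
      (G.m.prod P.V) := (hh.comp_fst P.V).indicator (dens_measSet r)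
  have h1 := integral_integral_swap hi
  have h2 : ∀ x : A N, ∫ z, {q : A N × A N × A N | q.2.1 ∈ Metric.closedBall q.1 r}.indicator
      (fun q => h q.1) (x, z) ∂P.V = P.V.real {z | z.1 ∈ Metric.closedBall x r} * h x := by
    intro x
    rw [← smul_eq_mul, ← integral_indicator_const _ (dens_measSet' x r)]
    rfl
  have h3 : ∀ z : A N × A N,
      ∫ x, {q : A N × A N × A N | q.2.1 ∈ Metric.closedBall q.1 r}.indicator
      (fun q => h q.1) (x, z) ∂G.m = ∫ x in Metric.closedBall z.1 r, h x ∂G.m := by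
    intro z
    rw [← integral_indicator measurableSet_closedBall]
    refine integral_congr_ae (Eventually.of_forall fun x => ?_)
    simp only [indicator, mem_ofPred_eq, Metric.mem_closedBall, dist_comm z.1 x]
  simp only [h2, h3] at h1
  rw [← h1, ← integral_div]
  refine integral_congr_ae (Eventually.of_forall fun x => ?_)
  simp only [dens]
  ring

/-- Fubini and `vol_le` -/
theorem integral_dens_le : ∃ C, 0 ≤ C ∧ ∀ r, 0 < r → ∫ x, P.dens x r ∂G.m ≤ C * r ^ 2 := by
  obtain ⟨C, hC, h⟩ := G.vol_le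
  refine ⟨C, hC.le, fun r hr => ?_⟩
  have h1 := P.integral_mul_dens (h := fun _ => 1) (integrable_const _) hr
  simp only [one_mul, integral_const, MeasurableSet.univ, measureReal_restrict_apply, univ_inter,
    smul_eq_mul, mul_one] at h1
  rw [h1, div_le_iff₀ (by positivity)]
  calc ∫ z, G.m.real (Metric.closedBall z.1 r) ∂P.V ≤ ∫ _z, C * r ^ 4 ∂P.V :=
        integral_mono_of_nonneg (Eventually.of_forall fun _ => measureReal_nonneg)
          (integrable_const _) (Eventually.of_forall fun z => h z.1 r hr.le)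
    _ = _ := by
        simp
        ring

theorem dens_integrable (r : ℝ) : Integrable (fun x => P.dens x r) G.m :=
  Integrable.of_bound (P.measurable_dens r).aestronglyMeasurable (1 / r ^ 2)
    (Eventually.of_forall fun x => by
      rw [Real.norm_of_nonneg (P.dens_nonneg x r)]
      exact P.dens_le x r)

theorem dens_tail {g : A N → E2 N} (hg : MemLp g 2 G.m) :
    Tendsto (fun n : ℕ => ∫ x, (max (‖g x‖ - n) 0) ^ 2 ∂G.m) atTop (𝓝 0) := by
  have hi : Integrable (fun x => ‖g x‖ ^ 2) G.m := (memLp_two_iff_integrable_sq_norm hg.1).1 hg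
  have h := tendsto_integral_of_dominated_convergence (μ := G.m)
    (F := fun (n : ℕ) x => (max (‖g x‖ - n) 0) ^ 2) (f := fun _ => (0 : ℝ))
    (fun x => ‖g x‖ ^ 2) (fun n => ?_) hi (fun n => Eventually.of_forall fun x => ?_)
    (Eventually.of_forall fun x => ?_)
  · simpa using h
  · exact (((hg.1.norm.sub aestronglyMeasurable_const).aemeasurable.max
      aemeasurable_const).pow_const 2).aestronglyMeasurable
  · rw [Real.norm_of_nonneg (sq_nonneg _)]
    refine pow_le_pow_left₀ (le_max_right _ _) (max_le ?_ (norm_nonneg _)) 2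
    have : (0 : ℝ) ≤ n := n.cast_nonneg
    linarith
  · refine tendsto_const_nhds.congr' ?_
    obtain ⟨n₀, hn₀⟩ := exists_nat_ge ‖g x‖
    filter_upwards [eventually_ge_atTop n₀] with n hn
    have : (n₀ : ℝ) ≤ n := by exact_mod_cast hn
    rw [max_eq_right (by linarith)]
    simp

/-- Uniform integrability: the functions `dens x r / r` are bounded in `L²` and tend to zero
in `L¹` (`integral_dens_le`). Split `‖g‖ ≤ M + ‖g‖ 1_{‖g‖ > M}`. -/
theorem tendsto_integral_dens {Θ : ℝ} (hΘ : ∀ x r, 0 < r → P.dens x r ≤ Θ) {g : A N → E2 N}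
    (hg : MemLp g 2 G.m) :
    Tendsto (fun r => ∫ x, ‖g x‖ * (P.dens x r / r) ∂G.m) (𝓝[>] 0) (𝓝 0) := by
  obtain ⟨C, hC, hd⟩ := P.integral_dens_le
  have hΘ0 : 0 ≤ Θ := (P.dens_nonneg 0 1).trans (hΘ 0 1 one_pos)
  have hi : Integrable (fun x => ‖g x‖ ^ 2) G.m := (memLp_two_iff_integrable_sq_norm hg.1).1 hg
  rw [Metric.tendsto_nhds]
  intro ε hε
  obtain ⟨δ, hδ, hδ'⟩ : ∃ δ : ℝ, 0 < δ ∧ δ * (Θ * C) < ε / 3 :=
    ⟨ε / 3 / (Θ * C + 1), by positivity, by
      rw [div_mul_eq_mul_div, div_lt_iff₀ (by positivity)]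
      nlinarith⟩
  obtain ⟨n, hn⟩ := ((dens_tail hg).eventually (gt_mem_nhds (show 0 < δ * (ε / 3) by
    positivity))).exists
  have hti : Integrable (fun x => (max (‖g x‖ - n) 0) ^ 2) G.m := by
    refine hi.mono' (((hg.1.norm.sub aestronglyMeasurable_const).aemeasurable.max
      aemeasurable_const).pow_const 2).aestronglyMeasurable (Eventually.of_forall fun x => ?_)
    rw [Real.norm_of_nonneg (sq_nonneg _)]
    refine pow_le_pow_left₀ (le_max_right _ _) (max_le ?_ (norm_nonneg _)) 2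
    have : (0 : ℝ) ≤ n := n.cast_nonneg
    linarith
  have hev : ∀ᶠ r in 𝓝[>] (0 : ℝ), n * C * r < ε / 3 := by
    have : Tendsto (fun r : ℝ => n * C * r) (𝓝 0) (𝓝 (n * C * 0)) :=
      (continuous_const.mul continuous_id).tendsto 0
    rw [mul_zero] at this
    exact nhdsWithin_le_nhds (this.eventually (gt_mem_nhds (by positivity)))
  filter_upwards [hev, self_mem_nhdsWithin] with r hr1 hr
  have hr : 0 < r := hr
  rw [dist_zero_right, Real.norm_of_nonneg (integral_nonneg fun x =>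
    mul_nonneg (norm_nonneg _) (div_nonneg (P.dens_nonneg x r) hr.le))]
  have hdi := P.dens_integrable r
  have h1 : ∫ x, ‖g x‖ * (P.dens x r / r) ∂G.m ≤ ∫ x, (n / r + δ * Θ / r ^ 2) * P.dens x r +
      δ⁻¹ * (max (‖g x‖ - n) 0) ^ 2 ∂G.m := by
    refine integral_mono_of_nonneg (Eventually.of_forall fun x =>
      mul_nonneg (norm_nonneg _) (div_nonneg (P.dens_nonneg x r) hr.le))
      ((hdi.const_mul _).add (hti.const_mul _)) (Eventually.of_forall fun x => ?_)
    have hd0 := P.dens_nonneg x r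
    have hd1 := hΘ x r hr
    have ha : ‖g x‖ ≤ n + max (‖g x‖ - n) 0 := by
      have := le_max_left (‖g x‖ - n) 0
      linarith
    have ha0 : 0 ≤ max (‖g x‖ - n) 0 := le_max_right _ _
    simp only
    generalize max (‖g x‖ - n) 0 = a at *
    generalize P.dens x r = d at *
    have hb : a * (d / r) ≤ δ * (d / r) ^ 2 + δ⁻¹ * a ^ 2 := by
      have e : δ * (d / r) ^ 2 + δ⁻¹ * a ^ 2 - 2 * (a * (d / r)) = δ⁻¹ * (δ * (d / r) - a) ^ 2 := by
        field_simp
        ring
      have h2 : 0 ≤ δ⁻¹ * (δ * (d / r) - a) ^ 2 := by positivity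
      have h3 : 0 ≤ a * (d / r) := by positivity
      linarith
    have hc : δ * (d / r) ^ 2 ≤ δ * Θ / r ^ 2 * d := by
      calc δ * (d / r) ^ 2 = δ * d / r ^ 2 * d := by ring
        _ ≤ _ := by gcongr
    calc ‖g x‖ * (d / r) ≤ (n + a) * (d / r) := by gcongr
      _ = n / r * d + a * (d / r) := by ring
      _ ≤ n / r * d + (δ * Θ / r ^ 2 * d + δ⁻¹ * a ^ 2) := by linarith
      _ = _ := by ring
  rw [integral_add (hdi.const_mul _) (hti.const_mul _), integral_const_mul,
    integral_const_mul] at h1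
  have h2 : (n / r + δ * Θ / r ^ 2) * ∫ x, P.dens x r ∂G.m ≤ n * C * r + δ * (Θ * C) := by
    calc _ ≤ (n / r + δ * Θ / r ^ 2) * (C * r ^ 2) := by
          gcongr
          exact hd r hr
      _ = _ := by field_simp
  have h3 : δ⁻¹ * ∫ x, (max (‖g x‖ - n) 0) ^ 2 ∂G.m < ε / 3 := by
    rw [inv_mul_lt_iff₀ hδ]
    exact hn
  linarith

theorem integrable_norm_mul_dens {g : A N → E2 N} (hg : MemLp g 2 G.m) (r s : ℝ) :
    Integrable (fun x => ‖g x‖ * (P.dens x r / s)) G.m := by
  refine (G.integrable_of_memLp hg).norm.mul_bdd (c := 1 / r ^ 2 / |s|)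
    ((P.measurable_dens r).div_const s).aestronglyMeasurable (Eventually.of_forall fun x => ?_)
  rw [norm_div, Real.norm_of_nonneg (P.dens_nonneg x r), Real.norm_eq_abs]
  exact div_le_div_of_nonneg_right (P.dens_le x r) (abs_nonneg s)

theorem tilt_nonneg (r : ℝ) : 0 ≤ P.tilt r := by
  exact div_nonneg (integral_nonneg fun q => Pre.gap_nonneg _ _) (by positivity)

theorem height_nonneg (r : ℝ) : 0 ≤ P.height r := by
  refine div_nonneg (integral_nonneg_of_ae (ae_restrict_of_ae ?_)) (by positivity)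
  filter_upwards [Measure.quasiMeasurePreserving_snd.ae P.ae_SM] with q hq
  exact Pre.perp2_nonneg hq _

theorem dens_Phi_sm {κ : ℝ × A N × A N → E2 N →L[ℝ] E2 N} {R : ℝ} (h : IsKer κ R) (t : ℝ) :
    ContDiff ℝ ∞ fun q : A N × A N × A N =>
      ContinuousLinearMap.adjoint (kerAt κ t q.1 q.2.1) (G.Lb q.2) :=
  (contDiff_adjoint ((h.kerAt_sm t).comp
    (contDiff_fst.prodMk (contDiff_fst.comp contDiff_snd)))).clm_apply
    (G.Lb_sm.comp contDiff_snd)

theorem dens_wt_integrable {f : A N × A N → ℝ} (hf : IsWt f) : Integrable f P.V :=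
  Integrable.of_bound hf.meas.aestronglyMeasurable 1 (Eventually.of_forall fun z => by
    rw [Real.norm_of_nonneg (hf.nonneg z)]
    exact hf.le_one z)

theorem dens_Phi_integrable {κ : ℝ × A N × A N → E2 N →L[ℝ] E2 N} {R : ℝ} (h : IsKer κ R) (t : ℝ)
    {f : A N × A N → ℝ} (hf : IsWt f) (x : A N) :
    Integrable (fun z => f z • ContinuousLinearMap.adjoint (kerAt κ t x z.1) (G.Lb z)) P.V := by
  have h1 : Continuous fun z : A N × A N =>
      ContinuousLinearMap.adjoint (kerAt κ t x z.1) (G.Lb z) := by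
    have h2 := (dens_Phi_sm (G := G) h t).continuous.comp (Continuous.prodMk_right x)
    simpa only [Function.comp_def] using h2
  exact (P.integrable_cont h1).bdd_smul 1 hf.meas.aestronglyMeasurable
    (Eventually.of_forall fun z => by
      rw [Real.norm_of_nonneg (hf.nonneg z)]
      exact hf.le_one z)

theorem dens_norm_le {κ : ℝ × A N × A N → E2 N →L[ℝ] E2 N} {R : ℝ} (h : IsKer κ R) (hR : 0 < R)
    {t c L : ℝ} (ht : 0 < t) (hL : ∀ z ∈ G.SM, ‖G.Lb z‖ ≤ L) {x : A N}
    (hc : ∀ w, ‖κ (t, x, w)‖ ≤ c) {f : A N × A N → ℝ} (hf : IsWt f) :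
    ‖∫ z, f z • ContinuousLinearMap.adjoint (kerAt κ t x z.1) (G.Lb z) ∂P.V‖ ≤
      c * L * R ^ 2 * (P.dens x (R * t) / t ^ 2) := by
  have hc0 : 0 ≤ c := (norm_nonneg _).trans (hc 0)
  refine (norm_integral_le_of_norm_le (g := {z : A N × A N | z.1 ∈ Metric.closedBall x
    (R * t)}.indicator fun _ => t⁻¹ ^ 4 * c * L)
    ((integrable_const _).indicator (dens_measSet' x _)) ?_).trans (le_of_eq ?_)
  · filter_upwards [P.ae_SM] with z hz
    by_cases hx : z ∈ {z : A N × A N | z.1 ∈ Metric.closedBall x (R * t)}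
    · rw [indicator_of_mem hx, norm_smul, Real.norm_of_nonneg (hf.nonneg z)]
      refine (mul_le_of_le_one_left (norm_nonneg _) (hf.le_one z)).trans ?_
      refine (ContinuousLinearMap.le_opNorm _ _).trans ?_
      rw [LinearIsometryEquiv.norm_map, kerAt, norm_smul, Real.norm_of_nonneg (by positivity)]
      have := hL z hz
      have := hc (t⁻¹ • (z.1 - x))
      gcongr
    · rw [indicator_of_notMem hx, h.kerAt_eq_zero ht]
      · simp
      · simp only [mem_ofPred_eq, Metric.mem_closedBall, dist_eq_norm, not_le] at hx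
        exact hx.le
  · rw [integral_indicator_const _ (dens_measSet' x _), smul_eq_mul, dens]
    field_simp

theorem dens_L2_le : ∃ C, 0 ≤ C ∧ ∀ (ρ Θ a : ℝ) (u : A N → E2 N), 0 < ρ → 0 ≤ Θ → 0 ≤ a →
    Continuous u → (∀ x, P.dens x ρ ≤ Θ) → (∀ x ∈ G.S, ‖u x‖ ≤ a * P.dens x ρ) →
    G.B.L2 u ≤ C * a * ρ * √Θ := by
  obtain ⟨C, hC, hd⟩ := P.integral_dens_le
  refine ⟨√C, Real.sqrt_nonneg _, fun ρ Θ a u hρ hΘ ha hu h1 h2 => ?_⟩
  refine (pow_le_pow_iff_left₀ (G.B.L2_nonneg u) (by positivity) two_ne_zero).1 ?_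
  rw [G.B.L2_sq (G.B.memLp_cont hu 2)]
  calc ∫ x, ‖u x‖ ^ 2 ∂G.B.m ≤ ∫ x, a ^ 2 * Θ * P.dens x ρ ∂G.m := by
        refine integral_mono_of_nonneg (Eventually.of_forall fun x => sq_nonneg _)
          ((P.dens_integrable ρ).const_mul _) ?_
        filter_upwards [G.B.ae_mem] with x hx
        have h3 := P.dens_nonneg x ρ
        have h4 := h1 x
        calc ‖u x‖ ^ 2 ≤ (a * P.dens x ρ) ^ 2 := pow_le_pow_left₀ (norm_nonneg _) (h2 x hx) 2
          _ = a ^ 2 * P.dens x ρ * P.dens x ρ := by ring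
          _ ≤ _ := by gcongr
    _ ≤ a ^ 2 * Θ * (C * ρ ^ 2) := by
        rw [integral_const_mul]
        gcongr
        exact hd ρ hρ
    _ = _ := by
        rw [mul_pow, mul_pow, mul_pow, Real.sq_sqrt hC, Real.sq_sqrt hΘ]
        ring

/-! the smoothed current -/

variable (Q : KData G)

theorem Psm_sm {f : A N × A N → ℝ} (hf : IsWt f) (t : ℝ) : ContDiff ℝ ∞ (P.Psm Q f t) := by
  exact (contDiff_integral_cpt P.V G.SM_compact P.V_SM (P.dens_wt_integrable hf)
    (dens_Phi_sm (G := G) Q.ker t)).1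

/-- Fubini -/
theorem integral_inner_Psm {f : A N × A N → ℝ} (hf : IsWt f) (t : ℝ) {w : A N → E2 N}
    (hw : MemLp w 2 G.m) :
    ∫ x, ⟪P.Psm Q f t x, w x⟫ ∂G.m = ∫ z, f z * G.fv (Op G.m Q.K t w) z ∂P.V := by
  have hwi := G.integrable_of_memLp hw
  have hΦ := (dens_Phi_sm (G := G) Q.ker t).continuous
  obtain ⟨C, hC⟩ := (G.cpt.prod G.SM_compact).exists_bound_of_continuousOn hΦ.continuousOn
  have hi : Integrable (Function.uncurry fun (x : A N) (z : A N × A N) =>
      f z * ⟪ContinuousLinearMap.adjoint (kerAt Q.K t x z.1) (G.Lb z), w x⟫) (G.m.prod P.V) := by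
    refine ((hwi.norm.comp_fst P.V).const_mul C).mono'
      ((hf.meas.comp measurable_snd).aestronglyMeasurable.mul
        (hΦ.aestronglyMeasurable.inner hwi.1.comp_fst)) ?_
    filter_upwards [Measure.quasiMeasurePreserving_snd.ae P.ae_SM,
      Measure.quasiMeasurePreserving_fst.ae G.B.ae_mem] with q hq hq'
    simp only [Function.uncurry]
    rw [norm_mul, Real.norm_of_nonneg (hf.nonneg _)]
    refine (mul_le_of_le_one_left (norm_nonneg _) (hf.le_one _)).trans ?_
    refine (norm_inner_le_norm _ _).trans ?_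
    exact mul_le_mul_of_nonneg_right (hC q ⟨hq', hq⟩) (norm_nonneg _)
  have h1 := integral_integral_swap hi
  have h2 : ∀ x, ⟪P.Psm Q f t x, w x⟫ =
      ∫ z, f z * ⟪ContinuousLinearMap.adjoint (kerAt Q.K t x z.1) (G.Lb z), w x⟫ ∂P.V := by
    intro x
    rw [real_inner_comm, Psm, ← integral_inner (P.dens_Phi_integrable Q.ker t hf x)]
    refine integral_congr_ae (Eventually.of_forall fun z => ?_)
    simp only [real_inner_smul_right, real_inner_comm (w x)]
  have h3 : ∀ z : A N × A N, f z * G.fv (Op G.m Q.K t w) z =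
      ∫ x, f z * ⟪ContinuousLinearMap.adjoint (kerAt Q.K t x z.1) (G.Lb z), w x⟫ ∂G.m := by
    intro z
    rw [integral_const_mul, Pre.fv, real_inner_comm, Op,
      ← integral_inner (G.integrable_kerAt Q.ker t hwi z.1)]
    simp only [ContinuousLinearMap.adjoint_inner_left]
  simp only [h2, h3]
  exact h1

/-- For the second bound: `Lb z = (Pp y)† (Lb z)`, so `Pm x (K† (Lb z))` is the adjoint of
`sandwich Pp K Pm†` applied to `Lb z`, and this kernel vanishes at `t = 0` (`lead`,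
`Pp_volL_Pm`; `IsKer.bound₀`). -/
theorem norm_Psm_le : ∃ C, 0 ≤ C ∧ ∀ t, 0 < t → t ≤ 1 → ∀ f, IsWt f → ∀ x ∈ G.S,
    ‖P.Psm Q f t x‖ ≤ C * (P.dens x (Q.R * t) / t ^ 2) ∧
    ‖G.Pm x (P.Psm Q f t x)‖ ≤ C * (P.dens x (Q.R * t) / t) := by
  obtain ⟨_, L, -, hL0, hL⟩ := G.Lb_bounds
  have hL' : ∀ z ∈ G.SM, ‖G.Lb z‖ ≤ L := fun z hz => (hL z hz).2
  have hR : 0 < Q.R := lt_of_lt_of_le one_pos Q.one_le_R
  obtain ⟨C₁, hC₁, h1⟩ := Q.ker.bound G.cpt
  have hk := Q.ker.sandwich G.Pp_sm (contDiff_adjoint G.Pm_sm)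
  obtain ⟨C₂, hC₂, h2⟩ := hk.bound₀ G.cpt (fun x hx w => by
    ext1 B
    simp only [sandwich, zero_smul, add_zero, Q.lead x hx, ContinuousLinearMap.comp_apply,
      smul_apply, map_smul, Pre.Pp_volL_Pm hx, smul_zero,
      zero_apply])
  refine ⟨(C₁ + C₂) * L * Q.R ^ 2, by positivity, fun t ht ht1 f hf x hx => ⟨?_, ?_⟩⟩
  · refine (P.dens_norm_le Q.ker hR ht hL' (h1 t ht.le ht1 x hx) hf).trans ?_
    have := P.dens_nonneg x (Q.R * t)
    gcongr
    linarith
  · have h3 := P.dens_norm_le hk hR ht hL' (h2 t ht.le ht1 x hx) hf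
    have h4 : G.Pm x (P.Psm Q f t x) = ∫ z, f z • ContinuousLinearMap.adjoint (kerAt
        (sandwich G.Pp Q.K fun x => ContinuousLinearMap.adjoint (G.Pm x)) t x z.1) (G.Lb z)
        ∂P.V := by
      rw [Psm, ← ContinuousLinearMap.integral_comp_comm _ (P.dens_Phi_integrable Q.ker t hf x)]
      refine integral_congr_ae ?_
      filter_upwards [P.ae_SM] with z hz
      rw [kerAt_sandwich _ _ _ ht.ne', map_smul]
      simp only [ContinuousLinearMap.adjoint_comp, ContinuousLinearMap.adjoint_adjoint,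
        ContinuousLinearMap.comp_apply, Pre.adjoint_Pp_Lb hz]
    rw [h4]
    refine h3.trans ?_
    have := P.dens_nonneg x (Q.R * t)
    calc C₂ * t * L * Q.R ^ 2 * (P.dens x (Q.R * t) / t ^ 2) =
          C₂ * L * Q.R ^ 2 * (P.dens x (Q.R * t) / t) := by field_simp
      _ ≤ _ := by
          gcongr
          linarith

theorem L2_Psm_le : ∃ C, 0 ≤ C ∧ ∀ t Θ, 0 < t → t ≤ 1 → 0 ≤ Θ → P.DB t Θ → ∀ f, IsWt f →
    t * G.B.L2 (P.Psm Q f t) ≤ C * √Θ ∧
    G.B.L2 (fun x => G.Pm x (P.Psm Q f t x)) ≤ C * √Θ := by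
  obtain ⟨C₁, hC₁, h1⟩ := P.norm_Psm_le Q
  obtain ⟨C₂, hC₂, h2⟩ := P.dens_L2_le
  have hR : 0 < Q.R := lt_of_lt_of_le one_pos Q.one_le_R
  refine ⟨C₂ * C₁ * Q.R, by positivity, fun t Θ ht ht1 hΘ hDB f hf => ?_⟩
  have hd : ∀ x, P.dens x (Q.R * t) ≤ Θ := fun x =>
    hDB x _ (le_mul_of_one_le_left ht.le Q.one_le_R)
  have hc := (P.Psm_sm Q hf t).continuous
  constructor
  · have := h2 (Q.R * t) Θ (C₁ / t ^ 2) _ (by positivity) hΘ (by positivity) hc hd
      (fun x hx => ((h1 t ht ht1 f hf x hx).1).trans (le_of_eq (by ring)))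
    calc _ ≤ t * (C₂ * (C₁ / t ^ 2) * (Q.R * t) * √Θ) := by gcongr
      _ = _ := by field_simp
  · have := h2 (Q.R * t) Θ (C₁ / t) (fun x => G.Pm x (P.Psm Q f t x)) (by positivity) hΘ
      (by positivity) (G.Pm_sm.continuous.clm_apply hc) hd
      (fun x hx => ((h1 t ht ht1 f hf x hx).2).trans (le_of_eq (by ring)))
    calc _ ≤ C₂ * (C₁ / t) * (Q.R * t) * √Θ := this
      _ = _ := by field_simp

end Dual

end Crest.Agent.R240
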