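import Crest.Agent.R240.EllGlob
import Crest.Agent.R240.Alg2

/-! Row 240: the dual object, by Hahn-Banach and Riesz-Markov. -/

set_option autoImplicit false

open scoped ContDiff RealInnerProductSpace Topology
open MeasureTheory Set Filter

noncomputable section

namespace Crest.Agent.R240

variable {N : ℕ}

/-- A subspace of continuous functions without a function positive on the nonempty compact set
`K` is killed by a probability measure on `K`: separate it in `C(K, ℝ)` from the open cone of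
positive functions (`geometric_hahn_banach_open`), represent the positive functional
(`RealRMK.rieszMeasure`, `RealRMK.integral_rieszMeasure`) and push forward to the ambient space. -/
theorem exists_prob_annihilating {α : Type} [MetricSpace α] [MeasurableSpace α] [BorelSpace α]
    {K : Set α} (hK : IsCompact K) (hne : K.Nonempty) (Z : Submodule ℝ (α → ℝ))
    (hZ : ∀ f ∈ Z, Continuous f) (h : ∀ f ∈ Z, ¬ ∀ z ∈ K, 0 < f z) :
    ∃ V : Measure α, IsProbabilityMeasure V ∧ V Kᶜ = 0 ∧ ∀ f ∈ Z, ∫ z, f z ∂V = 0 := by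
  have : CompactSpace K := isCompact_iff_compactSpace.1 hK
  have : Nonempty K := hne.to_subtype
  let E := CompactlySupportedContinuousMap K ℝ
  have hb : ∀ g : E, BddAbove (range g) := fun g =>
    (isCompact_range g.toContinuousMap.continuous).bddAbove
  let Z' : Submodule ℝ E :=
    { carrier := {g | ∃ f ∈ Z, ∀ z : K, g z = f z}
      add_mem' := by
        rintro a b ⟨f, hf, e⟩ ⟨f', hf', e'⟩
        exact ⟨f + f', Z.add_mem hf hf', fun z => by
          rw [CompactlySupportedContinuousMap.add_apply, e, e', Pi.add_apply]⟩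
      zero_mem' := ⟨0, Z.zero_mem, fun _ => rfl⟩
      smul_mem' := by
        rintro c a ⟨f, hf, e⟩
        exact ⟨c • f, Z.smul_mem c hf, fun z => by
          rw [CompactlySupportedContinuousMap.smul_apply, e, Pi.smul_apply]⟩ }
  obtain ⟨g, hg0, hg⟩ := exists_extension_of_le_sublinear (E := E) ⟨Z', 0⟩ (fun a => ⨆ z, a z)
    (fun c hc a => by
      rw [Real.mul_iSup_of_nonneg hc.le]
      rfl)
    (fun a b => ciSup_le fun z => add_le_add (le_ciSup (hb a) z) (le_ciSup (hb b) z))
    (by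
      rintro ⟨a, f, hf, e⟩
      have h1 := h (-f) (Z.neg_mem hf)
      push Not at h1
      obtain ⟨z, hz, h2⟩ := h1
      have h3 : (0 : ℝ) ≤ a ⟨z, hz⟩ := by
        rw [e]
        simpa using h2
      exact h3.trans (le_ciSup (hb a) _))
  let Λ : E →ₚ[ℝ] ℝ := PositiveLinearMap.mk₀ g fun a ha => by
    have h1 := hg (-a)
    have h2 : (⨆ z, (-a) z) ≤ 0 := ciSup_le fun z => neg_nonpos.2 (ha z)
    rw [map_neg] at h1
    linarith
  have hΛ : ∀ a : E, ∫ z, a z ∂(RealRMK.rieszMeasure Λ) = g a := RealRMK.integral_rieszMeasure Λ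
  let one : E := CompactlySupportedContinuousMap.continuousMapEquiv (1 : C(K, ℝ))
  have h1 : g one = 1 := by
    have a1 := hg one
    have a2 := hg (-one)
    have b1 : (⨆ z, one z) ≤ 1 := ciSup_le fun z => le_rfl
    have b2 : (⨆ z, (-one) z) ≤ -1 := ciSup_le fun z => le_rfl
    rw [map_neg] at a2
    linarith
  have hp : IsProbabilityMeasure (RealRMK.rieszMeasure Λ) := by
    rw [isProbabilityMeasure_iff_real, ← h1, ← hΛ]
    change _ = ∫ _, (1 : ℝ) ∂_
    simp
  refine ⟨(RealRMK.rieszMeasure Λ).map Subtype.val,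
    Measure.isProbabilityMeasure_map measurable_subtype_coe.aemeasurable, ?_, fun f hf => ?_⟩
  · rw [Measure.map_apply measurable_subtype_coe hK.measurableSet.compl]
    simp
  · rw [integral_map measurable_subtype_coe.aemeasurable (hZ f hf).aestronglyMeasurable]
    let a : E := CompactlySupportedContinuousMap.continuousMapEquiv
      (⟨fun z : K => f z, (hZ f hf).comp continuous_subtype_val⟩ : C(K, ℝ))
    exact (hΛ a).trans (hg0 ⟨a, f, hf, fun _ => rfl⟩)

/-- If there is no compatible closed form, `SM` is nonempty (otherwise `0` is compatible) and no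
closed invariant `η` has `fv η > 0` on `SM` (homogeneity). Let `V` be as above. On the subspace
of smooth closed forms `η ↦ -∫ fv η dV` is bounded by `p η = C * Hn 1 4 (Pm η)` (`ell_main`), a
sublinear functional on the space of smooth functions: extend it
(`exists_extension_of_le_sublinear` on the submodule of smooth functions, then
`LinearMap.exists_extend` to all functions). -/
theorem Geo.exists_dual (G : Geo N) (h : ¬ ∃ η : A N → E2 N, ContDiff ℝ ∞ η ∧ G.Closed η ∧
    (∀ x ∈ G.S, G.Pm x (η x) = 0) ∧ G.Tames η) : Nonempty (Dual G 4) := by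
  have tames : ∀ η : A N → E2 N, (∀ z ∈ G.SM, 0 < G.fv η z) → G.Tames η := by
    intro η hη x hx v hv h0
    have hn : 0 < ‖v‖ := norm_pos_iff.2 h0
    have h1 := hη (x, ‖v‖⁻¹ • v) ⟨hx, by simp only [map_smul, hv], by
      simp only [norm_smul, norm_inv, norm_norm, inv_mul_cancel₀ hn.ne']⟩
    change 0 < ev (η x) (‖v‖⁻¹ • v) (G.J x (‖v‖⁻¹ • v)) at h1
    rw [map_smul, ev_smul_left, ev_smul_right] at h1
    exact (mul_pos_iff_of_pos_left (inv_pos.2 hn)).1 ((mul_pos_iff_of_pos_left (inv_pos.2 hn)).1 h1)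
  have c0 : G.Closed fun _ => 0 := fun x _ a b c _ _ _ => by simp [d2, ev]
  have cadd : ∀ {η η' : A N → E2 N}, ContDiff ℝ ∞ η → ContDiff ℝ ∞ η' → G.Closed η → G.Closed η' →
      G.Closed (η + η') := fun h1 h2 h3 h4 x hx a b c ha hb hc => by
    have := d2_add h1 h2 x a b c
    rw [h3 x hx a b c ha hb hc, h4 x hx a b c ha hb hc, add_zero] at this
    exact this
  have csmul : ∀ (s : ℝ) {η : A N → E2 N}, ContDiff ℝ ∞ η → G.Closed η → G.Closed (s • η) :=
    fun s _ h1 h3 x hx a b c ha hb hc => by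
      have := d2_smul s h1 x a b c
      rw [h3 x hx a b c ha hb hc, mul_zero] at this
      exact this
  have fadd : ∀ η η' : A N → E2 N, G.fv (η + η') = G.fv η + G.fv η' := fun η η' =>
    funext fun z => inner_add_left _ _ _
  have fsmul : ∀ (s : ℝ) (η : A N → E2 N), G.fv (s • η) = s • G.fv η := fun s η =>
    funext fun z => real_inner_smul_left _ _ _
  have hne : G.SM.Nonempty := by
    by_contra hn
    exact h ⟨fun _ => 0, contDiff_const, c0, fun x _ => map_zero _,
      tames _ fun z hz => (hn ⟨z, hz⟩).elim⟩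
  let Z : Submodule ℝ (A N × A N → ℝ) :=
    { carrier := {f | ∃ η : A N → E2 N, ContDiff ℝ ∞ η ∧ G.Closed η ∧
        (∀ x ∈ G.S, G.Pm x (η x) = 0) ∧ f = G.fv η}
      add_mem' := by
        rintro _ _ ⟨η, h1, h2, h3, rfl⟩ ⟨η', h1', h2', h3', rfl⟩
        exact ⟨η + η', h1.add h1', cadd h1 h1' h2 h2', fun x hx => by
          rw [Pi.add_apply, map_add, h3 x hx, h3' x hx, add_zero], (fadd _ _).symm⟩
      zero_mem' := ⟨fun _ => 0, contDiff_const, c0, fun x _ => map_zero _,
        funext fun z => (inner_zero_left _).symm⟩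
      smul_mem' := by
        rintro s _ ⟨η, h1, h2, h3, rfl⟩
        exact ⟨s • η, h1.const_smul s, csmul s h1 h2, fun x hx => by
          rw [Pi.smul_apply, map_smul, h3 x hx, smul_zero], (fsmul _ _).symm⟩ }
  obtain ⟨V, hV, hVS, hVZ⟩ := exists_prob_annihilating G.SM_compact hne Z
    (by rintro _ ⟨η, h1, -, -, rfl⟩; exact G.fv_cont h1.continuous)
    (by rintro _ ⟨η, h1, h2, h3, rfl⟩ hp; exact h ⟨η, h1, h2, h3, tames η hp⟩)
  have hae : ∀ᵐ z ∂V, z ∈ G.SM := hVS
  have hint : ∀ η : A N → E2 N, ContDiff ℝ ∞ η → Integrable (G.fv η) V := fun η hη => by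
    have := (G.fv_cont hη.continuous).continuousOn.integrableOn_compact (μ := V) G.SM_compact
    rwa [IntegrableOn, Measure.restrict_eq_self_of_ae_mem hae] at this
  obtain ⟨C, hC, hell⟩ := G.ell_main
  let Sm : Submodule ℝ (A N → E2 N) :=
    { carrier := {u | ContDiff ℝ ∞ u}
      add_mem' := fun {a b} (h1 : ContDiff ℝ ∞ a) (h2 : ContDiff ℝ ∞ b) => h1.add h2
      zero_mem' := (contDiff_const : ContDiff ℝ ∞ fun _ : A N => (0 : E2 N))
      smul_mem' := fun s a (h1 : ContDiff ℝ ∞ a) => h1.const_smul s }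
  let Cl : Submodule ℝ Sm :=
    { carrier := {u | G.Closed u.1}
      add_mem' := fun {a b} h1 h2 => cadd a.2 b.2 h1 h2
      zero_mem' := c0
      smul_mem' := fun s a h1 => csmul s a.2 h1 }
  let ℓ : Cl →ₗ[ℝ] ℝ :=
    { toFun := fun u => -∫ z, G.fv u.1.1 z ∂V
      map_add' := fun a b => by
        change -∫ z, G.fv (a.1.1 + b.1.1) z ∂V = _
        rw [fadd, neg_eq_iff_eq_neg, neg_add, neg_neg, neg_neg]
        exact integral_add (hint _ a.1.2) (hint _ b.1.2)
      map_smul' := fun s a => by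
        change -∫ z, G.fv (s • a.1.1) z ∂V = s * -∫ z, G.fv a.1.1 z ∂V
        rw [fsmul, mul_neg, neg_inj]
        exact integral_const_mul s _ }
  have hPm : ∀ u : A N → E2 N, ContDiff ℝ ∞ u → ContDiff ℝ ∞ fun x => G.Pm x (u x) :=
    fun u hu => G.Pm_sm.clm_apply hu
  let p : (A N → E2 N) → ℝ := fun u => C * G.B.Hn 1 4 fun x => G.Pm x (u x)
  have psmul : ∀ (s : ℝ) (u : A N → E2 N), ContDiff ℝ ∞ u → p (s • u) = |s| * p u := fun s u hu => by
    simp only [p, Pi.smul_apply, map_smul]
    rw [G.B.Hn_const_smul 1 4 s (hPm u hu)]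
    ring
  obtain ⟨g, hg0, hg⟩ := exists_extension_of_le_sublinear (E := Sm) ⟨Cl, ℓ⟩ (fun u => p u.1)
    (fun c hc u => by
      rw [Submodule.coe_smul, psmul c _ u.2, abs_of_pos hc])
    (fun a b => by
      simp only [p, Submodule.coe_add, Pi.add_apply, map_add]
      rw [← mul_add]
      exact mul_le_mul_of_nonneg_left
        (G.B.Hn_add_le zero_le_one 4 (hPm _ a.2) (hPm _ b.2)) hC)
    (by
      rintro ⟨⟨η, h1⟩, h2⟩
      obtain ⟨η', k1, k2, k3, k4⟩ := hell η h1 h2
      change -∫ z, G.fv η z ∂V ≤ p η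
      have e := hVZ _ ⟨η', k1, k2, k3, rfl⟩
      have e2 : -∫ z, G.fv η z ∂V = ∫ z, (G.fv η' z - G.fv η z) ∂V := by
        rw [integral_sub (hint _ k1) (hint _ h1), e, zero_sub]
      rw [e2]
      have := integral_mono_ae (μ := V) ((hint _ k1).sub (hint _ h1)) (integrable_const (p η))
        (hae.mono fun z hz => by
          have := (abs_le.1 (k4 z hz)).1
          simp only [Pi.sub_apply, p]
          linarith)
      simpa using this)
  obtain ⟨φ, hφ⟩ := g.exists_extend
  have hφg : ∀ (u : A N → E2 N) (hu : ContDiff ℝ ∞ u), φ u = g ⟨u, hu⟩ := fun u hu => by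
    rw [← hφ]
    rfl
  have habs : ∀ u : A N → E2 N, ContDiff ℝ ∞ u → |φ u| ≤ p u := fun u hu => by
    rw [hφg u hu, abs_le]
    refine ⟨?_, hg ⟨u, hu⟩⟩
    have h1 := hg ((-1 : ℝ) • ⟨u, hu⟩)
    rw [map_smul, Submodule.coe_smul, psmul _ _ hu] at h1
    simp only [smul_eq_mul, abs_neg, abs_one] at h1
    linarith
  refine ⟨⟨V, hV, hVS, φ, fun u u' hu hu' e => ?_, ?_, fun η h1 h2 => ?_⟩⟩
  · have h1 := habs (u - u') (hu.sub hu')
    have h2 : p (u - u') = 0 := by
      simp only [p]
      rw [G.tan.Hn_congr 1 4 (hPm (u - u') (hu.sub hu')) (v := fun _ => 0) contDiff_const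
        (fun x hx => by rw [Pi.sub_apply, map_sub, e x hx, sub_self]), G.B.Hn_zero_fun, mul_zero]
    rw [h2, map_sub] at h1
    exact sub_eq_zero.1 (abs_nonpos_iff.1 h1)
  · obtain ⟨K, -, hK⟩ := G.B.Hn_clm_apply' 4 G.Pm_sm
    refine ⟨C * K, fun u hu => (habs u hu).trans ?_⟩
    rw [mul_assoc]
    exact mul_le_mul_of_nonneg_left (hK 1 u zero_le_one le_rfl hu) hC
  · rw [hφg η h1, hg0 ⟨⟨η, h1⟩, h2⟩]
    exact add_neg_cancel _

end Crest.Agent.R240
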