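import Crest.Agent.R240.Resolv

/-! Row 240: the constant coefficient parametrix on `ℝ⁴`.

Let `Π₀ = pm id Jst`. For a Schwartz function `u` (here: smooth with compact support,
`HasCompactSupport.toSchwartzMap` or similar) put `r = (1 - Δ)⁻¹ Π₀ u` (Fourier multiplier
`(1 + 4π²|ξ|²)⁻¹`, see `SchwartzMap.fourierMultiplierCLM`,
`Function.hasTemperateGrowth_one_add_norm_sq_rpow`) and `s l = -κ ∑ k, ∂ₖ r (k, l)` for the right
constant `κ`: for `a` with values in the range of `Π₀` (antisymmetric, spanned by the tensors with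
entries `a02 = -a13`, `a03 = a12`, `a01 = a23 = 0`) one checks `Π₀ d1 (l ↦ ∑ k ∂ₖ a (k,l)) = Δ a / 4`
(or another positive constant; symmetry of second derivatives), so that
`Π₀ d1 s = -Δ r = Π₀ u - r`. The bounds follow from Plancherel since the symbols
`ξᵢ ξⱼ / (1 + 4π²|ξ|²)`, `ξᵢ / (1 + 4π²|ξ|²)`, `1 / (1 + 4π²|ξ|²)` are bounded. With `exists_resolvent`: write `Π₀ u = f₁ • E₁ + f₂ • E₂` with fixed tensors `E₁, E₂` and
`r = T f₁ • E₁ + T f₂ • E₂`. Multipliers commute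
with derivatives. (An equivalent route: prove everything for scalar Schwartz functions:
a linear operator `T = (1 - Δ)⁻¹` on Schwartz space with `T f - Δ T f = f`, `∂ₖ T = T ∂ₖ` and
`‖T f‖₂, ‖∂ᵢ T f‖₂, ‖∂ᵢ∂ⱼ T f‖₂ ≤ ‖f‖₂`; real-valuedness can be obtained by taking real parts.) -/

set_option autoImplicit false

open scoped ContDiff RealInnerProductSpace Topology
open MeasureTheory Set Filter

noncomputable section

namespace Crest.Agent.R240

/-- the two basic anti-invariant two-forms -/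
def ellconst_E (i : Fin 2) : E2 4 := WithLp.toLp 2 fun p =>
  (![![![0, 0, 1, 0], ![0, 0, 0, -1], ![-1, 0, 0, 0], ![0, 1, 0, 0]],
    ![![0, 0, 0, 1], ![0, 0, 1, 0], ![0, -1, 0, 0], ![-1, 0, 0, 0]]] : Fin 2 → Fin 4 → Fin 4 → ℝ)
    i p.1 p.2

/-- the coefficients of the anti-invariant part -/
def ellconst_φ (i : Fin 2) : E2 4 →L[ℝ] ℝ := (1 / 4 : ℝ) • innerSL ℝ (ellconst_E i)

/-- the vectors of the divergence -/
def ellconst_v (i : Fin 2) (k : Fin 4) : A 4 := WithLp.toLp 2 fun l => -4 * ellconst_E i (k, l)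

theorem ellconst_φ0 (η : E2 4) :
    ellconst_φ 0 η = (η (0, 2) - η (2, 0) - η (1, 3) + η (3, 1)) / 4 := by
  simp [ellconst_φ, ellconst_E, PiLp.inner_apply, Fintype.sum_prod_type, Fin.sum_univ_four]
  ring

theorem ellconst_φ1 (η : E2 4) :
    ellconst_φ 1 η = (η (0, 3) - η (3, 0) + η (1, 2) - η (2, 1)) / 4 := by
  simp [ellconst_φ, ellconst_E, PiLp.inner_apply, Fintype.sum_prod_type, Fin.sum_univ_four]
  ring

theorem ellconst_pm (η : E2 4) :
    pm (ContinuousLinearMap.id ℝ _) Jst η = ∑ i, ellconst_φ i η • ellconst_E i := by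
  ext ⟨k, l⟩
  simp only [pm, smul_apply, sub_apply, PiLp.smul_apply,
    PiLp.sub_apply, pb_apply, ev_eq_sum, Fin.sum_univ_two, PiLp.add_apply, ellconst_φ0,
    ellconst_φ1, ContinuousLinearMap.id_apply, Fin.sum_univ_four, (Jst_apply _).1,
    (Jst_apply _).2.1, (Jst_apply _).2.2.1, (Jst_apply _).2.2.2, eb_apply, smul_eq_mul]
  fin_cases k <;> fin_cases l <;> simp [ellconst_E] <;> ring

theorem ellconst_D_comm {g : A 4 → ℝ} (hg : ContDiff ℝ ∞ g) (k l : Fin 4) (p : A 4) :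
    D₀ k (D₀ l g) p = D₀ l (D₀ k g) p := by
  have h1 : ∀ k l : Fin 4, D₀ k (D₀ l g) p = fderiv ℝ (fderiv ℝ g) p (eb k) (eb l) := by
    intro k l
    have hd : DifferentiableAt ℝ (fderiv ℝ g) p :=
      ((hg.fderiv_right (m := ∞) le_rfl).differentiable (by simp)) p
    show fderiv ℝ (fun x => fderiv ℝ g x (eb l)) p (eb k) = _
    rw [fderiv_clm_apply hd (differentiableAt_const _)]
    simp
  rw [h1, h1]
  exact (hg.contDiffAt.isSymmSndFDerivAt (by
    rw [minSmoothness_of_isRCLikeNormedField]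
    exact WithTop.coe_le_coe.2 le_top)).eq _ _

theorem ellconst_D_sm {E : Type} [NormedAddCommGroup E] [NormedSpace ℝ E] {g : A 4 → E}
    (hg : ContDiff ℝ ∞ g) (k : Fin 4) : ContDiff ℝ ∞ (D₀ k g) :=
  (hg.fderiv_right (m := ∞) le_rfl).clm_apply contDiff_const

theorem ellconst_D_sum {E ι : Type} [NormedAddCommGroup E] [NormedSpace ℝ E] [Fintype ι]
    {g : ι → A 4 → ℝ} (hg : ∀ i, ContDiff ℝ ∞ (g i)) (v : ι → E) (k : Fin 4) :
    D₀ k (fun p => ∑ i, g i p • v i) = fun p => ∑ i, D₀ k (g i) p • v i := by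
  funext p
  have h : HasFDerivAt (fun p => ∑ i, g i p • v i)
      (∑ i, (fderiv ℝ (g i) p).smulRight (v i)) p :=
    HasFDerivAt.fun_sum fun i _ =>
      (((hg i).differentiable (by simp) p).hasFDerivAt).smul_const (v i)
  show fderiv ℝ _ p (eb k) = _
  rw [h.fderiv]
  simp only [sum_apply, ContinuousLinearMap.smulRight_apply]
  rfl

theorem ellconst_D_clm {E : Type} [NormedAddCommGroup E] [NormedSpace ℝ E] (L : E →L[ℝ] ℝ)
    {u : A 4 → E} (hu : ContDiff ℝ ∞ u) (k : Fin 4) :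
    D₀ k (fun p => L (u p)) = fun p => L (D₀ k u p) := by
  funext p
  exact congrArg (fun M : A 4 →L[ℝ] ℝ => M (eb k))
    (L.hasFDerivAt.comp p (hu.differentiable (by simp) p).hasFDerivAt).fderiv

theorem ellconst_L2_le {g : A 4 → ℝ} (hg : MemLp g 2 volume) :
    (ballBase 0 1).L2 g ≤ lpNorm g 2 volume := by
  show lpNorm g 2 (volume.restrict (Metric.closedBall (0 : A 4) 1)) ≤ _
  rw [← toReal_eLpNorm hg.1, ← toReal_eLpNorm (hg.restrict _).1]
  exact ENNReal.toReal_mono hg.2.ne (eLpNorm_mono_measure _ Measure.restrict_le_self)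

theorem ellconst_L2_sum {E ι : Type} [NormedAddCommGroup E] [NormedSpace ℝ E] [Fintype ι]
    {g : ι → A 4 → ℝ} (hg : ∀ i, ContDiff ℝ ∞ (g i)) (v : ι → E) {M : ℝ}
    (hM : ∀ i, (ballBase 0 1).L2 (g i) ≤ M) :
    (ballBase 0 1).L2 (fun p => ∑ i, g i p • v i) ≤ (∑ i, ‖v i‖) * M := by
  rw [← (ballBase 0 1).Hn_zero 1]
  refine ((ballBase 0 1).Hn_sum_le zero_le_one 0 Finset.univ
    (u := fun i p => g i p • v i) fun i => (hg i).smul contDiff_const).trans ?_
  rw [Finset.sum_mul]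
  refine Finset.sum_le_sum fun i _ => ?_
  rw [Base.Hn_zero]
  refine ((ballBase 0 1).L2_le_mul (u := fun p => g i p • v i) (v := g i)
    ((hg i).continuous.smul continuous_const).aestronglyMeasurable
    ((ballBase 0 1).memLp_cont (hg i).continuous 2) (norm_nonneg (v i)) fun x _ => ?_).trans
    (mul_le_mul_of_nonneg_left (hM i) (norm_nonneg _))
  rw [norm_smul, mul_comm]

theorem ellconst_Hn_sum {E ι : Type} [NormedAddCommGroup E] [NormedSpace ℝ E] [Fintype ι]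
    {g : ι → A 4 → ℝ} (hg : ∀ i, ContDiff ℝ ∞ (g i)) (v : ι → E) {M : ℝ}
    (hM : ∀ i, (ballBase 0 1).L2 (g i) ≤ M) (hM' : ∀ i k, (ballBase 0 1).L2 (D₀ k (g i)) ≤ M) :
    (ballBase 0 1).Hn 1 1 (fun p => ∑ i, g i p • v i) ≤ 5 * (∑ i, ‖v i‖) * M := by
  rw [Base.Hn_succ]
  have h1 := ellconst_L2_sum hg v hM
  have h2 : ∀ k, (ballBase 0 1).Hn 1 0 (D (ballBase 0 1).π k (fun p => ∑ i, g i p • v i))
      ≤ (∑ i, ‖v i‖) * M := by
    intro k
    rw [Base.Hn_zero]
    show (ballBase 0 1).L2 (D₀ k (fun p => ∑ i, g i p • v i)) ≤ _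
    rw [ellconst_D_sum hg]
    exact ellconst_L2_sum (fun i => ellconst_D_sm (hg i) k) v fun i => hM' i k
  rw [Fin.sum_univ_four]
  linarith [h2 0, h2 1, h2 2, h2 3]

theorem ellconst_lp_le {u : A 4 → E2 4} (hu : ContDiff ℝ ∞ u)
    (h0 : ∀ p, p ∉ Metric.closedBall (0 : A 4) 1 → u p = 0) (L : E2 4 →L[ℝ] ℝ) :
    lpNorm (fun p => L (u p)) 2 volume ≤ ‖L‖ * (ballBase 0 1).L2 u := by
  have hc : Continuous fun p => L (u p) := L.continuous.comp hu.continuous
  have h1 : lpNorm (fun p => L (u p)) 2 volume = (ballBase 0 1).L2 (fun p => L (u p)) := by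
    show _ = lpNorm _ 2 (volume.restrict (Metric.closedBall (0 : A 4) 1))
    rw [← toReal_eLpNorm hc.aestronglyMeasurable, ← toReal_eLpNorm hc.aestronglyMeasurable,
      ← eLpNorm_indicator_eq_eLpNorm_restrict measurableSet_closedBall]
    congr 2
    funext p
    by_cases hp : p ∈ Metric.closedBall (0 : A 4) 1
    · rw [indicator_of_mem hp]
    · rw [indicator_of_notMem hp, h0 p hp, map_zero]
  rw [h1]
  exact (ballBase 0 1).L2_le_mul hc.aestronglyMeasurable
    ((ballBase 0 1).memLp_cont hu.continuous 2) (norm_nonneg L) fun x _ => L.le_opNorm _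

theorem ell_const : ∃ (sO : (A 4 → E2 4) → A 4 → A 4) (rO : (A 4 → E2 4) → A 4 → E2 4) (C₀ : ℝ),
    0 ≤ C₀ ∧ ∀ u : A 4 → E2 4, ContDiff ℝ ∞ u → (∀ p, p ∉ Metric.closedBall (0 : A 4) 1 → u p = 0) →
      ContDiff ℝ ∞ (sO u) ∧ ContDiff ℝ ∞ (rO u) ∧
      (∀ p, pm (ContinuousLinearMap.id ℝ _) Jst (d1 (sO u) p)
        = pm (ContinuousLinearMap.id ℝ _) Jst (u p) - rO u p) ∧
      (∀ k, D₀ k (sO u) = sO (D₀ k u)) ∧ (∀ k, D₀ k (rO u) = rO (D₀ k u)) ∧
      (ballBase 0 1).Hn 1 1 (sO u) ≤ C₀ * (ballBase 0 1).L2 u ∧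
      (ballBase 0 1).Hn 1 1 (rO u) ≤ C₀ * (ballBase 0 1).L2 u := by
  obtain ⟨T, hT⟩ := exists_resolvent
  set a : ℝ := ∑ q : Fin 2 × Fin 4, ‖ellconst_v q.1 q.2‖ with ha
  set b : ℝ := ∑ i, ‖ellconst_E i‖ with hb
  set c : ℝ := ∑ i, ‖ellconst_φ i‖ with hc
  have ha0 : 0 ≤ a := by positivity
  have hb0 : 0 ≤ b := by positivity
  have hc0 : 0 ≤ c := by positivity
  refine ⟨fun u p => ∑ q : Fin 2 × Fin 4,
      D₀ q.2 (T fun x => ellconst_φ q.1 (u x)) p • ellconst_v q.1 q.2,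
    fun u p => ∑ i, T (fun x => ellconst_φ i (u x)) p • ellconst_E i, 5 * (a + b) * c,
    by positivity, fun u hu h0 => ?_⟩
  have hf : ∀ i, ContDiff ℝ ∞ (fun x => ellconst_φ i (u x)) ∧
      HasCompactSupport fun x => ellconst_φ i (u x) := fun i =>
    ⟨(ellconst_φ i).contDiff.comp hu, HasCompactSupport.intro (isCompact_closedBall (0 : A 4) 1)
      fun x hx => by rw [h0 x hx, map_zero]⟩
  have hg := fun i => hT _ (hf i).1 (hf i).2
  have hg1 := fun i k => hT _ (resolv_D_sm (hf i) k).1 (resolv_D_sm (hf i) k).2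
  have hg2 := fun i k l => hT _ (resolv_D_sm (resolv_D_sm (hf i) k) l).1
    (resolv_D_sm (resolv_D_sm (hf i) k) l).2
  have hL := (ballBase 0 1).L2_nonneg u
  have hM : ∀ i, lpNorm (fun x => ellconst_φ i (u x)) 2 volume ≤ c * (ballBase 0 1).L2 u :=
    fun i => (ellconst_lp_le hu h0 _).trans (mul_le_mul_of_nonneg_right
      (Finset.single_le_sum (f := fun i => ‖ellconst_φ i‖) (fun _ _ => norm_nonneg _)
        (Finset.mem_univ i)) hL)
  have m1 : ∀ i k, MemLp (D₀ k (T fun x => ellconst_φ i (u x))) 2 volume := fun i k => by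
    rw [(hg i).2.2.1 k]
    exact (hg1 i k).2.2.2.1
  have m2 : ∀ i k l, MemLp (D₀ l (D₀ k (T fun x => ellconst_φ i (u x)))) 2 volume :=
    fun i k l => by
      rw [(hg i).2.2.1 k, (hg1 i k).2.2.1 l]
      exact (hg2 i k l).2.2.2.1
  have b0 : ∀ i, (ballBase 0 1).L2 (T fun x => ellconst_φ i (u x)) ≤ c * (ballBase 0 1).L2 u :=
    fun i => (ellconst_L2_le (hg i).2.2.2.1).trans ((hg i).2.2.2.2.1.trans (hM i))
  have b1 : ∀ i k, (ballBase 0 1).L2 (D₀ k (T fun x => ellconst_φ i (u x)))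
      ≤ c * (ballBase 0 1).L2 u :=
    fun i k => (ellconst_L2_le (m1 i k)).trans (((hg i).2.2.2.2.2.1 k).trans (hM i))
  have b2 : ∀ i k l, (ballBase 0 1).L2 (D₀ l (D₀ k (T fun x => ellconst_φ i (u x))))
      ≤ c * (ballBase 0 1).L2 u :=
    fun i k l => (ellconst_L2_le (m2 i k l)).trans (((hg i).2.2.2.2.2.2 l k).trans (hM i))
  have s1 : ∀ q : Fin 2 × Fin 4, ContDiff ℝ ∞ (D₀ q.2 (T fun x => ellconst_φ q.1 (u x))) :=
    fun q => ellconst_D_sm (hg q.1).1 q.2
  have hcomm : ∀ i k, D₀ k (T fun x => ellconst_φ i (u x))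
      = T fun x => ellconst_φ i (D₀ k u x) := fun i k => by
    rw [(hg i).2.2.1 k, ellconst_D_clm _ hu]
  refine ⟨ContDiff.sum fun q _ => (s1 q).smul contDiff_const,
    ContDiff.sum fun i _ => (hg i).1.smul contDiff_const, fun p => ?_, fun k => ?_, fun k => ?_,
    ?_, ?_⟩
  · have e : ∀ k l, d1 (fun p => ∑ q : Fin 2 × Fin 4,
        D₀ q.2 (T fun x => ellconst_φ q.1 (u x)) p • ellconst_v q.1 q.2) p (k, l)
        = ∑ i, ∑ j, D₀ k (D₀ j (T fun x => ellconst_φ i (u x))) p * (-4 * ellconst_E i (j, l)) := by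
      intro k l
      have := congrFun (ellconst_D_sum s1 (fun q => ellconst_v q.1 q.2) k) p
      show D₀ k (fun p => ∑ q : Fin 2 × Fin 4,
        D₀ q.2 (T fun x => ellconst_φ q.1 (u x)) p • ellconst_v q.1 q.2) p l = _
      rw [this, Fintype.sum_prod_type]
      simp only [WithLp.ofLp_sum, Finset.sum_apply, PiLp.smul_apply, smul_eq_mul, ellconst_v]
    rw [ellconst_pm, ellconst_pm, ← Finset.sum_sub_distrib]
    refine Finset.sum_congr rfl fun i _ => ?_
    rw [← sub_smul]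
    congr 1
    have h1 := (hg i).2.1 p
    have c0 := fun k l => ellconst_D_comm (hg 0).1 k l p
    have c1 := fun k l => ellconst_D_comm (hg 1).1 k l p
    rw [Fin.sum_univ_four] at h1
    fin_cases i
    · simp only [Fin.zero_eta] at h1 ⊢
      rw [ellconst_φ0 (d1 _ _)]
      simp only [e, Fin.sum_univ_two, Fin.sum_univ_four]
      simp [ellconst_E]
      linarith [c1 0 1, c1 2 3]
    · simp only [Fin.mk_one] at h1 ⊢
      rw [ellconst_φ1 (d1 _ _)]
      simp only [e, Fin.sum_univ_two, Fin.sum_univ_four]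
      simp [ellconst_E]
      linarith [c0 0 1, c0 2 3]
  · rw [ellconst_D_sum s1]
    funext p
    refine Finset.sum_congr rfl fun q _ => ?_
    rw [ellconst_D_comm (hg q.1).1, hcomm q.1 k]
  · rw [ellconst_D_sum fun i => (hg i).1]
    funext p
    refine Finset.sum_congr rfl fun i _ => ?_
    rw [hcomm i k]
  · refine (ellconst_Hn_sum s1 (fun q => ellconst_v q.1 q.2) (fun q => b1 q.1 q.2)
      fun q k => b2 q.1 q.2 k).trans ?_
    have : 0 ≤ b * (c * (ballBase 0 1).L2 u) := by positivity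
    nlinarith
  · refine (ellconst_Hn_sum (fun i => (hg i).1) ellconst_E b0 b1).trans ?_
    have : 0 ≤ a * (c * (ballBase 0 1).L2 u) := by positivity
    nlinarith

end Crest.Agent.R240
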