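import Crest.Agent.R240.EllConst
import Crest.Agent.R240.Param

/-! Row 240: local parametrix for `ζ ↦ (dζ)⁻` near a point where `J` is standard.

Write `Π p = pm id (J p)`, `Π₀ = pm id Jst`; `Π p ∘ Π p = Π p` where `J p ∘ J p = -1`.
Fix a cut-off `χ`, equal to `1` on `closedBall 0 r`, supported in the ball of radius `2 r ≤ 1`, and
`b p = χ p • (Π p - Π₀) ∘ (1 - Π₀)`, with `‖b p‖ ≤ θ` as small as we like. Recursively
`h₀ = h`, `sₙ = sO hₙ`, `rₙ = rO hₙ`, `hₙ₊₁ = - b (d1 sₙ - hₙ)`. On the small ball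
`Π d1 sₙ = Π hₙ - Π hₙ₊₁ - Π rₙ` (because `Π (Π - Π₀) (1 - Π₀) = Π (1 - Π₀)`), so
`Π d1 (∑_{n<m} sₙ) - h = -Π hₘ - Π ∑_{n<m} rₙ`. All norms on `ballBase 0 1`: commutation with
`D₀` gives `Hs i (d1 (sO u)) ≤ C₁ Hs i u`, `Hn 1 (k+1) (sO u) ≤ C Hn 1 k u`, same for `rO`, with
`C₁` independent of `i`; `Base.Hs_clm_apply_top` gives `L2 hₙ₊₁ ≤ L2 hₙ / 2`,
`Hs (i+1) hₙ₊₁ ≤ Hs (i+1) hₙ / 2 + Kᵢ Hn 1 i hₙ`; hence for every `k` there is `Cₖ` with
`Hn 1 k hₙ ≤ Cₖ (3/4)ⁿ Hn 1 k h`. Choose `m` so large that `Hn 1 (K+1) hₘ ≤ L2 h` (if `L2 h = 0`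
then `h = 0`, take `s = 0`). Norms on the ball of radius `r` are at most those on the unit ball,
with equality for `h`. -/

set_option autoImplicit false

open scoped ContDiff RealInnerProductSpace Topology
open MeasureTheory Set Filter

noncomputable section

namespace Crest.Agent.R240

section
variable {E F : Type} [NormedAddCommGroup E] [NormedSpace ℝ E] [NormedAddCommGroup F]
  [NormedSpace ℝ F]

theorem elleuc_L2 (p₀ : A 4) (r : ℝ) {u : A 4 → E} (hu : ContDiff ℝ ∞ u) :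
    (ballBase p₀ r).L2 u = √(∫ x in Metric.closedBall p₀ r, ‖u x‖ ^ 2) := by
  rw [← Real.sqrt_sq ((ballBase p₀ r).L2_nonneg u),
    (ballBase p₀ r).L2_sq ((ballBase p₀ r).memLp_cont hu.continuous 2)]
  rfl

theorem elleuc_D {r : ℝ} {u : A 4 → E} (h : ∀ p, p ∉ Metric.closedBall (0 : A 4) r → u p = 0)
    (k : Fin 4) (p : A 4) (hp : p ∉ Metric.closedBall (0 : A 4) r) : D₀ k u p = 0 := by
  have : u =ᶠ[𝓝 p] fun _ => 0 :=
    (Metric.isClosed_closedBall.isOpen_compl.eventually_mem hp).mono h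
  simp [D, this.fderiv_eq]

theorem elleuc_Hn_mono {r : ℝ} (hr : r ≤ 1) (j : ℕ) {u : A 4 → E} (hu : ContDiff ℝ ∞ u) :
    (ballBase 0 r).Hn 1 j u ≤ (ballBase 0 1).Hn 1 j u := by
  have h0 : ∀ {u : A 4 → E}, ContDiff ℝ ∞ u → (ballBase 0 r).L2 u ≤ (ballBase 0 1).L2 u :=
    fun hu => by
      rw [elleuc_L2 _ _ hu, elleuc_L2 _ _ hu]
      exact Real.sqrt_le_sqrt (setIntegral_mono_set
        ((ballBase 0 1).integrable_cont (hu.continuous.norm.pow 2))
        (Eventually.of_forall fun _ => sq_nonneg _)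
        (Metric.closedBall_subset_closedBall hr).eventuallyLE)
  induction j generalizing u with
  | zero => simpa only [Base.Hn_zero] using h0 hu
  | succ j ih =>
    simp only [Base.Hn_succ, one_mul]
    exact add_le_add (h0 hu) (Finset.sum_le_sum fun k _ => ih (D_sm contDiff_const k hu))

theorem elleuc_Hn_eq {r : ℝ} (hr : r ≤ 1) (j : ℕ) {u : A 4 → E} (hu : ContDiff ℝ ∞ u)
    (h : ∀ p, p ∉ Metric.closedBall (0 : A 4) r → u p = 0) :
    (ballBase 0 1).Hn 1 j u = (ballBase 0 r).Hn 1 j u := by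
  have h0 : ∀ {u : A 4 → E}, ContDiff ℝ ∞ u → (∀ p, p ∉ Metric.closedBall (0 : A 4) r → u p = 0) →
      (ballBase 0 1).L2 u = (ballBase 0 r).L2 u := fun hu h => by
    rw [elleuc_L2 _ _ hu, elleuc_L2 _ _ hu, setIntegral_eq_of_subset_of_forall_sdiff_eq_zero
      measurableSet_closedBall (Metric.closedBall_subset_closedBall hr) fun x hx => by
        simp [h x hx.2]]
  induction j generalizing u with
  | zero => simpa only [Base.Hn_zero] using h0 hu h
  | succ j ih =>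
    simp only [Base.Hn_succ, one_mul, h0 hu h]
    exact congrArg _ (Finset.sum_congr rfl fun k _ => ih (D_sm contDiff_const k hu) (elleuc_D h k))

theorem elleuc_Hn_transl (p₀ : A 4) (r : ℝ) (j : ℕ) {u : A 4 → E} (hu : ContDiff ℝ ∞ u) :
    (ballBase p₀ r).Hn 1 j u = (ballBase 0 r).Hn 1 j fun p => u (p + p₀) := by
  have h0 : ∀ {u : A 4 → E}, ContDiff ℝ ∞ u →
      (ballBase p₀ r).L2 u = (ballBase 0 r).L2 fun p => u (p + p₀) := fun hu => by
    rw [elleuc_L2 _ _ hu, elleuc_L2 _ _ (by fun_prop),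
      ← (measurePreserving_add_right volume p₀).setIntegral_preimage_emb
        (measurableEmbedding_addRight p₀)]
    simp
  induction j generalizing u with
  | zero => simpa only [Base.Hn_zero] using h0 hu
  | succ j ih =>
    simp only [Base.Hn_succ, one_mul, h0 hu]
    refine congrArg _ (Finset.sum_congr rfl fun k _ => (ih (D_sm contDiff_const k hu)).trans ?_)
    congr 1; funext p
    simp [D, ballBase, fderiv_comp_add_right]

theorem elleuc_Hs_clm (L : E →L[ℝ] F) (i : ℕ) {u : A 4 → E} (hu : ContDiff ℝ ∞ u) :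
    (ballBase 0 1).Hs i (fun x => L (u x)) ≤ ‖L‖ * (ballBase 0 1).Hs i u := by
  induction i generalizing u with
  | zero =>
    exact Base.L2_le_mul _ (L.continuous.comp hu.continuous).aestronglyMeasurable
      (Base.memLp_cont _ hu.continuous 2) (norm_nonneg _) fun x _ => L.le_opNorm _
  | succ i ih =>
    simp only [Base.Hs, Finset.mul_sum]
    refine Finset.sum_le_sum fun k _ => le_of_eq_of_le ?_ (ih (D_sm contDiff_const k hu))
    rw [D_clm_apply _ k contDiff_const hu]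
    simp [D, ballBase]

theorem elleuc_d1 : ∃ c, 0 ≤ c ∧ ∀ (i : ℕ) (s : A 4 → A 4), ContDiff ℝ ∞ s →
    (ballBase 0 1).Hs i (d1 s) ≤ c * (ballBase 0 1).Hs (i + 1) s := by
  let L : Fin 4 → A 4 →L[ℝ] E2 4 := fun k => matL fun p l => if p = (k, l) then 1 else 0
  refine ⟨∑ k, ‖L k‖, by positivity, fun i s hs => ?_⟩
  have e : d1 s = fun x => L 0 (D₀ 0 s x) + L 1 (D₀ 1 s x) + L 2 (D₀ 2 s x) + L 3 (D₀ 3 s x) := by
    funext x; ext ⟨k, l⟩
    fin_cases k <;> simp [L, d1, D, matL_apply]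
  have c : ∀ k, ContDiff ℝ ∞ fun x => L k (D₀ k s x) := fun k =>
    (L k).contDiff.comp (D_sm contDiff_const k hs)
  have h : ∀ k, (ballBase 0 1).Hs i (fun x => L k (D₀ k s x)) ≤
      ‖L k‖ * (ballBase 0 1).Hs (i + 1) s := fun k =>
    (elleuc_Hs_clm _ i (D_sm contDiff_const k hs)).trans (mul_le_mul_of_nonneg_left
      (Finset.single_le_sum (f := fun k => (ballBase 0 1).Hs i (D₀ k s))
        (fun _ _ => Base.Hs_nonneg _ _ _) (Finset.mem_univ k)) (norm_nonneg _))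
  rw [e, Fin.sum_univ_four]
  linarith [h 0, h 1, h 2, h 3, (ballBase 0 1).Hs_add_le i (c 0) (c 1),
    (ballBase 0 1).Hs_add_le i ((c 0).add (c 1)) (c 2),
    (ballBase 0 1).Hs_add_le i (((c 0).add (c 1)).add (c 2)) (c 3)]

theorem elleuc_T {T : (A 4 → E) → A 4 → F} {C : ℝ}
    (hT : ∀ u, ContDiff ℝ ∞ u → (∀ p, p ∉ Metric.closedBall (0 : A 4) 1 → u p = 0) →
      (∀ k, D₀ k (T u) = T (D₀ k u)) ∧ (ballBase 0 1).Hn 1 1 (T u) ≤ C * (ballBase 0 1).L2 u)
    (k : ℕ) {u : A 4 → E} (hu : ContDiff ℝ ∞ u)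
    (h : ∀ p, p ∉ Metric.closedBall (0 : A 4) 1 → u p = 0) :
    (ballBase 0 1).Hn 1 (k + 1) (T u) ≤ C * (ballBase 0 1).Hn 1 k u ∧
      (ballBase 0 1).Hs (k + 1) (T u) ≤ C * (ballBase 0 1).Hs k u := by
  obtain ⟨h1, h2⟩ := hT u hu h
  induction k generalizing u with
  | zero =>
    exact ⟨by rwa [Base.Hn_zero], le_trans
      (by simpa using (ballBase 0 1).Hs_le_Hn zero_le_one (le_refl 1) (T u)) h2⟩
  | succ k ih =>
    have := fun j => ih (D_sm contDiff_const j hu) (elleuc_D h j)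
      (hT _ (D_sm contDiff_const j hu) (elleuc_D h j)).1
      (hT _ (D_sm contDiff_const j hu) (elleuc_D h j)).2
    rw [Base.Hn_succ, Base.Hn_succ _ _ k, Base.Hs, Base.Hs.eq_2 _ u, one_mul, one_mul, mul_add,
      Finset.mul_sum, Finset.mul_sum]
    exact ⟨add_le_add ((Base.L2_le_Hn _ zero_le_one 1 _).trans h2)
      (Finset.sum_le_sum fun j _ => (congrArg _ (h1 j)).trans_le (this j).1),
      Finset.sum_le_sum fun j _ => (congrArg _ (h1 j)).trans_le (this j).2⟩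

end

theorem elleuc_pm {J : A 4 →L[ℝ] A 4} (hJ : ∀ a, J (J a) = -a) (η : E2 4) :
    pm (ContinuousLinearMap.id ℝ _) J (pm (ContinuousLinearMap.id ℝ _) J η) =
      pm (ContinuousLinearMap.id ℝ _) J η := by
  refine (anti_pm _ _ _).ext (anti_pm _ _ _) fun a b => ?_
  simp only [ev_pm, ContinuousLinearMap.id_apply, hJ, ← neg_one_smul ℝ a, ← neg_one_smul ℝ b,
    ev_smul_left, ev_smul_right]
  ring

theorem ell_euc₀ {J : A 4 → A 4 →L[ℝ] A 4} (hJ : ContDiff ℝ ∞ J) (h0 : J 0 = Jst) {r₀ : ℝ}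
    (hr₀ : 0 < r₀) (hJJ : ∀ p ∈ Metric.closedBall (0 : A 4) r₀, ∀ a, J p (J p a) = -a) :
    ∃ (r : ℝ) (C : ℕ → ℝ), 0 < r ∧ r ≤ r₀ ∧ (∀ k, 0 ≤ C k) ∧ ∀ (K : ℕ) (h : A 4 → E2 4),
      ContDiff ℝ ∞ h → (∀ p, p ∉ Metric.closedBall (0 : A 4) r → h p = 0) →
      (∀ p ∈ Metric.closedBall (0 : A 4) r, pm (ContinuousLinearMap.id ℝ _) (J p) (h p) = h p) →
      ∃ s : A 4 → A 4, ContDiff ℝ ∞ s ∧ ∀ k,
        (ballBase 0 r).Hn 1 (k + 1) s ≤ C k * (ballBase 0 r).Hn 1 k h ∧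
        (k ≤ K → (ballBase 0 r).Hn 1 (k + 1)
          (fun p => pm (ContinuousLinearMap.id ℝ _) (J p) (d1 s p) - h p)
            ≤ C k * (ballBase 0 r).Hn 1 k h) := by
  obtain ⟨sO, rO, C₀, hC₀, H⟩ := ell_const
  obtain ⟨c, hc, Hd⟩ := elleuc_d1
  have HS := @elleuc_T _ _ _ _ _ _ sO C₀ fun u a b => ⟨(H u a b).2.2.2.1, (H u a b).2.2.2.2.2.1⟩
  have HR := @elleuc_T _ _ _ _ _ _ rO C₀ fun u a b => ⟨(H u a b).2.2.2.2.1, (H u a b).2.2.2.2.2.2⟩
  set B := ballBase 0 1 with hB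
  set P : A 4 → E2 4 →L[ℝ] E2 4 := fun p => pm (ContinuousLinearMap.id ℝ _) (J p) with hP
  have Psm : ContDiff ℝ ∞ P := contDiff_pm contDiff_const hJ
  have PP : ∀ p ∈ Metric.closedBall (0 : A 4) r₀, ∀ η, P p (P p η) = P p η := fun p hp =>
    elleuc_pm (hJJ p hp)
  have asm : ContDiff ℝ ∞ fun p => P p ∘L (1 - P 0) := Psm.clm_comp contDiff_const
  have a0 : P 0 ∘L (1 - P 0) = 0 := by
    ext1 η; simp [PP 0 (Metric.mem_closedBall_self hr₀.le)]
  have c1 : 0 < 1 + c * C₀ := by positivity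
  obtain ⟨δ, hδ, ha⟩ := Metric.continuousAt_iff.1 (asm.continuous.continuousAt (x := 0))
    (1 / 2 / (1 + c * C₀)) (by positivity)
  obtain ⟨r, hr, r1, r2, r3⟩ : ∃ r, 0 < r ∧ r ≤ r₀ ∧ 2 * r ≤ δ ∧ 2 * r ≤ 1 :=
    ⟨min r₀ (min (δ / 2) (1 / 2)), by positivity, min_le_left _ _,
      by linarith [min_le_right r₀ (min (δ / 2) (1 / 2)), min_le_left (δ / 2) (1 / 2)],
      by linarith [min_le_right r₀ (min (δ / 2) (1 / 2)), min_le_right (δ / 2) (1 / 2)]⟩
  let χ : ContDiffBump (0 : A 4) := ⟨r, 2 * r, hr, by linarith⟩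
  set b : A 4 → E2 4 →L[ℝ] E2 4 := fun p => χ p • (P p ∘L (1 - P 0)) with hb
  have bsm : ContDiff ℝ ∞ b := χ.contDiff.smul asm
  have bθ : ∀ p, ‖b p‖ ≤ 1 / 2 / (1 + c * C₀) := fun p => by
    rcases lt_or_ge (dist p 0) (2 * r) with h | h
    · have := ha (h.trans_le r2)
      rw [a0, dist_zero_right] at this
      rw [hb, norm_smul, Real.norm_of_nonneg χ.nonneg]
      exact (mul_le_of_le_one_left (norm_nonneg _) χ.le_one).trans this.le
    · rw [show b p = 0 by ext1; simp [hb, χ.zero_of_le_dist h], norm_zero]; positivity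
  set Φ : (A 4 → E2 4) → A 4 → E2 4 := fun u p => b p (u p - d1 (sO u) p) with hΦ
  let G : (A 4 → E2 4) → Prop := fun u =>
    ContDiff ℝ ∞ u ∧ ∀ p, p ∉ Metric.closedBall (0 : A 4) 1 → u p = 0
  have wsm : ∀ u, G u → ContDiff ℝ ∞ fun p => u p - d1 (sO u) p := fun u g =>
    g.1.sub (contDiff_d1 (H u g.1 g.2).1)
  have GΦ : ∀ n u, G u → G (Φ^[n] u) := fun n u g => Function.Iterate.rec G g (fun u g =>
    ⟨bsm.clm_apply (wsm u g), fun p hp => by
      simp [hb, χ.zero_of_le_dist (r3.trans (not_le.1 hp).le)]⟩) n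
  have ws : ∀ u, G u → ∀ i, B.Hs i (fun p => u p - d1 (sO u) p) ≤ (1 + c * C₀) * B.Hs i u :=
    fun u g i => by
      have h1 := (H u g.1 g.2).1
      have h2 := B.Hs_add_le i g.1 ((contDiff_d1 h1).const_smul (-1 : ℝ))
      rw [B.Hs_const_smul i _ (contDiff_d1 h1)] at h2
      simp only [neg_smul, one_smul, ← sub_eq_add_neg, abs_neg, abs_one, one_mul] at h2
      linarith [Hd i _ h1, mul_le_mul_of_nonneg_left (HS i g.1 g.2).2 hc]
  have e12 : ∀ x, 1 / 2 / (1 + c * C₀) * ((1 + c * C₀) * x) = x / 2 := fun x => by field_simp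
  have it : ∀ k, ∃ C, 0 ≤ C ∧ ∀ u, G u → ∀ n,
      B.Hn 1 k (Φ^[n] u) ≤ C * (3 / 4) ^ n * B.Hn 1 k u := fun k => by
    induction k with
    | zero =>
      refine ⟨1, zero_le_one, fun u g n => ?_⟩
      simp only [Base.Hn_zero, one_mul]
      induction n with
      | zero => simp
      | succ n ih =>
        have g' := GΦ n u g
        have h1 : B.L2 (Φ (Φ^[n] u)) ≤ _ := B.L2_le_mul
          (bsm.clm_apply (wsm _ g')).continuous.aestronglyMeasurable
          (B.memLp_cont (wsm _ g').continuous 2) (by positivity)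
          fun x _ => (b x).le_of_opNorm_le (bθ x) _
        have h2 := h1.trans (mul_le_mul_of_nonneg_left (ws _ g' 0) (by positivity))
        rw [e12] at h2
        rw [Function.iterate_succ_apply', pow_succ]
        linarith [B.L2_nonneg (Φ^[n] u), show B.Hs 0 (Φ^[n] u) = B.L2 _ from rfl]
    | succ k ih =>
      obtain ⟨C, C0, ih⟩ := ih
      obtain ⟨K, K0, hK⟩ := B.Hs_clm_apply_top k bsm
      refine ⟨C + (1 + 4 * (K * (1 + c * C₀) * C)), by positivity, fun u g n => ?_⟩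
      have m := B.Hn_mono_order zero_le_one (Nat.le_succ k) u
      have m' := fun n : ℕ =>
        mul_le_mul_of_nonneg_left m (show 0 ≤ C * (3 / 4 : ℝ) ^ n by positivity)
      have : B.Hs (k + 1) (Φ^[n] u) ≤
          (1 + 4 * (K * (1 + c * C₀) * C)) * (3 / 4) ^ n * B.Hn 1 (k + 1) u := by
        induction n with
        | zero =>
          have := B.Hs_le_Hn zero_le_one (le_refl (k + 1)) u
          have := mul_nonneg (show 0 ≤ K * (1 + c * C₀) * C by positivity)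
            (B.Hn_nonneg zero_le_one (k + 1) u)
          simp only [Function.iterate_zero_apply, one_pow] at *
          linarith
        | succ n ihn =>
          have g' := GΦ n u g
          have h1 := hK _ _ (by positivity) (wsm _ g') fun x _ => bθ x
          have h2 := mul_le_mul_of_nonneg_left (ws _ g' (k + 1))
            (show 0 ≤ 1 / 2 / (1 + c * C₀) by positivity)
          have h3 : B.Hn 1 k (fun p => Φ^[n] u p - d1 (sO (Φ^[n] u)) p) ≤
              (1 + c * C₀) * B.Hn 1 k (Φ^[n] u) := by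
            simp only [Base.Hn, one_pow, one_mul, Finset.mul_sum]
            exact Finset.sum_le_sum fun i _ => ws _ g' i
          have h4 := mul_le_mul_of_nonneg_left (h3.trans
            (mul_le_mul_of_nonneg_left ((ih u g n).trans (m' n)) c1.le)) K0
          have h5 := mul_nonneg (show 0 ≤ (3 / 4 : ℝ) ^ n by positivity)
            (B.Hn_nonneg zero_le_one (k + 1) u)
          rw [e12] at h2
          rw [Function.iterate_succ_apply', pow_succ]
          exact h1.trans (by linarith)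
      rw [Base.Hn, Finset.sum_range_succ, one_pow, one_mul, ← Base.Hn]
      linarith [ih u g n, m' n]
  choose C C0 hC using it
  choose K K0 hK using fun k => B.Hn_clm_apply' k Psm
  refine ⟨r, fun k => 4 * C₀ * C k + K (k + 1) * (1 + 4 * C₀ * C k), hr, r1,
    fun k => by have := C0 k; have := K0 (k + 1); positivity, fun N h hs h1 h2 => ?_⟩
  have g : G h := ⟨hs, fun p hp => h1 p fun c =>
    hp (Metric.closedBall_subset_closedBall (by linarith) c)⟩
  obtain ⟨m, hm⟩ : ∃ m, B.Hn 1 (N + 1) (Φ^[m] h) ≤ B.L2 h := by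
    rcases (B.L2_nonneg h).eq_or_lt with e | e
    · have := (lpNorm_eq_zero (B.memLp_cont hs.continuous 2) two_ne_zero).1 e.symm
      obtain rfl : h = fun _ => 0 := (hs.continuous.ae_eq_iff_eq volume continuous_const).1
        (((ae_restrict_iff' measurableSet_closedBall).1 this).mono fun p hp =>
          by_contra fun c => c (g.2 p fun d => c (hp d)))
      exact ⟨0, (B.Hn_zero_fun 1 _).trans_le e.le⟩
    · have := B.Hn_nonneg zero_le_one (N + 1) h
      have := C0 (N + 1)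
      obtain ⟨m, hm⟩ := exists_pow_lt_of_lt_one
        (show 0 < B.L2 h / (C (N + 1) * B.Hn 1 (N + 1) h + 1) by positivity)
        (show (3 / 4 : ℝ) < 1 by norm_num)
      rw [lt_div_iff₀ (by positivity)] at hm
      exact ⟨m, (hC _ h g m).trans (by linarith [show (0 : ℝ) ≤ (3 / 4) ^ m by positivity])⟩
  have Hn := fun n => H _ (GΦ n h g).1 (GΦ n h g).2
  have geo : ∀ {F : Type} [NormedAddCommGroup F] [NormedSpace ℝ F] {f : ℕ → A 4 → F} (k : ℕ),
      (∀ n, ContDiff ℝ ∞ (f n)) → (∀ n, B.Hn 1 (k + 1) (f n) ≤ C₀ * B.Hn 1 k (Φ^[n] h)) →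
      B.Hn 1 (k + 1) (fun p => ∑ n ∈ Finset.range m, f n p) ≤ 4 * C₀ * C k * B.Hn 1 k h :=
    fun k a d => by
      refine (B.Hn_sum_le zero_le_one _ _ a).trans ((Finset.sum_le_sum fun n _ => (d n).trans
        (mul_le_mul_of_nonneg_left (hC k h g n) hC₀)).trans ?_)
      rw [← Finset.mul_sum, ← Finset.sum_mul, ← Finset.mul_sum, geom_sum_eq (by norm_num)]
      have := mul_nonneg (mul_nonneg (mul_nonneg hC₀ (C0 k)) (B.Hn_nonneg zero_le_one k h))
        (show (0 : ℝ) ≤ (3 / 4) ^ m by positivity)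
      norm_num only
      linarith
  have ssm : ContDiff ℝ ∞ fun p => ∑ n ∈ Finset.range m, sO (Φ^[n] h) p :=
    ContDiff.sum fun n _ => (Hn n).1
  have rsm : ContDiff ℝ ∞ fun p => ∑ n ∈ Finset.range m, rO (Φ^[n] h) p :=
    ContDiff.sum fun n _ => (Hn n).2.1
  refine ⟨_, ssm, fun k => ?_⟩
  have q1 := geo k (fun n => (Hn n).1) fun n => (HS k (GΦ n h g).1 (GΦ n h g).2).1
  have q2 := geo k (fun n => (Hn n).2.1) fun n => (HR k (GΦ n h g).1 (GΦ n h g).2).1
  have q0 := B.Hn_nonneg zero_le_one k h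
  have q3 := mul_nonneg (mul_nonneg hC₀ (C0 k)) q0
  rw [← elleuc_Hn_eq (by linarith) k hs h1]
  refine ⟨(elleuc_Hn_mono (by linarith) _ ssm).trans (q1.trans ?_), fun hk => ?_⟩
  · linarith [mul_nonneg (K0 (k + 1)) q0, mul_nonneg (K0 (k + 1)) q3]
  have esm := ((GΦ m h g).1.add rsm).const_smul (-1 : ℝ)
  rw [(ballBase_tan 0 hr).Hn_congr 1 _ ((Psm.clm_apply (contDiff_d1 ssm)).sub hs)
    (Psm.clm_apply esm) fun p hp => ?_]
  · refine (elleuc_Hn_mono (by linarith) _ (Psm.clm_apply esm)).trans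
      ((hK _ 1 _ zero_le_one le_rfl esm).trans ?_)
    rw [B.Hn_const_smul _ _ _ ((GΦ m h g).1.add rsm), abs_neg, abs_one, one_mul]
    have := mul_le_mul_of_nonneg_left ((B.Hn_add_le zero_le_one _ (GΦ m h g).1 rsm).trans
      (add_le_add ((B.Hn_mono_order zero_le_one (Nat.succ_le_succ hk) _).trans
        (hm.trans (B.L2_le_Hn zero_le_one k h))) q2)) (K0 (k + 1))
    linarith
  · have st : ∀ n, P p (d1 (sO (Φ^[n] h)) p) =
        P p (Φ^[n] h p) - P p (Φ^[n + 1] h p) - P p (rO (Φ^[n] h) p) := fun n => by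
      have : P 0 _ = P 0 _ - _ := h0 ▸ (Hn n).2.2.1 p
      rw [Function.iterate_succ_apply']
      generalize Φ^[n] h = u at this
      simp [hΦ, hb, χ.one_of_mem_closedBall hp, this,
        PP p (Metric.closedBall_subset_closedBall r1 hp)]
      abel
    rw [d1_sum _ fun n => (Hn n).1, map_sum]
    simp only [st, Finset.sum_sub_distrib, neg_smul, one_smul, map_neg, map_add, map_sum]
    rw [← Finset.sum_sub_distrib, Finset.sum_range_sub' fun n => P p (Φ^[n] h p),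
      Function.iterate_zero_apply, h2 p hp]
    abel

/-- the same around an arbitrary centre, by translation -/
theorem ell_euc {J : A 4 → A 4 →L[ℝ] A 4} (hJ : ContDiff ℝ ∞ J) {p₀ : A 4} (h0 : J p₀ = Jst)
    {r₀ : ℝ} (hr₀ : 0 < r₀) (hJJ : ∀ p ∈ Metric.closedBall p₀ r₀, ∀ a, J p (J p a) = -a) :
    ∃ (r : ℝ) (C : ℕ → ℝ), 0 < r ∧ r ≤ r₀ ∧ (∀ k, 0 ≤ C k) ∧ ∀ (K : ℕ) (h : A 4 → E2 4),
      ContDiff ℝ ∞ h → (∀ p, p ∉ Metric.closedBall p₀ r → h p = 0) →
      (∀ p ∈ Metric.closedBall p₀ r, pm (ContinuousLinearMap.id ℝ _) (J p) (h p) = h p) →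
      ∃ s : A 4 → A 4, ContDiff ℝ ∞ s ∧ ∀ k,
        (ballBase p₀ r).Hn 1 (k + 1) s ≤ C k * (ballBase p₀ r).Hn 1 k h ∧
        (k ≤ K → (ballBase p₀ r).Hn 1 (k + 1)
          (fun p => pm (ContinuousLinearMap.id ℝ _) (J p) (d1 s p) - h p)
            ≤ C k * (ballBase p₀ r).Hn 1 k h) := by
  have m : ∀ {r} p, p ∈ Metric.closedBall (0 : A 4) r ↔ p + p₀ ∈ Metric.closedBall p₀ r := by simp
  obtain ⟨r, C, hr, r1, C0, H⟩ := ell_euc₀ (J := fun p => J (p + p₀)) (by fun_prop) (by simpa) hr₀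
    fun p hp => hJJ _ ((m p).1 hp)
  refine ⟨r, C, hr, r1, C0, fun K h hs h1 h2 => ?_⟩
  obtain ⟨s, ss, H⟩ := H K (fun p => h (p + p₀)) (by fun_prop) (fun p hp => h1 _ (by rwa [← m]))
    fun p hp => h2 _ ((m p).1 hp)
  have ss' : ContDiff ℝ ∞ fun p => s (p - p₀) := by fun_prop
  refine ⟨_, ss', fun k => ?_⟩
  rw [elleuc_Hn_transl _ _ _ ss', elleuc_Hn_transl _ _ _ hs, elleuc_Hn_transl _ _ _
    (((contDiff_pm contDiff_const hJ).clm_apply (contDiff_d1 ss')).sub hs)]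
  simpa only [d1, fderiv_comp_sub, add_sub_cancel_right] using H k

end Crest.Agent.R240
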