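import Crest.Agent.R240.Vol

/-! Row 240: the Poincaré inequality at small scales and finite rank approximation. -/

set_option autoImplicit false

open scoped ContDiff RealInnerProductSpace Topology
open MeasureTheory Set Filter

noncomputable section

namespace Crest.Agent.R240

variable {N : ℕ}

theorem poinc_sq {α : Type} [MeasurableSpace α] (μ : Measure α) {f : α → ENNReal}
    (hf : AEMeasurable f μ) : (∫⁻ x, f x ∂μ) ^ 2 ≤ μ univ * ∫⁻ x, f x ^ 2 ∂μ := by
  have h := ENNReal.lintegral_mul_le_Lp_mul_Lq μ Real.HolderConjugate.two_two hf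
    (g := fun _ => 1) aemeasurable_const
  simp only [Pi.mul_apply, mul_one, lintegral_const, ENNReal.rpow_two] at h
  calc _ ≤ _ := pow_le_pow_left' h 2
    _ = _ := by
      rw [mul_pow, ← ENNReal.rpow_two, ← ENNReal.rpow_two, ← ENNReal.rpow_mul, ← ENNReal.rpow_mul,
        mul_comm]
      norm_num

theorem poinc_euc {E : Type} [NormedAddCommGroup E] [NormedSpace ℝ E] [CompleteSpace E]
    {K : Set (A 4)} (hK : Convex ℝ K) (hKm : MeasurableSet K) {f : A 4 → E}
    (hf : ContDiff ℝ 1 f) {g : A 4 → ENNReal} (hg : Measurable g)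
    (hfg : ∀ p ∈ K, ‖fderiv ℝ f p‖ₑ ≤ g p) (ρ : ℝ) :
    ∫⁻ p in K, ∫⁻ q in K, (Metric.closedBall p ρ).indicator (fun q => ‖f q - f p‖ₑ ^ 2) q ≤
      ENNReal.ofReal ρ ^ 2 * volume (Metric.closedBall (0 : A 4) ρ) * ∫⁻ p in K, g p ^ 2 := by
  set G : A 4 → ENNReal := K.indicator fun p => g p ^ 2 with hG
  have hGm : Measurable G := (hg.pow_const 2).indicator hKm
  set c := ENNReal.ofReal ρ ^ 2 with hc
  have h1 : ∀ p ∈ K, ∀ h : A 4, p + h ∈ K → ‖h‖ ≤ ρ →
      ‖f (p + h) - f p‖ₑ ^ 2 ≤ c * ∫⁻ s in Icc (0 : ℝ) 1, G (p + s • h) := by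
    intro p hp h hph hh
    have hγ : ∀ s : ℝ, HasDerivAt (fun s : ℝ => f (p + s • h)) (fderiv ℝ f (p + s • h) h) s := by
      intro s
      have := ((hf.differentiable one_ne_zero (p + s • h)).hasFDerivAt).comp_hasDerivAt s
        (((hasDerivAt_id s).smul_const h).const_add p)
      simpa [Function.comp_def] using this
    have a1 := enorm_sub_le_lintegral_deriv_of_contDiffOn_Icc (f := fun s : ℝ => f (p + s • h))
      (ContDiff.contDiffOn (hf.comp (by fun_prop))) zero_le_one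
    simp only [one_smul, zero_smul, add_zero, (hγ _).deriv] at a1
    have a2 : ∫⁻ s in Icc (0 : ℝ) 1, ‖fderiv ℝ f (p + s • h) h‖ₑ ≤
        ∫⁻ s in Icc (0 : ℝ) 1, ENNReal.ofReal ρ * g (p + s • h) := by
      refine setLIntegral_mono' measurableSet_Icc fun s hs => ?_
      refine (ContinuousLinearMap.le_opENorm _ _).trans ?_
      rw [mul_comm]
      refine mul_le_mul' ?_ (hfg _ (hK.add_smul_mem hp hph hs))
      rw [← ofReal_norm]
      exact ENNReal.ofReal_le_ofReal hh
    have a3 := poinc_sq (volume.restrict (Icc (0 : ℝ) 1))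
      (f := fun s => ENNReal.ofReal ρ * g (p + s • h)) (by fun_prop)
    refine (pow_le_pow_left' (a1.trans a2) 2).trans (a3.trans (le_of_eq ?_))
    rw [Measure.restrict_apply_univ, Real.volume_Icc, sub_zero, ENNReal.ofReal_one, one_mul,
      ← lintegral_const_mul _ (by fun_prop)]
    refine setLIntegral_congr_fun measurableSet_Icc fun s hs => ?_
    simp only [hG, indicator_of_mem (hK.add_smul_mem hp hph hs), mul_pow, hc]
  have h2 : ∀ p ∈ K,
      ∫⁻ q in K, (Metric.closedBall p ρ).indicator (fun q => ‖f q - f p‖ₑ ^ 2) q ≤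
        ∫⁻ h in Metric.closedBall (0 : A 4) ρ, c * ∫⁻ s in Icc (0 : ℝ) 1, G (p + s • h) := by
    intro p hp
    rw [← lintegral_indicator hKm, ← lintegral_add_left_eq_self _ p,
      ← lintegral_indicator measurableSet_closedBall]
    refine lintegral_mono fun h => ?_
    by_cases hph : p + h ∈ K
    swap
    · rw [indicator_of_notMem hph]; exact bot_le
    by_cases hh : p + h ∈ Metric.closedBall p ρ
    swap
    · rw [indicator_of_mem hph, indicator_of_notMem hh]; exact bot_le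
    have hh' : ‖h‖ ≤ ρ := by simpa using hh
    rw [indicator_of_mem hph, indicator_of_mem hh, indicator_of_mem (by simpa using hh')]
    exact h1 p hp h hph hh'
  have m1 : Measurable fun z : (A 4 × A 4) × ℝ => G (z.1.1 + z.2 • z.1.2) := by fun_prop
  calc _ ≤ ∫⁻ p, ∫⁻ h in Metric.closedBall (0 : A 4) ρ,
        c * ∫⁻ s in Icc (0 : ℝ) 1, G (p + s • h) :=
        (setLIntegral_mono' hKm h2).trans (setLIntegral_le_lintegral _ _)
    _ = ∫⁻ h in Metric.closedBall (0 : A 4) ρ, ∫⁻ p,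
        c * ∫⁻ s in Icc (0 : ℝ) 1, G (p + s • h) :=
        lintegral_lintegral_swap (m1.lintegral_prod_right'.const_mul c).aemeasurable
    _ = ∫⁻ h in Metric.closedBall (0 : A 4) ρ, c * ∫⁻ p, G p := by
        refine lintegral_congr fun h => ?_
        have m2 : Measurable fun z : A 4 × ℝ => G (z.1 + z.2 • h) := by fun_prop
        rw [lintegral_const_mul _ m2.lintegral_prod_right',
          lintegral_lintegral_swap m2.aemeasurable]
        simp only [lintegral_add_right_eq_self]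
        simp
    _ = _ := by
        rw [setLIntegral_const, hG, lintegral_indicator hKm]
        ring

namespace Geo
variable (G : Geo N)

theorem poinc_upper (c : G.Chart) {K : Set (A 4)} (hK : IsCompact K) :
    ∃ M : ENNReal, M ≠ ⊤ ∧ ∀ F : A N → ENNReal, Measurable F →
      ∫⁻ x in c.W ∩ c.pr ⁻¹' K, F x ∂G.m ≤ M * ∫⁻ p in K, F (c.ψ p) := by
  obtain ⟨M, hM⟩ := hK.exists_bound_of_continuousOn c.pf_sm.continuous.continuousOn
  refine ⟨ENNReal.ofReal M, ENNReal.ofReal_ne_top, fun F hF => ?_⟩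
  have hm : MeasurableSet (c.pr ⁻¹' K) := c.pr.continuous.measurable hK.measurableSet
  rw [inter_comm, ← Measure.restrict_restrict hm, ← lintegral_indicator hm,
    G.lintegral_chart c (hF.indicator hm), ← lintegral_indicator hK.measurableSet,
    ← lintegral_const_mul' _ _ ENNReal.ofReal_ne_top]
  refine (setLIntegral_mono' c.U_open.measurableSet fun p hp => ?_).trans
    (setLIntegral_le_lintegral _ _)
  by_cases h : p ∈ K
  · rw [indicator_of_mem h, indicator_of_mem (by rw [mem_preimage, c.pr_ψ p hp]; exact h)]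
    exact mul_le_mul' (ENNReal.ofReal_le_ofReal ((le_abs_self _).trans (hM p h))) le_rfl
  · rw [indicator_of_notMem (by rw [mem_preimage, c.pr_ψ p hp]; exact h), mul_zero]
    exact bot_le

theorem poinc_lower (c : G.Chart) {K : Set (A 4)} (hK : IsCompact K) (hKU : K ⊆ c.U) :
    ∃ M : ENNReal, M ≠ ⊤ ∧ ∀ F : A N → ENNReal, Measurable F →
      ∫⁻ p in K, F (c.ψ p) ≤ M * ∫⁻ x, F x ∂G.m := by
  obtain ⟨M, hM⟩ := hK.exists_bound_of_continuousOn
    (c.pf_sm.continuous.continuousOn.inv₀ fun p hp => (c.pf_pos p (hKU hp)).ne')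
  refine ⟨ENNReal.ofReal M, ENNReal.ofReal_ne_top, fun F hF => ?_⟩
  refine le_trans ?_ (mul_le_mul' le_rfl (setLIntegral_le_lintegral c.W _))
  rw [G.lintegral_chart c hF, ← lintegral_const_mul' _ _ ENNReal.ofReal_ne_top]
  refine (setLIntegral_mono' hK.measurableSet fun p hp => ?_).trans (lintegral_mono_set hKU)
  have h0 := c.pf_pos p (hKU hp)
  have h1 : (c.pf p)⁻¹ ≤ M := (le_abs_self _).trans (hM p hp)
  rw [← mul_assoc, ← ENNReal.ofReal_mul ((inv_pos.2 h0).le.trans h1)]
  refine le_mul_of_one_le_left' (ENNReal.one_le_ofReal.2 ?_)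
  rwa [inv_le_iff_one_le_mul₀ h0] at h1

theorem poinc_Hs {E : Type} [NormedAddCommGroup E] [NormedSpace ℝ E] {u : A N → E}
    (hu : ContDiff ℝ ∞ u) : ∫⁻ x, (∑ k, ‖D G.π k u x‖ₑ) ^ 2 ∂G.m ≤
      N * ENNReal.ofReal (G.B.Hs 1 u ^ 2) := by
  have hc : ∀ k, Continuous (D G.π k u) := fun k => (D_sm G.π_sm k hu).continuous
  have h1 : ∀ x, (∑ k, ‖D G.π k u x‖ₑ) ^ 2 ≤
      ENNReal.ofReal (N * ∑ k, ‖D G.π k u x‖ ^ 2) := by
    intro x
    simp only [← ofReal_norm]
    rw [← ENNReal.ofReal_sum_of_nonneg fun _ _ => norm_nonneg _,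
      ← ENNReal.ofReal_pow (by positivity)]
    refine ENNReal.ofReal_le_ofReal ?_
    simpa using sq_sum_le_card_mul_sum_sq (s := Finset.univ) (f := fun k => ‖D G.π k u x‖)
  have hi : ∀ k, Integrable (fun x => ‖D G.π k u x‖ ^ 2) G.m := fun k =>
    G.B.integrable_cont ((hc k).norm.pow 2)
  refine (lintegral_mono h1).trans ?_
  rw [← ofReal_integral_eq_lintegral_ofReal
      ((integrable_finsetSum _ fun k _ => hi k).const_mul _)
      (Eventually.of_forall fun x => by positivity), integral_const_mul,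
    integral_finsetSum _ fun k _ => hi k, ENNReal.ofReal_mul (Nat.cast_nonneg N),
    ENNReal.ofReal_natCast]
  refine mul_le_mul' le_rfl (ENNReal.ofReal_le_ofReal ?_)
  have e : ∀ k, ∫ x, ‖D G.π k u x‖ ^ 2 ∂G.m = G.B.L2 (D G.π k u) ^ 2 := fun k =>
    (G.B.L2_sq (G.B.memLp_cont (hc k) 2)).symm
  simp only [e]
  exact Finset.sum_sq_le_sq_sum_of_nonneg fun k _ => G.B.L2_nonneg _

theorem poinc_chart {E : Type} [NormedAddCommGroup E] [NormedSpace ℝ E] [CompleteSpace E]
    (c : G.Chart) {K : Set (A 4)} (hK : IsCompact K) (hKc : Convex ℝ K) (hKU : K ⊆ c.U) :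
    ∃ C : ENNReal, C ≠ ⊤ ∧ ∀ r : ℝ, 0 ≤ r → ∀ u : A N → E, ContDiff ℝ ∞ u →
      ∫⁻ y in c.W ∩ c.pr ⁻¹' K, ∫⁻ x in c.W ∩ c.pr ⁻¹' K,
        (Metric.closedBall y r).indicator (fun x => ‖u x - u y‖ₑ ^ 2) x ∂G.m ∂G.m ≤
        C * ENNReal.ofReal (r ^ 6 * G.B.Hs 1 u ^ 2) := by
  obtain ⟨M, hM, h1⟩ := G.poinc_upper c hK
  obtain ⟨M', hM', h2⟩ := G.poinc_lower c hK hKU
  obtain ⟨L, hL⟩ := hK.exists_bound_of_continuousOn
    (c.ψ_sm.continuous_fderiv (by simp)).continuousOn
  refine ⟨M * M * ENNReal.ofReal ‖c.pr‖ ^ 6 * volume (Metric.closedBall (0 : A 4) 1) *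
    ENNReal.ofReal L ^ 2 * M' * N, by
      have := (isCompact_closedBall (0 : A 4) 1).measure_lt_top (μ := volume) |>.ne
      finiteness, fun r hr u hu => ?_⟩
  have huc := hu.continuous
  have hψc := c.ψ_sm.continuous
  set ρ := ‖c.pr‖ * r with hρ
  set Φ : A N → ENNReal := fun y => ∫⁻ q in K,
    (Metric.closedBall (c.pr y) ρ).indicator (fun q => ‖u (c.ψ q) - u y‖ₑ ^ 2) q with hΦ
  have hΦm : Measurable Φ := by
    have : Measurable fun z : A N × A 4 => {z : A N × A 4 | dist z.2 (c.pr z.1) ≤ ρ}.indicator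
        (fun z => ‖u (c.ψ z.2) - u z.1‖ₑ ^ 2) z :=
      ((Continuous.measurable (by fun_prop)).pow_const 2).indicator
        (isClosed_le (by fun_prop) continuous_const).measurableSet
    exact this.lintegral_prod_right'
  have a1 : ∀ y, ∫⁻ x in c.W ∩ c.pr ⁻¹' K,
      (Metric.closedBall y r).indicator (fun x => ‖u x - u y‖ₑ ^ 2) x ∂G.m ≤ M * Φ y := by
    intro y
    refine (h1 _ (((Continuous.measurable (by fun_prop)).pow_const 2).indicator
      measurableSet_closedBall)).trans (mul_le_mul' le_rfl ?_)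
    refine setLIntegral_mono' hK.measurableSet fun q hq => ?_
    by_cases h : c.ψ q ∈ Metric.closedBall y r
    · rw [indicator_of_mem h, indicator_of_mem]
      rw [mem_closedBall_iff_norm] at h ⊢
      conv_lhs => rw [← c.pr_ψ q (hKU hq), ← map_sub]
      exact (c.pr.le_opNorm _).trans (mul_le_mul_of_nonneg_left h (norm_nonneg _))
    · rw [indicator_of_notMem h]
      exact bot_le
  have hgc : Continuous fun x => ∑ k, ‖D G.π k u x‖ₑ :=
    continuous_finsetSum _ fun k _ => (D_sm G.π_sm k hu).continuous.enorm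
  have a2 := poinc_euc hKc hK.measurableSet (f := fun q => u (c.ψ q))
    ((hu.comp c.ψ_sm).of_le (by simp)) (g := fun p => ENNReal.ofReal L * ∑ k, ‖D G.π k u (c.ψ p)‖ₑ)
    ((hgc.comp hψc).measurable.const_mul _) (fun p hp => by
      have hL0 : 0 ≤ L := (norm_nonneg _).trans (hL p hp)
      simp only [← ofReal_norm]
      rw [← ENNReal.ofReal_sum_of_nonneg fun _ _ => norm_nonneg _, ← ENNReal.ofReal_mul hL0]
      refine ENNReal.ofReal_le_ofReal (ContinuousLinearMap.opNorm_le_bound _ (by positivity)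
        fun a => ?_)
      rw [fderiv_fun_comp p (hu.differentiable (by simp) _) (c.ψ_sm.differentiable (by simp) _),
        ContinuousLinearMap.comp_apply, ← c.π_dψ p (hKU hp) a, fderiv_π_eq_sum, Finset.mul_sum,
        Finset.sum_mul]
      refine (norm_sum_le _ _).trans (Finset.sum_le_sum fun k _ => ?_)
      rw [norm_smul, mul_right_comm]
      exact mul_le_mul_of_nonneg_right ((PiLp.norm_apply_le _ k).trans
        (((fderiv ℝ c.ψ p).le_opNorm a).trans
          (mul_le_mul_of_nonneg_right (hL p hp) (norm_nonneg _)))) (norm_nonneg _)) ρ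
  have a3 : ∫⁻ p in K, Φ (c.ψ p) = ∫⁻ p in K, ∫⁻ q in K,
      (Metric.closedBall p ρ).indicator (fun q => ‖u (c.ψ q) - u (c.ψ p)‖ₑ ^ 2) q :=
    setLIntegral_congr_fun hK.measurableSet fun p hp => by
      simp only [hΦ, c.pr_ψ p (hKU hp)]
  have a4 := (h2 (fun x => (∑ k, ‖D G.π k u x‖ₑ) ^ 2) (hgc.measurable.pow_const 2)).trans
    (mul_le_mul' le_rfl (G.poinc_Hs hu))
  simp only [mul_pow] at a2
  rw [lintegral_const_mul' _ _ (by finiteness),
    Measure.addHaar_closedBall' _ _ (by positivity : 0 ≤ ρ), finrank_euclideanSpace_fin,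
    ENNReal.ofReal_pow (by positivity)] at a2
  calc _ ≤ ∫⁻ y in c.W ∩ c.pr ⁻¹' K, M * Φ y ∂G.m := lintegral_mono a1
    _ ≤ M * (M * ∫⁻ p in K, Φ (c.ψ p)) := by
        rw [lintegral_const_mul _ hΦm]
        exact mul_le_mul' le_rfl (h1 _ hΦm)
    _ ≤ M * (M * _) := mul_le_mul' le_rfl (mul_le_mul' le_rfl (a3.trans_le (a2.trans
          (mul_le_mul' le_rfl (mul_le_mul' le_rfl a4)))))
    _ = _ := by
        rw [hρ, ENNReal.ofReal_mul (norm_nonneg _), ENNReal.ofReal_mul (by positivity),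
          ENNReal.ofReal_pow hr]
        ring

theorem poinc_l {E : Type} [NormedAddCommGroup E] [NormedSpace ℝ E] [CompleteSpace E] :
    ∃ C r₀, 0 ≤ C ∧ 0 < r₀ ∧ ∀ r, 0 < r → r ≤ r₀ → ∀ u : A N → E, ContDiff ℝ ∞ u →
      ∫⁻ y, ∫⁻ x in Metric.closedBall y r, ‖u x - u y‖ₑ ^ 2 ∂G.m ∂G.m
        ≤ ENNReal.ofReal (C * r ^ 6 * G.B.Hs 1 u ^ 2) := by
  obtain ⟨n, c, p, R, δ, hδ, hR, hU, hat⟩ := G.toSub.exists_atlas
  choose C hC h using fun i => G.poinc_chart (E := E) (c i) (isCompact_closedBall (p i) (R i))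
    (convex_closedBall _ _) (hU i)
  refine ⟨(∑ i, C i).toReal, δ, ENNReal.toReal_nonneg, hδ, fun r hr hrδ u hu => ?_⟩
  have huc := hu.continuous
  set V : Fin n → Set (A N) := fun i => (c i).W ∩ (c i).pr ⁻¹' Metric.closedBall (p i) (R i)
    with hV
  have hVm : ∀ i, MeasurableSet (V i) := fun i => (c i).W_open.measurableSet.inter
    ((c i).pr.continuous.measurable measurableSet_closedBall)
  set Φ : Fin n → A N → ENNReal := fun i y => ∫⁻ x in V i,
    (Metric.closedBall y r).indicator (fun x => ‖u x - u y‖ₑ ^ 2) x ∂G.m with hΦ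
  have hΦm : ∀ i, Measurable (Φ i) := by
    intro i
    have : Measurable fun z : A N × A N => {z : A N × A N | dist z.2 z.1 ≤ r}.indicator
        (fun z => ‖u z.2 - u z.1‖ₑ ^ 2) z :=
      ((Continuous.measurable (by fun_prop)).pow_const 2).indicator
        (isClosed_le (by fun_prop) continuous_const).measurableSet
    exact this.lintegral_prod_right'
  have a1 : ∀ᵐ y ∂G.m, ∫⁻ x in Metric.closedBall y r, ‖u x - u y‖ₑ ^ 2 ∂G.m ≤
      ∑ i, (V i).indicator (Φ i) y := by
    filter_upwards [G.B.ae_mem] with y hy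
    obtain ⟨i, -, hi⟩ := hat y hy
    refine le_trans ?_ (Finset.single_le_sum (fun _ _ => bot_le) (Finset.mem_univ i))
    rw [indicator_of_mem (show y ∈ V i from hi y hy (by simpa using hδ.le)), hΦ]
    dsimp only
    rw [← lintegral_indicator measurableSet_closedBall, ← lintegral_indicator (hVm i)]
    refine lintegral_mono_ae ?_
    filter_upwards [G.B.ae_mem] with x hx
    by_cases hxy : x ∈ Metric.closedBall y r
    · rw [indicator_of_mem (show x ∈ V i from
        hi x hx ((mem_closedBall_iff_norm.1 hxy).trans hrδ))]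
    · rw [indicator_of_notMem hxy]
      exact bot_le
  refine (lintegral_mono_ae a1).trans ?_
  rw [lintegral_finsetSum _ fun i _ => (hΦm i).indicator (hVm i), mul_assoc,
    ENNReal.ofReal_mul ENNReal.toReal_nonneg,
    ENNReal.ofReal_toReal (ENNReal.sum_ne_top.2 fun i _ => hC i), Finset.sum_mul]
  refine Finset.sum_le_sum fun i _ => ?_
  rw [lintegral_indicator (hVm i)]
  exact h i r hr.le u hu

/-- Poincaré inequality at scale `r`. With the atlas of `Sub.exists_atlas`: for `x` in the piece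
`i` and `y ∈ S` close to `x`, `p = pr x`, `q = pr y` lie in the (convex) ball, `‖q - p‖ ≤ C r` and
`‖u y - u x‖² ≤ ‖q - p‖² ∫₀¹ ‖fderiv (u ∘ ψ) (p + s (q - p))‖² ds`; substitute `q = p + h`,
translate in `p` (Lebesgue measure), and bound `‖fderiv (u ∘ ψ) p‖ ≤ C ∑ k, ‖D π k u (ψ p)‖`
(`RawChart.D_comp'`). It is convenient to work with `lintegral`s. -/
theorem poincare {E : Type} [NormedAddCommGroup E] [NormedSpace ℝ E] [CompleteSpace E] :
    ∃ C r₀, 0 ≤ C ∧ 0 < r₀ ∧ ∀ r, 0 < r → r ≤ r₀ → ∀ u : A N → E, ContDiff ℝ ∞ u →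
      ∫ y, ∫ x in Metric.closedBall y r, ‖u x - u y‖ ^ 2 ∂G.m ∂G.m
        ≤ C * r ^ 6 * G.B.Hs 1 u ^ 2 := by
  obtain ⟨C, r₀, hC, hr₀, h⟩ := G.poinc_l (E := E)
  refine ⟨C, r₀, hC, hr₀, fun r hr hrr u hu => (le_abs_self _).trans ?_⟩
  rw [← ENNReal.ofReal_le_ofReal_iff (by positivity), ← Real.enorm_eq_ofReal_abs]
  refine (enorm_integral_le_lintegral_enorm _).trans (le_trans (lintegral_mono fun y => ?_)
    (h r hr hrr u hu))
  refine (enorm_integral_le_lintegral_enorm _).trans (le_of_eq ?_)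
  simp only [enorm_pow, enorm_norm]

/-- Finite rank approximation: `ψ j` is a partition of unity subordinate to balls of radius
`r / 2` centred on `S` (`exists_pou`), `c j` is the mean value of `u` on `closedBall (a j) (r/2)`.
By convexity `‖u y - ∑ ψ j y • c j‖² ≤ ∑ ψ j y ‖u y - c j‖² ≤ C r⁻⁴ ∫_{closedBall y r} ‖u x - u y‖²`
(`vol_ge`). -/
theorem finite_rank {E : Type} [NormedAddCommGroup E] [NormedSpace ℝ E] [CompleteSpace E]
    {ε : ℝ} (hε : 0 < ε) : ∃ (n : ℕ) (ψ : Fin n → A N → ℝ) (C : ℝ), 0 ≤ C ∧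
      (∀ j, ContDiff ℝ ∞ (ψ j)) ∧ ∀ u : A N → E, ContDiff ℝ ∞ u → ∃ c : Fin n → E,
        G.B.L2 (fun y => u y - ∑ j, ψ j y • c j) ≤ ε * G.B.Hn 1 1 u ∧
          ∀ j, ‖c j‖ ≤ C * G.B.L2 u := by
  obtain ⟨C, r₀, hC, hr₀, h⟩ := G.poinc_l (E := E)
  obtain ⟨c₀, hc₀, hv⟩ := G.vol_ge
  obtain ⟨r, hr, hrr, hr1, hrε⟩ : ∃ r : ℝ, 0 < r ∧ r ≤ r₀ ∧ r ≤ 1 ∧ 16 * C * r ≤ c₀ * ε ^ 2 := by
    refine ⟨min (min r₀ 1) (c₀ * ε ^ 2 / (16 * C + 1)), by positivity,
      (min_le_left _ _).trans (min_le_left _ _), (min_le_left _ _).trans (min_le_right _ _), ?_⟩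
    refine (mul_le_mul_of_nonneg_left (min_le_right _ _) (by positivity)).trans ?_
    rw [mul_div_assoc', div_le_iff₀ (by positivity)]
    nlinarith [mul_pos hc₀ (pow_pos hε 2)]
  obtain ⟨n, a, ψ, ha, hψ, -, hs, h0, -, h1⟩ := exists_pou G.cpt (fun x => Metric.ball x (r / 2))
    fun x _ => ⟨Metric.isOpen_ball, Metric.mem_ball_self (by positivity)⟩
  set v := c₀ * (r / 2) ^ 4 with hvd
  have hv0 : 0 < v := by positivity
  have hB : ∀ j, v ≤ G.m.real (Metric.closedBall (a j) (r / 2)) := fun j =>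
    hv _ (ha j) _ (by positivity) (by linarith)
  refine ⟨n, ψ, v⁻¹ * G.B.L2 fun _ => (1 : ℝ), mul_nonneg (by positivity) (G.B.L2_nonneg _), hψ,
    fun u hu => ⟨fun j => (G.m.real (Metric.closedBall (a j) (r / 2)))⁻¹ •
      ∫ x in Metric.closedBall (a j) (r / 2), u x ∂G.m, ?_, fun j => ?_⟩⟩
  · have huc := hu.continuous
    set c : Fin n → E := fun j => (G.m.real (Metric.closedBall (a j) (r / 2)))⁻¹ •
      ∫ x in Metric.closedBall (a j) (r / 2), u x ∂G.m with hc
    set T : A N → ENNReal := fun y => ENNReal.ofReal v⁻¹ *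
      ∫⁻ x in Metric.closedBall y r, ‖u x - u y‖ₑ ^ 2 ∂G.m with hT
    have b1 : ∀ j y, ψ j y ≠ 0 → ‖u y - c j‖ₑ ^ 2 ≤ T y := by
      intro j y hy
      have hy' : y ∈ Metric.ball (a j) (r / 2) := hs j (subset_tsupport _ hy)
      have hsub : Metric.closedBall (a j) (r / 2) ⊆ Metric.closedBall y r :=
        Metric.closedBall_subset_closedBall' (by
          rw [Metric.mem_ball, dist_comm] at hy'; linarith)
      set B := Metric.closedBall (a j) (r / 2)
      set w := G.m.real B with hw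
      have hw0 : 0 < w := hv0.trans_le (hB j)
      have e : c j - u y = w⁻¹ • ∫ x in B, (u x - u y) ∂G.m := by
        have hi : Integrable u G.m := G.B.integrable_cont huc
        rw [integral_sub hi.integrableOn (integrable_const _),
          setIntegral_const, smul_sub, smul_smul, inv_mul_cancel₀ hw0.ne', one_smul]
      have e2 : G.m B = ENNReal.ofReal w := (ofReal_measureReal (measure_ne_top _ _)).symm
      have b2 := poinc_sq (G.m.restrict B) (f := fun x => ‖u x - u y‖ₑ)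
        (Continuous.measurable (by fun_prop)).aemeasurable
      rw [Measure.restrict_apply_univ, e2] at b2
      rw [enorm_sub_rev, e, enorm_smul, mul_pow, Real.enorm_eq_ofReal (by positivity)]
      calc _ ≤ ENNReal.ofReal w⁻¹ ^ 2 * (ENNReal.ofReal w * ∫⁻ x in B, ‖u x - u y‖ₑ ^ 2 ∂G.m) :=
            mul_le_mul' le_rfl
              ((pow_le_pow_left' (enorm_integral_le_lintegral_enorm _) 2).trans b2)
        _ = ENNReal.ofReal w⁻¹ * ∫⁻ x in B, ‖u x - u y‖ₑ ^ 2 ∂G.m := by
            rw [← mul_assoc, sq, mul_assoc (ENNReal.ofReal w⁻¹),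
              ← ENNReal.ofReal_mul (by positivity), inv_mul_cancel₀ hw0.ne', ENNReal.ofReal_one,
              mul_one]
        _ ≤ T y := mul_le_mul' (ENNReal.ofReal_le_ofReal (inv_anti₀ hv0 (hB j)))
            (lintegral_mono_set hsub)
    have b3 : ∀ y ∈ G.S, ‖u y - ∑ j, ψ j y • c j‖ₑ ^ 2 ≤ T y := by
      intro y hy
      have e1 : ∑ j, ψ j y = 1 := (h1 y hy).self_of_nhds
      have hne : (Finset.univ.filter fun j => ψ j y ≠ 0).Nonempty := by
        by_contra hne
        rw [Finset.not_nonempty_iff_eq_empty, Finset.filter_eq_empty_iff] at hne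
        rw [Finset.sum_eq_zero fun j hj => not_not.1 (hne hj)] at e1
        exact zero_ne_one e1
      obtain ⟨j₀, hj₀, hmax⟩ := Finset.exists_max_image _ (fun j => ‖u y - c j‖) hne
      refine le_trans (pow_le_pow_left' ?_ 2) (b1 j₀ y (Finset.mem_filter.1 hj₀).2)
      rw [enorm_le_iff_norm_le]
      have e2 : u y - ∑ j, ψ j y • c j = ∑ j, ψ j y • (u y - c j) := by
        simp only [smul_sub, Finset.sum_sub_distrib, ← Finset.sum_smul, e1, one_smul]
      rw [e2, ← one_mul ‖u y - c j₀‖, ← e1, Finset.sum_mul]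
      refine (norm_sum_le _ _).trans (Finset.sum_le_sum fun j _ => ?_)
      rw [norm_smul, Real.norm_of_nonneg (h0 j y)]
      by_cases hj : ψ j y = 0
      · simp [hj]
      · exact mul_le_mul_of_nonneg_left (hmax j (Finset.mem_filter.2 ⟨Finset.mem_univ _, hj⟩))
          (h0 j y)
    have hcont : Continuous fun y => u y - ∑ j, ψ j y • c j :=
      huc.sub (continuous_finsetSum _ fun j _ => (hψ j).continuous.smul continuous_const)
    have hH := G.B.Hs_le_Hn zero_le_one (le_refl 1) u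
    rw [one_pow, one_mul] at hH
    have hH0 := G.B.Hs_nonneg 1 u
    refine le_trans (abs_le_of_sq_le_sq' ?_ (by positivity)).2
      (mul_le_mul_of_nonneg_left hH hε.le)
    rw [G.B.L2_sq (G.B.memLp_cont hcont 2)]
    refine (le_abs_self _).trans ?_
    rw [← ENNReal.ofReal_le_ofReal_iff (by positivity), ← Real.enorm_eq_ofReal_abs]
    refine (enorm_integral_le_lintegral_enorm _).trans ?_
    simp only [enorm_pow, enorm_norm]
    refine (lintegral_mono_ae (G.B.ae_mem.mono b3)).trans ?_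
    rw [hT, lintegral_const_mul' _ _ ENNReal.ofReal_ne_top]
    refine (mul_le_mul' le_rfl (h r hr hrr u hu)).trans ?_
    rw [← ENNReal.ofReal_mul (by positivity), ← mul_assoc, mul_pow]
    refine ENNReal.ofReal_le_ofReal (mul_le_mul_of_nonneg_right ?_ (by positivity))
    rw [inv_mul_le_iff₀ hv0, hvd]
    have b4 : 16 * C * r * r ≤ c₀ * ε ^ 2 := by
      nlinarith [mul_le_mul_of_nonneg_left hr1 (by positivity : 0 ≤ 16 * C * r)]
    nlinarith [mul_le_mul_of_nonneg_left b4 (by positivity : 0 ≤ r ^ 4)]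
  · have hi := G.B.integrable_cont hu.continuous
    have b1 := G.B.integral_norm_mul_le (G.B.memLp_cont (continuous_const (y := (1 : ℝ))) 2)
      (G.B.memLp_cont hu.continuous 2)
    simp only [norm_one, one_mul] at b1
    rw [norm_smul, mul_assoc, Real.norm_of_nonneg (by positivity)]
    refine mul_le_mul (inv_anti₀ hv0 (hB j)) ((norm_integral_le_integral_norm _).trans
      (le_trans ?_ b1)) (norm_nonneg _) (by positivity)
    exact setIntegral_le_integral hi.norm (Eventually.of_forall fun _ => norm_nonneg _)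

end Geo

end Crest.Agent.R240
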