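import Crest.Agent.R240.EllGlue
import Crest.Agent.R240.Poinc

/-! Row 240: solving `(dζ)⁻ = h` up to a finite dimensional space, and the estimate (E). -/

set_option autoImplicit false

open scoped ContDiff RealInnerProductSpace Topology
open MeasureTheory Set Filter

noncomputable section

namespace Crest.Agent.R240

variable {N : ℕ}

theorem ellglob_Hn_sub_comm (B : Base N) (j : ℕ) {u v : A N → E2 N} (hu : ContDiff ℝ ∞ u)
    (hv : ContDiff ℝ ∞ v) : B.Hn 1 j (fun x => u x - v x) = B.Hn 1 j (fun x => v x - u x) := by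
  have h := B.Hn_const_smul 1 j (-1) (hv.sub hu)
  simpa using h

theorem ellglob_Hn_const (B : Base N) (j : ℕ) (c : E2 N) :
    B.Hn 1 j (fun _ => c) ≤ B.L2 (fun _ => (1 : ℝ)) * ‖c‖ := by
  have h : B.L2 (fun _ => c) ≤ ‖c‖ * B.L2 (fun _ => (1 : ℝ)) :=
    B.L2_le_mul aestronglyMeasurable_const (B.memLp_cont continuous_const 2) (norm_nonneg c)
      fun _ _ => by simp
  rw [mul_comm] at h
  cases j with
  | zero => rwa [B.Hn_zero]
  | succ j =>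
    have h0 : ∀ k, D B.π k (fun _ => c) = fun _ => 0 := fun k => by
      funext x
      simp [D]
    rw [B.Hn_succ]
    simpa [h0, B.Hn_zero_fun] using h

theorem ellglob_Hn_comb (B : Base N) (j : ℕ) {n : ℕ} {ψ : Fin n → A N → ℝ}
    (hψ : ∀ i, ContDiff ℝ ∞ (ψ i)) : ∃ K, 0 ≤ K ∧ ∀ (c : Fin n → E2 N) (a : ℝ), 0 ≤ a →
      (∀ i, ‖c i‖ ≤ a) → B.Hn 1 j (fun x => ∑ i, ψ i x • c i) ≤ K * a := by
  choose K hK0 hK using fun i => B.Hn_smul' (E := E2 N) j (hψ i)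
  have hL := B.L2_nonneg (fun _ => (1 : ℝ))
  refine ⟨(∑ i, K i) * B.L2 (fun _ => (1 : ℝ)),
    mul_nonneg (Finset.sum_nonneg fun i _ => hK0 i) hL, fun c a ha hc => ?_⟩
  refine (B.Hn_sum_le zero_le_one j Finset.univ (u := fun i x => ψ i x • c i)
    fun i => (hψ i).smul contDiff_const).trans ?_
  rw [mul_assoc, Finset.sum_mul]
  refine Finset.sum_le_sum fun i _ => (hK i 1 _ zero_le_one le_rfl contDiff_const).trans ?_
  refine mul_le_mul_of_nonneg_left ((ellglob_Hn_const B j (c i)).trans ?_) (hK0 i)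
  exact mul_le_mul_of_nonneg_left (hc i) hL

theorem ellglob_pb_d1 (T : A N →L[ℝ] A N) (ζ : A N → A N) (x : A N) (p : Fin N × Fin N) :
    pb T (d1 ζ x) p = (⟪fderiv ℝ ζ x (T (eb p.1)), T (eb p.2)⟫ -
      ⟪fderiv ℝ ζ x (T (eb p.2)), T (eb p.1)⟫) / 2 := by
  have h := (anti_pb T (d1 ζ x)).ev_eb p.1 p.2
  rw [ev_pb, ev_d1] at h
  rw [h]
  ring

theorem ellglob_hasSum_pb (T : A N →L[ℝ] A N) {u : ℕ → A N → A N} {U : A N → A N} {x : A N}
    (h : ∀ v, HasSum (fun m => fderiv ℝ (u m) x (T v)) (fderiv ℝ U x (T v))) :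
    HasSum (fun m => pb T (d1 (u m) x)) (pb T (d1 U x)) := by
  rw [← (EuclideanSpace.equiv (Fin N × Fin N) ℝ).hasSum', Pi.hasSum]
  intro p
  change HasSum (fun m => pb T (d1 (u m) x) p) (pb T (d1 U x) p)
  simp only [ellglob_pb_d1]
  have h1 : ∀ v w, HasSum (fun m => ⟪fderiv ℝ (u m) x (T v), w⟫) ⟪fderiv ℝ U x (T v), w⟫ := by
    intro v w
    simp only [real_inner_comm w]
    exact (h v).mapL (innerSL ℝ w)
  exact ((h1 _ _).sub (h1 _ _)).div_const 2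

namespace Geo
variable (G : Geo N)

/-- One step: `s` from `ell_glue`, `e = h - Pm (d1 s)`, `c` from `finite_rank` applied to `e` with
`ε` small, `h' = Pm (e - ∑ ψ j • c j)`. -/
theorem ell_step : ∃ (n : ℕ) (ψ : Fin n → A N → ℝ) (C : ℕ → ℝ), (∀ j, ContDiff ℝ ∞ (ψ j)) ∧
    (∀ k, 0 ≤ C k) ∧ ∀ (K : ℕ) (h : A N → E2 N), ContDiff ℝ ∞ h →
      (∀ x ∈ G.S, G.Pm x (h x) = h x) →
      ∃ (s : A N → A N) (c : Fin n → E2 N) (h' : A N → E2 N), ContDiff ℝ ∞ s ∧ ContDiff ℝ ∞ h' ∧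
        (∀ x ∈ G.S, G.Pm x (h' x) = h' x) ∧
        (∀ x ∈ G.S, G.Pm x (d1 s x) + G.Pm x (∑ j, ψ j x • c j) + h' x = h x) ∧
        G.B.L2 h' ≤ G.B.L2 h / 2 ∧ (∀ j, ‖c j‖ ≤ C 0 * G.B.L2 h) ∧
        ∀ k, G.B.Hn 1 (k + 1) s ≤ C k * G.B.Hn 1 k h ∧
          (k ≤ K → G.B.Hn 1 (k + 1) h' ≤ C k * G.B.Hn 1 k h) := by
  obtain ⟨C₁, hC₁, hg⟩ := G.ell_glue
  choose KP hKP0 hKP using fun j => G.B.Hn_clm_apply' j G.Pm_sm
  have p0 := hKP0 0
  have p1 := hC₁ 0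
  obtain ⟨n, ψ, C₂, hC₂, hψ, hf⟩ := G.finite_rank (E := E2 N)
    (ε := 1 / (2 * (KP 0 + 1) * (C₁ 0 + 1))) (by positivity)
  choose Kψ hKψ0 hKψ using fun j => ellglob_Hn_comb G.B j hψ
  have q1 : ∀ k, 0 ≤ KP (k + 1) * (C₁ k + Kψ (k + 1) * (C₂ * C₁ 0)) := fun k =>
    mul_nonneg (hKP0 _) (add_nonneg (hC₁ k) (mul_nonneg (hKψ0 _) (mul_nonneg hC₂ p1)))
  have q2 : 0 ≤ C₂ * C₁ 0 := mul_nonneg hC₂ p1
  refine ⟨n, ψ, fun k => C₁ k + C₂ * C₁ 0 + KP (k + 1) * (C₁ k + Kψ (k + 1) * (C₂ * C₁ 0)), hψ,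
    fun k => add_nonneg (add_nonneg (hC₁ k) q2) (q1 k), fun K h hh hPm => ?_⟩
  obtain ⟨s, hs, hsb⟩ := hg K h hh hPm
  have hd : ContDiff ℝ ∞ fun x => G.Pm x (d1 s x) := G.Pm_sm.clm_apply (contDiff_d1 hs)
  have he : ContDiff ℝ ∞ fun x => h x - G.Pm x (d1 s x) := hh.sub hd
  have heb : ∀ k, k ≤ K →
      G.B.Hn 1 (k + 1) (fun x => h x - G.Pm x (d1 s x)) ≤ C₁ k * G.B.Hn 1 k h := by
    intro k hk
    rw [ellglob_Hn_sub_comm G.B _ hh hd]
    exact (hsb k).2 hk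
  have he0 := heb 0 (Nat.zero_le K)
  rw [G.B.Hn_zero] at he0
  obtain ⟨c, hc1, hc2⟩ := hf _ he
  have hL := G.B.L2_nonneg h
  have hcb : ∀ j, ‖c j‖ ≤ C₂ * C₁ 0 * G.B.L2 h := fun j => by
    refine (hc2 j).trans ?_
    rw [mul_assoc]
    exact mul_le_mul_of_nonneg_left ((G.B.L2_le_Hn zero_le_one _ _).trans he0) hC₂
  have hψc : ContDiff ℝ ∞ fun x => ∑ j, ψ j x • c j :=
    ContDiff.sum fun j _ => (hψ j).smul contDiff_const
  have hr : ContDiff ℝ ∞ fun x => h x - G.Pm x (d1 s x) - ∑ j, ψ j x • c j := he.sub hψc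
  refine ⟨s, c, fun x => G.Pm x (h x - G.Pm x (d1 s x) - ∑ j, ψ j x • c j), hs,
    G.Pm_sm.clm_apply hr, fun x hx => Pre.Pm_Pm hx _, fun x hx => ?_, ?_, fun j => ?_,
    fun k => ⟨?_, fun hk => ?_⟩⟩
  · beta_reduce
    rw [map_sub, map_sub, Pre.Pm_Pm hx, hPm x hx]
    abel
  · have h1 := hKP 0 1 _ zero_le_one le_rfl hr
    rw [G.B.Hn_zero, G.B.Hn_zero] at h1
    refine h1.trans ?_
    calc KP 0 * G.B.L2 (fun x => h x - G.Pm x (d1 s x) - ∑ j, ψ j x • c j)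
        ≤ (KP 0 + 1) * (1 / (2 * (KP 0 + 1) * (C₁ 0 + 1)) * ((C₁ 0 + 1) * G.B.L2 h)) := by
          refine mul_le_mul (by linarith) (hc1.trans ?_) (G.B.L2_nonneg _) (by linarith)
          refine mul_le_mul_of_nonneg_left (he0.trans ?_) (by positivity)
          nlinarith
      _ = G.B.L2 h / 2 := by field_simp
  · refine (hcb j).trans (mul_le_mul_of_nonneg_right ?_ hL)
    linarith [q1 0]
  · refine (hsb k).1.trans (mul_le_mul_of_nonneg_right ?_ (G.B.Hn_nonneg zero_le_one _ _))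
    linarith [q1 k]
  · have hH := G.B.Hn_nonneg zero_le_one k h
    have h1 := hKP (k + 1) 1 _ zero_le_one le_rfl hr
    have h2 := G.B.Hn_sub_le zero_le_one (k + 1) he hψc
    have h3 := hKψ (k + 1) c (C₂ * C₁ 0 * G.B.Hn 1 k h) (mul_nonneg q2 hH) fun j =>
      (hcb j).trans (mul_le_mul_of_nonneg_left (G.B.L2_le_Hn zero_le_one k h) q2)
    have h4 := heb k hk
    have h5 : G.B.Hn 1 (k + 1) (fun x => h x - G.Pm x (d1 s x) - ∑ j, ψ j x • c j) ≤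
        (C₁ k + Kψ (k + 1) * (C₂ * C₁ 0)) * G.B.Hn 1 k h := by linarith
    have h6 := mul_le_mul_of_nonneg_left h5 (hKP0 (k + 1))
    have h7 := mul_nonneg (add_nonneg (hC₁ k) q2) hH
    linarith

/-- Iterate `ell_step` (with `K = n + 4` at step `n`): `Hn 1 k hₙ ≤ C'ₖ 2⁻ⁿ L2 h` for `n ≥ k`
and `Hn 1 4 hₙ ≤ C 2⁻ⁿ Hn 1 4 h` for all `n`. Sum `sₙ` with `smooth_sum`; `hₙ → 0` on `S` and
`‖Pt (d1 sₙ)‖ ≤ C Hn 1 5 sₙ` by `embed` and `Base.Hn_d1_le`. -/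
theorem ell_solve : ∃ (n : ℕ) (ψ : Fin n → A N → ℝ) (C : ℝ), (∀ j, ContDiff ℝ ∞ (ψ j)) ∧ 0 ≤ C ∧
    ∀ h : A N → E2 N, ContDiff ℝ ∞ h → (∀ x ∈ G.S, G.Pm x (h x) = h x) →
      ∃ (s : A N → A N) (c : Fin n → E2 N), ContDiff ℝ ∞ s ∧
        (∀ x ∈ G.S, G.Pm x (d1 s x) + G.Pm x (∑ j, ψ j x • c j) = h x) ∧
        (∀ x ∈ G.S, ‖G.Pt x (d1 s x)‖ ≤ C * G.B.Hn 1 4 h) ∧ ∀ j, ‖c j‖ ≤ C * G.B.Hn 1 4 h := by
  obtain ⟨n, ψ, C, hψ, hC, hstep⟩ := G.ell_step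
  obtain ⟨Ce, hCe0, hCe⟩ := G.embed (E := E2 N)
  obtain ⟨Cd, hCd0, hCd⟩ := G.B.Hn_d1_le 4
  obtain ⟨Dk, hD0, hDs⟩ : ∃ Dk : ℕ → ℝ, Dk 0 = 1 ∧ ∀ k, Dk (k + 1) = 1 + 2 * C k * Dk k :=
    ⟨fun k => Nat.rec 1 (fun k d => 1 + 2 * C k * d) k, rfl, fun _ => rfl⟩
  have hD1 : ∀ k, 1 ≤ Dk k := by
    intro k
    induction k with
    | zero => exact hD0.ge
    | succ k ih =>
      have := hC k
      rw [hDs]
      nlinarith
  have r1 : 0 ≤ Ce * Cd * C 4 * Dk 4 :=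
    mul_nonneg (mul_nonneg (mul_nonneg hCe0 hCd0) (hC 4)) (zero_le_one.trans (hD1 4))
  refine ⟨n, ψ, 2 * (Ce * Cd * C 4 * Dk 4) + 2 * C 0, hψ, by linarith [hC 0], fun h hh hPm => ?_⟩
  let T := {h : A N → E2 N // ContDiff ℝ ∞ h ∧ ∀ x ∈ G.S, G.Pm x (h x) = h x}
  choose s c h' hs hh' hPm' heq hL2 hc hHn using fun (K : ℕ) (u : T) => hstep K u.1 u.2.1 u.2.2
  obtain ⟨H, hH0, hHs⟩ : ∃ H : ℕ → T, (H 0).1 = h ∧ ∀ m, (H (m + 1)).1 = h' (m + 4) (H m) :=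
    ⟨fun m => Nat.rec ⟨h, hh, hPm⟩ (fun m u => ⟨h' (m + 4) u, hh' _ _, hPm' _ _⟩) m, rfl,
      fun _ => rfl⟩
  set a := G.B.Hn 1 4 h with ha
  have ha0 : 0 ≤ a := G.B.Hn_nonneg zero_le_one _ _
  have hL : ∀ m, G.B.L2 (H m).1 ≤ a * (1 / 2) ^ m := by
    intro m
    induction m with
    | zero => simpa [hH0] using G.B.L2_le_Hn zero_le_one 4 h
    | succ m ih =>
      rw [hHs, pow_succ]
      linarith [hL2 (m + 4) (H m)]
  have hK : ∀ k m, k ≤ m + 4 → G.B.Hn 1 k (H m).1 ≤ Dk k * a * (1 / 2) ^ m := by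
    intro k
    induction k with
    | zero =>
      intro m _
      rw [G.B.Hn_zero, hD0, one_mul]
      exact hL m
    | succ k ih =>
      intro m hm
      cases m with
      | zero =>
        rw [hH0, pow_zero, mul_one]
        exact (G.B.Hn_mono_order zero_le_one hm h).trans (le_mul_of_one_le_left ha0 (hD1 _))
      | succ m =>
        have h1 := (hHn (m + 4) (H m) k).2 (by omega)
        have h2 := mul_le_mul_of_nonneg_left (ih m (by omega)) (hC k)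
        have h3 : 0 ≤ a * (1 / 2 : ℝ) ^ m := by positivity
        rw [hHs, hDs, pow_succ]
        nlinarith
  have hgeo : ∀ b : ℝ, HasSum (fun m : ℕ => b * (1 / 2 : ℝ) ^ m) (b * 2) := fun b =>
    hasSum_geometric_two.mul_left b
  have hsb : ∀ k m, k ≤ m + 4 →
      G.B.Hn 1 (k + 1) (s (m + 4) (H m)) ≤ C k * Dk k * a * (1 / 2) ^ m := by
    intro k m hk
    have h1 := (hHn (m + 4) (H m) k).1
    have h2 := mul_le_mul_of_nonneg_left (hK k m hk) (hC k)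
    linarith
  obtain ⟨U, hU, hUs⟩ := G.smooth_sum (u := fun m => s (m + 4) (H m)) (fun m => hs _ _) (fun j => by
    refine Summable.of_norm_bounded_eventually_nat (hgeo (C j * Dk j * a)).summable ?_
    filter_upwards [eventually_ge_atTop j] with m hm
    rw [Real.norm_of_nonneg (G.B.Hn_nonneg zero_le_one _ _)]
    exact (G.B.Hn_mono_order zero_le_one (Nat.le_succ j) _).trans (hsb j m (by omega)))
  have hcb : ∀ j m, ‖c (m + 4) (H m) j‖ ≤ C 0 * a * (1 / 2) ^ m := fun j m => by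
    refine (hc _ _ j).trans ?_
    rw [mul_assoc]
    exact mul_le_mul_of_nonneg_left (hL m) (hC 0)
  have hcs : ∀ j, HasSum (fun m => c (m + 4) (H m) j) (∑' m, c (m + 4) (H m) j) := fun j =>
    (Summable.of_norm_bounded (hgeo (C 0 * a)).summable (hcb j)).hasSum
  have hPt : ∀ x ∈ G.S, HasSum (fun m => G.Pt x (d1 (s (m + 4) (H m)) x)) (G.Pt x (d1 U x)) :=
    fun x hx => ellglob_hasSum_pb (G.π x) (hUs x hx).2
  refine ⟨U, fun j => ∑' m, c (m + 4) (H m) j, hU, fun x hx => ?_, fun x hx => ?_, fun j => ?_⟩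
  · have h1 := (hPt x hx).mapL (G.Pm x)
    simp only [Pre.Pm_Pt hx] at h1
    have h2 := (hasSum_sum (s := Finset.univ) fun j _ => (hcs j).const_smul (ψ j x)).mapL (G.Pm x)
    have h3 := (h1.add h2).tendsto_sum_nat
    have h4 : ∀ m, G.Pm x (d1 (s (m + 4) (H m)) x) + G.Pm x (∑ j, ψ j x • c (m + 4) (H m) j) =
        (H m).1 x - (H (m + 1)).1 x := fun m => by
      rw [hHs, ← heq (m + 4) (H m) x hx]
      abel
    simp only [h4, Finset.sum_range_sub' (fun m => (H m).1 x), hH0] at h3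
    have h5 : Tendsto (fun m => (H m).1 x) atTop (𝓝 0) := by
      refine squeeze_zero_norm (a := fun m : ℕ => Ce * (Dk 4 * a) * (1 / 2 : ℝ) ^ m) (fun m => ?_)
        (hgeo _).summable.tendsto_atTop_zero
      refine (hCe _ (H m).2.1 x hx).trans ?_
      rw [mul_assoc]
      exact mul_le_mul_of_nonneg_left (hK 4 m (by omega)) hCe0
    have h6 := (tendsto_const_nhds (x := h x)).sub h5
    rw [sub_zero] at h6
    exact tendsto_nhds_unique h3 h6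
  · have h1 := (hPt x hx).norm_le_of_bounded (hgeo (Ce * Cd * C 4 * Dk 4 * a)) fun m => by
      refine (hCe (fun x => G.Pt x (d1 (s (m + 4) (H m)) x))
        (G.Pt_sm.clm_apply (contDiff_d1 (hs _ _))) x hx).trans ?_
      have h2 := (hCd _ (hs (m + 4) (H m))).trans
        (mul_le_mul_of_nonneg_left (hsb 4 m (by omega)) hCd0)
      have h3 := mul_le_mul_of_nonneg_left h2 hCe0
      exact h3.trans_eq (by ring)
    have h2 := mul_nonneg (hC 0) ha0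
    linarith
  · have h1 := (hcs j).norm_le_of_bounded (hgeo (C 0 * a)) (hcb j)
    have h2 := mul_nonneg r1 ha0
    linarith

/-- smooth closed forms -/
def ellglobCS : Submodule ℝ (A N → E2 N) where
  carrier := {ξ | ContDiff ℝ ∞ ξ ∧ G.Closed ξ}
  add_mem' := fun {u v} hu hv => ⟨hu.1.add hv.1, fun x hx a b c ha hb hc => by
    have := d2_add hu.1 hv.1 x a b c
    rw [hu.2 x hx a b c ha hb hc, hv.2 x hx a b c ha hb hc, add_zero] at this
    exact this⟩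
  zero_mem' := ⟨contDiff_const, fun x _ a b c _ _ _ => by simp [d2, ev]⟩
  smul_mem' := fun r u hu => ⟨hu.1.const_smul r, fun x hx a b c ha hb hc => by
    have := d2_smul r hu.1 x a b c
    rw [hu.2 x hx a b c ha hb hc, mul_zero] at this
    exact this⟩

theorem ellglob_section {n : ℕ} (ψ : Fin n → A N → ℝ) : ∃ C, 0 ≤ C ∧
    ∀ (c : Fin n → E2 N), (∃ ξ ∈ G.ellglobCS, ∀ x ∈ G.S, G.Pm x (∑ j, ψ j x • c j) = G.Pm x (ξ x)) →
      ∃ ξ ∈ G.ellglobCS, (∀ x ∈ G.S, G.Pm x (∑ j, ψ j x • c j) = G.Pm x (ξ x)) ∧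
        ∀ x ∈ G.S, ‖ξ x‖ ≤ C * ‖c‖ := by
  let Y : Submodule ℝ (Fin n → E2 N) :=
    { carrier := {c | ∃ ξ ∈ G.ellglobCS, ∀ x ∈ G.S, G.Pm x (∑ j, ψ j x • c j) = G.Pm x (ξ x)}
      add_mem' := by
        rintro c c' ⟨ξ, h1, h2⟩ ⟨ξ', h1', h2'⟩
        refine ⟨ξ + ξ', add_mem h1 h1', fun x hx => ?_⟩
        simp only [Pi.add_apply, smul_add, Finset.sum_add_distrib, map_add, h2 x hx, h2' x hx]
      zero_mem' := ⟨0, zero_mem _, fun x _ => by simp⟩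
      smul_mem' := by
        rintro r c ⟨ξ, h1, h2⟩
        refine ⟨r • ξ, Submodule.smul_mem _ r h1, fun x hx => ?_⟩
        simp only [Pi.smul_apply, smul_comm _ r, ← Finset.smul_sum, map_smul, h2 x hx] }
  let b := Module.finBasis ℝ Y
  choose ξ hξ1 hξ2 using fun i => (b i).2
  choose M hM using fun i =>
    G.cpt.exists_bound_of_continuousOn (hξ1 i).1.continuous.continuousOn
  let L : Fin (Module.finrank ℝ Y) → Y →L[ℝ] ℝ := fun i =>
    LinearMap.toContinuousLinearMap (b.coord i)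
  refine ⟨∑ i, ‖L i‖ * |M i|, Finset.sum_nonneg fun i _ => by positivity, fun c hc => ?_⟩
  let y : Y := ⟨c, hc⟩
  refine ⟨∑ i, b.repr y i • ξ i,
    Submodule.sum_mem _ fun i _ => Submodule.smul_mem _ _ (hξ1 i), fun x hx => ?_, fun x hx => ?_⟩
  · have h1 : ∀ j, c j = ∑ i, b.repr y i • (b i : Fin n → E2 N) j := fun j => by
      have := congrArg (fun z : Y => (z : Fin n → E2 N) j) (b.sum_repr y)
      simpa only [Submodule.coe_sum, Submodule.coe_smul, Finset.sum_apply, Pi.smul_apply]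
        using this.symm
    have h2 : ∑ j, ψ j x • c j = ∑ i, b.repr y i • ∑ j, ψ j x • (b i : Fin n → E2 N) j := by
      simp only [h1, Finset.smul_sum]
      rw [Finset.sum_comm]
      exact Finset.sum_congr rfl fun i _ => Finset.sum_congr rfl fun j _ => smul_comm _ _ _
    rw [h2, Finset.sum_apply, map_sum, map_sum]
    refine Finset.sum_congr rfl fun i _ => ?_
    rw [map_smul, hξ2 i x hx, Pi.smul_apply, map_smul]
  · rw [Finset.sum_apply, Finset.sum_mul]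
    refine (norm_sum_le _ _).trans (Finset.sum_le_sum fun i _ => ?_)
    rw [Pi.smul_apply, norm_smul, mul_right_comm]
    exact mul_le_mul ((L i).le_opNorm y) ((hM i x hx).trans (le_abs_self _)) (norm_nonneg _)
      (by positivity)

/-- The estimate (E). The coefficient vectors `c` such that `Pm (∑ ψ j • c j) = Pm ξ` on `S` for a
smooth closed `ξ` form a subspace `Y` of the finite dimensional space `Fin n → E2 N`; choosing `ξ`
on a basis of `Y` gives `ξ` with `sup_S ‖ξ‖ ≤ C ‖c‖`. For `η` closed, `h = Pm η`: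
`η' = η - d1 s - ξ`. -/
theorem ell_main : ∃ C, 0 ≤ C ∧ ∀ η : A N → E2 N, ContDiff ℝ ∞ η → G.Closed η →
    ∃ η' : A N → E2 N, ContDiff ℝ ∞ η' ∧ G.Closed η' ∧ (∀ x ∈ G.S, G.Pm x (η' x) = 0) ∧
      ∀ z ∈ G.SM, |G.fv η z - G.fv η' z| ≤ C * G.B.Hn 1 4 (fun x => G.Pm x (η x)) := by
  obtain ⟨n, ψ, C, hψ, hC, hsol⟩ := G.ell_solve
  obtain ⟨C', hC', hsec⟩ := G.ellglob_section ψ
  obtain ⟨M, hM⟩ := G.SM_compact.exists_bound_of_continuousOn G.Lb_sm.continuous.continuousOn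
  refine ⟨(C + C' * C) * |M|, by positivity, fun η hη hcl => ?_⟩
  obtain ⟨s, c, hs, h1, h2, h3⟩ := hsol (fun x => G.Pm x (η x)) (G.Pm_sm.clm_apply hη)
    fun x hx => Pre.Pm_Pm hx _
  have m1 : η ∈ G.ellglobCS := ⟨hη, hcl⟩
  have m2 : d1 s ∈ G.ellglobCS := ⟨contDiff_d1 hs, Pre.Closed_d1 hs⟩
  obtain ⟨ξ, m3, h4, h5⟩ := hsec c ⟨η - d1 s, sub_mem m1 m2, fun x hx => by
    rw [Pi.sub_apply, map_sub, ← h1 x hx]
    abel⟩
  have m4 := sub_mem (sub_mem m1 m2) m3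
  set a := G.B.Hn 1 4 (fun x => G.Pm x (η x)) with ha
  have ha0 : 0 ≤ a := G.B.Hn_nonneg zero_le_one _ _
  refine ⟨η - d1 s - ξ, m4.1, m4.2, fun x hx => ?_, fun z hz => ?_⟩
  · rw [Pi.sub_apply, Pi.sub_apply, map_sub, map_sub, ← h1 x hx, ← h4 x hx]
    abel
  · have e : G.fv η z - G.fv (η - d1 s - ξ) z = ⟪G.Pt z.1 (d1 s z.1) + ξ z.1, G.Lb z⟫ := by
      rw [inner_add_left, ← ContinuousLinearMap.adjoint_inner_right, Pre.adjoint_Pt_Lb hz]
      simp only [Pre.fv, Pi.sub_apply, inner_sub_left]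
      ring
    have hc : ‖c‖ ≤ C * a := (pi_norm_le_iff_of_nonneg (mul_nonneg hC ha0)).2 h3
    have h6 : ‖G.Pt z.1 (d1 s z.1) + ξ z.1‖ ≤ (C + C' * C) * a := by
      have h7 := (h5 z.1 hz.1).trans (mul_le_mul_of_nonneg_left hc hC')
      have h8 := h2 z.1 hz.1
      have h9 := norm_add_le (G.Pt z.1 (d1 s z.1)) (ξ z.1)
      linarith
    rw [e, mul_right_comm]
    exact (abs_real_inner_le_norm _ _).trans
      (mul_le_mul h6 ((hM z hz).trans (le_abs_self _)) (norm_nonneg _) (by positivity))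

end Geo

end Crest.Agent.R240
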