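import Crest.Agent.R240.Vol

/-! Row 240: comparison of Sobolev norms in charts. -/

set_option autoImplicit false

open scoped ContDiff RealInnerProductSpace Topology
open MeasureTheory Set Filter

noncomputable section

namespace Crest.Agent.R240

variable {N : ℕ} {E : Type} [NormedAddCommGroup E] [NormedSpace ℝ E]

theorem embedb_ofReal_L2_sq {M : ℕ} (B : Base M) {u : A M → E} (hu : Continuous u) :
    ENNReal.ofReal (B.L2 u ^ 2) = ∫⁻ x, ENNReal.ofReal (‖u x‖ ^ 2) ∂B.m := by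
  rw [B.L2_sq (B.memLp_cont hu 2)]
  exact ofReal_integral_eq_lintegral_ofReal (B.integrable_cont (by fun_prop))
    (Eventually.of_forall fun x => by positivity)

theorem embedb_le_of_sq {a b C : ℝ} (hb : 0 ≤ b) (hC : 0 ≤ C) (h : a ^ 2 ≤ C * b ^ 2) :
    a ≤ √C * b := by
  have h1 : (√C * b) ^ 2 = C * b ^ 2 := by rw [mul_pow, Real.sq_sqrt hC]
  exact abs_le_of_sq_le_sq' (by rw [h1]; exact h) (by positivity) |>.2

namespace Geo
variable (G : Geo N)

theorem embedb_L2_chart_le (c : G.Chart) {p₀ : A 4} {r : ℝ} (hr : 0 < r)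
    (hU : Metric.closedBall p₀ r ⊆ c.U) : ∃ C, 0 ≤ C ∧ ∀ u : A N → E, Continuous u →
      (ballBase p₀ r).L2 (fun p => u (c.ψ p)) ≤ C * G.B.L2 u := by
  have hpf : Continuous c.pf := c.toRawChart.pf_sm.continuous
  obtain ⟨q, hq, hmin⟩ := (isCompact_closedBall p₀ r).exists_isMinOn
    ⟨p₀, Metric.mem_closedBall_self hr.le⟩ hpf.continuousOn
  have hδ : 0 < c.pf q := c.pf_pos q (hU hq)
  refine ⟨√((c.pf q)⁻¹), Real.sqrt_nonneg _, fun u hu => ?_⟩
  have hψ : Continuous c.ψ := c.ψ_sm.continuous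
  refine embedb_le_of_sq (G.B.L2_nonneg u) (inv_nonneg.2 hδ.le) ?_
  rw [inv_mul_eq_div, le_div_iff₀ hδ, mul_comm]
  rw [← ENNReal.ofReal_le_ofReal_iff (sq_nonneg _), ENNReal.ofReal_mul hδ.le,
    embedb_ofReal_L2_sq _ (hu.comp' hψ), embedb_ofReal_L2_sq _ hu]
  have hm : Measurable fun x => ENNReal.ofReal (‖u x‖ ^ 2) :=
    ENNReal.measurable_ofReal.comp (by fun_prop : Continuous fun x => ‖u x‖ ^ 2).measurable
  calc ENNReal.ofReal (c.pf q) * ∫⁻ p, ENNReal.ofReal (‖u (c.ψ p)‖ ^ 2) ∂(ballBase p₀ r).m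
      = ∫⁻ p in Metric.closedBall p₀ r,
          ENNReal.ofReal (c.pf q) * ENNReal.ofReal (‖u (c.ψ p)‖ ^ 2) := by
        rw [lintegral_const_mul' _ _ ENNReal.ofReal_ne_top]; rfl
    _ ≤ ∫⁻ p in Metric.closedBall p₀ r,
          ENNReal.ofReal (c.pf p) * ENNReal.ofReal (‖u (c.ψ p)‖ ^ 2) := by
        refine setLIntegral_mono' measurableSet_closedBall fun p hp => ?_
        gcongr
        exact hmin hp
    _ ≤ ∫⁻ p in c.U, ENNReal.ofReal (c.pf p) * ENNReal.ofReal (‖u (c.ψ p)‖ ^ 2) :=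
        lintegral_mono_set hU
    _ = ∫⁻ x in c.W, ENNReal.ofReal (‖u x‖ ^ 2) ∂G.m := (G.lintegral_chart c hm).symm
    _ ≤ ∫⁻ x, ENNReal.ofReal (‖u x‖ ^ 2) ∂G.B.m := setLIntegral_le_lintegral _ _

theorem embedb_L2_le_chart (c : G.Chart) {p₀ : A 4} {r : ℝ} (hr : 0 < r)
    (hU : Metric.closedBall p₀ r ⊆ c.U) : ∃ C, 0 ≤ C ∧ ∀ u : A N → E, Continuous u →
      (∀ x ∈ G.S, x ∉ c.ψ '' Metric.closedBall p₀ r → u x = 0) →
      G.B.L2 u ≤ C * (ballBase p₀ r).L2 (fun p => u (c.ψ p)) := by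
  have hpf : Continuous c.pf := c.toRawChart.pf_sm.continuous
  obtain ⟨q, hq, hmax⟩ := (isCompact_closedBall p₀ r).exists_isMaxOn
    ⟨p₀, Metric.mem_closedBall_self hr.le⟩ hpf.continuousOn
  have hδ : 0 < c.pf q := c.pf_pos q (hU hq)
  refine ⟨√(c.pf q), Real.sqrt_nonneg _, fun u hu h0 => ?_⟩
  have hψ : Continuous c.ψ := c.ψ_sm.continuous
  refine embedb_le_of_sq ((ballBase p₀ r).L2_nonneg _) hδ.le ?_
  rw [← ENNReal.ofReal_le_ofReal_iff (by positivity), ENNReal.ofReal_mul hδ.le,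
    embedb_ofReal_L2_sq _ (hu.comp' hψ), embedb_ofReal_L2_sq _ hu]
  have hm : Measurable fun x => ENNReal.ofReal (‖u x‖ ^ 2) :=
    ENNReal.measurable_ofReal.comp (by fun_prop : Continuous fun x => ‖u x‖ ^ 2).measurable
  calc ∫⁻ x, ENNReal.ofReal (‖u x‖ ^ 2) ∂G.B.m
      = ∫⁻ x in c.W, ENNReal.ofReal (‖u x‖ ^ 2) ∂G.m := by
        rw [← lintegral_indicator c.W_open.measurableSet]
        refine lintegral_congr_ae ?_
        filter_upwards [G.B.ae_mem] with x hx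
        by_cases hW : x ∈ c.W
        · rw [indicator_of_mem hW]
        · rw [indicator_of_notMem hW, h0 x hx]
          · simp
          · rintro ⟨p, hp, rfl⟩
            exact hW (c.ψ_W p (hU hp))
    _ = ∫⁻ p in c.U, ENNReal.ofReal (c.pf p) * ENNReal.ofReal (‖u (c.ψ p)‖ ^ 2) :=
        G.lintegral_chart c hm
    _ ≤ ∫⁻ p in Metric.closedBall p₀ r,
          ENNReal.ofReal (c.pf q) * ENNReal.ofReal (‖u (c.ψ p)‖ ^ 2) := by
        rw [← lintegral_indicator c.U_open.measurableSet,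
          ← lintegral_indicator measurableSet_closedBall]
        refine lintegral_mono fun p => ?_
        by_cases hp : p ∈ Metric.closedBall p₀ r
        · rw [indicator_of_mem hp, indicator_of_mem (hU hp)]
          gcongr
          exact hmax hp
        · rw [indicator_of_notMem hp]
          by_cases hpU : p ∈ c.U
          · rw [indicator_of_mem hpU, h0 _ (c.ψ_S p hpU)]
            · simp
            · rintro ⟨p', hp', he⟩
              exact hp (c.toRawChart.injOn (hU hp') hpU he ▸ hp')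
          · rw [indicator_of_notMem hpU]
    _ = ENNReal.ofReal (c.pf q) * ∫⁻ p, ENNReal.ofReal (‖u (c.ψ p)‖ ^ 2) ∂(ballBase p₀ r).m := by
        rw [lintegral_const_mul' _ _ ENNReal.ofReal_ne_top]; rfl

/-- by induction on `j`, with `RawChart.D_comp'` and `Base.Hn_clm_apply'` on the ball -/
theorem Hn_chart_le (c : G.Chart) {p₀ : A 4} {r : ℝ} (hr : 0 < r)
    (hU : Metric.closedBall p₀ r ⊆ c.U) (j : ℕ) : ∃ C, 0 ≤ C ∧ ∀ u : A N → E, ContDiff ℝ ∞ u →
      (ballBase p₀ r).Hn 1 j (fun p => u (c.ψ p)) ≤ C * G.B.Hn 1 j u := by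
  obtain ⟨C₀, hC₀, h₀⟩ := G.embedb_L2_chart_le (E := E) c hr hU
  induction j with
  | zero =>
    refine ⟨C₀, hC₀, fun u hu => ?_⟩
    rw [Base.Hn_zero, Base.Hn_zero]
    exact h₀ u hu.continuous
  | succ j ih =>
    obtain ⟨C, hC, h⟩ := ih
    have ha : ∀ (i : Fin 4) (k : Fin N),
        ContDiff ℝ ∞ fun p : A 4 => fderiv ℝ c.ψ p (eb i) k := by
      intro i k
      have h1 : ContDiff ℝ ∞ fun p : A 4 => fderiv ℝ c.ψ p (eb i) :=
        (c.ψ_sm.fderiv_right (m := ∞) le_rfl).clm_apply contDiff_const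
      exact (EuclideanSpace.proj k : A N →L[ℝ] ℝ).contDiff.comp h1
    choose K hK hKb using fun (i : Fin 4) (k : Fin N) =>
      (ballBase p₀ r).Hn_smul' (E := E) j (ha i k)
    refine ⟨C₀ + ∑ i, ∑ k, K i k * C, add_nonneg hC₀ (Finset.sum_nonneg fun i _ =>
      Finset.sum_nonneg fun k _ => mul_nonneg (hK i k) hC), fun u hu => ?_⟩
    have hn : 0 ≤ G.B.Hn 1 (j + 1) u := G.B.Hn_nonneg zero_le_one _ _
    have huψ : ContDiff ℝ ∞ fun p => u (c.ψ p) := hu.comp c.ψ_sm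
    have hD : ∀ k, ContDiff ℝ ∞ (D G.π k u) := fun k => D_sm G.π_sm k hu
    have hDψ : ∀ k, ContDiff ℝ ∞ fun p => D G.π k u (c.ψ p) := fun k => (hD k).comp c.ψ_sm
    rw [Base.Hn_succ, one_mul, add_mul, Finset.sum_mul]
    refine add_le_add ((h₀ u hu.continuous).trans
      (mul_le_mul_of_nonneg_left (G.B.L2_le_Hn zero_le_one _ _) hC₀))
      (Finset.sum_le_sum fun i _ => ?_)
    calc (ballBase p₀ r).Hn 1 j (D (ballBase p₀ r).π i fun p => u (c.ψ p))
        = (ballBase p₀ r).Hn 1 j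
            (fun p => ∑ k, fderiv ℝ c.ψ p (eb i) k • D G.π k u (c.ψ p)) := by
          refine (ballBase_tan p₀ hr).Hn_congr 1 j (D_sm (ballBase p₀ r).π_sm i huψ)
            (ContDiff.sum fun k _ => (ha i k).smul (hDψ k)) fun p hp => ?_
          exact c.toRawChart.D_comp' hu (hU hp) i
      _ ≤ ∑ k, (ballBase p₀ r).Hn 1 j
            (fun p => fderiv ℝ c.ψ p (eb i) k • D G.π k u (c.ψ p)) :=
          (ballBase p₀ r).Hn_sum_le zero_le_one j _ fun k => (ha i k).smul (hDψ k)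
      _ ≤ (∑ k, K i k * C) * G.B.Hn 1 (j + 1) u := by
          rw [Finset.sum_mul]
          refine Finset.sum_le_sum fun k _ => ?_
          refine (hKb i k 1 _ zero_le_one le_rfl (hDψ k)).trans ?_
          rw [mul_assoc]
          refine mul_le_mul_of_nonneg_left ((h _ (hD k)).trans ?_) (hK i k)
          exact mul_le_mul_of_nonneg_left (G.B.Hn_D_le k j u) hC

/-- by induction on `j`, with `RawChart.D_comp`; the vanishing outside the compact set
`ψ '' closedBall` passes to `D π k u` (`Base.Tan.fderiv_eq_zero`) -/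
theorem Hn_le_chart (c : G.Chart) {p₀ : A 4} {r : ℝ} (hr : 0 < r)
    (hU : Metric.closedBall p₀ r ⊆ c.U) (j : ℕ) : ∃ C, 0 ≤ C ∧ ∀ u : A N → E, ContDiff ℝ ∞ u →
      (∀ x ∈ G.S, x ∉ c.ψ '' Metric.closedBall p₀ r → u x = 0) →
      G.B.Hn 1 j u ≤ C * (ballBase p₀ r).Hn 1 j (fun p => u (c.ψ p)) := by
  obtain ⟨C₀, hC₀, h₀⟩ := G.embedb_L2_le_chart (E := E) c hr hU
  induction j with
  | zero =>
    refine ⟨C₀, hC₀, fun u hu h0 => ?_⟩
    rw [Base.Hn_zero, Base.Hn_zero]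
    exact h₀ u hu.continuous h0
  | succ j ih =>
    obtain ⟨C, hC, h⟩ := ih
    have ha : ∀ (k : Fin N) (i : Fin 4),
        ContDiff ℝ ∞ fun p : A 4 => c.pr (G.π (c.ψ p) (eb k)) i := by
      intro k i
      have h1 : ContDiff ℝ ∞ fun p : A 4 => c.pr (G.π (c.ψ p) (eb k)) :=
        c.pr.contDiff.comp ((G.π_sm.comp c.ψ_sm).clm_apply contDiff_const)
      exact (EuclideanSpace.proj i : A 4 →L[ℝ] ℝ).contDiff.comp h1
    choose K hK hKb using fun (k : Fin N) (i : Fin 4) =>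
      (ballBase p₀ r).Hn_smul' (E := E) j (ha k i)
    refine ⟨C₀ + ∑ k, C * ∑ i, K k i, add_nonneg hC₀ (Finset.sum_nonneg fun k _ =>
      mul_nonneg hC (Finset.sum_nonneg fun i _ => hK k i)), fun u hu h0 => ?_⟩
    have huψ : ContDiff ℝ ∞ fun p => u (c.ψ p) := hu.comp c.ψ_sm
    have hD : ∀ k, ContDiff ℝ ∞ (D G.π k u) := fun k => D_sm G.π_sm k hu
    have hDψ : ∀ k, ContDiff ℝ ∞ fun p => D G.π k u (c.ψ p) := fun k => (hD k).comp c.ψ_sm
    have hD' : ∀ i, ContDiff ℝ ∞ (D (ballBase p₀ r).π i fun p => u (c.ψ p)) := fun i =>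
      D_sm (ballBase p₀ r).π_sm i huψ
    have hcl : IsClosed (c.ψ '' Metric.closedBall p₀ r) :=
      ((isCompact_closedBall p₀ r).image c.ψ_sm.continuous).isClosed
    have hD0 : ∀ k, ∀ x ∈ G.S, x ∉ c.ψ '' Metric.closedBall p₀ r → D G.π k u x = 0 := by
      intro k x hx hx'
      refine G.tan.fderiv_eq_zero hx (hu.differentiable (by simp) x) ?_ (eb k)
      filter_upwards [hcl.isOpen_compl.mem_nhds hx'] with y hy hyS
      exact h0 y hyS hy
    rw [Base.Hn_succ, one_mul, add_mul, Finset.sum_mul]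
    refine add_le_add ((h₀ u hu.continuous h0).trans
      (mul_le_mul_of_nonneg_left ((ballBase p₀ r).L2_le_Hn zero_le_one _ _) hC₀))
      (Finset.sum_le_sum fun k _ => ?_)
    refine (h _ (hD k) (hD0 k)).trans ?_
    rw [mul_assoc]
    refine mul_le_mul_of_nonneg_left ?_ hC
    calc (ballBase p₀ r).Hn 1 j (fun p => D G.π k u (c.ψ p))
        = (ballBase p₀ r).Hn 1 j (fun p => ∑ i, c.pr (G.π (c.ψ p) (eb k)) i •
            D (ballBase p₀ r).π i (fun q => u (c.ψ q)) p) := by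
          refine (ballBase_tan p₀ hr).Hn_congr 1 j (hDψ k)
            (ContDiff.sum fun i _ => (ha k i).smul (hD' i)) fun p hp => ?_
          exact c.toRawChart.D_comp hu (hU hp) k
      _ ≤ ∑ i, (ballBase p₀ r).Hn 1 j (fun p => c.pr (G.π (c.ψ p) (eb k)) i •
            D (ballBase p₀ r).π i (fun q => u (c.ψ q)) p) :=
          (ballBase p₀ r).Hn_sum_le zero_le_one j _ fun i => (ha k i).smul (hD' i)
      _ ≤ (∑ i, K k i) * (ballBase p₀ r).Hn 1 (j + 1) (fun p => u (c.ψ p)) := by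
          rw [Finset.sum_mul]
          refine Finset.sum_le_sum fun i _ => ?_
          refine (hKb k i 1 _ zero_le_one le_rfl (hD' i)).trans ?_
          exact mul_le_mul_of_nonneg_left ((ballBase p₀ r).Hn_D_le i j _) (hK k i)

end Geo

end Crest.Agent.R240
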