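import Crest.Agent.R240.EmbedA
import Crest.Agent.R240.EmbedB

/-! Row 240: Sobolev embedding, smooth limits. -/

set_option autoImplicit false

open scoped ContDiff RealInnerProductSpace Topology
open MeasureTheory Set Filter

noncomputable section

namespace Crest.Agent.R240

variable {N : ℕ} {E : Type} [NormedAddCommGroup E] [NormedSpace ℝ E]

theorem embed_iter [CompleteSpace E] (p₀ : A 4) {r : ℝ} (hr : 0 < r) (k : ℕ) : ∃ C, 0 ≤ C ∧
    ∀ f : A 4 → E, ContDiff ℝ ∞ f → (∀ p, p ∉ Metric.closedBall p₀ r → f p = 0) →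
      ∀ p, ‖iteratedFDeriv ℝ k f p‖ ≤ C * (ballBase p₀ r).Hn 1 (k + 4) f := by
  induction k with
  | zero =>
    obtain ⟨C, hC, h⟩ := ball_embed (E := E) p₀ hr
    exact ⟨C, hC, fun f hf h0 p => by simpa [norm_iteratedFDeriv_zero] using h f hf h0 p⟩
  | succ k ih =>
    obtain ⟨C, hC, h⟩ := ih
    let L : Fin 4 → E →L[ℝ] A 4 →L[ℝ] E := fun j =>
      ContinuousLinearMap.smulRightL ℝ (A 4) E (EuclideanSpace.proj j)
    refine ⟨(∑ j, ‖L j‖) * C, by positivity, fun f hf h0 p => ?_⟩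
    have hD : ∀ j, ContDiff ℝ ∞ (D (ballBase p₀ r).π j f) := fun j =>
      D_sm (ballBase p₀ r).π_sm j hf
    have e : fderiv ℝ f = fun q => ∑ j, (L j ∘ D (ballBase p₀ r).π j f) q := by
      funext q
      ext v
      refine (fderiv_π_eq_sum (ballBase p₀ r).π f q v).trans ?_
      simp [L]
    have hk : (k : WithTop ℕ∞) ≤ ∞ := by exact_mod_cast le_top
    rw [← norm_iteratedFDeriv_fderiv, e, iteratedFDeriv_fun_sum_apply fun j _ =>
      (((L j).contDiff.comp (hD j)).of_le hk).contDiffAt, Finset.sum_mul, Finset.sum_mul]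
    refine (norm_sum_le _ _).trans (Finset.sum_le_sum fun j _ => ?_)
    refine ((L j).norm_iteratedFDeriv_comp_left (hD j).contDiffAt hk).trans ?_
    rw [mul_assoc]
    refine mul_le_mul_of_nonneg_left ((h _ (hD j) (fun q hq => ?_) p).trans
      (mul_le_mul_of_nonneg_left ?_ hC)) (norm_nonneg _)
    · have h1 : f =ᶠ[𝓝 q] fun _ => 0 :=
        mem_of_superset (Metric.isClosed_closedBall.isOpen_compl.mem_nhds hq) h0
      simp [D, h1.fderiv_eq]
    · rw [add_right_comm]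
      exact Base.Hn_D_le _ j _ f

namespace Geo
variable (G : Geo N)

theorem embed_chart [CompleteSpace E] (c : G.Chart) {p₀ : A 4} {r : ℝ} (hr : 0 < r)
    (hU : Metric.closedBall p₀ r ⊆ c.U) {a : A 4 → ℝ} (ha : ContDiff ℝ ∞ a)
    (h0 : tsupport a ⊆ Metric.ball p₀ r) (k : ℕ) : ∃ C, 0 ≤ C ∧ ∀ u : A N → E, ContDiff ℝ ∞ u →
      ∀ p, ‖iteratedFDeriv ℝ k (fun q => a q • u (c.ψ q)) p‖ ≤ C * G.B.Hn 1 (k + 4) u := by
  obtain ⟨C₁, hC₁, h₁⟩ := embed_iter (E := E) p₀ hr k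
  obtain ⟨C₂, hC₂, h₂⟩ := (ballBase p₀ r).Hn_smul' (E := E) (k + 4) ha
  obtain ⟨C₃, hC₃, h₃⟩ := G.Hn_chart_le (E := E) c hr hU (k + 4)
  refine ⟨C₁ * (C₂ * C₃), by positivity, fun u hu p => ?_⟩
  have hv : ContDiff ℝ ∞ fun q => u (c.ψ q) := hu.comp c.ψ_sm
  refine (h₁ (fun q => a q • u (c.ψ q)) (ha.smul hv) (fun q hq => ?_) p).trans ?_
  · rw [image_eq_zero_of_notMem_tsupport fun h => hq (Metric.ball_subset_closedBall (h0 h)),
      zero_smul]
  · rw [mul_assoc, mul_assoc]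
    exact mul_le_mul_of_nonneg_left ((h₂ 1 _ zero_le_one le_rfl hv).trans
      (mul_le_mul_of_nonneg_left (h₃ u hu) hC₂)) hC₁

theorem embed_local [CompleteSpace E] {x : A N} (hx : x ∈ G.S) :
    ∃ (c : G.Chart) (a : A 4 → ℝ), x ∈ c.W ∧ ContDiff ℝ ∞ a ∧ (∀ᶠ q in 𝓝 (c.pr x), a q = 1) ∧
      ∀ k : ℕ, ∃ C, ∀ u : A N → E, ContDiff ℝ ∞ u →
        ∀ p, ‖iteratedFDeriv ℝ k (fun q => a q • u (c.ψ q)) p‖ ≤ C * G.B.Hn 1 (k + 4) u := by
  obtain ⟨c, -, hW, -⟩ := G.toSub.exists_chart hx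
  obtain ⟨r, hr, hU⟩ := Metric.nhds_basis_closedBall.mem_iff.1
    (c.U_open.mem_nhds (c.pr_mem x hx hW))
  obtain ⟨a, ha, -, h0, -, h1⟩ := exists_cutoff (K := {c.pr x}) isCompact_singleton
    Metric.isOpen_ball (singleton_subset_iff.2 (Metric.mem_ball_self hr))
  refine ⟨c, a, hW, ha, h1 _ rfl, fun k => ?_⟩
  obtain ⟨C, -, h⟩ := G.embed_chart (E := E) c hr hU ha h0 k
  exact ⟨C, h⟩

/-- Sobolev embedding on `S` (cut off `u ∘ ψ` in the balls of `Sub.exists_atlas`) -/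
theorem embed [CompleteSpace E] : ∃ C, 0 ≤ C ∧ ∀ u : A N → E, ContDiff ℝ ∞ u →
    ∀ x ∈ G.S, ‖u x‖ ≤ C * G.B.Hn 1 4 u := by
  obtain ⟨n, c, p, r, δ, hδ, hr, hU, h⟩ := G.toSub.exists_atlas
  choose a ha _ h0 _ h1 using fun i => exists_cutoff (isCompact_closedBall (p i) (r i / 2))
    Metric.isOpen_ball (Metric.closedBall_subset_ball (half_lt_self (hr i)))
  choose C hC h2 using fun i => G.embed_chart (E := E) (c i) (hr i) (hU i) (ha i) (h0 i) 0
  refine ⟨∑ i, C i, Finset.sum_nonneg fun i _ => hC i, fun u hu x hx => ?_⟩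
  obtain ⟨i, h3, h4⟩ := h x hx
  have h5 := h2 i u hu ((c i).pr x)
  rw [norm_iteratedFDeriv_zero, (h1 i _ h3).self_of_nhds, one_smul,
    (c i).ψ_pr x hx (h4 x hx (by simpa using hδ.le)).1] at h5
  exact h5.trans (mul_le_mul_of_nonneg_right
    (Finset.single_le_sum (fun i _ => hC i) (Finset.mem_univ i)) (G.B.Hn_nonneg zero_le_one _ _))

/-- A series of smooth functions which converges absolutely in all Sobolev norms has a smooth
sum on `S`. In a chart of the atlas, `a · (u n ∘ ψ)` (cut-off `a`) has all derivatives uniformly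
bounded by summable sequences (`ball_embed`, `Hn_chart_le`), so `contDiff_tsum` applies and the
derivative of the sum is the sum of the derivatives; glue with `exists_smooth_ext`. -/
theorem smooth_sum [CompleteSpace E] [FiniteDimensional ℝ E] {u : ℕ → A N → E}
    (hu : ∀ n, ContDiff ℝ ∞ (u n)) (hs : ∀ j, Summable fun n => G.B.Hn 1 j (u n)) :
    ∃ U : A N → E, ContDiff ℝ ∞ U ∧ ∀ x ∈ G.S, HasSum (fun n => u n x) (U x) ∧
      ∀ v, HasSum (fun n => fderiv ℝ (u n) x (G.π x v)) (fderiv ℝ U x (G.π x v)) := by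
  obtain ⟨C₀, -, h₀⟩ := G.embed (E := E)
  have hsum : ∀ x ∈ G.S, Summable fun n => u n x := fun x hx =>
    Summable.of_norm_bounded ((hs 4).mul_left C₀) fun n => h₀ _ (hu n) x hx
  have loc : ∀ x ∈ G.S, ∃ (c : G.Chart) (g : A 4 → E), x ∈ c.W ∧ ContDiff ℝ ∞ g ∧
      (∀ᶠ q in 𝓝 (c.pr x), g q = ∑' n, u n (c.ψ q)) ∧
      HasSum (fun n => fderiv ℝ (fun q => u n (c.ψ q)) (c.pr x)) (fderiv ℝ g (c.pr x)) := by
    intro x hx
    obtain ⟨c, a, hW, ha, h1, h2⟩ := G.embed_local (E := E) hx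
    choose C hC using h2
    have hg : ∀ n, ContDiff ℝ ∞ fun q => a q • u n (c.ψ q) := fun n =>
      ha.smul ((hu n).comp c.ψ_sm)
    have hv : ∀ k, Summable fun n => C k * G.B.Hn 1 (k + 4) (u n) := fun k => (hs _).mul_left _
    have hb : ∀ n p, ‖fderiv ℝ (fun q => a q • u n (c.ψ q)) p‖ ≤
        C 1 * G.B.Hn 1 (1 + 4) (u n) := fun n p => by
      rw [← norm_iteratedFDeriv_one]
      exact hC 1 _ (hu n) p
    refine ⟨c, fun q => ∑' n, a q • u n (c.ψ q), hW,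
      contDiff_tsum (N := ⊤) hg (fun k _ => hv k) fun k n p _ => hC k _ (hu n) p, ?_, ?_⟩
    · filter_upwards [h1] with q hq
      simp only [hq, one_smul]
    · rw [fderiv_tsum_apply (x₀ := c.pr x) (hv 1) (fun n => (hg n).differentiable (by simp)) hb
        (Summable.of_norm_bounded (hv 0) fun n => by
          simpa only [norm_iteratedFDeriv_zero] using hC 0 _ (hu n) (c.pr x))]
      have e : ∀ n, fderiv ℝ (fun q => u n (c.ψ q)) (c.pr x) =
          fderiv ℝ (fun q => a q • u n (c.ψ q)) (c.pr x) := fun n =>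
        Filter.EventuallyEq.fderiv_eq (by
          filter_upwards [h1] with q hq
          simp only [hq, one_smul])
      simp only [e]
      exact (Summable.of_norm_bounded (hv 1) fun n => hb n _).hasSum
  obtain ⟨U, hU, hU'⟩ := exists_smooth_ext G.cpt.isClosed (fun x => ∑' n, u n x) fun x hx => by
    obtain ⟨c, g, hW, hg, h1, -⟩ := loc x hx
    obtain ⟨O, hO, hO1, hO2⟩ := mem_nhds_iff.1 h1
    refine ⟨c.W ∩ c.pr ⁻¹' O, fun y => g (c.pr y), c.W_open.inter (hO1.preimage c.pr.continuous),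
      ⟨hW, hO2⟩, (hg.comp c.pr.contDiff).contDiffOn, fun y hy hy' => ?_⟩
    have := hO hy'.2
    rwa [mem_ofPred_eq, c.ψ_pr y hy hy'.1] at this
  refine ⟨U, hU, fun x hx => ⟨by rw [hU' x hx]; exact (hsum x hx).hasSum, fun v => ?_⟩⟩
  obtain ⟨c, g, hW, -, h1, h2⟩ := loc x hx
  have hp := c.pr_mem x hx hW
  have hψ := c.ψ_pr x hx hW
  have chain : ∀ w : A N → E, ContDiff ℝ ∞ w → fderiv ℝ w x (G.π x v) =
      fderiv ℝ (fun q => w (c.ψ q)) (c.pr x) (c.pr (G.π x v)) := by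
    intro w hw
    have h3 := c.dψ_pr _ hp v
    have h4 := fderiv_comp (c.pr x) (hw.differentiable (by simp) (c.ψ (c.pr x)))
      (c.ψ_sm.differentiable (by simp) (c.pr x))
    rw [hψ] at h3 h4
    rw [show (fun q => w (c.ψ q)) = w ∘ c.ψ from rfl, h4, ContinuousLinearMap.comp_apply, h3]
  have e : fderiv ℝ (fun q => U (c.ψ q)) (c.pr x) = fderiv ℝ g (c.pr x) :=
    Filter.EventuallyEq.fderiv_eq (by
      filter_upwards [h1, c.U_open.mem_nhds hp] with q h3 h4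
      rw [h3, hU' _ (c.ψ_S q h4)])
  simp only [chain _ (hu _), chain _ hU, e]
  exact (ContinuousLinearMap.apply ℝ E (c.pr (G.π x v))).hasSum h2

end Geo

end Crest.Agent.R240
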