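import Crest.Agent.R240.EllEuc
import Crest.Agent.R240.Embed

/-! Row 240: global parametrix with smoothing remainder.

For `x₀ ∈ S` take the normalised chart `c` of `Sub.exists_chart`, `p₀ = pr x₀`,
`J̃ p = pr ∘ J (ψ p) ∘ dψ p` (smooth; `J̃ p₀ = Jst`; `J̃² = -1` on `U`), and the radius `r` of
`ell_euc` with `closedBall p₀ r₀ ⊆ U`. Let `O x₀ = W ∩ pr⁻¹ (ball p₀ r)`, `χ i` a partition of unity
(`exists_pou`), `χ' i` a cut-off equal to one near `tsupport (χ i)` with support in `O (a i)`.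
`hᵢ = U.indicator (p ↦ pb (dψ p) (χ i (ψ p) • h (ψ p)))` is smooth (`contDiff_indicator`), supported
in the ball and fixed by `pm id (J̃ p)`. With `s̃ᵢ` from `ell_euc` let
`sᵢ x = χ' i x • pr† (s̃ᵢ (pr x))`, `s = ∑ sᵢ`. For `x = ψ p ∈ S ∩ W`:
`Pm x (d1 (pr† s̃ ∘ pr) x) = pb (pr ∘ π x) (pm id (J̃ p) (d1 s̃ p))`, `pb (pr ∘ π x) (hᵢ p) = χ i x • h x`,
so on `S`
`Pm (d1 sᵢ) - χ i • h = χ' i • pb (pr ∘ π) ((pm id J̃ (d1 s̃ᵢ) - hᵢ) ∘ pr) + Pm (tens (grad χ' i) (pr† s̃ᵢ ∘ pr))`.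
Estimate with `Hn_le_chart`, `Hn_chart_le`, `Hn_clm_apply'`, `Tan.Hn_congr`. -/

set_option autoImplicit false

open scoped ContDiff RealInnerProductSpace Topology
open MeasureTheory Set Filter

noncomputable section

namespace Crest.Agent.R240

variable {N : ℕ}

/-- the almost complex structure in a chart -/
def ellglue_J {X : Pre N} (c : X.RawChart) (p : A 4) : A 4 →L[ℝ] A 4 :=
  c.pr ∘L X.J (c.ψ p) ∘L fderiv ℝ c.ψ p

/-- `tens a` as a continuous linear map -/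
def ellglue_tens (a : A N) : A N →L[ℝ] E2 N :=
  matL fun (q : Fin N × Fin N) (l : Fin N) => if q.2 = l then a q.1 else 0

theorem ellglue_tens_apply (a b : A N) : ellglue_tens a b = tens a b := by
  ext q
  simp [ellglue_tens, matL_apply, tens_apply]

theorem ellglue_tens_sm {a : A 4 → A N} (ha : ContDiff ℝ ∞ a) :
    ContDiff ℝ ∞ fun p => ellglue_tens (a p) := by
  refine contDiff_matL fun q l => ?_
  split_ifs
  · exact (EuclideanSpace.proj (𝕜 := ℝ) q.1).contDiff.comp ha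
  · exact contDiff_const

section
variable {X : Pre N} (c : X.RawChart)

theorem ellglue_dψ_sm : ContDiff ℝ ∞ (fderiv ℝ c.ψ) := c.ψ_sm.fderiv_right (m := ∞) le_rfl

theorem ellglue_J_sm : ContDiff ℝ ∞ (ellglue_J c) :=
  contDiff_const.clm_comp ((X.J_sm.comp c.ψ_sm).clm_comp (ellglue_dψ_sm c))

theorem ellglue_dψ_J {p : A 4} (hp : p ∈ c.U) (a : A 4) :
    fderiv ℝ c.ψ p (ellglue_J c p a) = X.J (c.ψ p) (fderiv ℝ c.ψ p a) := by
  have h := c.dψ_pr p hp (X.J (c.ψ p) (fderiv ℝ c.ψ p a))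
  rwa [X.πJ _ (c.ψ_S p hp)] at h

theorem ellglue_JJ {p : A 4} (hp : p ∈ c.U) (a : A 4) : ellglue_J c p (ellglue_J c p a) = -a := by
  have e : ∀ b, ellglue_J c p b = c.pr (X.J (c.ψ p) (fderiv ℝ c.ψ p b)) := fun _ => rfl
  rw [e, ellglue_dψ_J c hp, X.JJ _ (c.ψ_S p hp), c.π_dψ p hp, map_neg, c.pr_dψ hp]

theorem ellglue_pm_pb {p : A 4} (hp : p ∈ c.U) (η : E2 N) :
    pm (ContinuousLinearMap.id ℝ _) (ellglue_J c p) (pb (fderiv ℝ c.ψ p) η)
      = pb (fderiv ℝ c.ψ p) (X.Pm (c.ψ p) η) := by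
  refine (anti_pm _ _ _).ext (anti_pb _ _) fun a b => ?_
  simp only [Pre.Pm, ev_pm, ev_pb, ContinuousLinearMap.id_apply, ellglue_dψ_J c hp, c.π_dψ p hp]

theorem ellglue_pb_pb {p : A 4} (hp : p ∈ c.U) (η : E2 N) :
    pb (c.pr ∘L X.π (c.ψ p)) (pb (fderiv ℝ c.ψ p) η) = X.Pt (c.ψ p) η := by
  rw [pb_pb, Pre.Pt]
  congr 2
  ext1 v
  exact c.dψ_pr p hp v

theorem ellglue_Pm_d1 {p : A 4} (hp : p ∈ c.U) {s : A 4 → A 4} (hs : ContDiff ℝ ∞ s) :
    X.Pm (c.ψ p) (d1 (fun x => ContinuousLinearMap.adjoint c.pr (s (c.pr x))) (c.ψ p))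
      = pb (c.pr ∘L X.π (c.ψ p)) (pm (ContinuousLinearMap.id ℝ _) (ellglue_J c p) (d1 s p)) := by
  have h1 : HasFDerivAt (fun x => ContinuousLinearMap.adjoint c.pr (s (c.pr x)))
      (ContinuousLinearMap.adjoint c.pr ∘L fderiv ℝ s p ∘L c.pr) (c.ψ p) := by
    refine (ContinuousLinearMap.adjoint c.pr).hasFDerivAt.comp _
      (HasFDerivAt.comp _ ?_ c.pr.hasFDerivAt)
    rw [c.pr_ψ p hp]
    exact (hs.differentiable (by simp) p).hasFDerivAt
  have h2 : ∀ a b, ev (d1 (fun x => ContinuousLinearMap.adjoint c.pr (s (c.pr x))) (c.ψ p)) a b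
      = ev (d1 s p) (c.pr a) (c.pr b) := by
    intro a b
    simp only [ev_d1, h1.fderiv, ContinuousLinearMap.comp_apply,
      ContinuousLinearMap.adjoint_inner_left]
  have h3 : ∀ a, ellglue_J c p (c.pr (X.π (c.ψ p) a)) = c.pr (X.J (c.ψ p) a) := by
    intro a
    change c.pr (X.J (c.ψ p) (fderiv ℝ c.ψ p (c.pr (X.π (c.ψ p) a)))) = _
    rw [c.dψ_pr p hp, X.Jπ _ (c.ψ_S p hp)]
  refine (anti_pm _ _ _).ext (anti_pb _ _) fun a b => ?_
  simp only [ev_pm, ev_pb, h2, h3, ContinuousLinearMap.id_apply, ContinuousLinearMap.comp_apply]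

end

/-- the local piece -/
theorem Geo.ell_loc (G : Geo N) {x₀ : A N} (hx₀ : x₀ ∈ G.S) : ∃ O : Set (A N), IsOpen O ∧ x₀ ∈ O ∧
    ∀ χ : A N → ℝ, ContDiff ℝ ∞ χ → HasCompactSupport χ → tsupport χ ⊆ O →
      ∃ C : ℕ → ℝ, (∀ k, 0 ≤ C k) ∧ ∀ (K : ℕ) (h : A N → E2 N), ContDiff ℝ ∞ h →
        (∀ x ∈ G.S, G.Pm x (h x) = h x) → ∃ s : A N → A N, ContDiff ℝ ∞ s ∧ ∀ k,
          G.B.Hn 1 (k + 1) s ≤ C k * G.B.Hn 1 k h ∧
          (k ≤ K → G.B.Hn 1 (k + 1) (fun x => G.Pm x (d1 s x) - χ x • h x)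
            ≤ C k * G.B.Hn 1 k h) := by
  obtain ⟨c, F, hW, hB, hL⟩ := G.toSub.exists_chart hx₀
  have hp₀ : c.pr x₀ ∈ c.U := c.pr_mem x₀ hx₀ hW
  have hJ0 : ellglue_J c.toRawChart (c.pr x₀) = Jst := by
    ext1 a
    change c.pr (G.J (c.ψ (c.pr x₀)) (fderiv ℝ c.ψ (c.pr x₀) a)) = _
    rw [c.ψ_pr x₀ hx₀ hW, hB, F.JB, ← F.πB, hL, F.LB]
  obtain ⟨r₀, hr₀, hU₀⟩ := Metric.nhds_basis_closedBall.mem_iff.1 (c.U_open.mem_nhds hp₀)
  obtain ⟨r, C, hr, hrr, hC, H⟩ := ell_euc (ellglue_J_sm c.toRawChart) hJ0 hr₀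
    fun p hp a => ellglue_JJ c.toRawChart (hU₀ hp) a
  set p₀ := c.pr x₀ with hp₀def
  have hU : Metric.closedBall p₀ r ⊆ c.U := (Metric.closedBall_subset_closedBall hrr).trans hU₀
  have hO : IsOpen (c.W ∩ c.pr ⁻¹' Metric.ball p₀ r) :=
    c.W_open.inter (Metric.isOpen_ball.preimage c.pr.continuous)
  refine ⟨_, hO, ⟨hW, Metric.mem_ball_self hr⟩, fun χ hχ hχc hχO => ?_⟩
  obtain ⟨χ', hχ', -, hχ'O, -, hχ'1⟩ := exists_cutoff hχc hO hχO
  have hψ := c.ψ_sm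
  have hdψ := ellglue_dψ_sm c.toRawChart
  -- the coefficient fields
  set b₁ : A 4 → A 4 →L[ℝ] A N := fun p => χ' (c.ψ p) • ContinuousLinearMap.adjoint c.pr with e₁
  set b₂ : A 4 → E2 N →L[ℝ] E2 4 := fun p => χ (c.ψ p) • pb (fderiv ℝ c.ψ p) with e₂
  set b₃ : A 4 → E2 4 →L[ℝ] E2 N := fun p => χ' (c.ψ p) • pb (c.pr ∘L G.π (c.ψ p)) with e₃
  set b₄ : A 4 → A 4 →L[ℝ] E2 N := fun p =>
    G.Pm (c.ψ p) ∘L ellglue_tens (grad χ' (c.ψ p)) ∘L ContinuousLinearMap.adjoint c.pr with e₄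
  have s₁ : ContDiff ℝ ∞ b₁ := (hχ'.comp hψ).smul contDiff_const
  have s₂ : ContDiff ℝ ∞ b₂ := (hχ.comp hψ).smul (contDiff_pb hdψ)
  have s₃ : ContDiff ℝ ∞ b₃ :=
    (hχ'.comp hψ).smul (contDiff_pb (contDiff_const.clm_comp (G.π_sm.comp hψ)))
  have s₄ : ContDiff ℝ ∞ b₄ := (G.toPre.Pm_sm.comp hψ).clm_comp
    ((ellglue_tens_sm ((contDiff_grad hχ').comp hψ)).clm_comp contDiff_const)
  choose K₁ hK₁ H₁ using fun j => (ballBase p₀ r).Hn_clm_apply' j s₁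
  choose K₂ hK₂ H₂ using fun j => (ballBase p₀ r).Hn_clm_apply' j s₂
  choose K₃ hK₃ H₃ using fun j => (ballBase p₀ r).Hn_clm_apply' j s₃
  choose K₄ hK₄ H₄ using fun j => (ballBase p₀ r).Hn_clm_apply' j s₄
  choose L₁ hL₁ M₁ using fun j => G.Hn_le_chart (E := A N) c hr hU j
  choose L₂ hL₂ M₂ using fun j => G.Hn_le_chart (E := E2 N) c hr hU j
  choose L₃ hL₃ M₃ using fun j => G.Hn_chart_le (E := E2 N) c hr hU j
  have hT := ballBase_tan p₀ hr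
  refine ⟨fun k => (L₁ (k + 1) * K₁ (k + 1) + L₂ (k + 1) * (K₃ (k + 1) + K₄ (k + 1))) *
    (C k * (K₂ k * L₃ k)), fun k => by
      have := hK₁ (k + 1); have := hK₂ k; have := hK₃ (k + 1); have := hK₄ (k + 1)
      have := hL₁ (k + 1); have := hL₂ (k + 1); have := hL₃ k; have := hC k
      positivity, fun K h hh hPm => ?_⟩
  have hb₂h : ContDiff ℝ ∞ fun p => b₂ p (h (c.ψ p)) := s₂.clm_apply (hh.comp hψ)
  have hz : ∀ p ∈ c.U, p ∉ Metric.closedBall p₀ r → b₂ p (h (c.ψ p)) = 0 := by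
    intro p hp hp'
    have : χ (c.ψ p) = 0 := image_eq_zero_of_notMem_tsupport fun h1 => hp' <| by
      have h2 := (hχO h1).2
      rw [mem_preimage, c.pr_ψ p hp] at h2
      exact Metric.ball_subset_closedBall h2
    change χ (c.ψ p) • pb (fderiv ℝ c.ψ p) (h (c.ψ p)) = 0
    rw [this, zero_smul]
  set g := c.U.indicator fun p => b₂ p (h (c.ψ p)) with hg
  have sg : ContDiff ℝ ∞ g :=
    contDiff_indicator c.U_open (isCompact_closedBall p₀ r) hU hb₂h.contDiffOn hz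
  have hgU : ∀ p ∈ c.U, g p = b₂ p (h (c.ψ p)) := fun p hp => indicator_of_mem hp _
  obtain ⟨s, hs, Hs⟩ := H K g sg (fun p hp => by
    by_cases h1 : p ∈ c.U
    · rw [hgU p h1, hz p h1 hp]
    · exact indicator_of_notMem h1 _) (fun p hp => by
    rw [hgU p (hU hp)]
    simp only [e₂, smul_apply, map_smul]
    rw [ellglue_pm_pb c.toRawChart (hU hp), hPm _ (c.ψ_S p (hU hp))])
  have hσ : ContDiff ℝ ∞ fun x => ContinuousLinearMap.adjoint c.pr (s (c.pr x)) :=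
    (ContinuousLinearMap.adjoint c.pr).contDiff.comp (hs.comp c.pr.contDiff)
  have hS : ContDiff ℝ ∞ fun x => χ' x • ContinuousLinearMap.adjoint c.pr (s (c.pr x)) :=
    hχ'.smul hσ
  have hout : ∀ x ∈ G.S, x ∉ c.ψ '' Metric.closedBall p₀ r →
      x ∉ c.W ∩ c.pr ⁻¹' Metric.ball p₀ r := fun x hx h1 h2 =>
    h1 ⟨c.pr x, Metric.ball_subset_closedBall h2.2, c.ψ_pr x hx h2.1⟩
  refine ⟨_, hS, fun k => ?_⟩
  have hgk : (ballBase p₀ r).Hn 1 k g ≤ K₂ k * L₃ k * G.B.Hn 1 k h := by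
    rw [hT.Hn_congr 1 k sg hb₂h fun p hp => hgU p (hU hp), mul_assoc]
    exact (H₂ k 1 _ zero_le_one le_rfl (hh.comp hψ)).trans
      (mul_le_mul_of_nonneg_left (M₃ k h hh) (hK₂ k))
  set Z := C k * (K₂ k * L₃ k) * G.B.Hn 1 k h with hZ
  have hZ0 : 0 ≤ Z := mul_nonneg (mul_nonneg (hC k) (mul_nonneg (hK₂ k) (hL₃ k)))
    (G.B.Hn_nonneg zero_le_one k h)
  have hgZ : C k * (ballBase p₀ r).Hn 1 k g ≤ Z := by
    rw [hZ, mul_assoc]
    exact mul_le_mul_of_nonneg_left hgk (hC k)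
  have hsZ := (Hs k).1.trans hgZ
  rw [mul_assoc _ (C k * _), ← hZ, add_mul]
  constructor
  · refine (M₁ (k + 1) _ hS fun x hx h1 => ?_).trans ?_
    · rw [image_eq_zero_of_notMem_tsupport fun h2 => hout x hx h1 (hχ'O h2), zero_smul]
    · refine le_add_of_le_of_nonneg ?_
        (mul_nonneg (mul_nonneg (hL₂ _) (add_nonneg (hK₃ _) (hK₄ _))) hZ0)
      rw [mul_assoc]
      refine mul_le_mul_of_nonneg_left ((hT.Hn_congr 1 (k + 1) (hS.comp hψ) (s₁.clm_apply hs)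
        fun p hp => ?_).trans_le ((H₁ (k + 1) 1 s zero_le_one le_rfl hs).trans
        (mul_le_mul_of_nonneg_left hsZ (hK₁ _)))) (hL₁ _)
      simp only [e₁, Function.comp_apply, c.pr_ψ p (hU hp), smul_apply]
  · intro hk
    have hu : ContDiff ℝ ∞ fun x => G.Pm x (d1 (fun x => χ' x •
        ContinuousLinearMap.adjoint c.pr (s (c.pr x))) x) - χ x • h x :=
      (G.toPre.Pm_sm.clm_apply (contDiff_d1 hS)).sub (hχ.smul hh)
    have hv : ContDiff ℝ ∞ fun p => pm (ContinuousLinearMap.id ℝ _) (ellglue_J c.toRawChart p)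
        (d1 s p) - g p :=
      ((contDiff_pm contDiff_const (ellglue_J_sm c.toRawChart)).clm_apply (contDiff_d1 hs)).sub sg
    refine (M₂ (k + 1) _ hu fun x hx h1 => ?_).trans ?_
    · have h2 : x ∉ tsupport χ' := fun h2 => hout x hx h1 (hχ'O h2)
      have h3 : grad χ' x = 0 := by
        ext l
        simp only [grad, fderiv_of_notMem_tsupport ℝ h2]
        rfl
      rw [d1_smul hχ' hσ, image_eq_zero_of_notMem_tsupport h2, h3, ← ellglue_tens_apply,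
        image_eq_zero_of_notMem_tsupport fun h2 => hout x hx h1 (hχO h2)]
      have : ellglue_tens (0 : A N) = 0 := by
        ext1 v
        rw [ellglue_tens_apply]
        ext q
        simp [tens_apply]
      simp [this]
    · refine le_add_of_nonneg_of_le (mul_nonneg (mul_nonneg (hL₁ _) (hK₁ _)) hZ0) ?_
      rw [mul_assoc, add_mul]
      refine mul_le_mul_of_nonneg_left ((hT.Hn_congr 1 (k + 1) (hu.comp hψ)
        ((s₃.clm_apply hv).add (s₄.clm_apply hs)) fun p hp => ?_).trans_le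
        (((ballBase p₀ r).Hn_add_le zero_le_one _ (s₃.clm_apply hv) (s₄.clm_apply hs)).trans
          (add_le_add ((H₃ (k + 1) 1 _ zero_le_one le_rfl hv).trans
            (mul_le_mul_of_nonneg_left (((Hs k).2 hk).trans hgZ) (hK₃ _)))
            ((H₄ (k + 1) 1 _ zero_le_one le_rfl hs).trans
              (mul_le_mul_of_nonneg_left hsZ (hK₄ _)))))) (hL₂ _)
      · have hpU := hU hp
        have hx := c.ψ_S p hpU
        have h1 : χ (c.ψ p) * χ' (c.ψ p) = χ (c.ψ p) := by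
          by_cases h2 : c.ψ p ∈ tsupport χ
          · rw [(hχ'1 _ h2).self_of_nhds, mul_one]
          · rw [image_eq_zero_of_notMem_tsupport h2, zero_mul]
        have h2 : G.Pt (c.ψ p) (h (c.ψ p)) = h (c.ψ p) := by
          rw [← hPm _ hx, Pre.Pt_Pm hx]
        simp only [Function.comp_apply, d1_smul hχ' hσ, map_add, map_smul, map_sub, e₂, e₃, e₄,
          ellglue_Pm_d1 c.toRawChart hpU hs, hgU p hpU, smul_apply,
          ContinuousLinearMap.comp_apply, ellglue_tens_apply, ellglue_pb_pb c.toRawChart hpU, h2,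
          c.pr_ψ p hpU, smul_smul, h1]
        abel

theorem Geo.ell_glue (G : Geo N) : ∃ C : ℕ → ℝ, (∀ k, 0 ≤ C k) ∧ ∀ (K : ℕ) (h : A N → E2 N),
    ContDiff ℝ ∞ h → (∀ x ∈ G.S, G.Pm x (h x) = h x) → ∃ s : A N → A N, ContDiff ℝ ∞ s ∧ ∀ k,
      G.B.Hn 1 (k + 1) s ≤ C k * G.B.Hn 1 k h ∧
      (k ≤ K → G.B.Hn 1 (k + 1) (fun x => G.Pm x (d1 s x) - h x) ≤ C k * G.B.Hn 1 k h) := by
  choose! O hO hxO H using fun x (hx : x ∈ G.S) => G.ell_loc hx
  obtain ⟨n, a, χ, ha, hχ, hχc, hχO, -, -, h1⟩ :=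
    exists_pou G.cpt O fun x hx => ⟨hO x hx, hxO x hx⟩
  choose C hC H' using fun i => H (a i) (ha i) (χ i) (hχ i) (hχc i) (hχO i)
  refine ⟨fun k => ∑ i, C i k, fun k => Finset.sum_nonneg fun i _ => hC i k, fun K h hh hPm => ?_⟩
  choose s hs Hs using fun i => H' i K h hh hPm
  have hS : ContDiff ℝ ∞ fun x => ∑ i, s i x := ContDiff.sum fun i _ => hs i
  refine ⟨_, hS, fun k => ⟨?_, fun hk => ?_⟩⟩
  · rw [Finset.sum_mul]
    exact (G.B.Hn_sum_le zero_le_one _ _ hs).trans (Finset.sum_le_sum fun i _ => (Hs i k).1)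
  · have hu : ∀ i, ContDiff ℝ ∞ fun x => G.Pm x (d1 (s i) x) - χ i x • h x := fun i =>
      (G.toPre.Pm_sm.clm_apply (contDiff_d1 (hs i))).sub ((hχ i).smul hh)
    rw [Finset.sum_mul, G.tan.Hn_congr 1 (k + 1)
      ((G.toPre.Pm_sm.clm_apply (contDiff_d1 hS)).sub hh) (ContDiff.sum fun i _ => hu i)
      fun x hx => ?_]
    · exact (G.B.Hn_sum_le zero_le_one _ _ hu).trans (Finset.sum_le_sum fun i _ => (Hs i k).2 hk)
    · rw [d1_sum _ hs, map_sum, Finset.sum_sub_distrib, ← Finset.sum_smul,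
        (h1 x hx).self_of_nhds, one_smul]

end Crest.Agent.R240
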