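import Crest.Agent.R240.Sob

/-! Row 240: Sobolev embedding in `ℝ⁴`. -/

set_option autoImplicit false

open scoped ContDiff RealInnerProductSpace Topology
open MeasureTheory Set Filter

noncomputable section

namespace Crest.Agent.R240

variable {N : ℕ} {E : Type} [NormedAddCommGroup E] [NormedSpace ℝ E]

/-- iterated coordinate derivatives -/
def embeda_Dl (π : A N → A N →L[ℝ] A N) : List (Fin N) → (A N → E) → A N → E
  | [], f => f
  | i :: l, f => embeda_Dl π l (D π i f)

theorem embeda_Dl_sm {π : A N → A N →L[ℝ] A N} (hπ : ContDiff ℝ ∞ π) (l : List (Fin N)) :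
    ∀ {f : A N → E}, ContDiff ℝ ∞ f → ContDiff ℝ ∞ (embeda_Dl π l f) := by
  induction l with
  | nil => intro f hf; exact hf
  | cons i l ih => intro f hf; exact ih (D_sm hπ i hf)

theorem embeda_D_zero (π : A N → A N →L[ℝ] A N) {K : Set (A N)} (hK : IsClosed K) (i : Fin N)
    {f : A N → E} (h : ∀ p, p ∉ K → f p = 0) : ∀ p, p ∉ K → D π i f p = 0 := by
  intro p hp
  have e : f =ᶠ[𝓝 p] fun _ => 0 := by
    filter_upwards [hK.isOpen_compl.mem_nhds hp] with q hq using h q hq
  unfold D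
  rw [e.fderiv_eq]
  simp

theorem embeda_Dl_zero (π : A N → A N →L[ℝ] A N) {K : Set (A N)} (hK : IsClosed K)
    (l : List (Fin N)) :
    ∀ {f : A N → E}, (∀ p, p ∉ K → f p = 0) → ∀ p, p ∉ K → embeda_Dl π l f p = 0 := by
  induction l with
  | nil => intro f hf; exact hf
  | cons i l ih => intro f hf; exact ih (embeda_D_zero π hK i hf)

theorem embeda_L2_le (B : Base N) (l : List (Fin N)) :
    ∀ f : A N → E, B.L2 (embeda_Dl B.π l f) ≤ B.Hs l.length f := by
  induction l with
  | nil => intro f; exact le_rfl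
  | cons i l ih =>
    intro f
    refine (ih (D B.π i f)).trans ?_
    show _ ≤ ∑ k, B.Hs l.length (D B.π k f)
    exact Finset.single_le_sum (f := fun k => B.Hs l.length (D B.π k f))
      (fun k _ => B.Hs_nonneg _ _) (Finset.mem_univ i)

/-- the one-dimensional estimate along a coordinate line -/
theorem embeda_line {K : Set (A N)} (hK : IsCompact K) {f : A N → E} (hf : ContDiff ℝ ∞ f)
    (h : ∀ p, p ∉ K → f p = 0) (x : Fin N → ℝ) (i : Fin N) :
    ‖f (WithLp.toLp 2 x)‖ₑ ≤ ∫⁻ t, ‖D (fun _ => ContinuousLinearMap.id ℝ (A N)) i f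
      (WithLp.toLp 2 (Function.update x i t))‖ₑ := by
  let L : (Fin N → ℝ) ≃L[ℝ] A N := (PiLp.continuousLinearEquiv 2 ℝ fun _ : Fin N => ℝ).symm
  have hL : ∀ y, L y = WithLp.toLp 2 y := fun _ => rfl
  have hc : HasCompactSupport f := HasCompactSupport.intro hK h
  have hc' : HasCompactSupport ((f ∘ L) ∘ Function.update x i) :=
    (hc.comp_homeomorph L.toHomeomorph).comp_isClosedEmbedding (isClosedEmbedding_update x i)
  have hf1 : ContDiff ℝ 1 f := hf.of_le (by exact_mod_cast le_top)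
  have hu : ContDiff ℝ 1 ((f ∘ L) ∘ Function.update x i) :=
    (hf1.comp L.contDiff).comp (by convert! contDiff_update 1 x i)
  have h1 := HasCompactSupport.enorm_le_lintegral_Ici_deriv hu hc' (x i)
  have e0 : ((f ∘ L) ∘ Function.update x i) (x i) = f (WithLp.toLp 2 x) := by
    simp only [Function.comp_apply, Function.update_eq_self, hL]
  rw [e0] at h1
  refine h1.trans ((lintegral_mono' Measure.restrict_le_self le_rfl).trans (le_of_eq ?_))
  refine lintegral_congr fun t => ?_
  congr 1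
  have d1 : HasDerivAt (Function.update x i) (Pi.single i (1 : ℝ)) t := hasDerivAt_update x i t
  have d2 : HasDerivAt (L ∘ Function.update x i) (L (Pi.single i (1 : ℝ))) t :=
    L.toContinuousLinearMap.hasFDerivAt.comp_hasDerivAt t d1
  have d3 := (hf1.differentiable one_ne_zero (L (Function.update x i t))).hasFDerivAt.comp_hasDerivAt
    t d2
  exact d3.deriv

theorem embeda_marg {K : Set (A N)} (hK : IsCompact K) (l : List (Fin N)) (hl : l.Nodup) :
    ∀ {f : A N → E}, ContDiff ℝ ∞ f → (∀ p, p ∉ K → f p = 0) → ∀ x : Fin N → ℝ,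
      ‖f (WithLp.toLp 2 x)‖ₑ ≤ (∫⋯∫⁻_l.toFinset, (fun y : Fin N → ℝ =>
        ‖embeda_Dl (fun _ => ContinuousLinearMap.id ℝ (A N)) l f (WithLp.toLp 2 y)‖ₑ)
          ∂fun _ => volume) x := by
  induction l with
  | nil =>
    intro f _ _ x
    rw [List.toFinset_nil, lmarginal_empty]
    exact le_rfl
  | cons i l ih =>
    intro f hf h x
    rw [List.nodup_cons] at hl
    have hm : Measurable fun y : Fin N → ℝ =>
        ‖embeda_Dl (fun _ => ContinuousLinearMap.id ℝ (A N)) (i :: l) f (WithLp.toLp 2 y)‖ₑ :=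
      (((embeda_Dl_sm contDiff_const (i :: l) hf).continuous.comp
        (PiLp.continuous_toLp 2 _)).enorm).measurable
    rw [List.toFinset_cons, lmarginal_insert _ hm (by simpa using hl.1)]
    refine (embeda_line hK hf h x i).trans (lintegral_mono fun t => ?_)
    exact ih hl.2 (D_sm contDiff_const i hf) (embeda_D_zero _ hK.isClosed i h) _

theorem embeda_int {K : Set (A 4)} (hK : IsCompact K) {f : A 4 → E} (hf : ContDiff ℝ ∞ f)
    (h : ∀ p, p ∉ K → f p = 0) (p : A 4) :
    ‖f p‖ ≤ ∫ y in K, ‖embeda_Dl (fun _ => ContinuousLinearMap.id ℝ (A 4)) [0, 1, 2, 3] f y‖ := by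
  have h1 := embeda_marg hK [0, 1, 2, 3] (by decide) hf h p.ofLp
  have e : ([0, 1, 2, 3] : List (Fin 4)).toFinset = Finset.univ := by decide
  rw [e, lmarginal_univ] at h1
  set g := embeda_Dl (fun _ => ContinuousLinearMap.id ℝ (A 4)) [0, 1, 2, 3] f with hg
  have hgc : Continuous g := (embeda_Dl_sm contDiff_const _ hf).continuous
  have hg0 : ∀ p, p ∉ K → g p = 0 := embeda_Dl_zero _ hK.isClosed _ h
  have h2 : ∫⁻ y : Fin 4 → ℝ, ‖g (WithLp.toLp 2 y)‖ₑ ∂(Measure.pi fun _ => volume)
      = ∫⁻ y, ‖g y‖ₑ :=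
    (PiLp.volume_preserving_toLp (Fin 4)).lintegral_comp (f := fun y => ‖g y‖ₑ)
      hgc.enorm.measurable
  have hi : Integrable g := hgc.integrable_of_hasCompactSupport (HasCompactSupport.intro hK hg0)
  simp only [] at h1
  rw [h2, ← ofReal_integral_norm_eq_lintegral_enorm hi, ← ofReal_norm,
    ENNReal.ofReal_le_ofReal_iff (integral_nonneg fun _ => norm_nonneg _)] at h1
  rw [setIntegral_eq_integral_of_forall_compl_eq_zero fun y hy => by rw [hg0 y hy, norm_zero]]
  exact h1

/-- Euclidean Sobolev embedding for functions supported in the ball: apply the fundamental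
theorem of calculus in the four coordinates (`f p = ∫_{y ≤ p} ∂₀∂₁∂₂∂₃ f`), or iterate the one
dimensional estimate; then Cauchy-Schwarz on the ball. -/
theorem ball_embed [CompleteSpace E] (p₀ : A 4) {r : ℝ} (hr : 0 < r) : ∃ C, 0 ≤ C ∧
    ∀ f : A 4 → E, ContDiff ℝ ∞ f → (∀ p, p ∉ Metric.closedBall p₀ r → f p = 0) →
      ∀ p, ‖f p‖ ≤ C * (ballBase p₀ r).Hn 1 4 f := by
  set B := ballBase p₀ r with hB
  refine ⟨B.L2 fun _ => (1 : ℝ), B.L2_nonneg _, fun f hf h p => ?_⟩
  have h1 := embeda_int (isCompact_closedBall p₀ r) hf h p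
  have h2 := embeda_L2_le B [0, 1, 2, 3] f
  have hgc : Continuous (embeda_Dl B.π [0, 1, 2, 3] f) := (embeda_Dl_sm B.π_sm _ hf).continuous
  have h3 := B.integral_norm_mul_le (B.memLp_cont hgc 2)
    (B.memLp_cont (continuous_const (y := (1 : ℝ))) 2)
  have h4 := B.Hs_le_Hn (t := 1) zero_le_one (le_refl 4) f
  rw [one_pow, one_mul] at h4
  simp only [norm_one, mul_one] at h3
  calc ‖f p‖ ≤ _ := h1
    _ ≤ _ := h3
    _ ≤ B.Hn 1 4 f * B.L2 fun _ => (1 : ℝ) :=
      mul_le_mul_of_nonneg_right (h2.trans h4) (B.L2_nonneg _)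
    _ = _ := mul_comm _ _

end Crest.Agent.R240
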