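import Crest.Agent.R240.Dens

/-! Row 240: the smoothed current is a limit of exact forms; the terms of the energy identity
involving `φ`. -/

set_option autoImplicit false

open scoped ContDiff RealInnerProductSpace Topology
open MeasureTheory Set Filter

noncomputable section

namespace Crest.Agent.R240

variable {N k : ℕ} {G : Geo N}

theorem energy_int_inner {α H : Type} [MeasurableSpace α] {μ : Measure α} [NormedAddCommGroup H]
    [InnerProductSpace ℝ H] {u v : α → H} (hu : MemLp u 2 μ) (hv : MemLp v 2 μ) :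
    Integrable (fun x => ⟪u x, v x⟫) μ :=
  (hu.norm.integrable_mul hv.norm).mono' (hu.1.inner hv.1)
    (Eventually.of_forall fun _ => norm_inner_le_norm _ _)

theorem energy_d1_smul (c : ℝ) {ζ : A N → A N} (h : ContDiff ℝ ∞ ζ) (x : A N) :
    d1 (fun y => c • ζ y) x = c • d1 ζ x := by
  ext p
  simp only [d1, fderiv_fun_const_smul (h.differentiable (by simp) x), PiLp.smul_apply,
    smul_apply]

/-- the tangential parts of exact forms -/
def energyZ (G : Geo N) : Submodule ℝ (A N → E2 N) where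
  carrier := {z | ∃ ζ : A N → A N, ContDiff ℝ ∞ ζ ∧ z = fun x => G.Pt x (d1 ζ x)}
  add_mem' := by
    rintro _ _ ⟨ζ, h, rfl⟩ ⟨ζ', h', rfl⟩
    refine ⟨fun y => ζ y + ζ' y, h.add h', funext fun x => ?_⟩
    rw [d1_add h h', map_add, Pi.add_apply]
  zero_mem' := by
    refine ⟨fun y => (0 : ℝ) • (0 : A N), contDiff_const, funext fun x => ?_⟩
    rw [energy_d1_smul 0 contDiff_const, zero_smul, map_zero, Pi.zero_apply]
  smul_mem' := by
    rintro c _ ⟨ζ, h, rfl⟩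
    refine ⟨fun y => c • ζ y, h.const_smul c, funext fun x => ?_⟩
    rw [energy_d1_smul c h, map_smul, Pi.smul_apply]

theorem energy_Op_tan (Q : KData G) (t : ℝ) (w : A N → E2 N) :
    Op G.m Q.K t (fun x => ContinuousLinearMap.adjoint (G.Pt x) (w x)) = Op G.m Q.K t w := by
  funext y
  refine integral_congr_ae ?_
  filter_upwards [G.B.ae_mem] with x hx
  simp only [kerAt, smul_apply]
  rw [Q.K_tan x hx]

theorem energy_ker_zero (Q : KData G) {E : Type} [NormedAddCommGroup E] [NormedSpace ℝ E]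
    (b : A N → E →L[ℝ] E2 N) {x : A N} (hx : x ∈ G.S) (w : A N) :
    sandwich G.Pm Q.K (fun x => ContinuousLinearMap.adjoint (G.Pp x) ∘L b x) (0, x, w) = 0 := by
  ext1 B
  simp only [sandwich, zero_smul, add_zero, ContinuousLinearMap.comp_apply, Q.lead x hx,
    smul_apply, map_smul, Pre.Pm_volL_Pp hx, smul_zero,
    zero_apply]

theorem energy_ball_le : ∃ C, 0 ≤ C ∧ ∀ (u : A N → E2 N) (y : A N) (r a : ℝ), 0 ≤ r → 0 ≤ a →
    (∀ x ∈ G.S, ‖x - y‖ ≤ r → ‖u x‖ ≤ a) →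
    ∫ x in Metric.closedBall y r, ‖u x‖ ∂G.m ≤ a * (C * r ^ 4) := by
  obtain ⟨C, hC, h⟩ := G.vol_le
  refine ⟨C, hC.le, fun u y r a hr ha hu => ?_⟩
  refine le_trans ((le_abs_self _).trans ?_) (mul_le_mul_of_nonneg_left (h y r hr) ha)
  rw [← Real.norm_eq_abs]
  refine norm_setIntegral_le_of_norm_le_const_ae' (measure_lt_top _ _) ?_
  filter_upwards [G.B.ae_mem] with x hx hxy
  rw [norm_norm]
  exact hu x hx (by rwa [Metric.mem_closedBall, dist_eq_norm] at hxy)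

namespace Dual
variable (P : Dual G k) (Q : KData G)

theorem energy_phi_Pm {u : A N → E2 N} (hu : ContDiff ℝ ∞ u) :
    P.φ (fun y => G.Pm y (u y)) = P.φ u :=
  P.φ_congr _ _ (G.Pm_sm.clm_apply hu) hu fun _ hx => Pre.Pm_Pm hx _

theorem energy_pair {t : ℝ} {g : A N → E2 N} (hg : P.IsPhi Q t g) {f : A N × A N → ℝ}
    (hf : IsWt f) {w : A N → E2 N} (hw : MemLp w 2 G.m) :
    ∫ x, ⟪P.Psm Q f t x + g x, w x⟫ ∂G.m =
      ∫ z, f z * G.fv (Op G.m Q.K t w) z ∂P.V + P.φ (Op G.m Q.K t w) := by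
  have h1 : MemLp (P.Psm Q f t) 2 G.m := G.B.memLp_cont (P.Psm_sm Q hf t).continuous 2
  simp only [inner_add_left]
  rw [integral_add (energy_int_inner h1 hw) (energy_int_inner hg.1 hw),
    P.integral_inner_Psm Q hf t hw, hg.2 w hw]

/-- `φ_bd`, `Hn_one_le`, `Hn_Op_le`, `Base.exists_rep_memLp` -/
theorem exists_isPhi {t : ℝ} (ht : 0 < t) (ht1 : t ≤ 1) : ∃ g, P.IsPhi Q t g := by
  obtain ⟨C, hC⟩ := P.φ_bd
  obtain ⟨C', -, hC'⟩ := G.Hn_Op_le Q.ker k
  refine G.B.exists_rep_memLp (fun w => P.φ (Op G.m Q.K t w)) (fun u v hu hv => ?_)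
    (fun s u _ => ?_) (a := |C| * (C' / t ^ k)) fun u hu => ?_
  · rw [G.Op_add Q.ker t (G.integrable_of_memLp hu) (G.integrable_of_memLp hv)]
    exact map_add P.φ _ _
  · rw [G.Op_smul]
    exact map_smul P.φ s _
  · have h1 := hC _ (G.Op_sm Q.ker t (G.integrable_of_memLp hu))
    have h2 := (G.B.Hn_one_le ht ht1 k (Op G.m Q.K t u)).trans (hC' t ht ht1 u hu)
    have h3 : G.B.Hn 1 k (Op G.m Q.K t u) ≤ C' / t ^ k * G.B.L2 u := by
      rw [div_mul_eq_mul_div, le_div_iff₀ (pow_pos ht k), mul_comm]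
      exact h2
    refine h1.trans ((mul_le_mul_of_nonneg_right (le_abs_self C)
      (G.B.Hn_nonneg zero_le_one k _)).trans ?_)
    rw [mul_assoc]
    exact mul_le_mul_of_nonneg_left h3 (abs_nonneg C)

/-- `γ = Psm 1 t + g` satisfies `∫ ⟪γ, w⟫ = ∫ fv (Op w) dV + φ (Op w)`, which vanishes if `w` is
orthogonal to all `Pt (d1 ζ)` (`Q.closed`, `P.closed`); so `γ` is an `L²` limit of forms
`Pt (d1 ζ)` (`Base.exists_approx_of_orth`). For such a form, by `st_Pt`,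
`∫ ⟪st (d1 ζ), Psm (f j) t + g⟫ = ∫ f j * fv (Op (st d1 ζ)) dV + φ (Op (st d1 ζ))`, equal to the
same expression for `d1 ζ'` (`Q.exact`, `fv_congr`, `φ_congr`), which tends to zero; and
`Psm (f j) t + g` is bounded in `L²` uniformly in `j` (`norm_Psm_le`, `dens_le`). -/
theorem lemmaX {t : ℝ} (ht : 0 < t) (ht₀ : t ≤ Q.t₀) {g : A N → E2 N} (hg : P.IsPhi Q t g)
    {f : ℕ → A N × A N → ℝ} (hf : ∀ j, IsWt (f j))
    (h : ∀ ζ : A N → A N, ContDiff ℝ ∞ ζ →
      Tendsto (fun j => ∫ z, f j z * G.fv (d1 ζ) z ∂P.V + P.φ (d1 ζ)) atTop (𝓝 0)) :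
    Tendsto (fun j => ∫ x, ⟪G.st x (P.Psm Q (fun _ => 1) t x + g x), P.Psm Q (f j) t x + g x⟫ ∂G.m)
      atTop (𝓝 0) := by
  have ht1 : t ≤ 1 := ht₀.trans Q.t₀_le
  have hm : ∀ {f : A N × A N → ℝ}, IsWt f → MemLp (fun x => P.Psm Q f t x + g x) 2 G.m :=
    fun hf => (G.B.memLp_cont (P.Psm_sm Q hf t).continuous 2).add hg.1
  have hZ : ∀ z ∈ energyZ G, MemLp z 2 G.m := by
    rintro _ ⟨ζ, hζ, rfl⟩
    exact G.B.memLp_cont (G.Pt_sm.clm_apply (contDiff_d1 hζ)).continuous 2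
  obtain ⟨M, hM0, hM⟩ : ∃ M, 0 ≤ M ∧ ∀ j, G.B.L2 (fun x => P.Psm Q (f j) t x + g x) ≤ M := by
    obtain ⟨C, hC0, hC⟩ := P.L2_Psm_le Q
    have hDB : P.DB t (1 / t ^ 2) := fun x ρ hρ => (P.dens_le x ρ).trans
      (one_div_le_one_div_of_le (pow_pos ht 2) (pow_le_pow_left₀ ht.le hρ 2))
    refine ⟨C * √(1 / t ^ 2) / t + G.B.L2 g, add_nonneg (by positivity) (G.B.L2_nonneg g),
      fun j => (G.B.L2_add_le (G.B.memLp_cont (P.Psm_sm Q (hf j) t).continuous 2) hg.1).trans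
        (add_le_add ?_ le_rfl)⟩
    rw [le_div_iff₀ ht, mul_comm]
    exact (hC t _ ht ht1 (by positivity) hDB _ (hf j)).1
  obtain ⟨B, hB⟩ := G.cpt.exists_bound_of_continuousOn G.st_sm.continuous.continuousOn
  rw [Metric.tendsto_nhds]
  intro ε hε
  have hδ : 0 < ε / (2 * (|B| * M + 1)) := by positivity
  obtain ⟨_, ⟨ζ, hζ, rfl⟩, hz⟩ := G.B.exists_approx_of_orth (energyZ G) hZ (hm isWt_one)
    (fun w hw h0 => by
      have h1 := P.closed _ (G.Op_sm Q.ker t (G.integrable_of_memLp hw))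
        (Q.closed t ht ht₀ w hw fun ζ hζ => h0 _ ⟨ζ, hζ, rfl⟩)
      have h2 := P.energy_pair Q hg isWt_one hw
      simp only [one_mul] at h2
      exact h2.trans h1) hδ
  obtain ⟨ζ', hζ', e⟩ := Q.exact t ht ht₀ ζ hζ
  have hw : MemLp (fun x => G.st x (d1 ζ x)) 2 G.m :=
    G.B.memLp_cont (G.st_sm.clm_apply (contDiff_d1 hζ)).continuous 2
  have hd : MemLp (fun x => (P.Psm Q (fun _ => 1) t x + g x) - G.Pt x (d1 ζ x)) 2 G.m :=
    (hm isWt_one).sub (hZ _ ⟨ζ, hζ, rfl⟩)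
  have hd' : MemLp (fun x => G.st x ((P.Psm Q (fun _ => 1) t x + g x) - G.Pt x (d1 ζ x))) 2 G.m :=
    G.B.memLp_clm_apply G.st_sm.continuous hd
  have hL : G.B.L2 (fun x => G.st x ((P.Psm Q (fun _ => 1) t x + g x) - G.Pt x (d1 ζ x))) ≤
      |B| * (ε / (2 * (|B| * M + 1))) :=
    (G.B.L2_le_mul hd'.1 hd (abs_nonneg B) fun x hx => ((G.st x).le_opNorm _).trans
      (mul_le_mul_of_nonneg_right ((hB x hx).trans (le_abs_self B)) (norm_nonneg _))).trans
      (mul_le_mul_of_nonneg_left hz (abs_nonneg B))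
  filter_upwards [Metric.tendsto_nhds.1 (h ζ' hζ') (ε / 2) (half_pos hε)] with j hj
  have e1 : ∫ x, ⟪G.st x (P.Psm Q (fun _ => 1) t x + g x), P.Psm Q (f j) t x + g x⟫ ∂G.m =
      ∫ x, ⟪G.st x ((P.Psm Q (fun _ => 1) t x + g x) - G.Pt x (d1 ζ x)),
        P.Psm Q (f j) t x + g x⟫ ∂G.m +
      ∫ x, ⟪P.Psm Q (f j) t x + g x, G.st x (d1 ζ x)⟫ ∂G.m := by
    rw [← integral_add (energy_int_inner hd' (hm (hf j))) (energy_int_inner (hm (hf j)) hw)]
    refine integral_congr_ae ?_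
    filter_upwards [G.B.ae_mem] with x hx
    rw [map_sub, G.st_Pt hx, inner_sub_left, real_inner_comm (G.st x (d1 ζ x))]
    ring
  have e2 : ∫ x, ⟪P.Psm Q (f j) t x + g x, G.st x (d1 ζ x)⟫ ∂G.m =
      ∫ z, f j z * G.fv (d1 ζ') z ∂P.V + P.φ (d1 ζ') := by
    rw [P.energy_pair Q hg (hf j) hw]
    congr 1
    · refine integral_congr_ae ?_
      filter_upwards [P.ae_SM] with z hz
      rw [Pre.fv_congr (η' := d1 ζ')
        (fun y hy => by rw [← Pre.Pp_Pt hy, e y hy, Pre.Pp_Pt hy]) hz]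
    · exact P.φ_congr _ _ (G.Op_sm Q.ker t (G.integrable_of_memLp hw)) (contDiff_d1 hζ')
        fun y hy => by rw [← Pre.Pm_Pt hy, e y hy, Pre.Pm_Pt hy]
  have e3 := (G.B.abs_integral_inner_le hd' (hm (hf j))).trans
    (mul_le_mul hL (hM j) (G.B.L2_nonneg _) (by positivity))
  have e4 : |B| * (ε / (2 * (|B| * M + 1))) * M ≤ ε / 2 := by
    rw [mul_right_comm, ← mul_div_assoc, div_le_div_iff₀ (by positivity) two_pos]
    nlinarith
  rw [Real.dist_eq, sub_zero] at hj ⊢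
  rw [e1, e2]
  exact (abs_add_le _ _).trans_lt
    ((add_lt_add_of_le_of_lt (e3.trans e4) hj).trans_eq (add_halves ε))

/-- `K_tan` gives `∫ ⟪g - Pt g, w⟫ = 0` for all `w`, so `g = Pt g` a.e.;
`∫ ⟪Pp g, w⟫ = φ (Op K t (Pp† w)) = φ (Op (sandwich Pm K Pp†) t w)` and this kernel vanishes at
`t = 0` (`lead`, `Pm_volL_Pp`), so `L2 (Pp g) ≤ C t n` (`Hn_Op_le₀`, `L2_le_of_forall`);
conclude with `st_lower`. -/
theorem energy_phi : ∃ c C, 0 < c ∧ 0 ≤ C ∧ ∀ t n g, 0 < t → t ≤ 1 → 0 ≤ n → P.Bd t n →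
    P.IsPhi Q t g → c * G.B.L2 g ^ 2 - C * (t * n) ^ 2 ≤ ∫ x, ⟪G.st x (g x), g x⟫ ∂G.m := by
  obtain ⟨c, C, hc, hC, hst⟩ := G.st_lower
  have hb : ContDiff ℝ ∞ fun x => ContinuousLinearMap.adjoint (G.Pp x) ∘L
      ContinuousLinearMap.id ℝ (E2 N) := (contDiff_adjoint G.Pp_sm).clm_comp contDiff_const
  obtain ⟨C', hC', hop⟩ := G.Hn_Op_le₀ (Q.ker.sandwich G.Pm_sm hb)
    (fun x hx w => energy_ker_zero Q _ hx w) (k + 1)
  refine ⟨c, C * C' ^ 2, hc, by positivity, fun t n g ht ht1 hn hbd hg => ?_⟩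
  have hPt : MemLp (fun x => G.Pt x (g x)) 2 G.m := G.B.memLp_clm_apply G.Pt_sm.continuous hg.1
  have hPp : MemLp (fun x => G.Pp x (g x)) 2 G.m := G.B.memLp_clm_apply G.Pp_sm.continuous hg.1
  have h1 : G.B.L2 g ≤ G.B.L2 fun x => G.Pt x (g x) := by
    refine G.B.L2_le_of_forall hg.1 (G.B.L2_nonneg _) fun w hw => ?_
    have hw' : MemLp (fun x => ContinuousLinearMap.adjoint (G.Pt x) (w x)) 2 G.m :=
      G.B.memLp_clm_apply (contDiff_adjoint G.Pt_sm).continuous hw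
    have e := hg.2 _ hw'
    rw [energy_Op_tan, hg.2 w hw] at e
    simp only [ContinuousLinearMap.adjoint_inner_right] at e
    exact (congrArg abs e).trans_le (G.B.abs_integral_inner_le hPt hw)
  have h2 : (G.B.L2 fun x => G.Pp x (g x)) ≤ C' * (t * n) := by
    refine G.B.L2_le_of_forall hPp (by positivity) fun w hw => ?_
    have hw' : MemLp (fun x => ContinuousLinearMap.adjoint (G.Pp x) (w x)) 2 G.m :=
      G.B.memLp_clm_apply (contDiff_adjoint G.Pp_sm).continuous hw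
    have e := hg.2 _ hw'
    simp only [ContinuousLinearMap.adjoint_inner_right] at e
    rw [← P.energy_phi_Pm (G.Op_sm Q.ker t (G.integrable_of_memLp hw'))] at e
    have e' : (fun y => G.Pm y
        (Op G.m Q.K t (fun x => ContinuousLinearMap.adjoint (G.Pp x) (w x)) y)) =
        Op G.m (sandwich G.Pm Q.K fun x => ContinuousLinearMap.adjoint (G.Pp x) ∘L
          ContinuousLinearMap.id ℝ (E2 N)) t w :=
      funext fun y => (G.Op_sandwich Q.ker G.Pm hb.continuous ht.ne'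
        (G.integrable_of_memLp hw) y).symm
    rw [e'] at e
    refine (congrArg abs e.symm).trans_le ((hbd _ (G.Op_sm (Q.ker.sandwich G.Pm_sm hb) t
      (G.integrable_of_memLp hw))).trans ?_)
    exact (mul_le_mul_of_nonneg_left (hop t ht ht1 w hw) hn).trans_eq (by ring)
  have h3 : c * G.B.L2 (fun x => G.Pt x (g x)) ^ 2 - C * G.B.L2 (fun x => G.Pp x (g x)) ^ 2 ≤
      ∫ x, ⟪G.st x (g x), g x⟫ ∂G.m := by
    have i1 : Integrable (fun x => c * ‖G.Pt x (g x)‖ ^ 2) G.m := hPt.norm.integrable_sq.const_mul c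
    have i2 : Integrable (fun x => C * ‖G.Pp x (g x)‖ ^ 2) G.m := hPp.norm.integrable_sq.const_mul C
    rw [G.B.L2_sq hPt, G.B.L2_sq hPp, ← integral_const_mul, ← integral_const_mul]
    refine (integral_sub i1 i2).symm.trans_le (integral_mono_ae (i1.sub i2)
      (energy_int_inner (G.B.memLp_clm_apply G.st_sm.continuous hg.1) hg.1) ?_)
    filter_upwards [G.B.ae_mem] with x hx using hst x hx (g x)
  have h4 := mul_le_mul_of_nonneg_left (pow_le_pow_left₀ (G.B.L2_nonneg _) h1 2) hc.le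
  have h5 := mul_le_mul_of_nonneg_left (pow_le_pow_left₀ (G.B.L2_nonneg _) h2 2) hC
  rw [mul_pow, ← mul_assoc] at h5
  linarith

/-- `W y = Pm y (Op K t (st (Psm f t)) y)`. By `K_tan` and `Pm_add_Pp` it is the sum of
`Op (sandwich Pm K Pp†) t (st Psm)` (kernel vanishing at `t = 0`) and
`Op (sandwich Pm K 1) t (Pm† st Psm)`, where `Pm† st = st Pm` on `S` (`adjoint_Pm_st`). Use
`Hn_Op_le₀`, `Hn_Op_le`, `L2_Psm_le`; and `norm_Op_le`, `IsKer.bound₀`, `norm_Psm_le`,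
`dens_le_of_subset`, `vol_le` for the pointwise bound. -/
theorem energy_cross : ∃ C, 0 ≤ C ∧ ∀ t f, 0 < t → t ≤ 1 → IsWt f → ∃ W : A N → E2 N,
    ContDiff ℝ ∞ W ∧
    (∀ g, P.IsPhi Q t g → ∫ x, ⟪G.st x (P.Psm Q f t x), g x⟫ ∂G.m = P.φ W) ∧
    (∀ Θ, 0 ≤ Θ → P.DB t Θ → G.B.Hn t (k + 1) W ≤ C * √Θ) ∧
    ∀ y ∈ G.S, ‖W y‖ ≤ C * (P.dens y (2 * Q.R * t) / t) := by
  have hb : ContDiff ℝ ∞ fun x => ContinuousLinearMap.adjoint (G.Pp x) ∘L G.st x :=
    (contDiff_adjoint G.Pp_sm).clm_comp G.st_sm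
  have k1 := Q.ker.sandwich G.Pm_sm G.st_sm
  have k2 := Q.ker.sandwich G.Pm_sm hb
  obtain ⟨C₁, hC₁, op1⟩ := G.Hn_Op_le k1 (k + 1)
  obtain ⟨C₂, hC₂, op2⟩ := G.Hn_Op_le₀ k2 (fun x hx w => energy_ker_zero Q _ hx w) (k + 1)
  obtain ⟨B₁, hB₁, b1⟩ := k1.bound G.cpt
  obtain ⟨B₂, hB₂, b2⟩ := k2.bound₀ G.cpt fun x hx w => energy_ker_zero Q _ hx w
  obtain ⟨C₃, hC₃, l2⟩ := P.L2_Psm_le Q
  obtain ⟨C₄, hC₄, pt⟩ := P.norm_Psm_le Q
  obtain ⟨C₅, hC₅, vol⟩ := energy_ball_le (G := G)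
  have hR : 0 < Q.R := one_pos.trans_le Q.one_le_R
  refine ⟨(C₁ + C₂) * C₃ + (B₁ + B₂) * (4 * C₄ * C₅ * Q.R ^ 4), by positivity,
    fun t f ht ht1 hf => ?_⟩
  have s0 := P.Psm_sm Q hf t
  have m0 : MemLp (P.Psm Q f t) 2 G.m := G.B.memLp_cont s0.continuous 2
  have m1 : MemLp (fun x => G.Pm x (P.Psm Q f t x)) 2 G.m :=
    G.B.memLp_clm_apply G.Pm_sm.continuous m0
  have m2 : MemLp (fun x => G.st x (P.Psm Q f t x)) 2 G.m :=
    G.B.memLp_clm_apply G.st_sm.continuous m0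
  have i0 := G.integrable_of_memLp m0
  have i1 := G.integrable_of_memLp m1
  have s1 := G.Op_sm k1 t i1
  have s2 := G.Op_sm k2 t i0
  refine ⟨fun y => Op G.m (sandwich G.Pm Q.K G.st) t (fun x => G.Pm x (P.Psm Q f t x)) y +
    Op G.m (sandwich G.Pm Q.K fun x => ContinuousLinearMap.adjoint (G.Pp x) ∘L G.st x) t
      (P.Psm Q f t) y, s1.add s2, fun g hg => ?_, fun Θ hΘ hDB => ?_, fun y hy => ?_⟩
  · have e1 : ∫ x, ⟪G.st x (P.Psm Q f t x), g x⟫ ∂G.m =
        ∫ x, ⟪g x, G.st x (P.Psm Q f t x)⟫ ∂G.m := by simp only [real_inner_comm]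
    rw [e1, ← hg.2 _ m2, ← P.energy_phi_Pm (G.Op_sm Q.ker t (G.integrable_of_memLp m2))]
    congr 1
    funext y
    rw [G.Op_sandwich Q.ker G.Pm G.st_sm.continuous ht.ne' i1,
      G.Op_sandwich Q.ker G.Pm hb.continuous ht.ne' i0, ← map_add]
    congr 1
    have e2 := congrFun (G.Op_add Q.ker t
      (G.integrable_of_memLp (G.B.memLp_clm_apply G.st_sm.continuous m1))
      (G.integrable_of_memLp (G.B.memLp_clm_apply hb.continuous m0))) y
    refine Eq.trans (congrFun (G.Op_congr_ae _ _ ?_) y) e2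
    filter_upwards [G.B.ae_mem] with x hx
    have e3 : G.Pt x = G.Pm x + G.Pp x := by
      ext1 η
      exact (G.Pm_add_Pp x η).symm
    have e4 := G.adjoint_Pt_st hx (P.Psm Q f t x)
    rw [e3, map_add, add_apply, G.adjoint_Pm_st hx] at e4
    exact e4.symm
  · obtain ⟨a1, a2⟩ := l2 t Θ ht ht1 hΘ hDB f hf
    have a3 := (op1 t ht ht1 _ m1).trans (mul_le_mul_of_nonneg_left a2 hC₁)
    have a4 := op2 t ht ht1 _ m0
    rw [mul_assoc] at a4
    have a5 := a4.trans (mul_le_mul_of_nonneg_left a1 hC₂)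
    have a6 : 0 ≤ (B₁ + B₂) * (4 * C₄ * C₅ * Q.R ^ 4) * √Θ := by positivity
    refine (G.B.Hn_add_le ht.le _ s1 s2).trans ?_
    linarith
  · have hd := P.dens_nonneg y (2 * Q.R * t)
    have hdens : ∀ x, ‖x - y‖ ≤ Q.R * t → P.dens x (Q.R * t) ≤ 4 * P.dens y (2 * Q.R * t) := by
      intro x hx
      refine (P.dens_le_of_subset (y := y) (ρ := 2 * Q.R * t) (by positivity)
        (by linarith)).trans_eq ?_
      congr 1
      field_simp
      norm_num
    have a1 := (G.norm_Op_le k1 ht (b1 t ht.le ht1) i1 y).trans (mul_le_mul_of_nonneg_left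
      (vol _ y _ (C₄ * (4 * P.dens y (2 * Q.R * t) / t)) (by positivity) (by positivity)
        fun x hx hxy => (pt t ht ht1 f hf x hx).2.trans (by gcongr; exact hdens x hxy))
      (by positivity))
    have a2 := (G.norm_Op_le k2 ht (b2 t ht.le ht1) i0 y).trans (mul_le_mul_of_nonneg_left
      (vol _ y _ (C₄ * (4 * P.dens y (2 * Q.R * t) / t ^ 2)) (by positivity) (by positivity)
        fun x hx hxy => (pt t ht ht1 f hf x hx).1.trans (by gcongr; exact hdens x hxy))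
      (by positivity))
    have a3 : 0 ≤ (C₁ + C₂) * C₃ * (P.dens y (2 * Q.R * t) / t) := by positivity
    refine (norm_add_le _ _).trans ((add_le_add a1 a2).trans ?_)
    rw [add_mul ((C₁ + C₂) * C₃)]
    refine le_add_of_nonneg_of_le a3 (le_of_eq ?_)
    field_simp

end Dual

end Crest.Agent.R240
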