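import Crest.Agent.R240.Energy

/-! Row 240: the energy inequalities. -/

set_option autoImplicit false

open scoped ContDiff RealInnerProductSpace Topology
open MeasureTheory Set Filter

noncomputable section

namespace Crest.Agent.R240

variable {N k : ℕ} {G : Geo N}

theorem energy2_integrable_cpt {α E : Type} [PseudoMetricSpace α] [T2Space α] [MeasurableSpace α]
    [OpensMeasurableSpace α] [SecondCountableTopology α] [NormedAddCommGroup E] {μ : Measure α}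
    [IsFiniteMeasure μ] {K : Set α} (hK : IsCompact K) (hμ : ∀ᵐ x ∂μ, x ∈ K) {f : α → E}
    (hf : Continuous f) : Integrable f μ := by
  have h := hf.continuousOn.integrableOn_compact (μ := μ) hK
  rwa [IntegrableOn, Measure.restrict_eq_self_of_ae_mem hμ] at h

theorem energy2_integrable_inner {u v : A N → E2 N} (hu : MemLp u 2 G.m) (hv : MemLp v 2 G.m) :
    Integrable (fun x => ⟪G.st x (u x), v x⟫) G.m := by
  have h1 : MemLp (fun x => G.st x (u x)) 2 G.m := G.B.memLp_clm_apply G.st_sm.continuous hu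
  refine (h1.norm.integrable_mul hv.norm).mono' (h1.1.inner hv.1) (Eventually.of_forall fun x => ?_)
  exact norm_inner_le_norm _ _

theorem energy2_expand {u v g : A N → E2 N} (hu : MemLp u 2 G.m) (hv : MemLp v 2 G.m)
    (hg : MemLp g 2 G.m) : ∫ x, ⟪G.st x (u x + g x), v x + g x⟫ ∂G.m =
      ∫ x, ⟪G.st x (u x), v x⟫ ∂G.m + ∫ x, ⟪G.st x (u x), g x⟫ ∂G.m +
        ∫ x, ⟪G.st x (v x), g x⟫ ∂G.m + ∫ x, ⟪G.st x (g x), g x⟫ ∂G.m := by
  have h1 := energy2_integrable_inner hu hv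
  have h2 := energy2_integrable_inner hu hg
  have h3 := energy2_integrable_inner hv hg
  have h4 := energy2_integrable_inner hg hg
  have h5 := integral_add ((h1.add h2).add h3) h4
  have h6 := integral_add (h1.add h2) h3
  simp only [Pi.add_apply] at h5 h6
  rw [← integral_add h1 h2, ← h6, ← h5]
  refine integral_congr_ae ?_
  filter_upwards [G.B.ae_mem] with x hx
  simp only [map_add, inner_add_left, inner_add_right, G.st_symm hx (g x) (v x)]
  ring

/-- the smoothing of a single complex line -/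
def energy2_a (Q : KData G) (t : ℝ) (x : A N) (z : A N × A N) : E2 N :=
  ContinuousLinearMap.adjoint (kerAt Q.K t x z.1) (G.Lb z)

theorem energy2_a_cont (Q : KData G) (t : ℝ) :
    Continuous fun p : A N × A N × A N => energy2_a Q t p.1 p.2 := by
  have h1 : Continuous fun p : A N × A N × A N => kerAt Q.K t p.1 p.2.1 :=
    (Q.ker.kerAt_sm t).continuous.comp (f := fun p : A N × A N × A N => (p.1, p.2.1)) (by fun_prop)
  exact ((ContinuousLinearMap.adjoint (𝕜 := ℝ) (E := E2 N) (F := E2 N)).continuous.comp h1).clm_apply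
    (G.Lb_sm.continuous.comp continuous_snd)

theorem energy2_pair_cont (Q : KData G) (t : ℝ) :
    Continuous fun p : A N × (A N × A N) × A N × A N =>
      ⟪G.st p.1 (energy2_a Q t p.1 p.2.1), energy2_a Q t p.1 p.2.2⟫ :=
  ((G.st_sm.continuous.comp continuous_fst).clm_apply
    ((energy2_a_cont Q t).comp (f := fun p : A N × (A N × A N) × A N × A N => (p.1, p.2.1))
      (by fun_prop))).inner
    ((energy2_a_cont Q t).comp (f := fun p : A N × (A N × A N) × A N × A N => (p.1, p.2.2))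
      (by fun_prop))

/-- the interaction of two complex lines -/
theorem energy2_pair (Q : KData G) : ∃ c₁ C₁, 0 < c₁ ∧ 0 ≤ C₁ ∧ ∀ t, 0 < t → t ≤ Q.t₀ →
    ∀ z ∈ G.SM, ∀ z' ∈ G.SM,
      c₁ * t⁻¹ ^ 4 * (if ‖z.1 - z'.1‖ ≤ Q.c / 2 * t then G.gap z z' else 0) -
        C₁ * t⁻¹ ^ 2 * (if ‖z.1 - z'.1‖ ≤ 2 * Q.R * t then 1 else 0) ≤
      ∫ x, ⟪G.st x (energy2_a Q t x z), energy2_a Q t x z'⟫ ∂G.m := by
  obtain ⟨Cv, hCv, hvol⟩ := G.vol_le
  obtain ⟨cv, hcv, hvol'⟩ := G.vol_ge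
  obtain ⟨B, hB, hb⟩ := Q.ker₀.bound G.cpt
  have hc := Q.c_pos
  have hC := Q.C_pos
  have hR : 0 < Q.R := zero_lt_one.trans_le Q.one_le_R
  refine ⟨Q.c * (Q.c ^ 2 * (cv * (Q.c / 2) ^ 4)), Q.C * (B ^ 2 * (Cv * Q.R ^ 4)), by positivity,
    by positivity, fun t ht ht₀ z hz z' hz' => ?_⟩
  have ht1 : t ≤ 1 := ht₀.trans Q.t₀_le
  have hk : Continuous Q.k₀ :=
    Q.ker₀.sm.continuous.comp (f := fun q : A N × A N => ((0 : ℝ), q)) (by fun_prop)
  set κ : A N → ℝ := fun x => Q.k₀ (x, t⁻¹ • (z.1 - x)) * Q.k₀ (x, t⁻¹ • (z'.1 - x)) with hκ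
  have hκc : Continuous κ := by
    simp only [hκ]
    fun_prop
  have hκi : Integrable κ G.m := G.B.integrable_cont hκc
  have hκ0 : ∀ x, 0 ≤ κ x := fun x => mul_nonneg (Q.k₀_nonneg _) (Q.k₀_nonneg _)
  have hn : ∀ y x : A N, ‖t⁻¹ • (y - x)‖ = t⁻¹ * ‖y - x‖ := fun y x => by
    rw [norm_smul, Real.norm_of_nonneg (inv_nonneg.2 ht.le)]
  have hz0 : ∀ y x : A N, Q.R * t ≤ ‖y - x‖ → Q.k₀ (x, t⁻¹ • (y - x)) = 0 := fun y x h =>
    Q.ker₀.supp 0 x _ (by rw [hn, le_inv_mul_iff₀ ht, mul_comm]; exact h)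
  have h1 : t⁻¹ ^ 8 * (Q.c * G.gap z z' - Q.C * t ^ 2) * ∫ x, κ x ∂G.m ≤
      ∫ x, ⟪G.st x (energy2_a Q t x z), energy2_a Q t x z'⟫ ∂G.m := by
    rw [← integral_const_mul]
    refine integral_mono_ae (hκi.const_mul _) (G.B.integrable_cont
      ((energy2_pair_cont Q t).comp (f := fun x : A N => (x, z, z')) (by fun_prop))) ?_
    filter_upwards [G.B.ae_mem] with x hx
    have h2 := mul_le_mul_of_nonneg_left (Q.pos t ht ht₀ x hx z hz z' hz')
      (show 0 ≤ t⁻¹ ^ 8 by positivity)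
    simp only [energy2_a, kerAt, map_smulₛₗ, smul_apply, RCLike.conj_to_real,
      RingHom.id_apply, real_inner_smul_left, real_inner_smul_right, hκ]
    refine le_of_eq_of_le (by ring) (h2.trans_eq (by ring))
  have hup : ∫ x, κ x ∂G.m ≤ B ^ 2 * (Cv * Q.R ^ 4) * t ^ 4 *
      (if ‖z.1 - z'.1‖ ≤ 2 * Q.R * t then 1 else 0) := by
    split_ifs with h
    · have h2 : ∫ x, κ x ∂G.m ≤
          ∫ x, indicator (Metric.closedBall z'.1 (Q.R * t)) (fun _ => B ^ 2) x ∂G.m := by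
        refine integral_mono_ae hκi ((integrable_const _).indicator measurableSet_closedBall) ?_
        filter_upwards [G.B.ae_mem] with x hx
        by_cases hx' : x ∈ Metric.closedBall z'.1 (Q.R * t)
        · rw [indicator_of_mem hx', sq]
          exact mul_le_mul ((le_abs_self _).trans (hb 0 le_rfl zero_le_one x hx _))
            ((le_abs_self _).trans (hb 0 le_rfl zero_le_one x hx _)) (Q.k₀_nonneg _) hB
        · rw [indicator_of_notMem hx']
          rw [mem_closedBall_iff_norm', not_le] at hx'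
          simp only [hκ, hz0 _ _ hx'.le, mul_zero, le_refl]
      rw [integral_indicator_const _ measurableSet_closedBall, smul_eq_mul] at h2
      have h3 := hvol z'.1 (Q.R * t) (by positivity)
      calc ∫ x, κ x ∂G.m ≤ G.m.real (Metric.closedBall z'.1 (Q.R * t)) * B ^ 2 := h2
        _ ≤ Cv * (Q.R * t) ^ 4 * B ^ 2 := by gcongr
        _ = _ := by ring
    · rw [mul_zero]
      refine le_of_eq (integral_eq_zero_of_ae (Eventually.of_forall fun x => ?_))
      have h2 := norm_sub_le_norm_sub_add_norm_sub z.1 x z'.1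
      rw [norm_sub_rev x] at h2
      by_cases h3 : Q.R * t ≤ ‖z.1 - x‖
      · simp only [hκ, hz0 _ _ h3, zero_mul, Pi.zero_apply]
      · simp only [hκ, hz0 z'.1 x (by linarith), mul_zero, Pi.zero_apply]
  have hlow : Q.c ^ 2 * (cv * (Q.c / 2) ^ 4) * t ^ 4 *
      (if ‖z.1 - z'.1‖ ≤ Q.c / 2 * t then G.gap z z' else 0) ≤ G.gap z z' * ∫ x, κ x ∂G.m := by
    have hg := Pre.gap_nonneg (X := G.toPre) z z'
    split_ifs with h
    · have h2 : ∫ x, indicator (Metric.closedBall z'.1 (Q.c / 2 * t)) (fun _ => Q.c ^ 2) x ∂G.m ≤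
          ∫ x, κ x ∂G.m := by
        refine integral_mono_ae ((integrable_const _).indicator measurableSet_closedBall) hκi ?_
        filter_upwards [G.B.ae_mem] with x hx
        by_cases hx' : x ∈ Metric.closedBall z'.1 (Q.c / 2 * t)
        · rw [indicator_of_mem hx', sq]
          rw [mem_closedBall_iff_norm'] at hx'
          have h3 := norm_sub_le_norm_sub_add_norm_sub z.1 z'.1 x
          have h4 : 0 < Q.c / 2 * t := by positivity
          refine mul_le_mul (Q.k₀_ge x hx _ ?_) (Q.k₀_ge x hx _ ?_) hc.le (Q.k₀_nonneg _)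
          · rw [hn, inv_mul_le_iff₀ ht]
            linarith
          · rw [hn, inv_mul_le_iff₀ ht]
            linarith
        · rw [indicator_of_notMem hx']
          exact hκ0 x
      rw [integral_indicator_const _ measurableSet_closedBall, smul_eq_mul] at h2
      have h3 := hvol' z'.1 hz'.1 (Q.c / 2 * t) (by positivity) (by nlinarith [Q.c_le])
      calc _ = G.gap z z' * (cv * (Q.c / 2 * t) ^ 4 * Q.c ^ 2) := by ring
        _ ≤ G.gap z z' * (G.m.real (Metric.closedBall z'.1 (Q.c / 2 * t)) * Q.c ^ 2) := by gcongr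
        _ ≤ _ := by gcongr
    · rw [mul_zero]
      exact mul_nonneg hg (integral_nonneg hκ0)
  refine le_trans ?_ h1
  have h5 := mul_le_mul_of_nonneg_left hlow (show 0 ≤ t⁻¹ ^ 8 * Q.c by positivity)
  have h6 := mul_le_mul_of_nonneg_left hup (show 0 ≤ t⁻¹ ^ 8 * Q.C * t ^ 2 by positivity)
  refine le_of_eq_of_le ?_ ((sub_le_sub h5 h6).trans_eq (by ring))
  field_simp

namespace Dual
variable (P : Dual G k) (Q : KData G)

theorem energy2_ae : ∀ᵐ q ∂P.V.prod P.V, q ∈ G.SM ×ˢ G.SM := by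
  filter_upwards [Measure.quasiMeasurePreserving_fst.ae P.ae_SM,
    Measure.quasiMeasurePreserving_snd.ae P.ae_SM] with q h1 h2
  exact ⟨h1, h2⟩

theorem energy2_wt {α E : Type} [MeasurableSpace α] [NormedAddCommGroup E] [NormedSpace ℝ E]
    {μ : Measure α} {f : A N × A N → ℝ} (hf : IsWt f) {e : α → A N × A N} (he : Measurable e)
    {u : α → E} (hu : Integrable u μ) : Integrable (fun a => f (e a) • u a) μ := by
  refine hu.norm.mono' ((hf.meas.comp he).aestronglyMeasurable.smul hu.1)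
    (Eventually.of_forall fun a => ?_)
  rw [norm_smul, Real.norm_of_nonneg (hf.nonneg _)]
  exact mul_le_of_le_one_left (norm_nonneg _) (hf.le_one _)

/-- Fubini -/
theorem energy2_fubini (t : ℝ) {f : A N × A N → ℝ} (hf : IsWt f) :
    Integrable (fun q : (A N × A N) × A N × A N => f q.2 *
      ∫ x, ⟪G.st x (energy2_a Q t x q.1), energy2_a Q t x q.2⟫ ∂G.m) (P.V.prod P.V) ∧
    ∫ x, ⟪G.st x (P.Psm Q (fun _ => 1) t x), P.Psm Q f t x⟫ ∂G.m =
      ∫ q, f q.2 * ∫ x, ⟪G.st x (energy2_a Q t x q.1), energy2_a Q t x q.2⟫ ∂G.m ∂P.V.prod P.V := by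
  have h1 : Integrable (fun p : A N × (A N × A N) × A N × A N =>
      f p.2.2 * ⟪G.st p.1 (energy2_a Q t p.1 p.2.1), energy2_a Q t p.1 p.2.2⟫)
      (G.m.prod (P.V.prod P.V)) := by
    refine energy2_wt hf (e := fun p : A N × (A N × A N) × A N × A N => p.2.2) (by fun_prop)
      (energy2_integrable_cpt (G.cpt.prod (G.SM_compact.prod G.SM_compact)) ?_
        (energy2_pair_cont Q t))
    filter_upwards [Measure.quasiMeasurePreserving_fst.ae G.B.ae_mem,
      Measure.quasiMeasurePreserving_snd.ae P.energy2_ae] with p h1 h2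
    exact ⟨h1, h2⟩
  have h2 : ∀ x, ⟪G.st x (P.Psm Q (fun _ => 1) t x), P.Psm Q f t x⟫ = ∫ q, f q.2 *
      ⟪G.st x (energy2_a Q t x q.1), energy2_a Q t x q.2⟫ ∂P.V.prod P.V := by
    intro x
    have h3 : Integrable (energy2_a Q t x) P.V := P.integrable_cont
      ((energy2_a_cont Q t).comp (f := fun z : A N × A N => (x, z)) (by fun_prop))
    have h4 := integral_prod_bilin ((innerSL ℝ).comp (G.st x))
      (energy2_wt isWt_one measurable_id h3) (energy2_wt hf measurable_id h3)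
    refine Eq.trans h4.symm (integral_congr_ae (Eventually.of_forall fun q => ?_))
    simp
  constructor
  · simpa only [integral_const_mul] using h1.integral_prod_right
  · simp only [h2]
    rw [integral_integral_swap h1]
    simp only [integral_const_mul]

theorem energy2_far {r : ℝ} (hr : 0 < r) {f : A N × A N → ℝ} (hf : IsWt f) :
    Integrable (fun q : (A N × A N) × A N × A N =>
      f q.2 * if ‖q.1.1 - q.2.1‖ ≤ r then 1 else 0) (P.V.prod P.V) ∧
    ∫ q, f q.2 * (if ‖q.1.1 - q.2.1‖ ≤ r then 1 else 0) ∂P.V.prod P.V =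
      r ^ 2 * ∫ z, f z * P.dens z.1 r ∂P.V := by
  have hm : MeasurableSet {q : (A N × A N) × A N × A N | ‖q.1.1 - q.2.1‖ ≤ r} :=
    (isClosed_le (by fun_prop) continuous_const).measurableSet
  have h1 : Integrable (fun q : (A N × A N) × A N × A N =>
      f q.2 * if ‖q.1.1 - q.2.1‖ ≤ r then 1 else 0) (P.V.prod P.V) :=
    energy2_wt hf measurable_snd ((integrable_const (1 : ℝ)).indicator hm)
  refine ⟨h1, ?_⟩
  rw [integral_prod_symm _ h1, ← integral_const_mul]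
  refine integral_congr_ae (Eventually.of_forall fun z' => ?_)
  have hm' : MeasurableSet {z : A N × A N | z.1 ∈ Metric.closedBall z'.1 r} :=
    measurable_fst measurableSet_closedBall
  have h2 : ∫ z : A N × A N, (if ‖z.1 - z'.1‖ ≤ r then (1 : ℝ) else 0) ∂P.V =
      P.V.real {z | z.1 ∈ Metric.closedBall z'.1 r} := by
    rw [← integral_indicator_one hm']
    refine integral_congr_ae (Eventually.of_forall fun z => ?_)
    simp [indicator, dist_eq_norm]
  simp only [integral_const_mul, h2, dens]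
  field_simp

/-- Expand both smoothed currents: the integrand at `x` is
`∬ f z' * t⁻¹^8 ⟪st K† Lb z, K† Lb z'⟫ dV dV ≥ ∬ f z' t⁻¹^8 k₀ k₀' (c gap - C t²)` (`Q.pos`);
by Fubini, `∫ k₀ k₀' dm(x) ≤ C t⁴` and vanishes unless `‖z.1 - z'.1‖ ≤ 2 R t` (`vol_le`,
`IsKer.bound`), and it is `≥ c t⁴` if `‖z.1 - z'.1‖ ≤ Q.c t / 2` (`k₀_ge`, `vol_ge`). -/
theorem energy_PP : ∃ c c₁ C, 0 < c ∧ c ≤ 1 ∧ 0 < c₁ ∧ 0 ≤ C ∧ ∀ t, 0 < t → t ≤ Q.t₀ →
    (∀ f, IsWt f → -(C * ∫ z, f z * P.dens z.1 (2 * Q.R * t) ∂P.V) ≤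
      ∫ x, ⟪G.st x (P.Psm Q (fun _ => 1) t x), P.Psm Q f t x⟫ ∂G.m) ∧
    c₁ * P.tilt (c * t) - C * ∫ z, P.dens z.1 (2 * Q.R * t) ∂P.V ≤
      ∫ x, ⟪G.st x (P.Psm Q (fun _ => 1) t x), P.Psm Q (fun _ => 1) t x⟫ ∂G.m := by
  obtain ⟨c₁, C₁, hc₁, hC₁, h⟩ := energy2_pair Q
  have hc := Q.c_pos
  have hR : 0 < Q.R := zero_lt_one.trans_le Q.one_le_R
  refine ⟨Q.c / 2, c₁ * (Q.c / 2) ^ 4, C₁ * (2 * Q.R) ^ 2, by positivity, by linarith [Q.c_le],
    by positivity, by positivity, fun t ht ht₀ => ?_⟩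
  have hm : MeasurableSet {q : (A N × A N) × A N × A N | ‖q.1.1 - q.2.1‖ ≤ Q.c / 2 * t} :=
    (isClosed_le (by fun_prop) continuous_const).measurableSet
  have hgap : Integrable (fun q : (A N × A N) × A N × A N => G.gap q.1 q.2) (P.V.prod P.V) := by
    refine Integrable.of_bound G.measurable_gap.aestronglyMeasurable 4 ?_
    filter_upwards [P.energy2_ae] with q hq
    rw [Real.norm_of_nonneg (Pre.gap_nonneg _ _)]
    exact Pre.gap_le hq.1 hq.2
  have key : ∀ f, IsWt f → c₁ * t⁻¹ ^ 4 * ∫ q, f q.2 *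
      (if ‖q.1.1 - q.2.1‖ ≤ Q.c / 2 * t then G.gap q.1 q.2 else 0) ∂P.V.prod P.V -
      C₁ * (2 * Q.R) ^ 2 * ∫ z, f z * P.dens z.1 (2 * Q.R * t) ∂P.V ≤
      ∫ x, ⟪G.st x (P.Psm Q (fun _ => 1) t x), P.Psm Q f t x⟫ ∂G.m := by
    intro f hf
    obtain ⟨h1, h2⟩ := P.energy2_fubini Q t hf
    obtain ⟨h3, h4⟩ := P.energy2_far (show 0 < 2 * Q.R * t by positivity) hf
    have h5 : Integrable (fun q : (A N × A N) × A N × A N => f q.2 *
        if ‖q.1.1 - q.2.1‖ ≤ Q.c / 2 * t then G.gap q.1 q.2 else 0) (P.V.prod P.V) :=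
      energy2_wt hf measurable_snd (hgap.indicator hm)
    have h6 := integral_mono_ae ((h5.const_mul (c₁ * t⁻¹ ^ 4)).sub (h3.const_mul (C₁ * t⁻¹ ^ 2)))
      h1 (by
        filter_upwards [P.energy2_ae] with q hq
        exact le_of_eq_of_le (by simp only [Pi.sub_apply]; ring)
          (mul_le_mul_of_nonneg_left (h t ht ht₀ _ hq.1 _ hq.2) (hf.nonneg q.2)))
    simp only [Pi.sub_apply] at h6
    rw [integral_sub (h5.const_mul _) (h3.const_mul _), integral_const_mul, integral_const_mul,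
      h4, ← h2] at h6
    refine le_of_eq_of_le ?_ h6
    congr 1
    generalize ∫ z, f z * P.dens z.1 (2 * Q.R * t) ∂P.V = I
    field_simp
  refine ⟨fun f hf => le_trans ?_ (key f hf), ?_⟩
  · have h1 : 0 ≤ ∫ q, f q.2 *
        (if ‖q.1.1 - q.2.1‖ ≤ Q.c / 2 * t then G.gap q.1 q.2 else 0) ∂P.V.prod P.V :=
      integral_nonneg fun q => mul_nonneg (hf.nonneg _) (by
        split_ifs
        · exact Pre.gap_nonneg _ _
        · exact le_rfl)
    have h2 : 0 ≤ c₁ * t⁻¹ ^ 4 := by positivity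
    linarith [mul_nonneg h2 h1]
  · have h1 := key _ isWt_one
    simp only [one_mul] at h1
    refine le_of_eq_of_le ?_ h1
    rw [tilt, ← integral_indicator hm]
    simp only [indicator, mem_ofPred_eq]
    field_simp

/-- `lemmaX` with `f j = 1` (`P.closed`, `Closed_d1`), expanded with `st_symm` -/
theorem energyA : ∃ c C, 0 < c ∧ c ≤ 1 ∧ 0 ≤ C ∧ ∀ t n Θ g, 0 < t → t ≤ Q.t₀ → 0 ≤ n → 0 ≤ Θ →
    P.Bd t n → P.DB t Θ → P.IsPhi Q t g →
      G.B.L2 g ^ 2 + P.tilt (c * t) ≤ C * (Θ + n * √Θ + (t * n) ^ 2) := by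
  obtain ⟨c, c₁, C₁, hc, hc1, hc₁, hC₁, hPP⟩ := P.energy_PP Q
  obtain ⟨c₂, C₂, hc₂, hC₂, hphi⟩ := P.energy_phi Q
  obtain ⟨C₃, hC₃, hcross⟩ := P.energy_cross Q
  have hmin : 0 < min c₁ c₂ := lt_min hc₁ hc₂
  refine ⟨c, (C₁ + 2 * C₃ + C₂) / min c₁ c₂, hc, hc1, by positivity,
    fun t n Θ g ht ht₀ hn hΘ hB hD hg => ?_⟩
  have ht1 : t ≤ 1 := ht₀.trans Q.t₀_le
  have h1 := P.lemmaX Q ht ht₀ hg (f := fun _ _ => 1) (fun _ => isWt_one) fun ζ hζ => by
    simp only [one_mul, P.closed _ (contDiff_d1 hζ) (Pre.Closed_d1 hζ)]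
    exact tendsto_const_nhds
  have h2 := tendsto_nhds_unique tendsto_const_nhds h1
  have hu : MemLp (P.Psm Q (fun _ => 1) t) 2 G.m :=
    G.B.memLp_cont (P.Psm_sm Q isWt_one t).continuous 2
  rw [energy2_expand hu hu hg.1] at h2
  obtain ⟨W, hW, hW1, hW2, -⟩ := hcross t _ ht ht1 isWt_one
  rw [hW1 g hg] at h2
  have h3 := (abs_le.1 ((hB W hW).trans (mul_le_mul_of_nonneg_left (hW2 Θ hΘ hD) hn))).1
  have h4 := hphi t n g ht ht1 hn hB hg
  have h5 := (hPP t ht ht₀).2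
  have h6 : ∫ z, P.dens z.1 (2 * Q.R * t) ∂P.V ≤ Θ := by
    refine le_trans (integral_mono_of_nonneg (Eventually.of_forall fun z => P.dens_nonneg _ _)
      (integrable_const Θ) (Eventually.of_forall fun z => hD _ _ ?_)) (by simp)
    nlinarith [Q.one_le_R]
  have h7 := mul_le_mul_of_nonneg_left h6 hC₁
  have h8 := mul_le_mul_of_nonneg_right (min_le_left c₁ c₂) (P.tilt_nonneg (c * t))
  have h9 := mul_le_mul_of_nonneg_right (min_le_right c₁ c₂) (sq_nonneg (G.B.L2 g))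
  have a1 : 0 ≤ n * √Θ := by positivity
  have a2 : 0 ≤ (t * n) ^ 2 := by positivity
  rw [div_mul_eq_mul_div, le_div_iff₀ hmin]
  nlinarith [mul_nonneg hC₁ a1, mul_nonneg hC₁ a2, mul_nonneg hC₃ hΘ, mul_nonneg hC₃ a2,
    mul_nonneg hC₂ hΘ, mul_nonneg hC₂ a1]

/-- `lemmaX`, the cross terms being bounded by `|φ W| = |∫ ⟪gb, W⟫|` and the pointwise bound of
`energy_cross` -/
theorem energyB : ∃ C, 0 ≤ C ∧ ∀ t n B g gb (f : ℕ → A N × A N → ℝ), 0 < t → t ≤ Q.t₀ → 0 ≤ n →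
    P.Bd t n → P.IsPhi Q t g → P.Rep gb → (∀ j, IsWt (f j)) →
    (∀ ζ : A N → A N, ContDiff ℝ ∞ ζ →
      Tendsto (fun j => ∫ z, f j z * G.fv (d1 ζ) z ∂P.V + P.φ (d1 ζ)) atTop (𝓝 0)) →
    (∀ᶠ j in atTop, ∫ z, f j z * P.dens z.1 (2 * Q.R * t) ∂P.V ≤ B) →
      G.B.L2 g ^ 2 ≤
        C * (B + (t * n) ^ 2 + ∫ x, ‖gb x‖ * (P.dens x (2 * Q.R * t) / t) ∂G.m) := by
  obtain ⟨c, c₁, C₁, -, -, -, hC₁, hPP⟩ := P.energy_PP Q
  obtain ⟨c₂, C₂, hc₂, hC₂, hphi⟩ := P.energy_phi Q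
  obtain ⟨C₃, hC₃, hcross⟩ := P.energy_cross Q
  refine ⟨(C₁ + 2 * C₃ + C₂) / c₂, by positivity,
    fun t n B g gb f ht ht₀ hn hB hg hgb hf hlim hbd => ?_⟩
  have ht1 : t ≤ 1 := ht₀.trans Q.t₀_le
  set D := ∫ x, ‖gb x‖ * (P.dens x (2 * Q.R * t) / t) ∂G.m with hDdef
  have hD0 : 0 ≤ D := integral_nonneg fun x =>
    mul_nonneg (norm_nonneg _) (div_nonneg (P.dens_nonneg _ _) ht.le)
  have hB0 : 0 ≤ B := by
    obtain ⟨j, hj⟩ := hbd.exists
    exact (integral_nonneg fun z => mul_nonneg ((hf j).nonneg _) (P.dens_nonneg _ _)).trans hj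
  have hu : ∀ f, IsWt f → MemLp (P.Psm Q f t) 2 G.m := fun f hf =>
    G.B.memLp_cont (P.Psm_sm Q hf t).continuous 2
  have hcr : ∀ f, IsWt f → -(C₃ * D) ≤ ∫ x, ⟪G.st x (P.Psm Q f t x), g x⟫ ∂G.m := by
    intro f hf
    obtain ⟨W, hW, hW1, -, hW2⟩ := hcross t f ht ht1 hf
    rw [hW1 g hg, hgb.2 W hW, hDdef, ← integral_const_mul]
    refine (abs_le.1 ?_).1
    rw [← Real.norm_eq_abs]
    refine norm_integral_le_of_norm_le ((P.integrable_norm_mul_dens hgb.1 _ _).const_mul _) ?_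
    filter_upwards [G.B.ae_mem] with x hx
    refine (norm_inner_le_norm _ _).trans ?_
    exact (mul_le_mul_of_nonneg_left (hW2 x hx) (norm_nonneg _)).trans_eq (by ring)
  have h4 := hphi t n g ht ht1 hn hB hg
  have h1 : c₂ * G.B.L2 g ^ 2 - C₂ * (t * n) ^ 2 - C₁ * B - 2 * (C₃ * D) ≤ 0 := by
    refine ge_of_tendsto (P.lemmaX Q ht ht₀ hg hf hlim) ?_
    filter_upwards [hbd] with j hj
    rw [energy2_expand (hu _ isWt_one) (hu _ (hf j)) hg.1]
    linarith [(hPP t ht ht₀).1 _ (hf j), hcr _ isWt_one, hcr _ (hf j),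
      mul_le_mul_of_nonneg_left hj hC₁]
  have a2 : 0 ≤ (t * n) ^ 2 := by positivity
  rw [div_mul_eq_mul_div, le_div_iff₀ hc₂]
  nlinarith [mul_nonneg hC₁ hD0, mul_nonneg hC₁ a2, mul_nonneg hC₃ hB0, mul_nonneg hC₃ a2,
    mul_nonneg hC₂ hB0, mul_nonneg hC₂ hD0]

end Dual

end Crest.Agent.R240
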