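import Crest.Agent.R240.Vol
import Crest.Agent.R240.Param

/-! Row 240: integral operators with kernels concentrated at scale `t`. -/

set_option autoImplicit false

open scoped ContDiff RealInnerProductSpace Topology
open MeasureTheory Set Filter

noncomputable section

namespace Crest.Agent.R240

variable {N : ℕ} {F E E' E₁ E₂ : Type} [NormedAddCommGroup F] [NormedSpace ℝ F]
  [NormedAddCommGroup E] [NormedSpace ℝ E] [NormedAddCommGroup E'] [NormedSpace ℝ E']
  [NormedAddCommGroup E₁] [NormedSpace ℝ E₁] [NormedAddCommGroup E₂] [NormedSpace ℝ E₂]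

/-- the kernel `a(y) ∘ κ ∘ b(x)` with `y = x + t w` -/
def sandwich (a : A N → E' →L[ℝ] E₂) (κ : ℝ × A N × A N → E →L[ℝ] E') (b : A N → E₁ →L[ℝ] E) :
    ℝ × A N × A N → E₁ →L[ℝ] E₂ := fun q => a (q.2.1 + q.1 • q.2.2) ∘L κ q ∘L b q.2.1

theorem IsKer.kerop_mono {κ : ℝ × A N × A N → F} {R R' : ℝ} (h : IsKer κ R) (hR : R ≤ R') :
    IsKer κ R' := ⟨h.sm, fun t x w hw => h.supp t x w (hR.trans hw)⟩

theorem IsKer.kerop_zero {κ : ℝ × A N × A N → F} {R : ℝ} (h : IsKer κ R) {t : ℝ} (ht : 0 < t)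
    {x y : A N} (hxy : R * t ≤ ‖y - x‖) : κ (t, x, t⁻¹ • (y - x)) = 0 := by
  refine h.supp _ _ _ ?_
  rw [norm_smul, Real.norm_of_nonneg (inv_nonneg.2 ht.le), ← div_eq_inv_mul, le_div_iff₀ ht]
  exact hxy

theorem IsKer.kerop_sm {κ : ℝ × A N × A N → F} {R : ℝ} (h : IsKer κ R) (t : ℝ) (x : A N) :
    ContDiff ℝ ∞ fun y : A N => κ (t, x, t⁻¹ • (y - x)) :=
  h.sm.comp (contDiff_const.prodMk (contDiff_const.prodMk
    ((contDiff_id.sub contDiff_const).const_smul t⁻¹)))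

theorem IsKer.sandwich {κ : ℝ × A N × A N → E →L[ℝ] E'} {R : ℝ} (h : IsKer κ R)
    {a : A N → E' →L[ℝ] E₂} {b : A N → E₁ →L[ℝ] E} (ha : ContDiff ℝ ∞ a) (hb : ContDiff ℝ ∞ b) :
    IsKer (sandwich a κ b) R := by
  refine ⟨?_, fun t x w hw => ?_⟩
  · unfold R240.sandwich
    exact (ha.comp (contDiff_snd.fst.add (contDiff_fst.smul contDiff_snd.snd))).clm_comp
      (h.sm.clm_comp (hb.comp contDiff_snd.fst))
  · simp [R240.sandwich, h.supp t x w hw]

theorem kerAt_sandwich (a : A N → E' →L[ℝ] E₂) (κ : ℝ × A N × A N → E →L[ℝ] E')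
    (b : A N → E₁ →L[ℝ] E) {t : ℝ} (ht : t ≠ 0) (x y : A N) :
    kerAt (sandwich a κ b) t x y = a y ∘L kerAt κ t x y ∘L b x := by
  simp only [kerAt, sandwich, smul_smul, mul_inv_cancel₀ ht, one_smul, add_sub_cancel,
    ContinuousLinearMap.smul_comp, ContinuousLinearMap.comp_smul]

theorem IsKer.kerAt_sm {κ : ℝ × A N × A N → F} {R : ℝ} (h : IsKer κ R) (t : ℝ) :
    ContDiff ℝ ∞ fun q : A N × A N => kerAt κ t q.1 q.2 := by
  unfold kerAt
  exact (h.sm.comp (contDiff_const.prodMk (contDiff_fst.prodMk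
    ((contDiff_snd.sub contDiff_fst).const_smul t⁻¹)))).const_smul (t⁻¹ ^ 4)

theorem IsKer.kerAt_eq_zero {κ : ℝ × A N × A N → F} {R : ℝ} (h : IsKer κ R) {t : ℝ} (ht : 0 < t)
    {x y : A N} (hxy : R * t ≤ ‖y - x‖) : kerAt κ t x y = 0 := by
  unfold kerAt
  rw [h.kerop_zero ht hxy, smul_zero]

/-- Hadamard's lemma for kernels -/
theorem IsKer.hadamard [CompleteSpace F] {κ : ℝ × A N × A N → F} {R : ℝ} (h : IsKer κ R) :
    ∃ κ₁, IsKer κ₁ R ∧ ∀ t x w, κ (t, x, w) = κ (0, x, w) + t • κ₁ (t, x, w) := by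
  obtain ⟨κ₁, h1, h2, h3⟩ := R240.hadamard h.sm
  exact ⟨κ₁, ⟨h1, fun t x w hw => h3 (x, w) (fun s => h.supp s x w hw) t⟩, fun t x w => h2 t (x, w)⟩

/-- bound on `[0,1] × K × A N` -/
theorem IsKer.bound {κ : ℝ × A N × A N → F} {R : ℝ} (h : IsKer κ R) {K : Set (A N)}
    (hK : IsCompact K) : ∃ C, 0 ≤ C ∧ ∀ t, 0 ≤ t → t ≤ 1 → ∀ x ∈ K, ∀ w, ‖κ (t, x, w)‖ ≤ C := by
  have hc : IsCompact (Icc (0 : ℝ) 1 ×ˢ K ×ˢ Metric.closedBall (0 : A N) R) :=
    isCompact_Icc.prod (hK.prod (isCompact_closedBall _ _))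
  obtain ⟨C, hC⟩ := hc.exists_bound_of_continuousOn h.sm.continuous.continuousOn
  refine ⟨max C 0, le_max_right _ _, fun t h0 h1 x hx w => ?_⟩
  rcases le_total R ‖w‖ with hw | hw
  · rw [h.supp t x w hw, norm_zero]; exact le_max_right _ _
  · exact (hC (t, x, w) ⟨⟨h0, h1⟩, hx, by simpa using hw⟩).trans (le_max_left _ _)

theorem IsKer.bound₀ [CompleteSpace F] {κ : ℝ × A N × A N → F} {R : ℝ} (h : IsKer κ R)
    {K : Set (A N)} (hK : IsCompact K) (h0 : ∀ x ∈ K, ∀ w, κ (0, x, w) = 0) :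
    ∃ C, 0 ≤ C ∧ ∀ t, 0 ≤ t → t ≤ 1 → ∀ x ∈ K, ∀ w, ‖κ (t, x, w)‖ ≤ C * t := by
  obtain ⟨κ₁, h1, h2⟩ := h.hadamard
  obtain ⟨C, hC0, hC⟩ := h1.bound hK
  refine ⟨C, hC0, fun t ht0 ht1 x hx w => ?_⟩
  rw [h2, h0 x hx, zero_add, norm_smul, Real.norm_of_nonneg ht0, mul_comm]
  exact mul_le_mul_of_nonneg_right (hC t ht0 ht1 x hx w) ht0

/-- the derivative in `y` at scale `t` of a kernel is a kernel:
`κ' (t, x, w) = ∂_w κ (t, x, w) (π (x + t w) (eb k))` -/
theorem IsKer.exists_D {κ : ℝ × A N × A N → F} {R : ℝ} (h : IsKer κ R)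
    {π : A N → A N →L[ℝ] A N} (hπ : ContDiff ℝ ∞ π) (k : Fin N) : ∃ κ', IsKer κ' R ∧
      ∀ t, t ≠ 0 → ∀ x y, t • D π k (fun y => κ (t, x, t⁻¹ • (y - x))) y
        = κ' (t, x, t⁻¹ • (y - x)) := by
  have hd : ContDiff ℝ ∞ (fderiv ℝ κ) := h.sm.fderiv_right (m := ∞) (by simp)
  refine ⟨fun q => fderiv ℝ κ q (0, 0, π (q.2.1 + q.1 • q.2.2) (eb k)), ⟨?_, ?_⟩, ?_⟩
  · exact hd.clm_apply (contDiff_const.prodMk (contDiff_const.prodMk
      ((hπ.comp (contDiff_snd.fst.add (contDiff_fst.smul contDiff_snd.snd))).clm_apply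
        contDiff_const)))
  · intro t x w hw
    have key : ∀ w' : A N, R < ‖w'‖ → fderiv ℝ κ (t, x, w') = 0 := by
      intro w' hw'
      have hev : κ =ᶠ[𝓝 (t, x, w')] fun _ => 0 := by
        have : ∀ᶠ q : ℝ × A N × A N in 𝓝 (t, x, w'), R < ‖q.2.2‖ :=
          continuous_snd.snd.norm.continuousAt.eventually (lt_mem_nhds hw')
        filter_upwards [this] with q hq using h.supp q.1 q.2.1 q.2.2 hq.le
      rw [hev.fderiv_eq]
      simp
    obtain ⟨v, hv⟩ : ∃ v : A N, ∀ s : ℝ, 0 < s → ‖w‖ < ‖w + s • v‖ := by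
      by_cases hw0 : w = 0
      · refine ⟨eb k, fun s hs => ?_⟩
        rw [hw0, zero_add, norm_zero, norm_smul, norm_eb, mul_one, Real.norm_of_nonneg hs.le]
        exact hs
      · refine ⟨w, fun s hs => ?_⟩
        have e : w + s • w = (1 + s) • w := by rw [add_smul, one_smul]
        rw [e, norm_smul, Real.norm_of_nonneg (by linarith)]
        nlinarith [norm_pos_iff.2 hw0]
    have hc : Continuous fun s : ℝ => fderiv ℝ κ (t, x, w + s • v) :=
      hd.continuous.comp (by fun_prop)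
    have h1 : Tendsto (fun s : ℝ => fderiv ℝ κ (t, x, w + s • v)) (𝓝[>] 0)
        (𝓝 (fderiv ℝ κ (t, x, w))) := by
      have := (hc.tendsto 0).mono_left (nhdsWithin_le_nhds (s := Ioi 0))
      simpa using this
    have h2 : Tendsto (fun s : ℝ => fderiv ℝ κ (t, x, w + s • v)) (𝓝[>] 0) (𝓝 0) := by
      refine tendsto_const_nhds.congr' ?_
      filter_upwards [self_mem_nhdsWithin] with s hs
      exact (key _ (hw.trans_lt (hv s hs))).symm
    simp only [tendsto_nhds_unique h1 h2, zero_apply]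
  · intro t ht x y
    have h1 : HasFDerivAt (fun y : A N => ((t, x, t⁻¹ • (y - x)) : ℝ × A N × A N))
        ((0 : A N →L[ℝ] ℝ).prod ((0 : A N →L[ℝ] A N).prod
          (t⁻¹ • ContinuousLinearMap.id ℝ (A N)))) y :=
      (hasFDerivAt_const t y).prodMk ((hasFDerivAt_const x y).prodMk
        (((hasFDerivAt_id y).sub_const x).const_smul t⁻¹))
    have h2 := ((h.sm.differentiable (by simp)) (t, x, t⁻¹ • (y - x))).hasFDerivAt.comp y h1
    unfold D
    rw [show (fun y => κ (t, x, t⁻¹ • (y - x))) = κ ∘ fun y : A N =>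
      ((t, x, t⁻¹ • (y - x)) : ℝ × A N × A N) from rfl, h2.fderiv, ContinuousLinearMap.comp_apply,
      ← map_smul]
    simp [smul_smul, mul_inv_cancel₀ ht]

namespace Geo
variable (G : Geo N)

theorem integrable_of_memLp {u : A N → E} (hu : MemLp u 2 G.m) : Integrable u G.m :=
  hu.integrable (by norm_num)

omit [NormedSpace ℝ E] in
theorem kerop_ae (u : A N → E) : ∀ᵐ x ∂G.m, x ∉ G.S → u x = 0 := by
  filter_upwards [G.B.ae_mem] with x hx hx'
  exact absurd hx hx'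

theorem kerop_integrable {b : A N → E →L[ℝ] E'} (hb : Continuous b) {u : A N → E}
    (hu : Integrable u G.m) : Integrable (fun x => b x (u x)) G.m := by
  obtain ⟨C, hC⟩ := G.cpt.exists_bound_of_continuousOn hb.continuousOn
  refine Integrable.mono' (hu.norm.const_mul C) ?_ ?_
  · exact isBoundedBilinearMap_apply.continuous.comp_aestronglyMeasurable
      (hb.aestronglyMeasurable.prodMk hu.aestronglyMeasurable)
  · filter_upwards [G.B.ae_mem] with x hx
    exact (ContinuousLinearMap.le_opNorm _ _).trans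
      (mul_le_mul_of_nonneg_right (hC x hx) (norm_nonneg _))

theorem Op_sm [CompleteSpace E'] {κ : ℝ × A N × A N → E →L[ℝ] E'} {R : ℝ} (h : IsKer κ R) (t : ℝ)
    {u : A N → E} (hu : Integrable u G.m) : ContDiff ℝ ∞ (Op G.m κ t u) := by
  exact contDiff_param_integral G.m G.cpt hu (G.kerop_ae u)
    (κ := fun q : A N × A N => kerAt κ t q.2 q.1)
    ((h.kerAt_sm t).comp (contDiff_snd.prodMk contDiff_fst))

theorem fderiv_Op [CompleteSpace E'] {κ : ℝ × A N × A N → E →L[ℝ] E'} {R : ℝ} (h : IsKer κ R)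
    (t : ℝ) {u : A N → E} (hu : Integrable u G.m) (y v : A N) :
    fderiv ℝ (Op G.m κ t u) y v = ∫ x, fderiv ℝ (fun y => kerAt κ t x y) y v (u x) ∂G.m := by
  have hs : ContDiff ℝ ∞ fun q : A N × A N => kerAt κ t q.2 q.1 :=
    (h.kerAt_sm t).comp (contDiff_snd.prodMk contDiff_fst)
  refine ((hasFDerivAt_param_integral G.m G.cpt hu (G.kerop_ae u) hs y).2 v).trans ?_
  refine integral_congr_ae (Eventually.of_forall fun x => ?_)
  have h1 := ((hs.differentiable (by simp)) (y, x)).hasFDerivAt.comp y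
    (hasFDerivAt_prodMk_left (𝕜 := ℝ) y x)
  have h2 : fderiv ℝ (fun y => kerAt κ t x y) y = _ := h1.fderiv
  simp only [h2, ContinuousLinearMap.comp_apply, ContinuousLinearMap.inl_apply]

theorem integrable_kerAt {κ : ℝ × A N × A N → E →L[ℝ] E'} {R : ℝ} (h : IsKer κ R) (t : ℝ)
    {u : A N → E} (hu : Integrable u G.m) (y : A N) :
    Integrable (fun x => kerAt κ t x y (u x)) G.m := by
  exact G.kerop_integrable (b := fun x => kerAt κ t x y)
    ((h.kerAt_sm t).continuous.comp (continuous_id.prodMk continuous_const)) hu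

theorem Op_add {κ : ℝ × A N × A N → E →L[ℝ] E'} {R : ℝ} (h : IsKer κ R) (t : ℝ)
    {u v : A N → E} (hu : Integrable u G.m) (hv : Integrable v G.m) :
    Op G.m κ t (fun x => u x + v x) = fun y => Op G.m κ t u y + Op G.m κ t v y := by
  funext y
  unfold Op
  simp only [map_add]
  exact integral_add (G.integrable_kerAt h t hu y) (G.integrable_kerAt h t hv y)

theorem Op_smul (κ : ℝ × A N × A N → E →L[ℝ] E') (t s : ℝ) (u : A N → E) :
    Op G.m κ t (fun x => s • u x) = fun y => s • Op G.m κ t u y := by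
  funext y
  unfold Op
  simp only [map_smul]
  exact integral_smul _ _

theorem Op_congr_ae (κ : ℝ × A N × A N → E →L[ℝ] E') (t : ℝ) {u v : A N → E}
    (h : u =ᵐ[G.m] v) : Op G.m κ t u = Op G.m κ t v := by
  funext y
  refine integral_congr_ae ?_
  filter_upwards [h] with x hx
  rw [hx]

theorem Op_sandwich [CompleteSpace E'] [CompleteSpace E₂] {κ : ℝ × A N × A N → E →L[ℝ] E'}
    {R : ℝ} (h : IsKer κ R) (a : A N → E' →L[ℝ] E₂) {b : A N → E₁ →L[ℝ] E} (hb : Continuous b)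
    {t : ℝ} (ht : t ≠ 0) {u : A N → E₁} (hu : Integrable u G.m) (y : A N) :
    Op G.m (sandwich a κ b) t u y = a y (Op G.m κ t (fun x => b x (u x)) y) := by
  unfold Op
  rw [← (a y).integral_comp_comm (G.integrable_kerAt h t (G.kerop_integrable hb hu) y)]
  simp only [kerAt_sandwich a κ b ht, ContinuousLinearMap.comp_apply]

theorem mass_sm [CompleteSpace F] {κ : ℝ × A N × A N → F} {R : ℝ} (h : IsKer κ R) (t : ℝ) :
    ContDiff ℝ ∞ (mass G.m κ t) := by
  have := (contDiff_integral_cpt G.m G.cpt G.m_S (f := fun _ => 1) (integrable_const _)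
    (Φ := fun q : A N × A N => kerAt κ t q.2 q.1)
    ((h.kerAt_sm t).comp (contDiff_snd.prodMk contDiff_fst))).1
  simp only [one_smul] at this
  exact this

/-- pointwise bound -/
theorem norm_Op_le {κ : ℝ × A N × A N → E →L[ℝ] E'} {R : ℝ} (h : IsKer κ R) {t C : ℝ}
    (ht : 0 < t) (hC : ∀ x ∈ G.S, ∀ w, ‖κ (t, x, w)‖ ≤ C) {u : A N → E}
    (hu : Integrable u G.m) (y : A N) :
    ‖Op G.m κ t u y‖ ≤ C * t⁻¹ ^ 4 * ∫ x in Metric.closedBall y (R * t), ‖u x‖ ∂G.m := by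
  rw [← integral_indicator measurableSet_closedBall, ← integral_const_mul]
  refine norm_integral_le_of_norm_le
    ((hu.norm.indicator measurableSet_closedBall).const_mul _) ?_
  filter_upwards [G.B.ae_mem] with x hx
  by_cases hxy : x ∈ Metric.closedBall y (R * t)
  · rw [indicator_of_mem hxy]
    refine (ContinuousLinearMap.le_opNorm _ _).trans (mul_le_mul_of_nonneg_right ?_ (norm_nonneg _))
    unfold kerAt
    rw [norm_smul, Real.norm_of_nonneg (by positivity), mul_comm]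
    exact mul_le_mul_of_nonneg_right (hC x hx _) (by positivity)
  · rw [indicator_of_notMem hxy, h.kerAt_eq_zero ht]
    · simp
    · rw [Metric.mem_closedBall, dist_comm, dist_eq_norm] at hxy
      exact (not_le.1 hxy).le

theorem kerop_cs {u : A N → E} (hu : MemLp u 2 G.m) {W : Set (A N)} (hW : MeasurableSet W) :
    (∫ x in W, ‖u x‖ ∂G.m) ^ 2 ≤ G.m.real W * ∫ x, W.indicator (fun x => ‖u x‖ ^ 2) x ∂G.m := by
  have hu' : MemLp (W.indicator u) 2 G.B.m := hu.indicator hW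
  have hv : MemLp (W.indicator fun _ => (1 : ℝ)) 2 G.B.m := (memLp_const 1).indicator hW
  have h1 := G.B.integral_norm_mul_le hu' hv
  have h2 := G.B.L2_le_of_bound hv.aestronglyMeasurable hW zero_le_one
    (fun x _ hx => by simp [indicator_of_mem hx]) (fun x _ hx => indicator_of_notMem hx _)
  have h3 := G.B.L2_sq hu'
  have e1 : ∫ x in W, ‖u x‖ ∂G.m
      = ∫ x, ‖W.indicator u x‖ * ‖W.indicator (fun _ => (1 : ℝ)) x‖ ∂G.B.m := by
    rw [← integral_indicator hW]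
    refine integral_congr_ae (Eventually.of_forall fun x => ?_)
    by_cases hx : x ∈ W <;> simp [hx]
  have e2 : ∫ x, W.indicator (fun x => ‖u x‖ ^ 2) x ∂G.m = ∫ x, ‖W.indicator u x‖ ^ 2 ∂G.B.m := by
    refine integral_congr_ae (Eventually.of_forall fun x => ?_)
    by_cases hx : x ∈ W <;> simp [hx]
  have h0 : 0 ≤ ∫ x in W, ‖u x‖ ∂G.m := integral_nonneg fun x => norm_nonneg _
  rw [one_mul] at h2
  have h4 : ∫ x in W, ‖u x‖ ∂G.m ≤ G.B.L2 (W.indicator u) * √(G.m.real W) := by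
    rw [e1]
    exact h1.trans (mul_le_mul_of_nonneg_left h2 (G.B.L2_nonneg _))
  rw [e2, ← h3]
  calc _ ≤ (G.B.L2 (W.indicator u) * √(G.m.real W)) ^ 2 := pow_le_pow_left₀ h0 h4 2
    _ = _ := by rw [mul_pow, Real.sq_sqrt measureReal_nonneg, mul_comm]

omit [NormedSpace ℝ E] in
theorem kerop_fubini {u : A N → E} (hu : MemLp u 2 G.m) {r V : ℝ}
    (hV : ∀ x, G.m.real (Metric.closedBall x r) ≤ V) :
    Integrable (fun y => ∫ x, (Metric.closedBall y r).indicator (fun x => ‖u x‖ ^ 2) x ∂G.m) G.m ∧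
    ∫ y, ∫ x, (Metric.closedBall y r).indicator (fun x => ‖u x‖ ^ 2) x ∂G.m ∂G.m
      ≤ V * ∫ x, ‖u x‖ ^ 2 ∂G.m := by
  have h2 : Integrable (fun x => ‖u x‖ ^ 2) G.m := (memLp_two_iff_integrable_sq_norm hu.1).1 hu
  have hm : MeasurableSet {p : A N × A N | dist p.2 p.1 ≤ r} :=
    (isClosed_le (continuous_snd.dist continuous_fst) continuous_const).measurableSet
  have h3 : Integrable (Function.uncurry fun y x : A N =>
      (Metric.closedBall y r).indicator (fun x => ‖u x‖ ^ 2) x) (G.m.prod G.m) := by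
    refine ((h2.comp_snd G.m).indicator hm).congr (Eventually.of_forall fun p => ?_)
    by_cases hp : dist p.2 p.1 ≤ r
    · simp [Function.uncurry, indicator, hp]
    · simp [Function.uncurry, indicator, hp]
  refine ⟨h3.integral_prod_left, ?_⟩
  rw [integral_integral_swap h3, ← integral_const_mul]
  refine integral_mono h3.integral_prod_right (h2.const_mul V) fun x => ?_
  have e : (fun y => (Metric.closedBall y r).indicator (fun x => ‖u x‖ ^ 2) x)
      = (Metric.closedBall x r).indicator fun _ => ‖u x‖ ^ 2 := by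
    funext y
    simp only [indicator, Metric.mem_closedBall, dist_comm x y]
  simp only [e]
  rw [integral_indicator_const _ measurableSet_closedBall, smul_eq_mul]
  exact mul_le_mul_of_nonneg_right (hV x) (sq_nonneg _)

theorem kerop_schur [CompleteSpace E'] {κ : ℝ × A N × A N → E →L[ℝ] E'} {R : ℝ} (h : IsKer κ R) :
    ∃ C, 0 ≤ C ∧ ∀ t, 0 < t → t ≤ 1 → ∀ u, MemLp u 2 G.m →
      G.B.L2 (Op G.m κ t u) ≤ C * G.B.L2 u := by
  replace h := h.kerop_mono (le_max_left R 0)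
  have hR : 0 ≤ max R 0 := le_max_right R 0
  generalize max R 0 = R at h hR
  obtain ⟨C, hC0, hC⟩ := h.bound G.cpt
  obtain ⟨V, hV0, hV⟩ := G.vol_le
  refine ⟨C * V * R ^ 4, by positivity, fun t ht ht1 u hu => ?_⟩
  have hi := G.integrable_of_memLp hu
  have hm : MemLp (Op G.m κ t u) 2 G.B.m := G.B.memLp_cont (G.Op_sm h t hi).continuous 2
  have hr : 0 ≤ R * t := by positivity
  obtain ⟨f1, f2⟩ := G.kerop_fubini hu (fun x => hV x (R * t) hr)
  have hL := G.B.L2_nonneg u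
  refine le_of_pow_le_pow_left₀ two_ne_zero (by positivity) ?_
  rw [G.B.L2_sq hm, mul_pow, G.B.L2_sq hu]
  have key : ∀ y, ‖Op G.m κ t u y‖ ^ 2 ≤ ((C * t⁻¹ ^ 4) ^ 2 * (V * (R * t) ^ 4)) *
      ∫ x, (Metric.closedBall y (R * t)).indicator (fun x => ‖u x‖ ^ 2) x ∂G.m := by
    intro y
    have h1 := G.norm_Op_le h ht (hC t ht.le ht1) hi y
    have h2 := G.kerop_cs hu (W := Metric.closedBall y (R * t)) measurableSet_closedBall
    have h3 : 0 ≤ ∫ x, (Metric.closedBall y (R * t)).indicator (fun x => ‖u x‖ ^ 2) x ∂G.m :=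
      integral_nonneg fun x => indicator_nonneg (fun _ _ => sq_nonneg _) x
    calc _ ≤ (C * t⁻¹ ^ 4 * ∫ x in Metric.closedBall y (R * t), ‖u x‖ ∂G.m) ^ 2 :=
          pow_le_pow_left₀ (norm_nonneg _) h1 2
      _ ≤ (C * t⁻¹ ^ 4) ^ 2 * ((V * (R * t) ^ 4) *
          ∫ x, (Metric.closedBall y (R * t)).indicator (fun x => ‖u x‖ ^ 2) x ∂G.m) := by
          rw [mul_pow]
          exact mul_le_mul_of_nonneg_left
            (h2.trans (mul_le_mul_of_nonneg_right (hV y _ hr) h3)) (sq_nonneg _)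
      _ = _ := by ring
  calc _ ≤ ∫ y, ((C * t⁻¹ ^ 4) ^ 2 * (V * (R * t) ^ 4)) *
        ∫ x, (Metric.closedBall y (R * t)).indicator (fun x => ‖u x‖ ^ 2) x ∂G.m ∂G.m :=
        integral_mono ((memLp_two_iff_integrable_sq_norm hm.1).1 hm) (f1.const_mul _) key
    _ ≤ ((C * t⁻¹ ^ 4) ^ 2 * (V * (R * t) ^ 4)) * (V * (R * t) ^ 4 * ∫ x, ‖u x‖ ^ 2 ∂G.m) := by
        rw [integral_const_mul]
        exact mul_le_mul_of_nonneg_left f2 (by positivity)
    _ = (C * V * R ^ 4) ^ 2 * ∫ x, ‖u x‖ ^ 2 ∂G.m := by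
        field_simp

theorem kerop_single {κ : ℝ × A N × A N → F} {R : ℝ} (h : IsKer κ R) :
    ∃ C, 0 ≤ C ∧ ∀ t, 0 < t → t ≤ 1 → ∀ x ∈ G.S,
      G.B.L2 (fun y => κ (t, x, t⁻¹ • (y - x))) ≤ C * t ^ 2 := by
  replace h := h.kerop_mono (le_max_left R 0)
  have hR : 0 ≤ max R 0 := le_max_right R 0
  generalize max R 0 = R at h hR
  obtain ⟨C, hC0, hC⟩ := h.bound G.cpt
  obtain ⟨V, hV0, hV⟩ := G.vol_le
  refine ⟨C * (√V * R ^ 2), by positivity, fun t ht ht1 x hx => ?_⟩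
  have hr : 0 ≤ R * t := by positivity
  have h1 := G.B.L2_le_of_bound (h.kerop_sm t x).continuous.aestronglyMeasurable
    (W := Metric.closedBall x (R * t)) measurableSet_closedBall hC0
    (fun y _ _ => hC t ht.le ht1 x hx _) (fun y _ hy => h.kerop_zero ht (by
      rw [Metric.mem_closedBall, dist_eq_norm] at hy
      exact (not_le.1 hy).le))
  refine h1.trans ?_
  rw [mul_assoc]
  refine mul_le_mul_of_nonneg_left ?_ hC0
  refine Real.sqrt_le_iff.2 ⟨by positivity, (hV x _ hr).trans_eq ?_⟩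
  rw [mul_pow, mul_pow, mul_pow, Real.sq_sqrt hV0.le]
  ring

/-- Schur test: `‖Op u y‖² ≤ C t⁻⁴ ∫_{closedBall y (R t)} ‖u‖²` by Cauchy-Schwarz and `vol_le`,
then Fubini and `vol_le` again; higher orders by induction with `IsKer.exists_D`. -/
theorem Hn_Op_le [CompleteSpace E'] {κ : ℝ × A N × A N → E →L[ℝ] E'} {R : ℝ} (h : IsKer κ R)
    (j : ℕ) : ∃ C, 0 ≤ C ∧ ∀ t, 0 < t → t ≤ 1 → ∀ u, MemLp u 2 G.m →
      G.B.Hn t j (Op G.m κ t u) ≤ C * G.B.L2 u := by
  induction j generalizing κ with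
  | zero => simpa only [Base.Hn_zero] using G.kerop_schur h
  | succ j ih =>
    obtain ⟨C, hC0, hC⟩ := G.kerop_schur h
    choose κ' hκ' he using fun k => h.exists_D G.π_sm k
    choose C' hC0' hC' using fun k => ih (hκ' k)
    refine ⟨C + ∑ k, C' k, add_nonneg hC0 (Finset.sum_nonneg fun k _ => hC0' k),
      fun t ht ht1 u hu => ?_⟩
    have hi := G.integrable_of_memLp hu
    rw [Base.Hn_succ, add_mul, Finset.mul_sum, Finset.sum_mul]
    refine add_le_add (hC t ht ht1 u hu) (Finset.sum_le_sum fun k _ => ?_)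
    have e : (fun y => t • D G.B.π k (Op G.m κ t u) y) = Op G.m (κ' k) t u := by
      funext y
      change t • fderiv ℝ (Op G.m κ t u) y (G.π y (eb k)) = _
      rw [G.fderiv_Op h t hi, ← integral_smul]
      refine integral_congr_ae (Eventually.of_forall fun x => ?_)
      have h1 : fderiv ℝ (fun y => kerAt κ t x y) y
          = t⁻¹ ^ 4 • fderiv ℝ (fun y => κ (t, x, t⁻¹ • (y - x))) y :=
        fderiv_fun_const_smul (((h.kerop_sm t x).differentiable (by simp)) y) _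
      have h2 := he k t ht.ne' x y
      unfold D at h2
      change t • fderiv ℝ (fun y => kerAt κ t x y) y (G.π y (eb k)) (u x) = kerAt (κ' k) t x y (u x)
      rw [h1]
      unfold kerAt
      rw [← h2]
      simp only [smul_apply]
      rw [smul_comm]
    have := G.B.Hn_const_smul t j t (D_sm G.B.π_sm k (G.Op_sm h t hi))
    rw [e, abs_of_pos ht] at this
    rw [← this]
    exact hC' k t ht ht1 u hu

theorem Hn_Op_le₀ [CompleteSpace E'] {κ : ℝ × A N × A N → E →L[ℝ] E'} {R : ℝ} (h : IsKer κ R)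
    (h0 : ∀ x ∈ G.S, ∀ w, κ (0, x, w) = 0) (j : ℕ) : ∃ C, 0 ≤ C ∧ ∀ t, 0 < t → t ≤ 1 →
      ∀ u, MemLp u 2 G.m → G.B.Hn t j (Op G.m κ t u) ≤ C * t * G.B.L2 u := by
  obtain ⟨κ₁, h1, h2⟩ := h.hadamard
  obtain ⟨C, hC0, hC⟩ := G.Hn_Op_le h1 j
  refine ⟨C, hC0, fun t ht ht1 u hu => ?_⟩
  have e : Op G.m κ t u = fun y => t • Op G.m κ₁ t u y := by
    funext y
    unfold Op
    rw [← integral_smul]
    refine integral_congr_ae ?_
    filter_upwards [G.B.ae_mem] with x hx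
    unfold kerAt
    rw [h2, h0 x hx, zero_add, smul_comm]
    rfl
  rw [e, G.B.Hn_const_smul t j t (G.Op_sm h1 t (G.integrable_of_memLp hu)), abs_of_pos ht,
    mul_comm C, mul_assoc]
  exact mul_le_mul_of_nonneg_left (hC t ht ht1 u hu) ht.le

/-- a single bump at scale `t` (`L2_le_of_bound`, `vol_le`, `IsKer.exists_D`) -/
theorem Hn_single_le {κ : ℝ × A N × A N → F} {R : ℝ} (h : IsKer κ R) (j : ℕ) :
    ∃ C, 0 ≤ C ∧ ∀ t, 0 < t → t ≤ 1 → ∀ x ∈ G.S,
      G.B.Hn t j (fun y => κ (t, x, t⁻¹ • (y - x))) ≤ C * t ^ 2 := by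
  induction j generalizing κ with
  | zero => simpa only [Base.Hn_zero] using G.kerop_single h
  | succ j ih =>
    obtain ⟨C, hC0, hC⟩ := G.kerop_single h
    choose κ' hκ' he using fun k => h.exists_D G.π_sm k
    choose C' hC0' hC' using fun k => ih (hκ' k)
    refine ⟨C + ∑ k, C' k, add_nonneg hC0 (Finset.sum_nonneg fun k _ => hC0' k),
      fun t ht ht1 x hx => ?_⟩
    rw [Base.Hn_succ, add_mul, Finset.mul_sum, Finset.sum_mul]
    refine add_le_add (hC t ht ht1 x hx) (Finset.sum_le_sum fun k _ => ?_)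
    have e : (fun y => t • D G.B.π k (fun y => κ (t, x, t⁻¹ • (y - x))) y)
        = fun y => κ' k (t, x, t⁻¹ • (y - x)) := funext fun y => he k t ht.ne' x y
    have := G.B.Hn_const_smul t j t (D_sm G.B.π_sm k (h.kerop_sm t x))
    rw [e, abs_of_pos ht] at this
    rw [← this]
    exact hC' k t ht ht1 x hx

theorem Hn_single_le₀ [CompleteSpace F] {κ : ℝ × A N × A N → F} {R : ℝ} (h : IsKer κ R)
    (h0 : ∀ x ∈ G.S, ∀ w, κ (0, x, w) = 0) (j : ℕ) :
    ∃ C, 0 ≤ C ∧ ∀ t, 0 < t → t ≤ 1 → ∀ x ∈ G.S,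
      G.B.Hn t j (fun y => κ (t, x, t⁻¹ • (y - x))) ≤ C * t ^ 3 := by
  obtain ⟨κ₁, h1, h2⟩ := h.hadamard
  obtain ⟨C, hC0, hC⟩ := G.Hn_single_le h1 j
  refine ⟨C, hC0, fun t ht ht1 x hx => ?_⟩
  have e : (fun y => κ (t, x, t⁻¹ • (y - x))) = fun y => t • κ₁ (t, x, t⁻¹ • (y - x)) := by
    funext y
    rw [h2, h0 x hx, zero_add]
  rw [e, G.B.Hn_const_smul t j t (h1.kerop_sm t x), abs_of_pos ht]
  calc _ ≤ t * (C * t ^ 2) := mul_le_mul_of_nonneg_left (hC t ht ht1 x hx) ht.le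
    _ = _ := by ring

end Geo

end Crest.Agent.R240
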