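import Crest.Agent.R240.KOm
import Crest.Agent.R240.KerOp

/-! Row 240: the smoothing operator maps weakly closed forms to closed forms. -/

set_option autoImplicit false

open scoped ContDiff RealInnerProductSpace Topology
open MeasureTheory Set Filter

noncomputable section

namespace Crest.Agent.R240

variable {N : ℕ}

theorem kclosed_fd_right {P Q : Type} [NormedAddCommGroup P] [NormedSpace ℝ P]
    [NormedAddCommGroup Q] [NormedSpace ℝ Q] {F : P × Q → ℝ} (hF : ContDiff ℝ ∞ F) (p : P)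
    (y a : Q) : fderiv ℝ F (p, y) (0, a) = fderiv ℝ (fun y' => F (p, y')) y a := by
  have h := ((hF.differentiable (by simp)) (p, y)).hasFDerivAt.comp y
    (hasFDerivAt_prodMk_right (𝕜 := ℝ) p y)
  have e : fderiv ℝ (fun y' => F (p, y')) y = _ := h.fderiv
  rw [e]
  rfl

theorem kclosed_fd_left {P Q : Type} [NormedAddCommGroup P] [NormedSpace ℝ P]
    [NormedAddCommGroup Q] [NormedSpace ℝ Q] {F : P × Q → ℝ} (hF : ContDiff ℝ ∞ F) (p a : P)
    (y : Q) : fderiv ℝ F (p, y) (a, 0) = fderiv ℝ (fun p' => F (p', y)) p a := by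
  have h := ((hF.differentiable (by simp)) (p, y)).hasFDerivAt.comp p
    (hasFDerivAt_prodMk_left (𝕜 := ℝ) p y)
  have e : fderiv ℝ (fun p' => F (p', y)) p = _ := h.fderiv
  rw [e]
  rfl

/-- the four-form at scale `t` -/
def kclosed_Om (X : Pre N) (R t : ℝ) (x y : A N) (Y₁ Y₂ Y₃ Y₄ : A N × A N) : ℝ :=
  t⁻¹ ^ 4 * X.Om R (t, x, t⁻¹ • (y - x)) Y₁ Y₂ Y₃ Y₄

theorem kclosed_Om_sm (X : Pre N) (R t : ℝ) {P : Type} [NormedAddCommGroup P] [NormedSpace ℝ P]
    [FiniteDimensional ℝ P] {x y : P → A N} {Y₁ Y₂ Y₃ Y₄ : P → A N × A N} (hx : ContDiff ℝ ∞ x)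
    (hy : ContDiff ℝ ∞ y) (h₁ : ContDiff ℝ ∞ Y₁) (h₂ : ContDiff ℝ ∞ Y₂) (h₃ : ContDiff ℝ ∞ Y₃)
    (h₄ : ContDiff ℝ ∞ Y₄) :
    ContDiff ℝ ∞ fun p => kclosed_Om X R t (x p) (y p) (Y₁ p) (Y₂ p) (Y₃ p) (Y₄ p) :=
  contDiff_const.mul (X.Om_sm R (q := fun p => (t, x p, t⁻¹ • (y p - x p)))
    (contDiff_const.prodMk (hx.prodMk ((hy.sub hx).const_smul _))) h₁ h₂ h₃ h₄)

theorem kclosed_Om_π (X : Pre N) (R t : ℝ) {x : A N} (hx : x ∈ X.S) (y : A N)
    (Y₁ Y₂ : A N × A N) (u v : A N) : kclosed_Om X R t x y Y₁ Y₂ (X.π x u, 0) (X.π x v, 0) =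
      kclosed_Om X R t x y Y₁ Y₂ (u, 0) (v, 0) := by
  unfold kclosed_Om
  congr 1
  have h1 := X.Om_π R (q := (t, x, t⁻¹ • (y - x))) hx Y₁ Y₂ (X.π x u, 0) v 0
  have h2 := X.Om_π R (q := (t, x, t⁻¹ • (y - x))) hx Y₁ Y₂ (v, 0) u 0
  have h3 := X.Om_swap₃₄ R (t, x, t⁻¹ • (y - x)) Y₁ Y₂ (X.π x u, 0) (v, 0)
  have h4 := X.Om_swap₃₄ R (t, x, t⁻¹ • (y - x)) Y₁ Y₂ (u, 0) (v, 0)
  dsimp only at h1 h2
  linarith

/-- the one-form -/
def kclosed_zeta (X : Pre N) (R t : ℝ) (y a b c x : A N) : A N :=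
  WithLp.toLp 2 fun l => kclosed_Om X R t x y (0, a) (0, b) (0, c) (eb l, 0)

theorem kclosed_zeta_sm (X : Pre N) (R t : ℝ) (y a b c : A N) :
    ContDiff ℝ ∞ (kclosed_zeta X R t y a b c) :=
  contDiff_toLp fun _ => kclosed_Om_sm X R t contDiff_id contDiff_const contDiff_const
    contDiff_const contDiff_const contDiff_const

theorem kclosed_inner_zeta (X : Pre N) (R t : ℝ) (y a b c x u : A N) :
    ⟪kclosed_zeta X R t y a b c x, u⟫ = kclosed_Om X R t x y (0, a) (0, b) (0, c) (u, 0) := by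
  obtain ⟨T, hT⟩ := X.exists_OmL R (t, x, t⁻¹ • (y - x)) (0, a) (0, b) (0, c)
  have e : ((u, 0) : A N × A N) = ∑ l, u l • ((eb l, 0) : A N × A N) := by
    ext1
    · simp only [Prod.fst_sum, Prod.smul_fst, sum_eb]
    · simp [Prod.snd_sum]
  unfold kclosed_zeta kclosed_Om
  rw [e, ← hT, map_sum, Finset.mul_sum, PiLp.inner_apply]
  refine Finset.sum_congr rfl fun l _ => ?_
  rw [map_smul, hT]
  simp only [RCLike.inner_apply, conj_trivial, smul_eq_mul]
  ring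

theorem kclosed_point (G : Geo N) {R t : ℝ} (h : G.OmClosed R t) {x y : A N} (hx : x ∈ G.S)
    (hy : y ∈ G.S) (a b c u v : A N) :
    fderiv ℝ (fun y' => kclosed_Om G.toPre R t x y' (0, b) (0, c) (u, 0) (v, 0)) y a
      - fderiv ℝ (fun y' => kclosed_Om G.toPre R t x y' (0, a) (0, c) (u, 0) (v, 0)) y b
      + fderiv ℝ (fun y' => kclosed_Om G.toPre R t x y' (0, a) (0, b) (u, 0) (v, 0)) y c =
      ev (d1 (kclosed_zeta G.toPre R t y a b c) x) (G.π x u) (G.π x v) := by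
  obtain ⟨ch, -, hW, -⟩ := G.toSub.exists_chart hx
  have hp : ch.pr x ∈ ch.U := ch.pr_mem x hx hW
  have hψ : ch.ψ (ch.pr x) = x := ch.ψ_pr x hx hW
  set p := ch.pr x with hpdef
  set a₁ := ch.pr (G.π x u)
  set a₂ := ch.pr (G.π x v)
  have e₁ : fderiv ℝ ch.ψ p a₁ = G.π x u := by
    have := ch.dψ_pr p hp u
    rwa [hψ] at this
  have e₂ : fderiv ℝ ch.ψ p a₂ = G.π x v := by
    have := ch.dψ_pr p hp v
    rwa [hψ] at this
  have hd : ∀ z : A 4, ContDiff ℝ ∞ fun e : A 4 × A N => fderiv ℝ ch.ψ e.1 z := fun z =>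
    ((ch.ψ_sm.fderiv_right (m := ∞) le_rfl).comp contDiff_fst).clm_apply contDiff_const
  have sm : ∀ Y₁ Y₂ Y₃ Y₄ : A 4 × A N,
      ContDiff ℝ ∞ fun e => Pre.OmC ch.toRawChart R t e Y₁ Y₂ Y₃ Y₄ := fun Y₁ Y₂ Y₃ Y₄ =>
    kclosed_Om_sm G.toPre R t (ch.ψ_sm.comp contDiff_fst) contDiff_snd
      ((hd _).prodMk contDiff_const) ((hd _).prodMk contDiff_const)
      ((hd _).prodMk contDiff_const) ((hd _).prodMk contDiff_const)
  have key := h ch p hp y hy (0, a) (0, b) (0, c) (a₁, 0) (a₂, 0)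
  rw [kclosed_fd_right (sm _ _ _ _), kclosed_fd_right (sm _ _ _ _), kclosed_fd_right (sm _ _ _ _),
    kclosed_fd_left (sm _ _ _ _), kclosed_fd_left (sm _ _ _ _)] at key
  have r : ∀ b c : A N, (fun y' => Pre.OmC ch.toRawChart R t (p, y') (0, b) (0, c) (a₁, 0) (a₂, 0))
      = fun y' => kclosed_Om G.toPre R t x y' (0, b) (0, c) (u, 0) (v, 0) := by
    intro b c
    funext y'
    rw [← kclosed_Om_π G.toPre R t hx]
    simp only [Pre.OmC, kclosed_Om, map_zero, hψ, e₁, e₂]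
  have l : ∀ z : A 4, (fun q => Pre.OmC ch.toRawChart R t (q, y) (0, a) (0, b) (0, c) (z, 0))
      = fun q => ⟪kclosed_zeta G.toPre R t y a b c (ch.ψ q), fderiv ℝ ch.ψ q z⟫ := by
    intro z
    funext q
    rw [kclosed_inner_zeta]
    simp only [Pre.OmC, kclosed_Om, map_zero]
  rw [r, r, r, l, l] at key
  have pbk := ev_d1_pullback ch.ψ_sm (kclosed_zeta_sm G.toPre R t y a b c) p a₁ a₂
  rw [hψ, e₁, e₂] at pbk
  linarith

theorem kclosed_ev_fderiv (X : Pre N) {R : ℝ} (hR : 0 < R) (t : ℝ) (x y a b c : A N) (B : E2 N) :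
    ev (fderiv ℝ (fun y' => kerAt (X.Kk R) t x y') y a B) b c =
      (∑ p : Fin N × Fin N, fderiv ℝ
        (fun y' => kclosed_Om X R t x y' (0, b) (0, c) (eb p.1, 0) (eb p.2, 0)) y a * B p) / 2 := by
  have hk : ContDiff ℝ ∞ fun y' => kerAt (X.Kk R) t x y' :=
    ContDiff.comp (g := fun q : A N × A N => kerAt (X.Kk R) t q.1 q.2) (f := fun y' => (x, y'))
      ((X.Kk_ker hR).kerAt_sm t) (contDiff_const.prodMk contDiff_id)
  have h1 := (hk.differentiable (by simp) y).hasFDerivAt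
  have h2 := ((innerSL ℝ (biv b c)).comp (ContinuousLinearMap.apply ℝ (E2 N) B)).hasFDerivAt.comp
    y h1
  have hO : ∀ p : Fin N × Fin N, HasFDerivAt
      (fun y' => kclosed_Om X R t x y' (0, b) (0, c) (eb p.1, 0) (eb p.2, 0))
      (fderiv ℝ (fun y' => kclosed_Om X R t x y' (0, b) (0, c) (eb p.1, 0) (eb p.2, 0)) y) y :=
    fun p => ((kclosed_Om_sm X R t contDiff_const contDiff_id contDiff_const contDiff_const
      contDiff_const contDiff_const).differentiable (by simp) y).hasFDerivAt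
  have h3 := HasFDerivAt.fun_sum (u := Finset.univ) fun p _ => (hO p).mul_const (B p / 2)
  have e : (⇑((innerSL ℝ (biv b c)).comp (ContinuousLinearMap.apply ℝ (E2 N) B)) ∘
      fun y' => kerAt (X.Kk R) t x y') = fun y' => ∑ p : Fin N × Fin N,
        kclosed_Om X R t x y' (0, b) (0, c) (eb p.1, 0) (eb p.2, 0) * (B p / 2) := by
    funext y'
    have : ⟪biv b c, kerAt (X.Kk R) t x y' B⟫ = ev (kerAt (X.Kk R) t x y' B) b c :=
      real_inner_comm _ _
    refine this.trans ?_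
    rw [kerAt, smul_apply, ev_smul, X.ev_Kk, Finset.sum_div, Finset.mul_sum]
    refine Finset.sum_congr rfl fun p _ => ?_
    unfold kclosed_Om
    ring
  rw [e] at h2
  have h4 := congrArg (fun T => T a) (h2.unique h3)
  simp only [ContinuousLinearMap.comp_apply, ContinuousLinearMap.apply_apply, innerSL_apply_apply,
    _root_.sum_apply, smul_apply, smul_eq_mul] at h4
  rw [ev, real_inner_comm, h4, Finset.sum_div]
  refine Finset.sum_congr rfl fun p _ => by ring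

/-- Fix `y ∈ S`, `a b c`. By `fderiv_Op`, `d2 (Op w) y a b c = ∫ ⟪w x, τ x⟫` where `τ x` is the
antisymmetric tensor with `ev (τ x) u v = ∂ₐ Ω(b,c,u,v) - ∂_b Ω(a,c,u,v) + ∂_c Ω(a,b,u,v)`
(derivatives in `y` of `Ω = t⁻¹^4 * Om R (t, x, t⁻¹ • (y - x))`, `ev_Kk`); it is tangential
(`Om_π`). Let `ζ x = (Ω (0,a) (0,b) (0,c) (eb l, 0))ₗ`, a smooth one-form in `x`. `OmClosed` for
`(0,a), (0,b), (0,c), (a₁,0), (a₂,0)` and `ev_d1_pullback` give `τ x = Pt x (d1 ζ x)` on `S`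
(tangent vectors are of the form `dψ a₁`; `Anti.ext`). -/
theorem Geo.Kk_closed (G : Geo N) {R t : ℝ} (hR : 1 ≤ R) (ht : 0 < t) (h : G.OmClosed R t)
    (w : A N → E2 N) (hw : MemLp w 2 G.m)
    (h0 : ∀ ζ : A N → A N, ContDiff ℝ ∞ ζ → ∫ x, ⟪w x, G.Pt x (d1 ζ x)⟫ ∂G.m = 0) :
    G.Closed (Op G.m (G.Kk R) t w) := by
  have _ := ht
  intro y hy a b c _ _ _
  have hR0 : 0 < R := by linarith
  have hker := G.Kk_ker hR0
  have hwi := G.integrable_of_memLp hw
  have hS : ∀ᵐ x ∂G.m, x ∈ G.S := G.m_S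
  have hint : ∀ a : A N,
      Integrable (fun x => fderiv ℝ (fun y' => kerAt (G.Kk R) t x y') y a (w x)) G.m := by
    intro a
    refine integrable_param G.m G.cpt hwi (hS.mono fun x hx hx' => absurd hx hx')
      (κ := fun x => fderiv ℝ (fun y' => kerAt (G.Kk R) t x y') y a) ?_
    have := ContDiff.fderiv (𝕜 := ℝ) (f := fun x y' => kerAt (G.Kk R) t x y') (g := fun _ => y)
      (n := 0) (hker.kerAt_sm t) contDiff_const (by simp)
    exact this.continuous.clm_apply continuous_const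
  have hev : ∀ a b c : A N, ev (fderiv ℝ (Op G.m (G.Kk R) t w) y a) b c =
      ∫ x, ev (fderiv ℝ (fun y' => kerAt (G.Kk R) t x y') y a (w x)) b c ∂G.m := by
    intro a b c
    rw [G.fderiv_Op hker t hwi, ev, real_inner_comm, ← integral_inner (hint a)]
    simp only [ev, real_inner_comm]
  have hint' : ∀ a b c : A N, Integrable
      (fun x => ev (fderiv ℝ (fun y' => kerAt (G.Kk R) t x y') y a (w x)) b c) G.m :=
    fun a b c => (hint a).inner_const _
  have hsub : Integrable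
      (fun x => ev (fderiv ℝ (fun y' => kerAt (G.Kk R) t x y') y a (w x)) b c -
        ev (fderiv ℝ (fun y' => kerAt (G.Kk R) t x y') y b (w x)) a c) G.m :=
    (hint' a b c).sub (hint' b a c)
  rw [d2, hev, hev, hev, ← integral_sub (hint' _ _ _) (hint' _ _ _),
    ← integral_add hsub (hint' _ _ _),
    ← h0 _ (kclosed_zeta_sm G.toPre R t y a b c)]
  refine integral_congr_ae (hS.mono fun x hx => ?_)
  dsimp only
  rw [kclosed_ev_fderiv _ hR0, kclosed_ev_fderiv _ hR0, kclosed_ev_fderiv _ hR0,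
    ← sub_div, ← add_div, ← Finset.sum_sub_distrib, ← Finset.sum_add_distrib, PiLp.inner_apply,
    Finset.sum_div]
  refine Finset.sum_congr rfl fun p _ => ?_
  rw [← sub_mul, ← add_mul, kclosed_point G h hx hy]
  have := pb_apply (G.π x) (d1 (kclosed_zeta G.toPre R t y a b c) x) p.1 p.2
  simp only [RCLike.inner_apply, conj_trivial, Pre.Pt]
  rw [show p = (p.1, p.2) from rfl, this]
  ring

end Crest.Agent.R240
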