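import Crest.Agent.R240.KOm
import Crest.Agent.R240.KerOp
import Crest.Agent.R240.Alg

/-! Row 240: the smoothing operator maps exact forms to exact forms. -/

set_option autoImplicit false

open scoped ContDiff RealInnerProductSpace Topology
open MeasureTheory Set Filter

noncomputable section

namespace Crest.Agent.R240

variable {N : ℕ}

section aux
variable {P Q : Type} [NormedAddCommGroup P] [NormedSpace ℝ P] [NormedAddCommGroup Q]
  [NormedSpace ℝ Q]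

theorem kexact_fderiv_fst {F : P × Q → ℝ} (hF : ContDiff ℝ ∞ F) (p : P) (q : Q) (v : P) :
    fderiv ℝ (fun p => F (p, q)) p v = fderiv ℝ F (p, q) (v, 0) := by
  have h1 := HasFDerivAt.comp (f := fun p => (p, q)) p
    ((hF.differentiable (by simp)) (p, q)).hasFDerivAt (hasFDerivAt_prodMk_left p q)
  exact congrArg (fun L : P →L[ℝ] ℝ => L v) h1.fderiv

theorem kexact_fderiv_snd {F : P × Q → ℝ} (hF : ContDiff ℝ ∞ F) (p : P) (q : Q) (v : Q) :
    fderiv ℝ (fun q => F (p, q)) q v = fderiv ℝ F (p, q) (0, v) := by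
  have h1 :=
    ((hF.differentiable (by simp)) (p, q)).hasFDerivAt.comp q (hasFDerivAt_prodMk_right p q)
  exact congrArg (fun L : Q →L[ℝ] ℝ => L v) h1.fderiv

theorem kexact_cont_fderiv {F : P × Q → ℝ} (hF : ContDiff ℝ ∞ F) (q : Q) (v : P × Q) :
    Continuous fun p => fderiv ℝ F (p, q) v :=
  ((hF.continuous_fderiv (by simp)).comp (Continuous.prodMk_left q)).clm_apply continuous_const

end aux

theorem kexact_int {K : Set (A 4)} (hK : IsCompact K) {z f : A 4 → ℝ} (hz : Continuous z)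
    (h0 : ∀ p, p ∉ K → z p = 0) (hf : Continuous f) : Integrable fun p => z p * f p :=
  (hz.mul hf).integrable_of_hasCompactSupport
    (HasCompactSupport.intro hK fun p hp => by rw [Pi.mul_apply, h0 p hp, zero_mul])

theorem kexact_fderiv_zero {K : Set (A 4)} (hK : IsCompact K) {z : A 4 → ℝ}
    (h0 : ∀ p, p ∉ K → z p = 0) (v p : A 4) (hp : p ∉ K) : fderiv ℝ z p v = 0 := by
  have : z =ᶠ[𝓝 p] fun _ => 0 := by
    filter_upwards [hK.isClosed.isOpen_compl.mem_nhds hp] with q hq using h0 q hq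
  rw [this.fderiv_eq]
  simp

/-- integrable with vanishing integral -/
def kexact_Z (f : A 4 → ℝ) : Prop := Integrable f ∧ ∫ p, f p = 0

theorem kexact_Z.add {f g : A 4 → ℝ} (hf : kexact_Z f) (hg : kexact_Z g) :
    kexact_Z fun p => f p + g p :=
  ⟨hf.1.add hg.1, by rw [integral_add hf.1 hg.1, hf.2, hg.2, add_zero]⟩

theorem kexact_Z.sub {f g : A 4 → ℝ} (hf : kexact_Z f) (hg : kexact_Z g) :
    kexact_Z fun p => f p - g p :=
  ⟨hf.1.sub hg.1, by rw [integral_sub hf.1 hg.1, hf.2, hg.2, sub_zero]⟩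

theorem kexact_Z.fin {I Z f₀ f₁ f₂ f₃ : A 4 → ℝ} (hZ : kexact_Z Z) (h₀ : Integrable f₀)
    (h₁ : Integrable f₁) (h₂ : Integrable f₂) (h₃ : Integrable f₃)
    (h : ∀ p, I p = Z p + (f₁ p - f₀ p + (f₃ p - f₂ p))) :
    ∫ p, I p = (∫ p, f₁ p) - (∫ p, f₀ p) + ((∫ p, f₃ p) - ∫ p, f₂ p) := by
  have i1 : Integrable fun p => f₁ p - f₀ p := h₁.sub h₀
  have i2 : Integrable fun p => f₃ p - f₂ p := h₃.sub h₂
  have i3 : Integrable fun p => f₁ p - f₀ p + (f₃ p - f₂ p) := i1.add i2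
  simp only [h]
  rw [integral_add hZ.1 i3, integral_add i1 i2, integral_sub h₁ h₀, integral_sub h₃ h₂, hZ.2,
    zero_add]

/-- integration by parts -/
theorem kexact_ibp {K : Set (A 4)} (hK : IsCompact K) {z : A 4 → ℝ} (hz : ContDiff ℝ ∞ z)
    (h0 : ∀ p, p ∉ K → z p = 0) {T : A 4 × A N → ℝ} (hT : ContDiff ℝ ∞ T) (y : A N) (v : A 4) :
    kexact_Z fun p => fderiv ℝ z p v * T (p, y) + z p * fderiv ℝ T (p, y) (v, 0) := by
  have hT' : ContDiff ℝ ∞ fun p => T (p, y) := hT.comp (contDiff_id.prodMk contDiff_const)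
  have i1 : Integrable fun p => fderiv ℝ z p v * T (p, y) :=
    kexact_int hK ((hz.continuous_fderiv (by simp)).clm_apply continuous_const)
      (kexact_fderiv_zero hK h0 v) hT'.continuous
  have i2 : Integrable fun p => z p * fderiv ℝ T (p, y) (v, 0) :=
    kexact_int hK hz.continuous h0 (kexact_cont_fderiv hT y _)
  have i3 : Integrable fun p => z p * T (p, y) := kexact_int hK hz.continuous h0 hT'.continuous
  have h := integral_mul_fderiv_eq_neg_fderiv_mul_of_integrable (μ := volume) (f := z)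
    (g := fun p => T (p, y)) (v := v) i1 (by simpa only [kexact_fderiv_fst hT] using i2) i3
    (fun x _ => hz.differentiable (by simp) x) fun x _ => hT'.differentiable (by simp) x
  simp only [kexact_fderiv_fst hT] at h
  exact ⟨i1.add i2, by rw [integral_add i1 i2, h, add_neg_cancel]⟩

/-- the primitive -/
theorem kexact_prim {K : Set (A 4)} (hK : IsCompact K) {z : A 4 → ℝ} (hz : ContDiff ℝ ∞ z)
    (h0 : ∀ p, p ∉ K → z p = 0) {σ : A N → A 4 × A N → ℝ} (hσ : ∀ b, ContDiff ℝ ∞ (σ b))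
    (hl : ∀ b e, σ b e = ∑ l, b l * σ (eb l) e) :
    ∃ ζ' : A N → A N, ContDiff ℝ ∞ ζ' ∧ ∀ y a b, ev (d1 ζ' y) a b =
      ∫ p, z p * (fderiv ℝ (σ b) (p, y) (0, a) - fderiv ℝ (σ a) (p, y) (0, b)) := by
  obtain ⟨ρ, -, hρ⟩ := hK.isBounded.exists_pos_norm_lt
  have hΦ : ∀ b, ContDiff ℝ ∞ fun q : A N × A 4 => z q.2 * σ b (q.2, q.1) := fun b =>
    (hz.comp contDiff_snd).mul ((hσ b).comp (contDiff_snd.prodMk contDiff_fst))
  have hg := fun b => contDiff_integral_loc volume (hΦ b) fun _ =>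
    ⟨ρ, Eventually.of_forall fun q x hx => by
      rw [h0 x fun hxK => (hρ x hxK).not_ge hx, zero_mul]⟩
  have hs : ContDiff ℝ ∞ fun y : A N =>
      (WithLp.toLp 2 fun l => ∫ p, z p * σ (eb l) (p, y) : A N) :=
    contDiff_toLp fun l => (hg (eb l)).1
  refine ⟨_, hs, fun y a b => ?_⟩
  have h1 : ∀ b y : A N, ⟪(WithLp.toLp 2 fun l => ∫ p, z p * σ (eb l) (p, y) : A N), b⟫ =
      ∫ p, z p * σ b (p, y) := by
    intro b y
    have i1 : ∀ l, Integrable fun p => b l * (z p * σ (eb l) (p, y)) := fun l =>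
      (kexact_int hK hz.continuous h0
        ((hσ _).continuous.comp (Continuous.prodMk_left y))).const_mul _
    simp only [PiLp.inner_apply, RCLike.inner_apply, conj_trivial, ← integral_const_mul]
    rw [← integral_finsetSum _ fun l _ => i1 l]
    refine integral_congr_ae (Eventually.of_forall fun p => ?_)
    simp only [hl b, Finset.mul_sum]
    exact Finset.sum_congr rfl fun l _ => by ring
  have h2 : ∀ a b : A N, ⟪fderiv ℝ (fun y : A N =>
      (WithLp.toLp 2 fun l => ∫ p, z p * σ (eb l) (p, y) : A N)) y a, b⟫ =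
      ∫ p, z p * fderiv ℝ (σ b) (p, y) (0, a) := by
    intro a b
    have e1 := fderiv_inner_apply ℝ (hs.differentiable (by simp) y) (differentiableAt_const b) a
    rw [fderiv_fun_const, Pi.zero_apply, zero_apply, inner_zero_right,
      zero_add] at e1
    rw [← e1]
    simp only [h1]
    rw [(hg b).2]
    refine integral_congr_ae (Eventually.of_forall fun p => ?_)
    have e2 : ContDiff ℝ ∞ fun y => σ b (p, y) := (hσ b).comp (contDiff_const.prodMk contDiff_id)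
    simp only []
    rw [← kexact_fderiv_fst (hΦ b), ← kexact_fderiv_snd (hσ b)]
    simp only []
    rw [fderiv_const_mul (e2.differentiable (by simp) y)]
    rfl
  rw [ev_d1, h2, h2, ← integral_sub
    (kexact_int hK hz.continuous h0 (kexact_cont_fderiv (hσ b) y _))
    (kexact_int hK hz.continuous h0 (kexact_cont_fderiv (hσ a) y _))]
  exact integral_congr_ae (Eventually.of_forall fun p => by ring)

theorem kexact_OmC_sm {X : Pre N} (c : X.RawChart) (R t : ℝ) (Y₁ Y₂ Y₃ Y₄ : A 4 × A N) :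
    ContDiff ℝ ∞ fun e => Pre.OmC c R t e Y₁ Y₂ Y₃ Y₄ := by
  have h1 : ContDiff ℝ ∞ fun e : A 4 × A N => c.ψ e.1 := c.ψ_sm.comp contDiff_fst
  have h2 : ∀ Y : A 4 × A N, ContDiff ℝ ∞ fun e : A 4 × A N => (fderiv ℝ c.ψ e.1 Y.1, Y.2) :=
    fun Y => (((c.ψ_sm.fderiv_right (m := ∞) (by simp)).comp contDiff_fst).clm_apply
      contDiff_const).prodMk contDiff_const
  exact contDiff_const.mul (X.Om_sm R
    (contDiff_const.prodMk (h1.prodMk ((contDiff_snd.sub h1).const_smul _))) (h2 _) (h2 _) (h2 _)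
    (h2 _))

theorem kexact_OmC_lin {X : Pre N} (c : X.RawChart) (R t : ℝ) (Y₂ Y₃ Y₄ : A 4 × A N) (b : A N)
    (e : A 4 × A N) :
    Pre.OmC c R t e (0, b) Y₂ Y₃ Y₄ = ∑ l, b l * Pre.OmC c R t e (0, eb l) Y₂ Y₃ Y₄ := by
  unfold Pre.OmC
  obtain ⟨T, hT⟩ := X.exists_OmL R (t, c.ψ e.1, t⁻¹ • (e.2 - c.ψ e.1))
    (fderiv ℝ c.ψ e.1 Y₂.1, Y₂.2) (fderiv ℝ c.ψ e.1 Y₃.1, Y₃.2) (fderiv ℝ c.ψ e.1 Y₄.1, Y₄.2)
  have h1 : ∀ Y, X.Om R (t, c.ψ e.1, t⁻¹ • (e.2 - c.ψ e.1)) Y (fderiv ℝ c.ψ e.1 Y₂.1, Y₂.2)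
      (fderiv ℝ c.ψ e.1 Y₃.1, Y₃.2) (fderiv ℝ c.ψ e.1 Y₄.1, Y₄.2) = -T Y := fun Y => by
    rw [hT, X.Om_swap₁₂, X.Om_swap₂₃, X.Om_swap₃₄, neg_neg]
  have h2 : ∀ b : A N, T (0, b) = (T.comp (ContinuousLinearMap.inr ℝ _ _)) b := fun _ => rfl
  simp only [h1, map_zero, h2]
  conv_lhs => rw [← sum_eb b]
  simp only [map_sum, map_smul, smul_eq_mul, mul_neg, Finset.sum_neg_distrib, Finset.mul_sum]
  congr 1
  exact Finset.sum_congr rfl fun l _ => by ring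

theorem Geo.kexact_ae (G : Geo N) : ∀ᵐ x ∂G.m, x ∈ G.S := G.m_S

theorem Geo.kexact_cont (G : Geo N) {ζ : A N → A N} (hζ : ContDiff ℝ ∞ ζ) :
    Continuous fun x => G.st x (d1 ζ x) :=
  G.st_sm.continuous.clm_apply (contDiff_d1 hζ).continuous

theorem Geo.kexact_st_congr (G : Geo N) {ζ ζ' : A N → A N} (hζ : ContDiff ℝ ∞ ζ)
    (hζ' : ContDiff ℝ ∞ ζ') {x : A N} (hx : x ∈ G.S) (h : ∀ᶠ y in 𝓝 x, y ∈ G.S → ζ y = ζ' y) :
    G.st x (d1 ζ x) = G.st x (d1 ζ' x) := by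
  rw [← G.st_Pt hx, G.toSub.Pt_d1_congr hζ hζ' hx h, G.st_Pt hx]

/-- Case of a one-form supported in a chart. For `y ∈ S`:
`ev (Op (st d1 ζ) y) b c = ∫ ⟪st x (d1 ζ x), τ x⟫ dm` with `τ x = (kerAt Kk t x y)† (biv b c)`,
`ev (τ x) u v = Ω (0,b) (0,c) (u,0) (v,0)` (`ev_adjoint_Kk_biv`). By `integral_chart` and `st_spec`
(with the vectors `dψ eᵢ`, `Vol = pf`) this is `∫_U wedge (d1 ζ) τ (dψ e₀) … (dψ e₃) dp`, a sum of
terms `± (∂ᵢ ζ̃ⱼ - ∂ⱼ ζ̃ᵢ) τ̃ₖₗ` where `ζ̃ⱼ p = ⟪ζ (ψ p), dψ p eⱼ⟫` (`ev_d1_pullback`), extended by zero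
outside `U` (`contDiff_indicator`), and `τ̃ₖₗ p = OmC (p, y) (0,b) (0,c) (eₖ,0) (eₗ,0)`. Integrate by
parts on `ℝ⁴`; `OmClosed` for `(0,b), (0,c), (eᵢ,0), (eₖ,0), (eₗ,0)` turns `d_p τ̃` into
`∂_b Ω̃(c,·,·,·) - ∂_c Ω̃(b,·,·,·)` up to sign. Put
`ζ' y l = ± ∫ p, ∑ⱼ ± ζ̃ⱼ p * OmC (p, y) (0, eb l) (eᵢ,0) (eₖ,0) (eₘ,0)` (`{i,k,m} = {j}ᶜ`), smooth by
`contDiff_integral_loc`. -/
theorem Geo.Kk_exact_loc (G : Geo N) {R t : ℝ} (hR : 1 ≤ R) (ht : 0 < t) (h : G.OmClosed R t)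
    (c : G.Chart) {K : Set (A 4)} (hK : IsCompact K) (hKU : K ⊆ c.U) (ζ : A N → A N)
    (hζ : ContDiff ℝ ∞ ζ) (h0 : ∀ x ∈ G.S, x ∉ c.ψ '' K → ζ x = 0) :
    ∃ ζ' : A N → A N, ContDiff ℝ ∞ ζ' ∧ ∀ y ∈ G.S, ∀ a b,
      ev (Op G.m (G.Kk R) t (fun x => G.st x (d1 ζ x)) y) a b = ev (d1 ζ' y) a b := by
  have hR0 : 0 < R := by linarith
  have hker := G.Kk_ker hR0
  have hdψ : ContDiff ℝ ∞ (fderiv ℝ c.ψ) := c.ψ_sm.fderiv_right (m := ∞) (by simp)
  have hw : ∀ j : Fin 4, ContDiff ℝ ∞ fun p => ⟪ζ (c.ψ p), fderiv ℝ c.ψ p (eb j)⟫ := fun j =>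
    (hζ.comp c.ψ_sm).inner ℝ (hdψ.clm_apply contDiff_const)
  have hw0 : ∀ j : Fin 4, ∀ p ∈ c.U, p ∉ K → ⟪ζ (c.ψ p), fderiv ℝ c.ψ p (eb j)⟫ = 0 := by
    intro j p hp hpK
    rw [h0 _ (c.ψ_S p hp), inner_zero_left]
    rintro ⟨p', hp', e⟩
    exact hpK (c.injOn (hKU hp') hp e ▸ hp')
  set z : Fin 4 → A 4 → ℝ := fun j =>
    c.U.indicator fun p => ⟪ζ (c.ψ p), fderiv ℝ c.ψ p (eb j)⟫ with hzdef
  have hz : ∀ j, ContDiff ℝ ∞ (z j) := fun j =>
    contDiff_indicator c.U_open hK hKU (hw j).contDiffOn (hw0 j)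
  have hz0 : ∀ j p, p ∉ K → z j p = 0 := fun j p hp => by
    by_cases hU : p ∈ c.U
    · exact (indicator_of_mem hU _).trans (hw0 j p hU hp)
    · exact indicator_of_notMem hU _
  have hzd : ∀ i j, ∀ p ∈ c.U, ev (d1 ζ (c.ψ p)) (fderiv ℝ c.ψ p (eb i)) (fderiv ℝ c.ψ p (eb j)) =
      fderiv ℝ (z j) p (eb i) - fderiv ℝ (z i) p (eb j) := by
    intro i j p hp
    have e : ∀ j, z j =ᶠ[𝓝 p] fun p => ⟪ζ (c.ψ p), fderiv ℝ c.ψ p (eb j)⟫ := fun j => by
      filter_upwards [c.U_open.mem_nhds hp] with q hq using indicator_of_mem hq _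
    rw [(e i).fderiv_eq, (e j).fderiv_eq, ev_d1_pullback c.ψ_sm hζ]
  set σ : Fin 4 → Fin 4 → Fin 4 → A N → A 4 × A N → ℝ := fun i k l b e =>
    Pre.OmC c.toRawChart R t e (0, b) (eb i, 0) (eb k, 0) (eb l, 0) with hσdef
  have prim := fun (j i k l : Fin 4) => kexact_prim hK (hz j) (hz0 j) (σ := σ i k l)
    (fun b => kexact_OmC_sm _ R t _ _ _ _) fun b e => kexact_OmC_lin _ R t _ _ _ b e
  obtain ⟨ζ₀, s₀, e₀⟩ := prim 0 1 2 3
  obtain ⟨ζ₁, s₁, e₁⟩ := prim 1 0 2 3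
  obtain ⟨ζ₂, s₂, e₂⟩ := prim 2 0 1 3
  obtain ⟨ζ₃, s₃, e₃⟩ := prim 3 0 1 2
  refine ⟨fun y => ζ₁ y - ζ₀ y + (ζ₃ y - ζ₂ y), (s₁.sub s₀).add (s₃.sub s₂), fun y hy a b => ?_⟩
  have hd1 : ev (d1 (fun y => ζ₁ y - ζ₀ y + (ζ₃ y - ζ₂ y)) y) a b =
      ev (d1 ζ₁ y) a b - ev (d1 ζ₀ y) a b + (ev (d1 ζ₃ y) a b - ev (d1 ζ₂ y) a b) := by
    have d := fun {f : A N → A N} (hf : ContDiff ℝ ∞ f) =>
      (hf.differentiable (by simp) y).hasFDerivAt
    simp only [ev_d1]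
    rw [(((d s₁).fun_sub (d s₀)).fun_add ((d s₃).fun_sub (d s₂))).fderiv]
    simp only [add_apply, sub_apply, inner_add_left, inner_sub_left]
    ring
  set τ : Fin 4 → Fin 4 → A 4 × A N → ℝ := fun k l e =>
    Pre.OmC c.toRawChart R t e (0, a) (0, b) (eb k, 0) (eb l, 0) with hτdef
  have hτ : ∀ k l, ContDiff ℝ ∞ (τ k l) := fun k l => kexact_OmC_sm _ R t _ _ _ _
  have ibp := fun (i j k l : Fin 4) => kexact_ibp hK (hz j) (hz0 j) (hτ k l) y (eb i)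
  have hZ := (((((((((((ibp 0 1 2 3).sub (ibp 1 0 2 3)).sub (ibp 0 2 1 3)).add
    (ibp 2 0 1 3)).add (ibp 0 3 1 2)).sub (ibp 3 0 1 2)).add (ibp 1 2 0 3)).sub
    (ibp 2 1 0 3)).sub (ibp 1 3 0 2)).add (ibp 3 1 0 2)).add (ibp 2 3 0 1)).sub (ibp 3 2 0 1)
  have hcl : ∀ (j i k l : Fin 4) (p : A 4),
      z j p * (fderiv ℝ (σ i k l b) (p, y) (0, a) - fderiv ℝ (σ i k l a) (p, y) (0, b)) =
        -(z j p * (fderiv ℝ (τ k l) (p, y) (eb i, 0) - fderiv ℝ (τ i l) (p, y) (eb k, 0) +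
          fderiv ℝ (τ i k) (p, y) (eb l, 0))) := by
    intro j i k l p
    by_cases hp : p ∈ c.U
    · have := h c p hp y hy (0, a) (0, b) (eb i, 0) (eb k, 0) (eb l, 0)
      change fderiv ℝ (σ i k l b) (p, y) (0, a) - fderiv ℝ (σ i k l a) (p, y) (0, b) +
        fderiv ℝ (τ k l) (p, y) (eb i, 0) - fderiv ℝ (τ i l) (p, y) (eb k, 0) +
        fderiv ℝ (τ i k) (p, y) (eb l, 0) = 0 at this
      linear_combination z j p * this
    · rw [hz0 j p fun hpK => hp (hKU hpK)]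
      ring
  have hi : ∀ j i k l : Fin 4, Integrable fun p =>
      z j p * (fderiv ℝ (σ i k l b) (p, y) (0, a) - fderiv ℝ (σ i k l a) (p, y) (0, b)) :=
    fun j i k l => kexact_int hK (hz j).continuous (hz0 j)
      ((kexact_cont_fderiv (kexact_OmC_sm _ R t _ _ _ _) y _).sub
        (kexact_cont_fderiv (kexact_OmC_sm _ R t _ _ _ _) y _))
  set I : A 4 → ℝ := fun p =>
    (fderiv ℝ (z 1) p (eb 0) - fderiv ℝ (z 0) p (eb 1)) * τ 2 3 (p, y)
    - (fderiv ℝ (z 2) p (eb 0) - fderiv ℝ (z 0) p (eb 2)) * τ 1 3 (p, y)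
    + (fderiv ℝ (z 3) p (eb 0) - fderiv ℝ (z 0) p (eb 3)) * τ 1 2 (p, y)
    + (fderiv ℝ (z 2) p (eb 1) - fderiv ℝ (z 1) p (eb 2)) * τ 0 3 (p, y)
    - (fderiv ℝ (z 3) p (eb 1) - fderiv ℝ (z 1) p (eb 3)) * τ 0 2 (p, y)
    + (fderiv ℝ (z 3) p (eb 2) - fderiv ℝ (z 2) p (eb 3)) * τ 0 1 (p, y) with hI
  have hL : ev (Op G.m (G.Kk R) t (fun x => G.st x (d1 ζ x)) y) a b = ∫ p, I p := by
    have hu := G.kexact_cont hζ
    have hc : Continuous fun x => ⟪biv a b, kerAt (G.Kk R) t x y (G.st x (d1 ζ x))⟫ :=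
      continuous_const.inner
        (((hker.kerAt_sm t).continuous.comp (Continuous.prodMk_left y)).clm_apply hu)
    rw [ev, Op, real_inner_comm,
      ← integral_inner (G.integrable_kerAt hker t (G.B.integrable_cont hu) y),
      G.integral_chart c hc.aestronglyMeasurable,
      ← setIntegral_eq_integral_of_forall_compl_eq_zero (s := c.U) (f := I)]
    · refine setIntegral_congr_fun c.U_open.measurableSet fun p hp => ?_
      have a1 := G.st_spec _ (c.ψ_S p hp) (d1 ζ (c.ψ p))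
        (ContinuousLinearMap.adjoint (G.Kk R (t, c.ψ p, t⁻¹ • (y - c.ψ p))) (biv a b)) _ _ _ _
        (c.π_dψ p hp (eb 0)) (c.π_dψ p hp (eb 1)) (c.π_dψ p hp (eb 2)) (c.π_dψ p hp (eb 3))
      rw [wedge, ContinuousLinearMap.adjoint_inner_right, real_inner_comm] at a1
      simp only [hzd _ _ p hp, Pre.ev_adjoint_Kk_biv] at a1
      simp only [hI, hτdef, Pre.OmC, map_zero, kerAt, smul_apply,
        inner_smul_right, smul_eq_mul, Pre.RawChart.pf]
      linear_combination t⁻¹ ^ 4 * a1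
    · intro p hp
      have := fun j v => kexact_fderiv_zero hK (hz0 j) v p fun hpK => hp (hKU hpK)
      simp only [hI, this]
      ring
    · intro x hx hxW
      have hxK : x ∉ c.ψ '' K := by
        rintro ⟨p, hp, rfl⟩
        exact hxW (c.ψ_W p (hKU hp))
      have e : G.st x (d1 ζ x) = G.st x (d1 (fun _ => 0) x) := by
        refine G.kexact_st_congr hζ contDiff_const hx ?_
        filter_upwards [(hK.image c.ψ_sm.continuous).isClosed.isOpen_compl.mem_nhds hxK]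
          with y hy hyS using h0 y hyS hy
      have e' : d1 (fun _ : A N => (0 : A N)) x = 0 := by
        ext p
        simp [d1]
      rw [e, e', map_zero, map_zero, inner_zero_right]
  rw [hL, hd1, e₀, e₁, e₂, e₃]
  refine hZ.fin (hi 0 1 2 3) (hi 1 0 2 3) (hi 2 0 1 3) (hi 3 0 1 2) fun p => ?_
  simp only [hI, hcl]
  ring

/-- partition of unity, `st_Pt`, `Sub.Pt_d1_congr` -/
theorem Geo.Kk_exact (G : Geo N) {R t : ℝ} (hR : 1 ≤ R) (ht : 0 < t) (h : G.OmClosed R t)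
    (ζ : A N → A N) (hζ : ContDiff ℝ ∞ ζ) : ∃ ζ' : A N → A N, ContDiff ℝ ∞ ζ' ∧
      ∀ y ∈ G.S, G.Pt y (Op G.m (G.Kk R) t (fun x => G.st x (d1 ζ x)) y) = G.Pt y (d1 ζ' y) := by
  classical
  have hR0 : 0 < R := by linarith
  have hker := G.Kk_ker hR0
  choose c F hc _ using fun x (hx : x ∈ G.S) => G.toSub.exists_chart hx
  obtain ⟨n, a, χ, ha, hχ, hχc, hχO, -, -, hχ1⟩ := exists_pou G.cpt
    (fun x => if hx : x ∈ G.S then (c x hx).W else univ) fun x hx => by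
      rw [dif_pos hx]
      exact ⟨(c x hx).W_open, hc x hx⟩
  have hW : ∀ i, tsupport (χ i) ⊆ (c (a i) (ha i)).W := fun i => by
    simpa only [dif_pos (ha i)] using hχO i
  have hs : ∀ i, ContDiff ℝ ∞ fun x => χ i x • ζ x := fun i => (hχ i).smul hζ
  have loc := fun i => G.Kk_exact_loc hR ht h (c (a i) (ha i))
    (K := (c (a i) (ha i)).pr '' (G.S ∩ tsupport (χ i)))
    ((G.cpt.inter_right (isClosed_tsupport _)).image (c (a i) (ha i)).pr.continuous)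
    (by
      rintro _ ⟨x, ⟨hx, hx'⟩, rfl⟩
      exact (c (a i) (ha i)).pr_mem x hx (hW i hx'))
    (fun x => χ i x • ζ x) (hs i) fun x hx hx' => by
      have : x ∉ tsupport (χ i) := fun hx'' =>
        hx' ⟨_, ⟨x, ⟨hx, hx''⟩, rfl⟩, (c (a i) (ha i)).ψ_pr x hx (hW i hx'')⟩
      rw [image_eq_zero_of_notMem_tsupport this, zero_smul]
  choose ζ' hζ' he using loc
  refine ⟨fun y => ∑ i, ζ' i y, ContDiff.sum fun i _ => hζ' i, fun y hy => ?_⟩
  have e1 : Op G.m (G.Kk R) t (fun x => G.st x (d1 ζ x)) y =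
      ∑ i, Op G.m (G.Kk R) t (fun x => G.st x (d1 (fun x => χ i x • ζ x) x)) y := by
    unfold Op
    rw [← integral_finsetSum _ fun i _ =>
      G.integrable_kerAt hker t (G.B.integrable_cont (G.kexact_cont (hs i))) y]
    refine integral_congr_ae ?_
    filter_upwards [G.kexact_ae] with x hx
    rw [← map_sum, ← map_sum, ← d1_sum _ hs,
      G.kexact_st_congr hζ (ContDiff.sum fun i _ => hs i) hx]
    filter_upwards [hχ1 x hx] with y hy _
    rw [← Finset.sum_smul, hy, one_smul]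
  refine Anti.ext (anti_pb _ _) (anti_pb _ _) fun u v => ?_
  rw [Pre.Pt, ev_pb, ev_pb, e1, d1_sum _ hζ', ev, ev, sum_inner, sum_inner]
  exact Finset.sum_congr rfl fun i _ => he i y hy _ _

end Crest.Agent.R240
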