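import Crest.Agent.R240.KPos
import Crest.Agent.R240.KClosed
import Crest.Agent.R240.KExact

/-! Row 240: existence of the smoothing kernel. -/

set_option autoImplicit false

open scoped ContDiff RealInnerProductSpace Topology
open MeasureTheory Set Filter

noncomputable section

namespace Crest.Agent.R240

variable {N : ℕ}

theorem Geo.exists_KData (G : Geo N) : Nonempty (KData G) := by
  obtain ⟨R, t₁, hR, ht₁, hcl⟩ := G.toSub.omClosed
  obtain ⟨t₂, c, C, ht₂, hc, hC, hpos⟩ := G.Kk_pos hR
  obtain ⟨c', hc', hc1, hge⟩ := G.toPre.kz_ge hR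
  have hR0 : 0 < R := by linarith
  refine ⟨{
    K := G.Kk R, k₀ := G.kz R, R := R, t₀ := min 1 (min t₁ t₂), c := min c c', C := C
    one_le_R := hR, t₀_pos := by positivity, t₀_le := min_le_left _ _, c_pos := by positivity
    c_le := (min_le_right _ _).trans hc1, C_pos := hC, ker := G.toPre.Kk_ker hR0
    ker₀ := G.toPre.kz_ker hR0, k₀_nonneg := G.toPre.kz_nonneg R
    k₀_ge := fun x hx w hw => (min_le_right _ _).trans (hge x hx w (hw.trans (min_le_right _ _)))
    lead := fun x hx w => G.toPre.Kk_lead R hx w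
    K_tan := fun x hx t w b => G.toPre.Kk_tan R hx t w b
    pos := fun t ht htt x hx z hz z' hz' => ?_
    closed := fun t ht htt w hw h0 => G.Kk_closed hR ht
      (hcl t ht (htt.trans ((min_le_right _ _).trans (min_le_left _ _)))) w hw h0
    exact := fun t ht htt ζ hζ => G.Kk_exact hR ht
      (hcl t ht (htt.trans ((min_le_right _ _).trans (min_le_left _ _)))) ζ hζ }⟩
  refine le_trans ?_ (hpos t ht (htt.trans ((min_le_right _ _).trans (min_le_right _ _)))
    x hx z hz z' hz')
  refine mul_le_mul_of_nonneg_left ?_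
    (mul_nonneg (G.toPre.kz_nonneg R _) (G.toPre.kz_nonneg R _))
  have := mul_le_mul_of_nonneg_right (min_le_left c c') (Pre.gap_nonneg (X := G.toPre) z z')
  linarith

end Crest.Agent.R240
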