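import Crest.Agent.R240.Boot
import Crest.Agent.R240.Cut
import Crest.Agent.R240.DualEx
import Crest.Agent.R240.KEx

/-! Row 240: the ambient theorem. -/

set_option autoImplicit false

open scoped ContDiff RealInnerProductSpace Topology
open MeasureTheory Set Filter

noncomputable section

namespace Crest.Agent.R240

variable {N k : ℕ} {G : Geo N}

namespace Dual
variable (P : Dual G k) (Q : KData G)

theorem isWt_cut (ε δ : ℝ) : IsWt fun z : A N × A N => bump (P.theta bump ε z.1 / δ) :=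
  ⟨(bump_sm.continuous.comp
    (((P.theta_sm ε).continuous.comp continuous_fst).div_const δ)).measurable,
    fun _ => bump_nonneg _, fun _ => bump_le_one _⟩

/-- the part of small density has small energy -/
theorem small_density {n Θ : ℝ} (hn : 0 ≤ n) (hB : ∀ r, 0 < r → P.Bd r n)
    (hΘ : ∀ x r, 0 < r → P.dens x r ≤ Θ) {ε : ℕ → ℝ} (hε : ∀ j, 0 < ε j)
    (hε0 : Tendsto ε atTop (𝓝 0)) : ∃ C, 0 ≤ C ∧ ∀ δ η, 0 < δ → 0 < η → ∀ᶠ r in 𝓝[>] (0 : ℝ),
      ∀ᶠ j in atTop, ∫ z, bump (P.theta bump (ε j) z.1 / δ) * P.dens z.1 r ∂P.V ≤ C * δ + η := by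
  obtain ⟨c, C, ε₀, hc, hC, hε₀, hd⟩ := P.dens_le_dens hn hB
  obtain ⟨c', C', hc', -, hθ⟩ := P.theta_bounds
  refine ⟨C / c', by positivity, fun δ η hδ hη => ?_⟩
  have hΘ0 : 0 ≤ Θ := (P.dens_nonneg 0 1).trans (hΘ 0 1 one_pos)
  set D : Set (A N × A N) := limsup (fun j => {z | P.theta bump (ε j) z.1 < δ}) atTop with hD
  have hDm : MeasurableSet D := MeasurableSet.measurableSet_limsup fun j =>
    measurableSet_lt ((P.theta_sm _).continuous.comp continuous_fst).measurable measurable_const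
  have hmem : ∀ z, z ∈ D ↔ ∃ᶠ j in atTop, P.theta bump (ε j) z.1 < δ := fun z =>
    mem_limsup_iff_frequently_mem
  set F : ℝ → A N × A N → ℝ := fun r => D.indicator fun z => max (P.dens z.1 r - C / c' * δ) 0
    with hF
  have hCd : 0 ≤ C / c' * δ := by positivity
  have hFm : ∀ r, Measurable (F r) := fun r =>
    (((((P.measurable_dens r).comp measurable_fst).sub_const _).max measurable_const).indicator hDm)
  have hFb : ∀ r, 0 < r → ∀ z, ‖F r z‖ ≤ Θ := by
    intro r hr z
    have := hΘ z.1 r hr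
    simp only [hF, indicator]
    split_ifs
    · rw [Real.norm_eq_abs, abs_of_nonneg (le_max_right _ _)]
      exact max_le (by linarith) hΘ0
    · simpa using hΘ0
  have hFt : Tendsto (fun r => ∫ z, F r z ∂P.V) (𝓝[>] 0) (𝓝 (∫ _, (0 : ℝ) ∂P.V)) := by
    refine tendsto_integral_filter_of_dominated_convergence (fun _ => Θ)
      (Eventually.of_forall fun r => (hFm r).aestronglyMeasurable) ?_ (integrable_const _) ?_
    · filter_upwards [self_mem_nhdsWithin] with r hr using Eventually.of_forall (hFb r hr)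
    · filter_upwards [P.ae_SM] with z hz
      by_cases hzD : z ∈ D
      · simp only [hF, indicator_of_mem hzD]
        rw [Metric.tendsto_nhds]
        intro κ hκ
        have h1 : ∀ᶠ j in atTop, ε j < min (2 * ε₀) (κ / (C + 1)) :=
          hε0.eventually (gt_mem_nhds (by positivity))
        obtain ⟨j, hj1, hj2⟩ := (((hmem z).1 hzD).and_eventually h1).exists
        have hεj := hε j
        have hj3 : ε j < 2 * ε₀ := hj2.trans_le (min_le_left _ _)
        have hj4 : ε j * (C + 1) < κ := (lt_div_iff₀ (by positivity)).1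
          (hj2.trans_le (min_le_right _ _))
        have h2 : P.dens z.1 (ε j / 2) ≤ δ / c' := by
          rw [le_div_iff₀ hc']
          have := (hθ (ε j) hεj z.1).1
          linarith
        filter_upwards [Ioc_mem_nhdsGT (show (0 : ℝ) < c * (ε j / 2) by positivity)] with r hr
        have h3 := hd z.1 hz.1 r (ε j / 2) hr.1 hr.2 (by linarith)
        have h4 : C * P.dens z.1 (ε j / 2) ≤ C / c' * δ := by
          calc _ ≤ C * (δ / c') := mul_le_mul_of_nonneg_left h2 hC
            _ = _ := by ring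
        rw [Real.dist_eq, sub_zero, abs_of_nonneg (le_max_right _ _)]
        exact max_lt (by nlinarith) hκ
      · simp only [hF, indicator_of_notMem hzD]
        exact tendsto_const_nhds
  rw [integral_zero] at hFt
  set E : ℕ → A N × A N → ℝ := fun j => Dᶜ.indicator fun z =>
    Θ * bump (P.theta bump (ε j) z.1 / δ) with hE
  have hEm : ∀ j, Measurable (E j) := fun j =>
    ((P.isWt_cut (ε j) δ).meas.const_mul _).indicator hDm.compl
  have hEb : ∀ j z, ‖E j z‖ ≤ Θ := by
    intro j z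
    simp only [hE, indicator]
    split_ifs
    · rw [Real.norm_eq_abs, abs_of_nonneg (mul_nonneg hΘ0 (bump_nonneg _))]
      exact mul_le_of_le_one_right hΘ0 (bump_le_one _)
    · simpa using hΘ0
  have hEt : Tendsto (fun j => ∫ z, E j z ∂P.V) atTop (𝓝 (∫ _, (0 : ℝ) ∂P.V)) := by
    refine tendsto_integral_filter_of_dominated_convergence (fun _ => Θ)
      (Eventually.of_forall fun j => (hEm j).aestronglyMeasurable)
      (Eventually.of_forall fun j => Eventually.of_forall (hEb j)) (integrable_const _)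
      (Eventually.of_forall fun z => ?_)
    by_cases hzD : z ∈ D
    · simp only [hE, indicator_of_notMem (notMem_compl_iff.2 hzD)]
      exact tendsto_const_nhds
    · have h1 : ∀ᶠ j in atTop, ¬ P.theta bump (ε j) z.1 < δ :=
        not_frequently.1 fun h => hzD ((hmem z).2 h)
      refine tendsto_const_nhds.congr' ?_
      filter_upwards [h1] with j hj
      simp only [hE, indicator_of_mem (mem_compl hzD)]
      rw [bump_eq_zero ((one_le_div hδ).2 (not_lt.1 hj)), mul_zero]
  rw [integral_zero] at hEt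
  filter_upwards [hFt.eventually (gt_mem_nhds (half_pos hη)), self_mem_nhdsWithin] with r hr hr0
  filter_upwards [hEt.eventually (gt_mem_nhds (half_pos hη))] with j hj
  have iF : Integrable (F r) P.V :=
    (integrable_const Θ).mono' (hFm r).aestronglyMeasurable (Eventually.of_forall (hFb r hr0))
  have iE : Integrable (E j) P.V :=
    (integrable_const Θ).mono' (hEm j).aestronglyMeasurable (Eventually.of_forall (hEb j))
  have hle : ∫ z, bump (P.theta bump (ε j) z.1 / δ) * P.dens z.1 r ∂P.V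
      ≤ ∫ z, (C / c' * δ + (F r z + E j z)) ∂P.V := by
    refine integral_mono_of_nonneg (Eventually.of_forall fun z =>
      mul_nonneg (bump_nonneg _) (P.dens_nonneg _ _)) ((integrable_const _).add (iF.add iE))
      (Eventually.of_forall fun z => ?_)
    have b0 := bump_nonneg (P.theta bump (ε j) z.1 / δ)
    have b1 := bump_le_one (P.theta bump (ε j) z.1 / δ)
    have d0 := P.dens_nonneg z.1 r
    have d1 := hΘ z.1 r hr0
    by_cases hzD : z ∈ D
    · simp only [hE, hF, indicator_of_notMem (notMem_compl_iff.2 hzD), indicator_of_mem hzD]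
      have := le_max_left (P.dens z.1 r - C / c' * δ) 0
      nlinarith
    · simp only [hE, hF, indicator_of_notMem hzD, indicator_of_mem (mem_compl hzD)]
      nlinarith
  have iFE : Integrable (fun z => F r z + E j z) P.V := iF.add iE
  rw [integral_add (integrable_const _) iFE, integral_add iF iE] at hle
  simp only [integral_const, probReal_univ, one_smul] at hle
  linarith

include Q in
theorem phi_eq_zero (u : A N → E2 N) (hu : ContDiff ℝ ∞ u) : P.φ u = 0 := by
  obtain ⟨n, hn, hb⟩ := P.boot Q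
  have hB : ∀ r, 0 < r → P.Bd r n := fun r hr v hv =>
    (hb v hv).trans (mul_le_mul_of_nonneg_left (G.B.L2_le_Hn hr.le _ _) hn)
  obtain ⟨gb, hgb⟩ : ∃ gb, P.Rep gb := G.B.exists_rep_smooth P.φ hb
  obtain ⟨CD, hCD, hD⟩ := P.DB_of_Bd
  set Θ := CD * (1 + n) with hΘd
  have hΘ0 : 0 ≤ Θ := by positivity
  have hΘ : ∀ x r, 0 < r → P.dens x r ≤ Θ := fun x r hr => hD r n hr hn (hB r hr) x r le_rfl
  obtain ⟨c, CA, hc, -, hCA, hA⟩ := P.energyA Q
  have hT : ∀ r, 0 < r → r ≤ c * Q.t₀ → P.tilt r ≤ CA * (Θ + n * √Θ + n ^ 2) := by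
    intro r hr hr0
    have ht : 0 < r / c := by positivity
    have ht0 : r / c ≤ Q.t₀ := by rw [div_le_iff₀ hc]; linarith
    have ht1 : r / c ≤ 1 := ht0.trans Q.t₀_le
    obtain ⟨g, hg⟩ := P.exists_isPhi Q ht ht1
    have h1 := hA _ n Θ g ht ht0 hn hΘ0 (hB _ ht) (hD _ n ht hn (hB _ ht)) hg
    rw [mul_div_cancel₀ _ hc.ne'] at h1
    have h2 : (r / c * n) ^ 2 ≤ n ^ 2 :=
      pow_le_pow_left₀ (by positivity) (mul_le_of_le_one_left hn ht1) 2
    have h3 : CA * (Θ + n * √Θ + (r / c * n) ^ 2) ≤ CA * (Θ + n * √Θ + n ^ 2) := by gcongr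
    nlinarith [sq_nonneg (G.B.L2 g)]
  obtain ⟨r₀, hr₀, hh⟩ := P.height_tendsto hn hB
  set ε : ℕ → ℝ := fun j => r₀ / 2 ^ j with hεd
  have hε : ∀ j, 0 < ε j := fun j => by positivity
  have hε0 : Tendsto ε atTop (𝓝 0) :=
    tendsto_const_nhds.div_atTop (tendsto_pow_atTop_atTop_of_one_lt one_lt_two)
  have hTε : ∀ᶠ j in atTop, P.tilt (ε j) ≤ CA * (Θ + n * √Θ + n ^ 2) := by
    have := Q.t₀_pos
    filter_upwards [hε0.eventually (ge_mem_nhds (show 0 < c * Q.t₀ by positivity))] with j hj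
      using hT _ (hε j) hj
  obtain ⟨CS, hCS, hS⟩ := P.small_density hn hB hΘ hε hε0
  obtain ⟨CB, hCB, hE⟩ := P.energyB Q
  obtain ⟨CI, tI, hCI, htI, htI0, hI⟩ := P.iter Q
  have hR : 0 < 2 * Q.R := by linarith [Q.one_le_R]
  have hsc : Tendsto (fun t : ℝ => 2 * Q.R * t) (𝓝[>] 0) (𝓝[>] 0) := by
    refine tendsto_nhdsWithin_iff.2 ⟨?_, ?_⟩
    · have : Tendsto (fun t : ℝ => 2 * Q.R * t) (𝓝 0) (𝓝 (2 * Q.R * 0)) :=
        tendsto_id.const_mul _
      rw [mul_zero] at this
      exact this.mono_left nhdsWithin_le_nhds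
    · filter_upwards [self_mem_nhdsWithin] with t ht using mul_pos hR ht
  have hUI : Tendsto (fun t => ∫ x, ‖gb x‖ * (P.dens x (2 * Q.R * t) / t) ∂G.m) (𝓝[>] 0) (𝓝 0) := by
    have h1 := ((P.tendsto_integral_dens hΘ hgb.1).comp hsc).const_mul (2 * Q.R)
    rw [mul_zero] at h1
    refine h1.congr' ?_
    filter_upwards [self_mem_nhdsWithin] with t ht
    have ht' : (0 : ℝ) < t := ht
    simp only [Function.comp]
    rw [← integral_const_mul]
    refine integral_congr_ae (Eventually.of_forall fun x => ?_)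
    have : Q.R ≠ 0 := (zero_lt_one.trans_le Q.one_le_R).ne'
    field_simp
  have htn : Tendsto (fun t : ℝ => (t * n) ^ 2) (𝓝[>] 0) (𝓝 0) := by
    have : Tendsto (fun t : ℝ => (t * n) ^ 2) (𝓝 0) (𝓝 ((0 * n) ^ 2)) :=
      (tendsto_id.mul_const _).pow 2
    simpa using this.mono_left nhdsWithin_le_nhds
  have key : ∀ η, 0 < η → |P.φ u| ≤ CI * (η * G.B.L2 u) := by
    intro η hη
    set κ := η ^ 2 / (4 * (CB + 1) * (CS + 1)) with hκ
    have hκ0 : 0 < κ := by positivity
    have hlim : Tendsto (fun t : ℝ => CI * (η * G.B.L2 u + n * t ^ (k + 1) * G.B.Hn 1 (k + 1) u))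
        (𝓝[>] 0) (𝓝 (CI * (η * G.B.L2 u + n * 0 ^ (k + 1) * G.B.Hn 1 (k + 1) u))) := by
      refine Tendsto.mono_left ?_ nhdsWithin_le_nhds
      exact ((((tendsto_id.pow _).const_mul _).mul_const _).const_add _).const_mul _
    rw [zero_pow (Nat.succ_ne_zero k), mul_zero, zero_mul, add_zero] at hlim
    refine ge_of_tendsto hlim ?_
    filter_upwards [hsc.eventually (hS κ κ hκ0 hκ0), hUI.eventually (ge_mem_nhds hκ0),
      htn.eventually (ge_mem_nhds hκ0), Ioc_mem_nhdsGT htI] with t h1 h2 h3 ht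
    have ht0 : t ≤ Q.t₀ := ht.2.trans htI0
    obtain ⟨g, hg⟩ := P.exists_isPhi Q ht.1 (ht0.trans Q.t₀_le)
    have h4 := hE t n _ g gb (fun j z => bump (P.theta bump (ε j) z.1 / κ)) ht.1 ht0 hn
      (hB t ht.1) hg hgb (fun j => P.isWt_cut _ _)
      (fun ζ hζ => P.cut hgb hΘ hκ0 hε hε0 hTε hh ζ hζ) h1
    have h5 : G.B.L2 g ^ 2 ≤ η ^ 2 := by
      have e1 : κ * (4 * (CB + 1) * (CS + 1)) = η ^ 2 := by rw [hκ]; field_simp
      have e2 : G.B.L2 g ^ 2 ≤ CB * (CS * κ + κ + κ + κ) := h4.trans (by gcongr)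
      have e3 : 0 ≤ CB * CS * κ := by positivity
      have e4 : 0 ≤ CB * κ := by positivity
      have e5 : 0 ≤ CS * κ := by positivity
      nlinarith
    have h6 : G.B.L2 g ≤ η := (pow_le_pow_iff_left₀ (G.B.L2_nonneg g) hη.le two_ne_zero).1 h5
    exact hI t η n ht.1 ht.2 hη.le hn (hB t ht.1) (fun w hw => (hg.bound w hw).trans
      (mul_le_mul_of_nonneg_right h6 (G.B.L2_nonneg w))) u hu
  have hlim : Tendsto (fun η : ℝ => CI * (η * G.B.L2 u)) (𝓝[>] 0) (𝓝 (CI * (0 * G.B.L2 u))) :=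
    ((tendsto_id.mul_const _).const_mul _).mono_left nhdsWithin_le_nhds
  rw [zero_mul, mul_zero] at hlim
  have := ge_of_tendsto hlim (by
    filter_upwards [self_mem_nhdsWithin] with η hη using key η hη)
  exact abs_nonpos_iff.1 this

end Dual

theorem Sub.main (X : Sub N) {α : A N → E2 N} (hα : ContDiff ℝ ∞ α) (hc : X.Closed α)
    (ht : X.Tames α) : ∃ η : A N → E2 N, ContDiff ℝ ∞ η ∧ X.Closed η ∧
      (∀ x ∈ X.S, X.Pm x (η x) = 0) ∧ X.Tames η := by
  obtain ⟨G, rfl⟩ := X.exists_geo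
  by_contra h
  obtain ⟨P⟩ := G.exists_dual h
  obtain ⟨Q⟩ := G.exists_KData
  have h1 := P.closed α hα hc
  rw [P.phi_eq_zero Q α hα, add_zero] at h1
  have h2 : ∀ᵐ z ∂P.V, 0 < G.fv α z := by
    filter_upwards [P.ae_SM] with z hz
    refine ht z.1 hz.1 z.2 hz.2.1 fun h0 => ?_
    have := hz.2.2
    rw [h0, norm_zero] at this
    exact zero_ne_one this
  have h3 := (integral_eq_zero_iff_of_nonneg_ae (h2.mono fun z hz => hz.le)
    (P.integrable_cont (G.toPre.fv_cont hα.continuous))).1 h1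
  have h4 : ∀ᵐ z ∂P.V, False := by
    filter_upwards [h2, h3] with z a b
    exact a.ne' b
  exact h4.exists.elim fun _ h => h

end Crest.Agent.R240
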