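import Crest.Agent.R240.Param
import Crest.Agent.R240.Chart
import Crest.Agent.R240.Alg2

/-! Row 240: definition of the smoothing kernel and its pointwise properties. -/

set_option autoImplicit false

open scoped ContDiff RealInnerProductSpace Topology
open MeasureTheory Set Filter

noncomputable section

namespace Crest.Agent.R240

variable {N : ℕ}

namespace Pre
variable (X : Pre N)

/-- `ξ ↦ π ξ - t (∂_{π ξ} π) (b - π b)` -/
def Cm (t : ℝ) (x b : A N) : A N →L[ℝ] A N :=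
  X.π x - t • (((fderiv ℝ X.π x).flip (b - X.π x b)) ∘L X.π x)

/-- the weight; it vanishes unless `‖π b‖ ≤ 1` and `‖b - π b‖ ≤ 1 + ‖w‖` -/
def wt (x w b : A N) : ℝ := bump (X.g x b b) * bump (‖w - (b - X.π x b)‖ ^ 2)

/-- the four-form on `A N × A N` (first components: directions of `x`, second ones: directions of
`y`), as a function of `q = (t, x, w)` -/
def Om (R : ℝ) (q : ℝ × A N × A N) (Y₁ Y₂ Y₃ Y₄ : A N × A N) : ℝ :=
  bump (‖q.2.2‖ ^ 2 / R ^ 2) * ∫ b, X.wt q.2.1 q.2.2 b *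
    X.Vol q.2.1 (Y₁.2 - X.Cm q.1 q.2.1 b Y₁.1) (Y₂.2 - X.Cm q.1 q.2.1 b Y₂.1)
      (Y₃.2 - X.Cm q.1 q.2.1 b Y₃.1) (Y₄.2 - X.Cm q.1 q.2.1 b Y₄.1)

/-- its component of bidegree `(2, 2)` -/
def Kk (R : ℝ) (q : ℝ × A N × A N) : E2 N →L[ℝ] E2 N :=
  matL fun p p' => X.Om R q (0, eb p.1) (0, eb p.2) (eb p'.1, 0) (eb p'.2, 0) / 4

/-- the total weight -/
def kz (R : ℝ) (q : A N × A N) : ℝ := bump (‖q.2‖ ^ 2 / R ^ 2) * ∫ b, X.wt q.1 q.2 b

theorem wt_eq_zero (x w b : A N) (h : 2 + ‖w‖ ≤ ‖b‖) : X.wt x w b = 0 := by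
  unfold wt
  rcases le_total 1 ‖X.π x b‖ with h1 | h1
  · rw [bump_eq_zero, zero_mul]
    unfold g
    rw [real_inner_self_eq_norm_sq, real_inner_self_eq_norm_sq]
    nlinarith [sq_nonneg ‖X.J x b‖]
  · rw [bump_eq_zero (s := ‖w - (b - X.π x b)‖ ^ 2), mul_zero]
    have h2 := norm_sub_norm_le b (X.π x b)
    have h3 := norm_sub_norm_le (b - X.π x b) w
    rw [norm_sub_rev (b - X.π x b) w] at h3
    nlinarith

theorem kdef_Cm_apply (t : ℝ) (x b ξ : A N) :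
    X.Cm t x b ξ = X.π x ξ - t • fderiv ℝ X.π x (X.π x ξ) (b - X.π x b) := rfl

theorem kdef_wt_nonneg (x w b : A N) : 0 ≤ X.wt x w b := mul_nonneg (bump_nonneg _) (bump_nonneg _)

section
variable {P : Type} [NormedAddCommGroup P] [NormedSpace ℝ P]

theorem kdef_wt_sm {x w b : P → A N} (hx : ContDiff ℝ ∞ x) (hw : ContDiff ℝ ∞ w)
    (hb : ContDiff ℝ ∞ b) : ContDiff ℝ ∞ fun p => X.wt (x p) (w p) (b p) :=
  (bump_sm.comp (X.g_sm hx hb hb)).mul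
    (bump_sm.comp ((hw.sub (hb.sub ((X.π_sm.comp hx).clm_apply hb))).norm_sq ℝ))

theorem kdef_Cm_sm {t : P → ℝ} {x b ξ : P → A N} (ht : ContDiff ℝ ∞ t) (hx : ContDiff ℝ ∞ x)
    (hb : ContDiff ℝ ∞ b) (hξ : ContDiff ℝ ∞ ξ) :
    ContDiff ℝ ∞ fun p => X.Cm (t p) (x p) (b p) (ξ p) := by
  have h1 : ContDiff ℝ ∞ (fderiv ℝ X.π) := X.π_sm.fderiv_right (m := ∞) (by simp)
  have h2 := (X.π_sm.comp hx).clm_apply hξ
  exact h2.sub (ht.smul (((h1.comp hx).clm_apply h2).clm_apply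
    (hb.sub ((X.π_sm.comp hx).clm_apply hb))))

end

theorem kdef_integrable (x w : A N) {f : A N → ℝ} (hf : Continuous f) :
    Integrable fun b => X.wt x w b * f b := by
  refine ((X.kdef_wt_sm contDiff_const contDiff_const contDiff_id).continuous.mul
    hf).integrable_of_hasCompactSupport ?_
  refine HasCompactSupport.intro (isCompact_closedBall (0 : A N) (2 + ‖w‖)) fun b hb => ?_
  rw [mem_closedBall_zero_iff, not_le] at hb
  exact mul_eq_zero_of_left (X.wt_eq_zero x w b hb.le) _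

theorem kdef_integrable_Vol (q : ℝ × A N × A N) (Y₁ Y₂ Y₃ Y₄ : A N × A N) :
    Integrable fun b => X.wt q.2.1 q.2.2 b *
      X.Vol q.2.1 (Y₁.2 - X.Cm q.1 q.2.1 b Y₁.1) (Y₂.2 - X.Cm q.1 q.2.1 b Y₂.1)
        (Y₃.2 - X.Cm q.1 q.2.1 b Y₃.1) (Y₄.2 - X.Cm q.1 q.2.1 b Y₄.1) := by
  have h : ∀ Y : A N × A N, ContDiff ℝ ∞ fun b => Y.2 - X.Cm q.1 q.2.1 b Y.1 := fun Y =>
    contDiff_const.sub (X.kdef_Cm_sm contDiff_const contDiff_const contDiff_id contDiff_const)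
  exact X.kdef_integrable _ _ (X.Vol_sm contDiff_const (h _) (h _) (h _) (h _)).continuous

theorem kdef_om_swap (x a b : A N) : X.om x b a = -X.om x a b := by
  unfold om
  rw [real_inner_comm (X.π x a), real_inner_comm (X.J x a)]
  ring

theorem kdef_om_add (x a b c : A N) : X.om x a (b + c) = X.om x a b + X.om x a c := by
  simp only [om, map_add, inner_add_right]
  ring

theorem kdef_om_smul (x a b : A N) (s : ℝ) : X.om x a (s • b) = s * X.om x a b := by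
  simp only [om, map_smul, inner_smul_right]
  ring

theorem kdef_om_neg_π {x : A N} (hx : x ∈ X.S) (a b : A N) :
    X.om x a (0 - X.π x b) = -X.om x a b := by
  simp only [om, zero_sub, map_neg, inner_neg_right, X.ππ x hx, X.Jπ x hx]
  ring

theorem kdef_loc {P : Type} [TopologicalSpace P] {w : P → A N} (hw : Continuous w) (p : P) :
    ∀ᶠ q in 𝓝 p, 2 + ‖w q‖ ≤ 3 + ‖w p‖ := by
  filter_upwards [(hw.norm.tendsto p).eventually_le_const (lt_add_one ‖w p‖)] with q hq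
  linarith

theorem Om_sm (R : ℝ) {P : Type} [NormedAddCommGroup P] [NormedSpace ℝ P] [FiniteDimensional ℝ P]
    {q : P → ℝ × A N × A N} {Y₁ Y₂ Y₃ Y₄ : P → A N × A N} (hq : ContDiff ℝ ∞ q)
    (h₁ : ContDiff ℝ ∞ Y₁) (h₂ : ContDiff ℝ ∞ Y₂) (h₃ : ContDiff ℝ ∞ Y₃) (h₄ : ContDiff ℝ ∞ Y₄) :
    ContDiff ℝ ∞ fun p => X.Om R (q p) (Y₁ p) (Y₂ p) (Y₃ p) (Y₄ p) := by
  have hx : ContDiff ℝ ∞ fun z : P × A N => (q z.1).2.1 := hq.snd.fst.comp contDiff_fst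
  have h : ∀ {Y : P → A N × A N}, ContDiff ℝ ∞ Y → ContDiff ℝ ∞ fun z : P × A N =>
      (Y z.1).2 - X.Cm (q z.1).1 (q z.1).2.1 z.2 (Y z.1).1 := fun hY =>
    (hY.snd.comp contDiff_fst).sub (X.kdef_Cm_sm (hq.fst.comp contDiff_fst) hx contDiff_snd
      (hY.fst.comp contDiff_fst))
  have hΦ := (X.kdef_wt_sm hx (hq.snd.snd.comp contDiff_fst) contDiff_snd).mul
    (X.Vol_sm hx (h h₁) (h h₂) (h h₃) (h h₄))
  refine (bump_sm.comp ((hq.snd.snd.norm_sq ℝ).div_const _)).mul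
    (contDiff_integral_loc volume hΦ fun p => ⟨3 + ‖(q p).2.2‖, ?_⟩).1
  filter_upwards [kdef_loc hq.snd.snd.continuous p] with p' hp' b hb
  exact mul_eq_zero_of_left (X.wt_eq_zero _ _ _ (hp'.trans hb)) _

theorem kdef_bump_zero {R : ℝ} (hR : 0 < R) {w : A N} (h : R ≤ ‖w‖) :
    bump (‖w‖ ^ 2 / R ^ 2) = 0 :=
  bump_eq_zero ((one_le_div (pow_pos hR 2)).2 (pow_le_pow_left₀ hR.le h 2))

theorem Om_eq_zero {R : ℝ} (hR : 0 < R) {q : ℝ × A N × A N} (h : R ≤ ‖q.2.2‖)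
    (Y₁ Y₂ Y₃ Y₄ : A N × A N) : X.Om R q Y₁ Y₂ Y₃ Y₄ = 0 := by
  rw [Om, kdef_bump_zero hR h, zero_mul]

theorem Om_swap₁₂ (R : ℝ) (q : ℝ × A N × A N) (Y₁ Y₂ Y₃ Y₄ : A N × A N) :
    X.Om R q Y₂ Y₁ Y₃ Y₄ = -X.Om R q Y₁ Y₂ Y₃ Y₄ := by
  rw [Om, Om, ← mul_neg, ← integral_neg]
  congr 2
  funext b
  simp only [Vol]
  rw [X.kdef_om_swap _ (Y₁.2 - _) (Y₂.2 - _)]
  ring

theorem Om_swap₂₃ (R : ℝ) (q : ℝ × A N × A N) (Y₁ Y₂ Y₃ Y₄ : A N × A N) :
    X.Om R q Y₁ Y₃ Y₂ Y₄ = -X.Om R q Y₁ Y₂ Y₃ Y₄ := by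
  rw [Om, Om, ← mul_neg, ← integral_neg]
  congr 2
  funext b
  simp only [Vol]
  rw [X.kdef_om_swap _ (Y₂.2 - _) (Y₃.2 - _)]
  ring

theorem Om_swap₃₄ (R : ℝ) (q : ℝ × A N × A N) (Y₁ Y₂ Y₃ Y₄ : A N × A N) :
    X.Om R q Y₁ Y₂ Y₄ Y₃ = -X.Om R q Y₁ Y₂ Y₃ Y₄ := by
  rw [Om, Om, ← mul_neg, ← integral_neg]
  congr 2
  funext b
  simp only [Vol]
  rw [X.kdef_om_swap _ (Y₃.2 - _) (Y₄.2 - _)]
  ring

theorem kdef_Om_pair (R : ℝ) (q : ℝ × A N × A N) (Y₁ Y₂ Y₃ Y₄ : A N × A N) :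
    X.Om R q Y₃ Y₄ Y₁ Y₂ = X.Om R q Y₁ Y₂ Y₃ Y₄ := by
  rw [X.Om_swap₂₃ R q Y₃ Y₁ Y₄ Y₂, X.Om_swap₃₄ R q Y₃ Y₁ Y₂ Y₄, X.Om_swap₁₂ R q Y₁ Y₃ Y₂ Y₄,
    X.Om_swap₂₃ R q Y₁ Y₂ Y₃ Y₄]
  ring

/-- linearity in the last slot (the others follow by the swaps) -/
theorem exists_OmL (R : ℝ) (q : ℝ × A N × A N) (Y₁ Y₂ Y₃ : A N × A N) :
    ∃ T : (A N × A N) →L[ℝ] ℝ, ∀ Y₄, T Y₄ = X.Om R q Y₁ Y₂ Y₃ Y₄ := by
  refine ⟨LinearMap.toContinuousLinearMap
    { toFun := fun Y₄ => X.Om R q Y₁ Y₂ Y₃ Y₄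
      map_add' := fun Y Y' => ?_
      map_smul' := fun s Y => ?_ }, fun _ => rfl⟩
  · rw [Om, Om, Om, ← mul_add,
      ← integral_add (X.kdef_integrable_Vol q _ _ _ _) (X.kdef_integrable_Vol q _ _ _ _)]
    congr 2
    funext b
    rw [show (Y + Y').2 - X.Cm q.1 q.2.1 b (Y + Y').1 =
      (Y.2 - X.Cm q.1 q.2.1 b Y.1) + (Y'.2 - X.Cm q.1 q.2.1 b Y'.1) by
        rw [Prod.fst_add, Prod.snd_add, map_add]; abel]
    simp only [Vol, kdef_om_add]
    ring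
  · rw [Om, Om, RingHom.id_apply, smul_eq_mul, mul_left_comm, ← integral_const_mul s]
    congr 2
    funext b
    rw [show (s • Y).2 - X.Cm q.1 q.2.1 b (s • Y).1 = s • (Y.2 - X.Cm q.1 q.2.1 b Y.1) by
        rw [Prod.smul_fst, Prod.smul_snd, map_smul, smul_sub]]
    simp only [Vol, kdef_om_smul]
    ring

theorem kdef_Om_exp₄ (R : ℝ) (q : ℝ × A N × A N) (Y₁ Y₂ Y₃ : A N × A N)
    (ι : A N →L[ℝ] A N × A N) (v : A N) :
    X.Om R q Y₁ Y₂ Y₃ (ι v) = ∑ l, v l * X.Om R q Y₁ Y₂ Y₃ (ι (eb l)) := by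
  obtain ⟨T, hT⟩ := X.exists_OmL R q Y₁ Y₂ Y₃
  simp only [← hT]
  conv_lhs => rw [← sum_eb v]
  simp only [map_sum, map_smul, smul_eq_mul]

theorem kdef_Om_exp (R : ℝ) (q : ℝ × A N × A N) (Y₁ Y₂ : A N × A N)
    (ι : A N →L[ℝ] A N × A N) (u v : A N) :
    ∑ k, ∑ l, X.Om R q Y₁ Y₂ (ι (eb k)) (ι (eb l)) * (u k * v l - v k * u l) =
      2 * X.Om R q Y₁ Y₂ (ι u) (ι v) := by
  have key : ∀ u v : A N, X.Om R q Y₁ Y₂ (ι u) (ι v) =
      ∑ k, ∑ l, X.Om R q Y₁ Y₂ (ι (eb k)) (ι (eb l)) * (u k * v l) := by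
    intro u v
    rw [X.Om_swap₃₄, X.kdef_Om_exp₄, ← Finset.sum_neg_distrib]
    refine Finset.sum_congr rfl fun k _ => ?_
    rw [X.Om_swap₃₄, X.kdef_Om_exp₄ R q Y₁ Y₂ _ ι v, mul_neg, neg_neg, Finset.mul_sum]
    exact Finset.sum_congr rfl fun l _ => by ring
  have h1 := key u v
  have h2 := key v u
  rw [X.Om_swap₃₄] at h2
  simp only [mul_sub, Finset.sum_sub_distrib]
  linarith

theorem Om_π (R : ℝ) {q : ℝ × A N × A N} (hx : q.2.1 ∈ X.S) (Y₁ Y₂ Y₃ : A N × A N) (a b : A N) :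
    X.Om R q Y₁ Y₂ Y₃ (X.π q.2.1 a, b) = X.Om R q Y₁ Y₂ Y₃ (a, b) := by
  simp only [Om, kdef_Cm_apply, X.ππ _ hx]

theorem anti_Kk (R : ℝ) (q : ℝ × A N × A N) (B : E2 N) : Anti (X.Kk R q B) := by
  intro k l
  simp only [Kk, matL_apply, ← Finset.sum_neg_distrib]
  refine Finset.sum_congr rfl fun p _ => ?_
  rw [X.Om_swap₁₂]
  ring

theorem ev_Kk (R : ℝ) (q : ℝ × A N × A N) (B : E2 N) (a b : A N) : ev (X.Kk R q B) a b =
    (∑ p : Fin N × Fin N, X.Om R q (0, a) (0, b) (eb p.1, 0) (eb p.2, 0) * B p) / 2 := by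
  have key : ∀ p : Fin N × Fin N, X.Om R q (0, a) (0, b) (eb p.1, 0) (eb p.2, 0) * B p / 2 =
      ∑ k, ∑ l, X.Om R q (0, eb k) (0, eb l) (eb p.1, 0) (eb p.2, 0) / 4 * B p *
        (a k * b l - b k * a l) := by
    intro p
    have := X.kdef_Om_exp R q (eb p.1, 0) (eb p.2, 0) (ContinuousLinearMap.inr ℝ _ _) a b
    simp only [ContinuousLinearMap.inr_apply, X.kdef_Om_pair R q (0, _) (0, _)] at this
    calc _ = B p / 4 * (2 * X.Om R q (0, a) (0, b) (eb p.1, 0) (eb p.2, 0)) := by ring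
      _ = _ := by
        rw [← this]
        simp only [Finset.mul_sum]
        exact Finset.sum_congr rfl fun k _ => Finset.sum_congr rfl fun l _ => by ring
  simp only [ev_eq_sum, Kk, matL_apply, Finset.sum_mul, Finset.sum_div, key]
  rw [Finset.sum_comm (γ := Fin N × Fin N)]
  exact Finset.sum_congr rfl fun k _ => Finset.sum_comm

theorem anti_adjoint_Kk (R : ℝ) (q : ℝ × A N × A N) (B : E2 N) :
    Anti (ContinuousLinearMap.adjoint (X.Kk R q) B) := by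
  intro k l
  simp only [Kk, adjoint_matL, matL_apply, ← Finset.sum_neg_distrib]
  refine Finset.sum_congr rfl fun p _ => ?_
  rw [X.Om_swap₃₄]
  ring

theorem ev_adjoint_Kk_biv (R : ℝ) (q : ℝ × A N × A N) (a b u v : A N) :
    ev (ContinuousLinearMap.adjoint (X.Kk R q) (biv a b)) u v
      = X.Om R q (0, a) (0, b) (u, 0) (v, 0) := by
  have h1 := X.kdef_Om_exp R q (0, a) (0, b) (ContinuousLinearMap.inl ℝ _ _) u v
  simp only [ContinuousLinearMap.inl_apply] at h1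
  rw [ev, ContinuousLinearMap.adjoint_inner_left, real_inner_comm]
  change ev _ a b = _
  rw [ev_Kk, Fintype.sum_prod_type]
  simp only [biv, PiLp.sub_apply, tens_apply]
  rw [h1]
  ring

theorem Kk_ker {R : ℝ} (hR : 0 < R) : IsKer (X.Kk R) R := by
  refine ⟨contDiff_matL fun p p' => (X.Om_sm R contDiff_id contDiff_const contDiff_const
    contDiff_const contDiff_const).div_const _, fun t x w h => ?_⟩
  ext B p
  simp only [Kk, matL_apply, X.Om_eq_zero hR (q := (t, x, w)) h]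
  simp

theorem kz_ker {R : ℝ} (hR : 0 < R) : IsKer (fun q : ℝ × A N × A N => X.kz R q.2) R := by
  refine ⟨?_, fun t x w h => ?_⟩
  · have hΦ : ContDiff ℝ ∞ fun z : (ℝ × A N × A N) × A N => X.wt z.1.2.1 z.1.2.2 z.2 :=
      X.kdef_wt_sm contDiff_fst.snd.fst contDiff_fst.snd.snd contDiff_snd
    refine (bump_sm.comp ((contDiff_snd.snd.norm_sq ℝ).div_const _)).mul
      (contDiff_integral_loc volume hΦ fun p => ⟨3 + ‖p.2.2‖, ?_⟩).1
    filter_upwards [kdef_loc (w := fun q : ℝ × A N × A N => q.2.2) continuous_snd.snd p]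
      with p' hp' b hb
    exact X.wt_eq_zero _ _ _ (hp'.trans hb)
  · simp only [kz, kdef_bump_zero hR h, zero_mul]

theorem kz_nonneg (R : ℝ) (q : A N × A N) : 0 ≤ X.kz R q := by
  exact mul_nonneg (bump_nonneg _) (integral_nonneg fun b => X.kdef_wt_nonneg _ _ b)

theorem kz_ge {R : ℝ} (hR : 1 ≤ R) : ∃ c, 0 < c ∧ c ≤ 1 ∧ ∀ x ∈ X.S, ∀ w, ‖w‖ ≤ c →
    c ≤ X.kz R (x, w) := by
  obtain ⟨C, hC, hb⟩ := X.exists_bound
  have hρ : 0 < 1 / (8 * C) := by positivity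
  have hv : 0 < volume.real (Metric.ball (0 : A N) (1 / (8 * C))) :=
    ENNReal.toReal_pos (Metric.measure_ball_pos _ _ hρ).ne' measure_ball_lt_top.ne
  refine ⟨min (1 / 4) (volume.real (Metric.ball (0 : A N) (1 / (8 * C)))),
    lt_min (by norm_num) hv, (min_le_left _ _).trans (by norm_num), fun x hx w hw => ?_⟩
  have hw' : ‖w‖ ≤ 1 / 4 := hw.trans (min_le_left _ _)
  have h1 : bump (‖w‖ ^ 2 / R ^ 2) = 1 := by
    refine bump_eq_one ((div_le_self (sq_nonneg _) (one_le_pow₀ hR)).trans ?_)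
    nlinarith [norm_nonneg w]
  rw [kz, h1, one_mul]
  refine (min_le_right _ _).trans ?_
  rw [← integral_indicator_one Metric.isOpen_ball.measurableSet]
  refine integral_mono_of_nonneg
    (Eventually.of_forall fun b => indicator_nonneg (fun _ _ => zero_le_one) b)
    (by simpa using X.kdef_integrable x w continuous_one) (Eventually.of_forall fun b => ?_)
  by_cases hb' : b ∈ Metric.ball (0 : A N) (1 / (8 * C))
  · rw [indicator_of_mem hb']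
    rw [mem_ball_zero_iff, lt_div_iff₀ (by positivity)] at hb'
    have a1 : ‖X.π x b‖ ≤ 1 / 8 := ((X.π x).le_of_opNorm_le (hb x hx).1 b).trans (by linarith)
    have a2 : ‖X.J x b‖ ≤ 1 / 8 := ((X.J x).le_of_opNorm_le (hb x hx).2 b).trans (by linarith)
    have a3 : ‖b‖ ≤ 1 / 8 := by nlinarith [norm_nonneg b]
    have a4 : ‖w - (b - X.π x b)‖ ≤ 1 / 2 := by
      linarith [norm_sub_le w (b - X.π x b), norm_sub_le b (X.π x b)]
    have a5 : X.g x b b ≤ 1 / 4 := by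
      unfold g
      rw [real_inner_self_eq_norm_sq, real_inner_self_eq_norm_sq]
      nlinarith [norm_nonneg (X.π x b), norm_nonneg (X.J x b)]
    show (1 : ℝ) ≤ X.wt x w b
    rw [wt, bump_eq_one a5, bump_eq_one (by nlinarith [norm_nonneg (w - (b - X.π x b))]), one_mul]
  · rw [indicator_of_notMem hb']
    exact X.kdef_wt_nonneg _ _ _

theorem Kk_lead (R : ℝ) {x : A N} (hx : x ∈ X.S) (w : A N) :
    X.Kk R (0, x, w) = X.kz R (x, w) • X.volL x := by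
  have key : ∀ a b c d : A N, X.Om R (0, x, w) (0, a) (0, b) (c, 0) (d, 0) =
      X.kz R (x, w) * X.Vol x a b c d := by
    intro a b c d
    rw [Om, kz, mul_assoc, ← integral_mul_const]
    congr 2
    funext z
    simp only [kdef_Cm_apply, zero_smul, sub_zero, map_zero, Vol, X.kdef_om_neg_π hx]
    rw [X.kdef_om_swap x d, X.kdef_om_neg_π hx, X.kdef_om_swap x c d]
    ring
  ext B p
  simp only [Kk, volL, matL_apply, key, smul_apply, PiLp.smul_apply,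
    smul_eq_mul, Finset.mul_sum]
  exact Finset.sum_congr rfl fun _ _ => by ring

theorem Kk_tan (R : ℝ) {x : A N} (hx : x ∈ X.S) (t : ℝ) (w : A N) (b : E2 N) :
    X.Kk R (t, x, w) (ContinuousLinearMap.adjoint (X.Pt x) b) = X.Kk R (t, x, w) b := by
  refine (X.anti_Kk _ _ _).ext (X.anti_Kk _ _ _) fun a c => ?_
  have key : X.Pt x (ContinuousLinearMap.adjoint (X.Kk R (t, x, w)) (biv a c)) =
      ContinuousLinearMap.adjoint (X.Kk R (t, x, w)) (biv a c) := by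
    refine (anti_pb _ _).ext (X.anti_adjoint_Kk _ _ _) fun u v => ?_
    rw [ev_pb, ev_adjoint_Kk_biv, ev_adjoint_Kk_biv, X.Om_π R (q := (t, x, w)) hx, X.Om_swap₃₄,
      X.Om_π R (q := (t, x, w)) hx, ← X.Om_swap₃₄]
  rw [ev, ev, ← ContinuousLinearMap.adjoint_inner_right, ContinuousLinearMap.adjoint_inner_left,
    key, ContinuousLinearMap.adjoint_inner_right]

end Pre

end Crest.Agent.R240
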