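import Crest.Agent.R240.Param

/-! Row 240: fibre integration of a pulled back top degree form is closed.

Let `Φ (e, b) = (ξ e - (b - B e (L e b)), L e b) ∈ A N × A 4`, `μ (ξ, η) = bump ‖η‖² * bump ‖ξ‖²`
and let `ω = μ • det` be the top degree form (degree `N + 4`) on `A N × A 4`
(`Basis.det` of the product basis reindexed by `Fin (N + 4)`, as a continuous alternating map).
`extDeriv ω = 0` since alternating maps of degree `> finrank` vanish, so
`extDeriv (Φ^* ω) = 0` by `extDeriv_pullback` (Mathlib.Analysis.Calculus.DifferentialForm.Basic).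
Evaluate (`extDeriv_apply`) on the `N + 5` vectors `(X₀,0), …, (X₄,0), (0, eb 0), …, (0, eb (N-1))`
and integrate over `b`: the `N` terms with a derivative in `b` integrate to zero (compact support
in `b`, `integral_fderiv_eq_zero`-type lemma such as
`integral_bilinear_hasFDerivAt_right_eq_neg_left_of_integrable`), the five other terms commute
with the integral (`contDiff_integral_loc`). Finally for `e ∈ O`,
`(Φ^* ω) ((X₁,0), …, (X₄,0), (0, eb ·)) = ± μ (Φ) * det4 (pioLam X₁) … (pioLam X₄)` with a constant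
sign: the map `Σ (ξ, η) = (B η - ξ, L ξ)` is the composition of the shears `(ξ, η) ↦ (ξ - B η, η)`,
`(ξ, η) ↦ (ξ, η + L ξ)` and of `(ξ, η) ↦ (-ξ, η)`, so has determinant `(-1)^N`; it sends
`dΦ (0, β)` to `(β, 0)` and the second component of `Σ (dΦ (X, 0))` is `pioLam X`; the resulting
matrix is block triangular (`Matrix.det_fromBlocks_zero₂₁` and friends). Any other proof is
welcome. -/

set_option autoImplicit false

open scoped ContDiff RealInnerProductSpace Topology
open MeasureTheory Set Filter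

noncomputable section

namespace Crest.Agent.R240

variable {N : ℕ} {E : Type} [NormedAddCommGroup E] [NormedSpace ℝ E]

/-- reindexing -/
def pio_q (N : ℕ) : Fin 4 ⊕ Fin N ≃ Fin (N + 4) := finSumFinEquiv.trans (finCongr (by omega))

theorem pio_q_inr (j : Fin N) : pio_q N (Sum.inr j) = j.succ.succ.succ.succ := by
  ext; simp [pio_q]

theorem pio_q_0 : pio_q N (Sum.inl 0) = 0 := by ext; simp [pio_q]
theorem pio_q_1 : pio_q N (Sum.inl 1) = (0 : Fin (N + 3)).succ := by ext; simp [pio_q]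
theorem pio_q_2 : pio_q N (Sum.inl 2) = (0 : Fin (N + 2)).succ.succ := by
  ext; simp only [pio_q, Fin.val_succ]; simp
theorem pio_q_3 : pio_q N (Sum.inl 3) = (0 : Fin (N + 1)).succ.succ.succ := by
  ext; simp [pio_q]

/-- coordinates on the target -/
def pio_coord (N : ℕ) : (A N × A 4) →ₗ[ℝ] Fin (N + 4) → ℝ where
  toFun w k := Sum.elim w.2 w.1 ((pio_q N).symm k)
  map_add' w w' := by
    funext k
    simp only [Pi.add_apply]
    rcases (pio_q N).symm k with i | j <;> simp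
  map_smul' s w := by
    funext k
    simp only [Pi.smul_apply]
    rcases (pio_q N).symm k with i | j <;> simp

/-- the determinant on the target -/
def pio_det (N : ℕ) : (A N × A 4) [⋀^Fin (N + 4)]→L[ℝ] ℝ :=
  { (Matrix.detRowAlternating.compLinearMap (pio_coord N)) with
    cont := by
      change Continuous fun v : Fin (N + 4) → A N × A 4 =>
        Matrix.det (Matrix.of fun i => pio_coord N (v i))
      refine Continuous.matrix_det ?_
      refine continuous_pi fun i => ?_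
      exact (pio_coord N).continuous_of_finiteDimensional.comp (continuous_apply i) }

theorem pio_det_apply (v : Fin (N + 4) → A N × A 4) :
    pio_det N v = Matrix.det (Matrix.of fun i => pio_coord N (v i)) := rfl

theorem pio_det4 (a b c d : A 4) :
    Matrix.det (Matrix.of fun i : Fin 4 => fun j => (![a, b, c, d] i) j) = det4 a b c d := by
  simp [Matrix.det_succ_row_zero, Fin.sum_univ_succ, det4, Fin.succAbove]
  ring

theorem pio_det_eq {B : A 4 →L[ℝ] A N} {L : A N →L[ℝ] A 4} (hLB : ∀ a, L (B a) = a)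
    (Y₁ Y₂ Y₃ Y₄ : A N × A 4) :
    pio_det N (Fin.cons Y₁ (Fin.cons Y₂ (Fin.cons Y₃ (Fin.cons Y₄
      fun j : Fin N => (-(eb j - B (L (eb j))), L (eb j))))))
      = (-1) ^ N * det4 (L Y₁.1) (L Y₂.1) (L Y₃.1) (L Y₄.1) := by
  set Y : Fin 4 → A N × A 4 := ![Y₁, Y₂, Y₃, Y₄] with hY
  set Lm : Matrix (Fin N) (Fin 4) ℝ := Matrix.of fun j a => L (eb j) a with hLm
  set Bm : Matrix (Fin 4) (Fin N) ℝ := Matrix.of fun a j => B (eb a) j with hBm
  have hLv : ∀ (y : A N) a, ∑ j, y j * Lm j a = L y a := by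
    intro y a
    conv_rhs => rw [← sum_eb y]
    simp [hLm]
  have hBv : ∀ (y : A 4) j, ∑ a, y a * Bm a j = B y j := by
    intro y j
    conv_rhs => rw [← sum_eb y]
    simp [hBm]
  have hBL : Bm * Lm = 1 := by
    ext a a'
    rw [Matrix.mul_apply]
    have := hLv (B (eb a)) a'
    simp only [hBm, Matrix.of_apply]
    rw [this, hLB, eb_apply, Matrix.one_apply]
    simp [eq_comm]
  rw [pio_det_apply, ← Matrix.det_submatrix_equiv_self (pio_q N)]
  have e1 : (Matrix.of fun i => pio_coord N ((Fin.cons Y₁ (Fin.cons Y₂ (Fin.cons Y₃ (Fin.cons Y₄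
      fun j : Fin N => (-(eb j - B (L (eb j))), L (eb j))))) : Fin (N + 4) → A N × A 4) i)).submatrix
      (pio_q N) (pio_q N) = Matrix.fromBlocks (Matrix.of fun i a => (Y i).2 a)
        (Matrix.of fun i j => (Y i).1 j) Lm (Lm * Bm - 1) := by
    ext i k
    simp only [Matrix.submatrix_apply, Matrix.of_apply, pio_coord, LinearMap.coe_mk,
      AddHom.coe_mk, Equiv.symm_apply_apply]
    rcases i with i | i
    · have : (Fin.cons Y₁ (Fin.cons Y₂ (Fin.cons Y₃ (Fin.cons Y₄
          fun j : Fin N => (-(eb j - B (L (eb j))), L (eb j))))) : Fin (N + 4) → A N × A 4)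
          (pio_q N (Sum.inl i)) = Y i := by
        fin_cases i
        · simp [pio_q_0, hY]
        · simp [pio_q_1, hY]
        · simp only [Fin.reduceFinMk, pio_q_2, Fin.cons_succ, Fin.cons_zero]; simp [hY]
        · simp only [Fin.reduceFinMk, pio_q_3, Fin.cons_succ, Fin.cons_zero]; simp [hY]
      rw [this]
      rcases k with k | k <;> simp
    · rw [pio_q_inr]
      simp only [Fin.cons_succ]
      rcases k with k | k
      · simp [hLm]
      · simp only [Sum.elim_inr, Matrix.fromBlocks_apply₂₂, Matrix.sub_apply, Matrix.mul_apply]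
        have := hBv (L (eb i)) k
        simp only [hLm, Matrix.of_apply]
        rw [this, Matrix.one_apply]
        simp [eb_apply, eq_comm]
  rw [e1]
  have hT : (Matrix.fromBlocks (0 : Matrix (Fin 4) (Fin 4) ℝ) (-Bm) Lm 1).det = 1 := by
    rw [Matrix.det_fromBlocks_one₂₂]
    simp [hBL]
  refine ((mul_one _).symm.trans (congrArg _ hT.symm)).trans ?_
  rw [← Matrix.det_mul, Matrix.fromBlocks_multiply]
  have e2 : Lm * (0 : Matrix (Fin 4) (Fin 4) ℝ) + (Lm * Bm - 1) * Lm = 0 := by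
    rw [Matrix.sub_mul, Matrix.mul_assoc, hBL]; simp
  have e3 : Lm * -Bm + (Lm * Bm - 1) * 1 = -1 := by rw [Matrix.mul_neg, Matrix.mul_one]; abel
  rw [e2, e3, Matrix.det_fromBlocks_zero₂₁, Matrix.det_neg, Matrix.det_one, ← pio_det4, mul_comm]
  simp only [Fintype.card_fin, mul_one]
  congr 2
  ext i a
  simp only [Matrix.mul_zero, zero_add, Matrix.mul_apply, Matrix.of_apply]
  rw [hLv]
  fin_cases i <;> simp [hY]

theorem pio_top (om : (A N × A 4) [⋀^Fin (N + 4 + 1)]→L[ℝ] ℝ) : om = 0 := by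
  ext v
  refine om.toAlternatingMap.map_linearDependent v fun h => ?_
  have := h.fintype_card_le_finrank
  simp at this

def pioLam (ξ : E → A N) (B : E → A 4 →L[ℝ] A N) (L : E → A N →L[ℝ] A 4) (e : E) (b : A N)
    (X : E) : A 4 := L e (fderiv ℝ ξ e X + fderiv ℝ (fun e => B e (L e b)) e X)

def pioOm (ξ : E → A N) (B : E → A 4 →L[ℝ] A N) (L : E → A N →L[ℝ] A 4) (e : E)
    (X₁ X₂ X₃ X₄ : E) : ℝ :=
  ∫ b : A N, bump (‖L e b‖ ^ 2) * bump (‖ξ e - (b - B e (L e b))‖ ^ 2) *
    det4 (pioLam ξ B L e b X₁) (pioLam ξ B L e b X₂) (pioLam ξ B L e b X₃) (pioLam ξ B L e b X₄)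

/-- the map -/
def pio_Phi (ξ : E → A N) (B : E → A 4 →L[ℝ] A N) (L : E → A N →L[ℝ] A 4) (x : E × A N) :
    A N × A 4 := (ξ x.1 - (x.2 - B x.1 (L x.1 x.2)), L x.1 x.2)

/-- the density -/
def pio_mu (y : A N × A 4) : ℝ := bump (‖y.2‖ ^ 2) * bump (‖y.1‖ ^ 2)

theorem pio_mu_sm : ContDiff ℝ ∞ (pio_mu (N := N)) :=
  (bump_sm.comp ((contDiff_norm_sq ℝ).comp contDiff_snd)).mul
    (bump_sm.comp ((contDiff_norm_sq ℝ).comp contDiff_fst))

/-- the pulled back form evaluated on fixed vectors -/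
def pio_F (ξ : E → A N) (B : E → A 4 →L[ℝ] A N) (L : E → A N →L[ℝ] A 4)
    (w : Fin (N + 4) → E × A N) (x : E × A N) : ℝ :=
  pio_mu (pio_Phi ξ B L x) * pio_det N fun i => fderiv ℝ (pio_Phi ξ B L) x (w i)

theorem pio_fderiv_inl {F G : Type} [NormedAddCommGroup F] [NormedSpace ℝ F]
    [NormedAddCommGroup G] [NormedSpace ℝ G] {f : E × F → G} {e : E} {b : F}
    (hf : DifferentiableAt ℝ f (e, b)) (X : E) :
    fderiv ℝ f (e, b) (X, 0) = fderiv ℝ (fun e => f (e, b)) e X := by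
  have := (hf.hasFDerivAt.comp e (hasFDerivAt_prodMk_left (𝕜 := ℝ) e b)).fderiv
  rw [show (fun e => f (e, b)) = f ∘ fun e => (e, b) from rfl, this]
  simp

theorem pio_fderiv_inr {F G : Type} [NormedAddCommGroup F] [NormedSpace ℝ F]
    [NormedAddCommGroup G] [NormedSpace ℝ G] {f : E × F → G} {e : E} {b : F}
    (hf : DifferentiableAt ℝ f (e, b)) (X : F) :
    fderiv ℝ f (e, b) (0, X) = fderiv ℝ (fun b => f (e, b)) b X := by
  have := (hf.hasFDerivAt.comp b (hasFDerivAt_prodMk_right (𝕜 := ℝ) e b)).fderiv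
  rw [show (fun b => f (e, b)) = f ∘ fun b => (e, b) from rfl, this]
  simp

section
variable {ξ : E → A N} {B : E → A 4 →L[ℝ] A N} {L : E → A N →L[ℝ] A 4}
  (hξ : ContDiff ℝ ∞ ξ) (hB : ContDiff ℝ ∞ B) (hL : ContDiff ℝ ∞ L)
include hξ hB hL

theorem pio_Phi_sm : ContDiff ℝ ∞ (pio_Phi ξ B L) := by
  have h1 : ContDiff ℝ ∞ fun x : E × A N => L x.1 x.2 :=
    (hL.comp contDiff_fst).clm_apply contDiff_snd
  exact ((hξ.comp contDiff_fst).sub
    (contDiff_snd.sub ((hB.comp contDiff_fst).clm_apply h1))).prodMk h1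

theorem pio_F_sm (w : Fin (N + 4) → E × A N) : ContDiff ℝ ∞ (pio_F ξ B L w) := by
  have h := pio_Phi_sm hξ hB hL
  have h2 : ContDiff ℝ ∞ (fderiv ℝ (pio_Phi ξ B L)) := h.fderiv_right (m := ∞) (by simp)
  refine (pio_mu_sm.comp h).mul ?_
  exact (pio_det N).toContinuousMultilinearMap.contDiff.comp
    (contDiff_pi.2 fun i => h2.clm_apply contDiff_const)

theorem pio_F_supp (w : Fin (N + 4) → E × A N) (e : E) :
    ∃ R : ℝ, ∀ᶠ q in 𝓝 e, ∀ b, R ≤ ‖b‖ → pio_F ξ B L w (q, b) = 0 := by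
  refine ⟨‖ξ e‖ + ‖B e‖ + 3, ?_⟩
  filter_upwards [hξ.continuous.norm.continuousAt.eventually
    (gt_mem_nhds (lt_add_one ‖ξ e‖)), hB.continuous.norm.continuousAt.eventually
    (gt_mem_nhds (lt_add_one ‖B e‖))] with q h1 h2 b hb
  have : pio_mu (pio_Phi ξ B L (q, b)) = 0 := by
    simp only [pio_mu, pio_Phi]
    by_cases h3 : 1 ≤ ‖L q b‖
    · rw [bump_eq_zero (one_le_pow₀ h3), zero_mul]
    · have h4 : ‖B q (L q b)‖ ≤ ‖B q‖ :=
        ((B q).le_opNorm _).trans (mul_le_of_le_one_right (norm_nonneg _) (not_le.1 h3).le)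
      have h5 : ‖b‖ ≤ ‖ξ q‖ + ‖B q (L q b)‖ + ‖ξ q - (b - B q (L q b))‖ := by
        calc ‖b‖ = ‖ξ q + B q (L q b) - (ξ q - (b - B q (L q b)))‖ := by congr 1; abel
          _ ≤ _ := (norm_sub_le _ _).trans (by gcongr; exact norm_add_le _ _)
      rw [bump_eq_zero (s := ‖ξ q - (b - B q (L q b))‖ ^ 2) (one_le_pow₀ (by linarith)), mul_zero]
  rw [pio_F, this, zero_mul]

theorem pio_closed (v : Fin (N + 4 + 1) → E × A N) (x : E × A N) :
    ∑ i : Fin (N + 4 + 1), (-1 : ℝ) ^ i.val * fderiv ℝ (pio_F ξ B L (i.removeNth v)) x (v i) = 0 := by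
  have h := pio_Phi_sm hξ hB hL
  have h2 : ContDiff ℝ ∞ (fderiv ℝ (pio_Phi ξ B L)) := h.fderiv_right (m := ∞) (by simp)
  have h0 : Differentiable ℝ fun y : A N × A 4 => pio_mu y • pio_det N :=
    (pio_mu_sm.differentiable (by simp)).smul_const _
  have e1 := extDeriv_pullback (r := ∞) (h0 (pio_Phi ξ B L x)) h.contDiffAt
    (by simp only [minSmoothness_of_isRCLikeNormedField]; exact WithTop.coe_le_coe.2 le_top)
  rw [pio_top (extDeriv _ _)] at e1
  have e2 := extDeriv_apply (DifferentiableAt.continuousAlternatingMapCompContinuousLinearMap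
    ((h0 _).comp x (h.differentiable (by simp) x)) (h2.differentiable (by simp) x)) v
  simp only [Function.comp_def] at e2
  rw [e1] at e2
  refine Eq.trans ?_ e2.symm
  refine Finset.sum_congr rfl fun i _ => ?_
  rw [zsmul_eq_mul]
  push_cast
  rfl

theorem pio_integrable [FiniteDimensional ℝ E] (w : Fin (N + 4) → E × A N) (e : E) (Y : E × A N) :
    Integrable fun b => fderiv ℝ (pio_F ξ B L w) (e, b) Y := by
  have h := pio_F_sm hξ hB hL w
  obtain ⟨R, hR⟩ := pio_F_supp hξ hB hL w e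
  refine Continuous.integrable_of_hasCompactSupport ?_ ?_
  · exact ((h.continuous_fderiv (by simp)).comp (Continuous.prodMk_right e)).clm_apply
      continuous_const
  · refine HasCompactSupport.intro (isCompact_closedBall 0 R) fun b hb => ?_
    have hb' : R < ‖b‖ := by simpa using hb
    have : pio_F ξ B L w =ᶠ[𝓝 (e, b)] fun _ => 0 := by
      rw [nhds_prod_eq]
      filter_upwards [hR.prod_mk (continuous_norm.continuousAt.eventually (lt_mem_nhds hb'))]
        with x hx using hx.1 x.2 hx.2.le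
    rw [this.fderiv_eq]
    simp

theorem pio_int_inr [FiniteDimensional ℝ E] (w : Fin (N + 4) → E × A N) (e : E) (β : A N) :
    ∫ b, fderiv ℝ (pio_F ξ B L w) (e, b) (0, β) = 0 := by
  have h := pio_F_sm hξ hB hL w
  have hd : Differentiable ℝ (pio_F ξ B L w) := h.differentiable (by simp)
  have hi := pio_integrable hξ hB hL w e (0, β)
  simp only [pio_fderiv_inr (hd _)] at hi ⊢
  obtain ⟨R, hR⟩ := pio_F_supp hξ hB hL w e
  have hi0 : Integrable fun b => pio_F ξ B L w (e, b) := by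
    refine (h.continuous.comp (Continuous.prodMk_right e)).integrable_of_hasCompactSupport ?_
    refine HasCompactSupport.intro (isCompact_closedBall 0 R) fun b hb => ?_
    have hb' : R < ‖b‖ := by simpa using hb
    exact hR.self_of_nhds b hb'.le
  have := integral_mul_fderiv_eq_neg_fderiv_mul_of_integrable (μ := volume)
    (f := fun _ : A N => (1 : ℝ)) (g := fun b => pio_F ξ B L w (e, b)) (v := β) (by simp)
    (by simpa using hi) (by simpa using hi0) (fun _ _ => differentiableAt_const _)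
    (fun b _ => (hd _).comp b ((differentiableAt_const _).prodMk differentiableAt_id))
  simpa using this

theorem pio_F_eq {e : E} (hLB : ∀ a, L e (B e a) = a) (b : A N) (X₁ X₂ X₃ X₄ : E) :
    pio_F ξ B L (Fin.cons (X₁, 0) (Fin.cons (X₂, 0) (Fin.cons (X₃, 0) (Fin.cons (X₄, 0)
      fun j : Fin N => (0, eb j))))) (e, b) = (-1) ^ N * (bump (‖L e b‖ ^ 2) *
        bump (‖ξ e - (b - B e (L e b))‖ ^ 2) * det4 (pioLam ξ B L e b X₁) (pioLam ξ B L e b X₂)
          (pioLam ξ B L e b X₃) (pioLam ξ B L e b X₄)) := by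
  have hd := (pio_Phi_sm hξ hB hL).differentiable (by simp) (e, b)
  have e1 : ∀ β, fderiv ℝ (pio_Phi ξ B L) (e, b) (0, β) = (-(β - B e (L e β)), L e β) := by
    intro β
    rw [pio_fderiv_inr hd]
    have : HasFDerivAt (fun b => pio_Phi ξ B L (e, b))
        ((-(ContinuousLinearMap.id ℝ (A N) - B e ∘L L e)).prod (L e)) b :=
      (((hasFDerivAt_id b).sub (B e ∘L L e).hasFDerivAt).const_sub (ξ e)).prodMk
        (L e).hasFDerivAt
    rw [this.fderiv]
    simp
  have e2 : ∀ X, L e (fderiv ℝ (pio_Phi ξ B L) (e, b) (X, 0)).1 = pioLam ξ B L e b X := by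
    intro X
    rw [pio_fderiv_inl hd]
    have d1 := hξ.differentiable (by simp) e
    have d2 : DifferentiableAt ℝ (fun e => L e b) e :=
      (hL.differentiable (by simp) e).clm_apply (differentiableAt_const _)
    have d3 : DifferentiableAt ℝ (fun e => B e (L e b)) e :=
      (hB.differentiable (by simp) e).clm_apply d2
    have : HasFDerivAt (fun e => pio_Phi ξ B L (e, b))
        ((fderiv ℝ ξ e - (-fderiv ℝ (fun e => B e (L e b)) e)).prod (fderiv ℝ (fun e => L e b) e)) e :=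
      (d1.hasFDerivAt.sub (d3.hasFDerivAt.const_sub b)).prodMk d2.hasFDerivAt
    rw [this.fderiv]
    simp [pioLam]
  have e3 : (fun i => fderiv ℝ (pio_Phi ξ B L) (e, b) ((Fin.cons (X₁, 0) (Fin.cons (X₂, 0)
      (Fin.cons (X₃, 0) (Fin.cons (X₄, 0) fun j : Fin N => (0, eb j)))) :
        Fin (N + 4) → E × A N) i)) =
      Fin.cons (fderiv ℝ (pio_Phi ξ B L) (e, b) (X₁, 0))
        (Fin.cons (fderiv ℝ (pio_Phi ξ B L) (e, b) (X₂, 0))
          (Fin.cons (fderiv ℝ (pio_Phi ξ B L) (e, b) (X₃, 0))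
            (Fin.cons (fderiv ℝ (pio_Phi ξ B L) (e, b) (X₄, 0))
              fun j : Fin N => (-(eb j - B e (L e (eb j))), L e (eb j))))) := by
    funext i
    refine Fin.cases rfl (fun i => ?_) i
    refine Fin.cases rfl (fun i => ?_) i
    refine Fin.cases rfl (fun i => ?_) i
    refine Fin.cases rfl (fun i => ?_) i
    simp only [Fin.cons_succ, e1]
  rw [pio_F, e3, pio_det_eq hLB, e2, e2, e2, e2]
  simp only [pio_mu, pio_Phi]
  ring

theorem pio_int_inl [FiniteDimensional ℝ E] {O : Set E} (hO : IsOpen O)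
    (hLB : ∀ e ∈ O, ∀ a, L e (B e a) = a) {e : E} (he : e ∈ O) (X₀ X₁ X₂ X₃ X₄ : E) :
    ∫ b, fderiv ℝ (pio_F ξ B L (Fin.cons (X₁, 0) (Fin.cons (X₂, 0) (Fin.cons (X₃, 0)
      (Fin.cons (X₄, 0) fun j : Fin N => (0, eb j)))))) (e, b) (X₀, 0)
      = (-1) ^ N * fderiv ℝ (fun e => pioOm ξ B L e X₁ X₂ X₃ X₄) e X₀ := by
  obtain ⟨h1, h2⟩ := contDiff_integral_loc (volume : Measure (A N)) (pio_F_sm hξ hB hL
    (Fin.cons (X₁, 0) (Fin.cons (X₂, 0) (Fin.cons (X₃, 0) (Fin.cons (X₄, 0)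
      fun j : Fin N => (0, eb j)))))) (pio_F_supp hξ hB hL _)
  rw [← h2]
  have hs : ((-1 : ℝ) ^ N) * (-1) ^ N = 1 := by rw [← mul_pow]; simp
  have : (fun e => pioOm ξ B L e X₁ X₂ X₃ X₄) =ᶠ[𝓝 e] fun q => (-1 : ℝ) ^ N *
      ∫ b, pio_F ξ B L (Fin.cons (X₁, 0) (Fin.cons (X₂, 0) (Fin.cons (X₃, 0)
        (Fin.cons (X₄, 0) fun j : Fin N => (0, eb j))))) (q, b) := by
    filter_upwards [hO.mem_nhds he] with q hq
    simp only [pio_F_eq hξ hB hL (hLB q hq)]
    rw [integral_const_mul, ← mul_assoc, hs, one_mul, pioOm]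
  rw [this.fderiv_eq, fderiv_const_mul (h1.differentiable (by simp) e)]
  simp only [smul_apply, smul_eq_mul]
  rw [← mul_assoc, hs, one_mul]

end

theorem pio_removeNth_succ {n : ℕ} {α : Type} (a : α) (v : Fin (n + 1) → α) (i : Fin (n + 1)) :
    Fin.removeNth i.succ (Fin.cons a v : Fin (n + 2) → α) = Fin.cons a (Fin.removeNth i v) := by
  funext j
  refine Fin.cases ?_ (fun j => ?_) j
  · simp [Fin.removeNth]
  · simp [Fin.removeNth]

theorem pio_removeNth_zero {n : ℕ} {α : Type} (a : α) (v : Fin n → α) :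
    Fin.removeNth 0 (Fin.cons a v : Fin (n + 1) → α) = v := by
  simp

theorem piola [FiniteDimensional ℝ E] {ξ : E → A N} {B : E → A 4 →L[ℝ] A N}
    {L : E → A N →L[ℝ] A 4} (hξ : ContDiff ℝ ∞ ξ) (hB : ContDiff ℝ ∞ B) (hL : ContDiff ℝ ∞ L)
    {O : Set E} (hO : IsOpen O) (hLB : ∀ e ∈ O, ∀ a, L e (B e a) = a) {e : E} (he : e ∈ O)
    (X₀ X₁ X₂ X₃ X₄ : E) :
    fderiv ℝ (fun e => pioOm ξ B L e X₁ X₂ X₃ X₄) e X₀
      - fderiv ℝ (fun e => pioOm ξ B L e X₀ X₂ X₃ X₄) e X₁
      + fderiv ℝ (fun e => pioOm ξ B L e X₀ X₁ X₃ X₄) e X₂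
      - fderiv ℝ (fun e => pioOm ξ B L e X₀ X₁ X₂ X₄) e X₃
      + fderiv ℝ (fun e => pioOm ξ B L e X₀ X₁ X₂ X₃) e X₄ = 0 := by
  set v : Fin (N + 4 + 1) → E × A N := Fin.cons (X₀, 0) (Fin.cons (X₁, 0) (Fin.cons (X₂, 0)
    (Fin.cons (X₃, 0) (Fin.cons (X₄, 0) fun j : Fin N => (0, eb j))))) with hv
  have h1 : ∫ b, ∑ i : Fin (N + 4 + 1), (-1 : ℝ) ^ i.val *
      fderiv ℝ (pio_F ξ B L (i.removeNth v)) (e, b) (v i) = 0 := by
    simp only [pio_closed hξ hB hL, integral_zero]
  rw [integral_finsetSum _ fun i _ => (pio_integrable hξ hB hL _ e _).const_mul _] at h1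
  simp only [integral_const_mul] at h1
  rw [Fin.sum_univ_succ, Fin.sum_univ_succ, Fin.sum_univ_succ, Fin.sum_univ_succ,
    Fin.sum_univ_succ] at h1
  simp only [hv, Fin.cons_succ, Fin.cons_zero, pio_removeNth_succ, pio_removeNth_zero,
    pio_int_inl hξ hB hL hO hLB he, pio_int_inr hξ hB hL, Fin.val_succ, Fin.val_zero, mul_zero,
    Finset.sum_const_zero] at h1
  have hs : ((-1 : ℝ) ^ N) ≠ 0 := by positivity
  refine mul_left_cancel₀ hs ?_
  linear_combination h1

end Crest.Agent.R240
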