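import Crest.Agent.R240.Basic

/-! Row 240: exchanging tangential weights in fibre integrals. -/

set_option autoImplicit false

open scoped ContDiff RealInnerProductSpace Topology
open MeasureTheory Set Filter

noncomputable section

namespace Crest.Agent.R240

variable {N : ℕ}

theorem swap_bd {E : Type} [NormedAddCommGroup E] {f : E → ℝ} (c : HasCompactSupport f) :
    ∃ R : ℝ, ∀ x, f x ≠ 0 → ‖x‖ ≤ R := by
  obtain ⟨R, hR⟩ := c.isCompact.isBounded.exists_norm_le
  exact ⟨R, fun x hx => hR x (subset_tsupport _ hx)⟩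

theorem swap_int (B : A 4 →L[ℝ] A N) (L : A N →L[ℝ] A 4) {f₁ f₂ : A 4 → ℝ} {F : A N → ℝ}
    (h₁ : Continuous f₁) (h₂ : Continuous f₂) (hF : Continuous F) (c₁ : HasCompactSupport f₁)
    (c₂ : HasCompactSupport f₂) (cF : HasCompactSupport F) :
    Integrable (Function.uncurry fun (a : A 4) (b : A N) =>
      f₂ (L b - a) * (f₁ (L b) * F (b - B (L b)))) (volume.prod volume) := by
  obtain ⟨R₁, hR₁⟩ := swap_bd c₁
  obtain ⟨R₂, hR₂⟩ := swap_bd c₂
  obtain ⟨R, hR⟩ := swap_bd cF
  refine Continuous.integrable_of_hasCompactSupport (by unfold Function.uncurry; fun_prop) ?_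
  refine HasCompactSupport.intro ((isCompact_closedBall (0 : A 4) (R₁ + R₂)).prod
    (isCompact_closedBall (0 : A N) (R + ‖B‖ * R₁))) fun x hx => ?_
  by_contra h
  obtain ⟨h2, h3⟩ := ne_zero_and_ne_zero_of_mul h
  obtain ⟨h3, h4⟩ := ne_zero_and_ne_zero_of_mul h3
  have e1 := hR₁ _ h3
  have e2 := hR₂ _ h2
  have e3 := hR _ h4
  refine hx ⟨mem_closedBall_zero_iff.2 ?_, mem_closedBall_zero_iff.2 ?_⟩
  · have := norm_sub_le (L x.2) (L x.2 - x.1)
    rw [sub_sub_cancel] at this
    linarith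
  · have := norm_add_le (x.2 - B (L x.2)) (B (L x.2))
    rw [sub_add_cancel] at this
    have h5 := (B.le_opNorm (L x.2)).trans (mul_le_mul_of_nonneg_left e1 (norm_nonneg _))
    linarith

theorem swap_eq (B : A 4 →L[ℝ] A N) (L : A N →L[ℝ] A 4) {f₁ f₂ : A 4 → ℝ} {F : A N → ℝ}
    (h₁ : Continuous f₁) (h₂ : Continuous f₂) (hF : Continuous F) (c₁ : HasCompactSupport f₁)
    (c₂ : HasCompactSupport f₂) (cF : HasCompactSupport F) :
    (∫ a, f₂ a) * ∫ b, f₁ (L b) * F (b - B (L b)) =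
      ∫ a, ∫ b, f₂ (L b - a) * (f₁ (L b) * F (b - B (L b))) := by
  rw [integral_integral_swap (swap_int B L h₁ h₂ hF c₁ c₂ cF), ← integral_const_mul]
  refine integral_congr_ae (Eventually.of_forall fun b => ?_)
  simp only
  rw [integral_mul_const, integral_sub_left_eq_self]

/-- The linear involution `(a, b) ↦ (L b, b + B (a - L b))` of `A 4 × A N` preserves the volume
(a composition of shears, or determinant of square one). -/
theorem swap {B : A 4 →L[ℝ] A N} {L : A N →L[ℝ] A 4} (hLB : ∀ a, L (B a) = a)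
    {f₁ f₂ : A 4 → ℝ} {F : A N → ℝ} (h₁ : Continuous f₁) (h₂ : Continuous f₂) (hF : Continuous F)
    (c₁ : HasCompactSupport f₁) (c₂ : HasCompactSupport f₂) (cF : HasCompactSupport F) :
    (∫ a, f₂ a) * ∫ b, f₁ (L b) * F (b - B (L b)) =
      (∫ a, f₁ a) * ∫ b, f₂ (L b) * F (b - B (L b)) := by
  rw [swap_eq B L h₁ h₂ hF c₁ c₂ cF, swap_eq B L h₂ h₁ hF c₂ c₁ cF, ← integral_neg_eq_self]
  refine integral_congr_ae (Eventually.of_forall fun a => ?_)
  simp only
  rw [← integral_sub_right_eq_self _ (B a)]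
  refine integral_congr_ae (Eventually.of_forall fun b => ?_)
  simp only [map_sub, hLB, sub_neg_eq_add, sub_add_cancel, sub_sub_sub_cancel_right]
  ring

end Crest.Agent.R240
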