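import Crest.Agent.R240.KDef
import Crest.Agent.R240.Piola
import Crest.Agent.R240.Swap

/-! Row 240: the four-form `Om` is closed on `S × S`.

Apply `piola` with `E = A 4 × A N`, `ξ (p, y) = t⁻¹ • (y - ψ p)`, `B (p, y) = fderiv ψ p`,
`L (p, y) = pr ∘ π (ψ p)`, `O = U ×ˢ univ`. On `O`, `B ∘ L = π (ψ p)`, so
`pioLam b (a, ζ) = t⁻¹ • L (ζ - Cm t x b (dψ a))` (`Sub.π_dπ_π`), and `swap` with
`f₁ a = bump (g (dψ a) (dψ a))`, `f₂ a = bump ‖a‖²`, `∫ f₁ = (∫ f₂) / pf` (linear change of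
variables by `F.L ∘ dψ`, `RawChart.pf_eq_det`, `Frame.g_eq`) together with `RawChart.Vol_eq` shows
that `OmC` is `bump (‖w‖² / R²) * pioOm` on `O`. Let `‖π x‖ ≤ C` on `S` and `R = 8 C`. At a point
`(p, y)` with `y ∈ S`: if `‖w‖ < R / 2` the cut-off is `1` nearby; if `‖w‖ > R` it is `0` nearby;
otherwise `‖π x w‖ ≥ R / 4 > C` for `t` small (`Sub.quad`), this persists nearby and forces
`‖w - (b - π b)‖ > 1` for all `b`, so that `OmC` vanishes nearby. -/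

set_option autoImplicit false

open scoped ContDiff RealInnerProductSpace Topology
open MeasureTheory Set Filter

noncomputable section

namespace Crest.Agent.R240

variable {N : ℕ}

/-- the form at scale `t` in a chart for the first variable -/
def Pre.OmC {X : Pre N} (c : X.RawChart) (R t : ℝ) (e Y₁ Y₂ Y₃ Y₄ : A 4 × A N) : ℝ :=
  t⁻¹ ^ 4 * X.Om R (t, c.ψ e.1, t⁻¹ • (e.2 - c.ψ e.1)) (fderiv ℝ c.ψ e.1 Y₁.1, Y₁.2)
    (fderiv ℝ c.ψ e.1 Y₂.1, Y₂.2) (fderiv ℝ c.ψ e.1 Y₃.1, Y₃.2) (fderiv ℝ c.ψ e.1 Y₄.1, Y₄.2)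

/-- closedness on `S × S` -/
def Pre.OmClosed (X : Pre N) (R t : ℝ) : Prop :=
  ∀ (c : X.Chart), ∀ p ∈ c.U, ∀ y ∈ X.S, ∀ Y₀ Y₁ Y₂ Y₃ Y₄ : A 4 × A N,
    fderiv ℝ (fun e => Pre.OmC c.toRawChart R t e Y₁ Y₂ Y₃ Y₄) (p, y) Y₀
      - fderiv ℝ (fun e => Pre.OmC c.toRawChart R t e Y₀ Y₂ Y₃ Y₄) (p, y) Y₁
      + fderiv ℝ (fun e => Pre.OmC c.toRawChart R t e Y₀ Y₁ Y₃ Y₄) (p, y) Y₂
      - fderiv ℝ (fun e => Pre.OmC c.toRawChart R t e Y₀ Y₁ Y₂ Y₄) (p, y) Y₃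
      + fderiv ℝ (fun e => Pre.OmC c.toRawChart R t e Y₀ Y₁ Y₂ Y₃) (p, y) Y₄ = 0

/-- the rescaled chord -/
def kom_xi {X : Pre N} (c : X.RawChart) (t : ℝ) (e : A 4 × A N) : A N := t⁻¹ • (e.2 - c.ψ e.1)

/-- the tangent frame of the chart -/
def kom_B {X : Pre N} (c : X.RawChart) (e : A 4 × A N) : A 4 →L[ℝ] A N := fderiv ℝ c.ψ e.1

/-- the tangent coordinates of the chart -/
def kom_L {X : Pre N} (c : X.RawChart) (e : A 4 × A N) : A N →L[ℝ] A 4 := c.pr ∘L X.π (c.ψ e.1)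

theorem kom_xi_sm {X : Pre N} (c : X.RawChart) (t : ℝ) : ContDiff ℝ ∞ (kom_xi c t) :=
  (contDiff_snd.sub (c.ψ_sm.comp contDiff_fst)).const_smul _

theorem kom_B_sm {X : Pre N} (c : X.RawChart) : ContDiff ℝ ∞ (kom_B c) :=
  (contDiff_infty_iff_fderiv.1 c.ψ_sm).2.comp contDiff_fst

theorem kom_L_sm {X : Pre N} (c : X.RawChart) : ContDiff ℝ ∞ (kom_L c) :=
  contDiff_const.clm_comp (X.π_sm.comp (c.ψ_sm.comp contDiff_fst))

theorem kom_BL {X : Pre N} (c : X.RawChart) {e : A 4 × A N} (he : e.1 ∈ c.U) (b : A N) :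
    kom_B c e (kom_L c e b) = X.π (c.ψ e.1) b := c.dψ_pr _ he b

theorem kom_LB {X : Pre N} (c : X.RawChart) {e : A 4 × A N} (he : e.1 ∈ c.U) (a : A 4) :
    kom_L c e (kom_B c e a) = a := by
  simp only [kom_L, kom_B, ContinuousLinearMap.comp_apply]
  rw [c.π_dψ _ he, c.pr_dψ he]

theorem kom_nhds {X : Pre N} (c : X.RawChart) {e : A 4 × A N} (he : e.1 ∈ c.U) :
    ∀ᶠ e' in 𝓝 e, e'.1 ∈ c.U :=
  continuous_fst.continuousAt.eventually_mem (c.U_open.mem_nhds he)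

theorem kom_pioLam (X : Sub N) (c : X.RawChart) {t : ℝ} (ht : t ≠ 0) {e : A 4 × A N}
    (he : e.1 ∈ c.U) (b : A N) (Y : A 4 × A N) :
    pioLam (kom_xi c t) (kom_B c) (kom_L c) e b Y =
      t⁻¹ • c.pr (X.π (c.ψ e.1) (Y.2 - X.Cm t (c.ψ e.1) b (fderiv ℝ c.ψ e.1 Y.1))) := by
  have hψ : HasFDerivAt c.ψ (fderiv ℝ c.ψ e.1) e.1 :=
    (c.ψ_sm.differentiable (by simp) e.1).hasFDerivAt
  have hπ : HasFDerivAt X.π (fderiv ℝ X.π (c.ψ e.1)) (c.ψ e.1) :=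
    (X.π_sm.differentiable (by simp) _).hasFDerivAt
  have hψ1 : HasFDerivAt (fun e : A 4 × A N => c.ψ e.1)
      ((fderiv ℝ c.ψ e.1).comp (ContinuousLinearMap.fst ℝ _ _)) e := hψ.comp e hasFDerivAt_fst
  have h1 : HasFDerivAt (kom_xi c t) (t⁻¹ • (ContinuousLinearMap.snd ℝ _ _ -
      (fderiv ℝ c.ψ e.1).comp (ContinuousLinearMap.fst ℝ _ _))) e :=
    (hasFDerivAt_snd.sub hψ1).const_smul t⁻¹
  have h2 : (fun e => kom_B c e (kom_L c e b)) =ᶠ[𝓝 e] fun e => X.π (c.ψ e.1) b :=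
    (kom_nhds c he).mono fun e' he' => kom_BL c he' b
  have h3 := (hπ.comp e hψ1).clm_apply (hasFDerivAt_const b e)
  have h4 : fderiv ℝ (fun e => kom_B c e (kom_L c e b)) e Y =
      fderiv ℝ X.π (c.ψ e.1) (fderiv ℝ c.ψ e.1 Y.1) b := by
    rw [h2.fderiv_eq]
    have := h3.fderiv
    simp only [Function.comp] at this
    rw [this]
    simp
  have h5 := X.π_dπ_π (c.ψ_S _ he) (fderiv ℝ c.ψ e.1 Y.1) b
  rw [c.π_dψ _ he] at h5
  unfold pioLam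
  rw [h4, h1.fderiv]
  simp only [kom_L, Pre.Cm, ContinuousLinearMap.comp_apply, smul_apply,
    sub_apply, ContinuousLinearMap.coe_snd', ContinuousLinearMap.coe_fst',
    ContinuousLinearMap.flip_apply, c.π_dψ _ he, map_sub, map_add, map_smul, h5, map_zero, sub_zero,
    smul_sub, smul_smul, inv_mul_cancel₀ ht, one_smul]
  abel

theorem kom_det4_smul (s : ℝ) (a b c d : A 4) :
    det4 (s • a) (s • b) (s • c) (s • d) = s ^ 4 * det4 a b c d := by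
  simp only [det4, PiLp.smul_apply, smul_eq_mul]
  ring

theorem kom_det4_cont {P : Type} [TopologicalSpace P] {a b c d : P → A 4} (ha : Continuous a)
    (hb : Continuous b) (hc : Continuous c) (hd : Continuous d) :
    Continuous fun p => det4 (a p) (b p) (c p) (d p) := by
  unfold det4
  fun_prop

theorem kom_bump_cpt {M : ℕ} (w : A M) : HasCompactSupport fun a : A M => bump (‖w - a‖ ^ 2) := by
  refine HasCompactSupport.intro (isCompact_closedBall w 1) fun a ha => bump_eq_zero ?_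
  rw [Metric.mem_closedBall, not_le, dist_comm, dist_eq_norm] at ha
  nlinarith

theorem kom_bump_cpt0 : HasCompactSupport fun a : A 4 => bump (‖a‖ ^ 2) := by
  simpa using kom_bump_cpt (0 : A 4)

theorem kom_bump_cont0 : Continuous fun a : A 4 => bump (‖a‖ ^ 2) :=
  bump_sm.continuous.comp (by fun_prop)

theorem kom_bump_pos : 0 < ∫ a : A 4, bump (‖a‖ ^ 2) :=
  kom_bump_cont0.integral_pos_of_hasCompactSupport_nonneg_nonzero (x := 0) kom_bump_cpt0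
    (fun _ => bump_nonneg _) (by rw [bump_eq_one (by simp)]; exact one_ne_zero)

theorem kom_integral_comp {M : A 4 →L[ℝ] A 4} (hM : 0 < M.det) {f : A 4 → ℝ} (hf : Continuous f) :
    M.det * ∫ a, f (M a) = ∫ a, f a := by
  have h1 := Measure.map_linearMap_addHaar_eq_smul_addHaar (volume : Measure (A 4))
    (f := (M : A 4 →ₗ[ℝ] A 4)) hM.ne'
  have h2 : ∫ a, f (M a) = ∫ a, f a ∂(Measure.map (M : A 4 →ₗ[ℝ] A 4) volume) :=
    (integral_map M.continuous.aemeasurable hf.aestronglyMeasurable).symm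
  rw [h2, h1, integral_smul_measure, ENNReal.toReal_ofReal (abs_nonneg _), smul_eq_mul]
  have : |(LinearMap.det (M : A 4 →ₗ[ℝ] A 4))⁻¹| = M.det⁻¹ := abs_of_pos (inv_pos.2 hM)
  rw [this, ← mul_assoc, mul_inv_cancel₀ hM.ne', one_mul]

/-- exchange of the tangential weight -/
theorem kom_swap (X : Sub N) (c : X.Chart) {e : A 4 × A N} (he : e.1 ∈ c.U) {F : A N → ℝ}
    (hF : Continuous F) (cF : HasCompactSupport F) :
    c.pf e.1 * ∫ b, bump (X.g (c.ψ e.1) b b) * F (b - X.π (c.ψ e.1) b) =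
      ∫ b, bump (‖kom_L c.toRawChart e b‖ ^ 2) * F (b - X.π (c.ψ e.1) b) := by
  have hx := c.ψ_S _ he
  obtain ⟨Fr⟩ := X.exists_frame hx
  have hdet : 0 < (Fr.L ∘L fderiv ℝ c.ψ e.1).det := by
    rw [← c.toRawChart.pf_eq_det he Fr]
    exact c.pf_pos _ he
  set M := Fr.L ∘L fderiv ℝ c.ψ e.1 with hM
  have c₁ : HasCompactSupport fun a : A 4 => bump (‖M a‖ ^ 2) :=
    kom_bump_cpt0.comp_homeomorph (M.toContinuousLinearEquivOfDetNeZero hdet.ne').toHomeomorph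
  have h := swap (B := kom_B c.toRawChart e) (L := kom_L c.toRawChart e) (kom_LB c.toRawChart he)
    (f₁ := fun a => bump (‖M a‖ ^ 2)) (f₂ := fun a => bump (‖a‖ ^ 2)) (F := F)
    (kom_bump_cont0.comp M.continuous) kom_bump_cont0 hF c₁ kom_bump_cpt0 cF
  have e1 : ∀ b, ‖M (kom_L c.toRawChart e b)‖ ^ 2 = X.g (c.ψ e.1) b b := by
    intro b
    have : M (kom_L c.toRawChart e b) = Fr.L b := by
      rw [← Fr.L_π b, ← kom_BL c.toRawChart he b]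
      rfl
    rw [this, Pre.Frame.g_eq hx Fr, real_inner_self_eq_norm_sq]
  simp only [e1, kom_BL c.toRawChart he] at h
  have h2 := kom_integral_comp hdet kom_bump_cont0
  rw [c.toRawChart.pf_eq_det he Fr, ← hM]
  apply mul_left_cancel₀ kom_bump_pos.ne'
  rw [mul_left_comm, h, ← mul_assoc, h2]

theorem kom_OmC_eq (X : Sub N) (c : X.Chart) (R : ℝ) {t : ℝ} (ht : t ≠ 0) {e : A 4 × A N}
    (he : e.1 ∈ c.U) (Y₁ Y₂ Y₃ Y₄ : A 4 × A N) :
    Pre.OmC c.toRawChart R t e Y₁ Y₂ Y₃ Y₄ = bump (‖kom_xi c.toRawChart t e‖ ^ 2 / R ^ 2) *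
      pioOm (kom_xi c.toRawChart t) (kom_B c.toRawChart) (kom_L c.toRawChart) e Y₁ Y₂ Y₃ Y₄ := by
  have hx := c.ψ_S _ he
  obtain ⟨Fr⟩ := X.exists_frame hx
  let lam : A 4 × A N → A N → A 4 := fun Y n => t⁻¹ • c.pr (X.π (c.ψ e.1) (Y.2 -
    (X.π (c.ψ e.1) - t • (((fderiv ℝ X.π (c.ψ e.1)).flip n) ∘L X.π (c.ψ e.1))) (fderiv ℝ c.ψ e.1 Y.1)))
  have hlam : ∀ Y, Continuous (lam Y) := by
    intro Y
    simp only [lam, sub_apply, smul_apply,
      ContinuousLinearMap.comp_apply, ContinuousLinearMap.flip_apply]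
    fun_prop
  let F : A N → ℝ := fun n => bump (‖kom_xi c.toRawChart t e - n‖ ^ 2) *
    det4 (lam Y₁ n) (lam Y₂ n) (lam Y₃ n) (lam Y₄ n)
  have hF : Continuous F :=
    (bump_sm.continuous.comp (by fun_prop)).mul (kom_det4_cont (hlam _) (hlam _) (hlam _) (hlam _))
  have cF : HasCompactSupport F := (kom_bump_cpt _).mul_right
  have h := kom_swap X c he hF cF
  have e1 : pioOm (kom_xi c.toRawChart t) (kom_B c.toRawChart) (kom_L c.toRawChart) e Y₁ Y₂ Y₃ Y₄ =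
      ∫ b, bump (‖kom_L c.toRawChart e b‖ ^ 2) * F (b - X.π (c.ψ e.1) b) := by
    unfold pioOm
    congr 1
    funext b
    simp only [kom_pioLam X c.toRawChart ht he, kom_BL c.toRawChart he, F, lam, Pre.Cm, mul_assoc]
  rw [e1, ← h]
  unfold Pre.OmC Pre.Om
  simp only [← integral_const_mul]
  congr 1
  funext b
  simp only [c.toRawChart.Vol_eq he Fr, F, lam, kom_det4_smul, Pre.wt, Pre.Cm, kom_xi]
  ring

theorem kom_OmC_zero (X : Sub N) (c : X.RawChart) (R t : ℝ) {C : ℝ} (hC : ∀ x ∈ X.S, ‖X.π x‖ ≤ C)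
    {e : A 4 × A N} (he : e.1 ∈ c.U) (h : C < ‖X.π (c.ψ e.1) (kom_xi c t e)‖)
    (Y₁ Y₂ Y₃ Y₄ : A 4 × A N) : Pre.OmC c R t e Y₁ Y₂ Y₃ Y₄ = 0 := by
  have hx := c.ψ_S _ he
  have h0 : ∀ b, X.wt (c.ψ e.1) (t⁻¹ • (e.2 - c.ψ e.1)) b = 0 := by
    intro b
    have h1 : X.π (c.ψ e.1) (kom_xi c t e - (b - X.π (c.ψ e.1) b)) = X.π (c.ψ e.1) (kom_xi c t e) := by
      simp only [map_sub, X.ππ _ hx, sub_self, sub_zero]
    have h2 := (X.π (c.ψ e.1)).le_of_opNorm_le (hC _ hx) (kom_xi c t e - (b - X.π (c.ψ e.1) b))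
    rw [h1] at h2
    have hC0 : 0 ≤ C := (norm_nonneg _).trans (hC _ hx)
    have h3 : 1 ≤ ‖kom_xi c t e - (b - X.π (c.ψ e.1) b)‖ := by
      by_contra h4
      rw [not_le] at h4
      nlinarith
    have h4 : bump (‖kom_xi c t e - (b - X.π (c.ψ e.1) b)‖ ^ 2) = 0 := bump_eq_zero (by nlinarith)
    unfold Pre.wt
    exact mul_eq_zero_of_right _ h4
  simp only [Pre.OmC, Pre.Om, h0, zero_mul, integral_zero, mul_zero]

theorem Sub.omClosed (X : Sub N) : ∃ R t₀, 1 ≤ R ∧ 0 < t₀ ∧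
    ∀ t, 0 < t → t ≤ t₀ → X.OmClosed R t := by
  obtain ⟨C, hC1, hC⟩ := X.toPre.exists_bound
  obtain ⟨Q, hQ0, hQ⟩ := X.quad
  refine ⟨8 * C, 1 / (32 * Q * C + 1), by linarith, by positivity, fun t ht htt => ?_⟩
  intro c p hp y hy Y₀ Y₁ Y₂ Y₃ Y₄
  have he : (p, y).1 ∈ c.U := hp
  have hcont := (kom_xi_sm c.toRawChart t).continuous
  have hzero : (∀ᶠ e in 𝓝 (p, y), ∀ Z₁ Z₂ Z₃ Z₄,
      Pre.OmC c.toRawChart (8 * C) t e Z₁ Z₂ Z₃ Z₄ = 0) →
      fderiv ℝ (fun e => Pre.OmC c.toRawChart (8 * C) t e Y₁ Y₂ Y₃ Y₄) (p, y) Y₀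
      - fderiv ℝ (fun e => Pre.OmC c.toRawChart (8 * C) t e Y₀ Y₂ Y₃ Y₄) (p, y) Y₁
      + fderiv ℝ (fun e => Pre.OmC c.toRawChart (8 * C) t e Y₀ Y₁ Y₃ Y₄) (p, y) Y₂
      - fderiv ℝ (fun e => Pre.OmC c.toRawChart (8 * C) t e Y₀ Y₁ Y₂ Y₄) (p, y) Y₃
      + fderiv ℝ (fun e => Pre.OmC c.toRawChart (8 * C) t e Y₀ Y₁ Y₂ Y₃) (p, y) Y₄ = 0 := by
    intro h
    have h' : ∀ Z₁ Z₂ Z₃ Z₄, fderiv ℝ (fun e => Pre.OmC c.toRawChart (8 * C) t e Z₁ Z₂ Z₃ Z₄) (p, y)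
        = 0 := by
      intro Z₁ Z₂ Z₃ Z₄
      have : (fun e => Pre.OmC c.toRawChart (8 * C) t e Z₁ Z₂ Z₃ Z₄) =ᶠ[𝓝 (p, y)] fun _ => 0 :=
        h.mono fun e he => he Z₁ Z₂ Z₃ Z₄
      rw [this.fderiv_eq]
      simp
    simp [h']
  rcases lt_or_ge ‖kom_xi c.toRawChart t (p, y)‖ (4 * C) with h1 | h1
  · have h2 : ∀ᶠ e in 𝓝 (p, y), ‖kom_xi c.toRawChart t e‖ < 4 * C :=
      hcont.norm.continuousAt.eventually_lt continuousAt_const h1
    have h' : ∀ Z₁ Z₂ Z₃ Z₄, fderiv ℝ (fun e => Pre.OmC c.toRawChart (8 * C) t e Z₁ Z₂ Z₃ Z₄) (p, y)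
        = fderiv ℝ (fun e => pioOm (kom_xi c.toRawChart t) (kom_B c.toRawChart) (kom_L c.toRawChart) e
          Z₁ Z₂ Z₃ Z₄) (p, y) := by
      intro Z₁ Z₂ Z₃ Z₄
      refine Filter.EventuallyEq.fderiv_eq ?_
      filter_upwards [h2, kom_nhds c.toRawChart he] with e h3 h4
      rw [kom_OmC_eq X c _ ht.ne' h4, bump_eq_one, one_mul]
      rw [div_le_iff₀ (by positivity)]
      nlinarith [norm_nonneg (kom_xi c.toRawChart t e)]
    simp only [h']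
    exact piola (kom_xi_sm _ t) (kom_B_sm _) (kom_L_sm _) (O := {e | e.1 ∈ c.U})
      (c.U_open.preimage continuous_fst) (fun e he => kom_LB _ he) he Y₀ Y₁ Y₂ Y₃ Y₄
  rcases lt_or_ge (8 * C) ‖kom_xi c.toRawChart t (p, y)‖ with h2 | h2
  · apply hzero
    have h3 : ∀ᶠ e in 𝓝 (p, y), 8 * C < ‖kom_xi c.toRawChart t e‖ :=
      continuousAt_const.eventually_lt hcont.norm.continuousAt h2
    filter_upwards [h3] with e h4 Z₁ Z₂ Z₃ Z₄
    unfold Pre.OmC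
    rw [X.toPre.Om_eq_zero (R := 8 * C) (q := (t, c.ψ e.1, t⁻¹ • (e.2 - c.ψ e.1))) (by linarith) h4.le,
      mul_zero]
  · apply hzero
    have hcont2 : Continuous fun e : A 4 × A N => ‖X.π (c.ψ e.1) (kom_xi c.toRawChart t e)‖ :=
      ((X.π_sm.continuous.comp (c.ψ_sm.continuous.comp continuous_fst)).clm_apply hcont).norm
    have h3 : C < ‖X.π (c.ψ p) (kom_xi c.toRawChart t (p, y))‖ := by
      set w := kom_xi c.toRawChart t (p, y) with hw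
      have h4 : y - c.ψ p = t • w := by
        rw [hw, kom_xi, smul_smul, mul_inv_cancel₀ ht.ne', one_smul]
      have h5 := hQ _ (c.ψ_S _ hp) y hy
      rw [h4, map_smul, ← smul_sub, norm_smul, norm_smul, Real.norm_eq_abs, abs_of_pos ht] at h5
      have h6 : ‖w - X.π (c.ψ p) w‖ ≤ Q * t * ‖w‖ ^ 2 := by
        apply le_of_mul_le_mul_left _ ht
        linarith
      have h7 : Q * t * (32 * C) ≤ 1 := by
        rw [le_div_iff₀ (by positivity)] at htt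
        nlinarith
      have h8 : ‖w‖ ^ 2 ≤ (8 * C) ^ 2 := pow_le_pow_left₀ (norm_nonneg _) h2 2
      have h9 : Q * t * ‖w‖ ^ 2 ≤ 2 * C := by
        refine (mul_le_mul_of_nonneg_left h8 (by positivity)).trans ?_
        nlinarith
      have h10 := norm_sub_norm_le w (X.π (c.ψ p) w)
      linarith
    have h4 : ∀ᶠ e in 𝓝 (p, y), C < ‖X.π (c.ψ e.1) (kom_xi c.toRawChart t e)‖ :=
      continuousAt_const.eventually_lt hcont2.continuousAt h3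
    filter_upwards [h4, kom_nhds c.toRawChart he] with e h5 h6
    exact kom_OmC_zero X c.toRawChart _ t (fun x hx => (hC x hx).1) h6 h5

end Crest.Agent.R240
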