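import Crest.Agent.R240.KDef
import Crest.Agent.R240.Alg3

/-! Row 240: almost positivity of the smoothing kernel.

For `z = (y, v) ∈ SM`, `w = t⁻¹ • (y - x)`, the form `Kk† (Lb z)` is
`bump(…) • ∫ b, wt x w b • σ b` with `σ b = pb (Cm t x b) (volL x (Lb z))`
(`ev (σ b) u u' = Vol x v (J y v) (Cm u) (Cm u')`). Each `σ b` has vanishing square: by
`st_wedge` and `ev_pb` it is the Plücker relation for `Vol x v (J y v) · ·` (in a frame, `det4`).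
If `kz (x, w) ≠ 0` then `‖w‖ ≤ R`, `‖y - x‖ ≤ R t`, and where `wt ≠ 0`, `‖b‖ ≤ 2 + R`, so that with
`u = π x v` (`‖u - v‖ ≤ C t` by `Sub.lipschitz`) `‖σ b - volL x (Lb (x, u))‖ ≤ C t`
(`Pt_volL`) and `‖Lh z - Lh (x, u)‖ ≤ C t`. Apply `Geo.pos_alg` to each pair `σ b`, `σ' b'` and
integrate against `wt x w b * wt x w' b'`. -/

set_option autoImplicit false

open scoped ContDiff RealInnerProductSpace Topology
open MeasureTheory Set Filter

noncomputable section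

namespace Crest.Agent.R240

variable {N : ℕ}

theorem kpos_lip {P F : Type} [NormedAddCommGroup P] [NormedSpace ℝ P] [NormedAddCommGroup F]
    [NormedSpace ℝ F] {Φ : P → F} (h : ContDiff ℝ ∞ Φ) {K : Set P} (hK : IsCompact K) :
    ∃ C, 0 ≤ C ∧ ∀ p ∈ K, ∀ q ∈ K, ‖Φ p - Φ q‖ ≤ C * ‖p - q‖ := by
  obtain ⟨C, hC⟩ := (h.of_le (m := 1) (by simp)).locallyLipschitz.locallyLipschitzOn
    |>.exists_lipschitzOnWith_of_compact hK
  exact ⟨C, C.2, fun p hp q hq => hC.norm_sub_le hp hq⟩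

theorem kpos_normalize {F : Type} [NormedAddCommGroup F] [NormedSpace ℝ F] {a : F} (ha : a ≠ 0)
    (b : F) : ‖‖a‖⁻¹ • a - ‖b‖⁻¹ • b‖ ≤ 2 * ‖a - b‖ / ‖a‖ := by
  have h0 : 0 < ‖a‖ := norm_pos_iff.2 ha
  by_cases hb : b = 0
  · subst hb
    rw [smul_zero, sub_zero, sub_zero, norm_smul, norm_inv, norm_norm, inv_mul_cancel₀ h0.ne',
      mul_div_assoc, div_self h0.ne']
    norm_num
  have h1 : 0 < ‖b‖ := norm_pos_iff.2 hb
  have e : ‖a‖⁻¹ • a - ‖b‖⁻¹ • b = ‖a‖⁻¹ • (a - b) + (‖a‖⁻¹ * (‖b‖ - ‖a‖)) • (‖b‖⁻¹ • b) := by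
    rw [smul_smul, smul_sub, sub_add, ← sub_smul]
    congr 2
    field_simp
    ring
  rw [e]
  refine (norm_add_le _ _).trans ?_
  rw [norm_smul, norm_smul, norm_smul, norm_mul, norm_inv, norm_inv, norm_norm, norm_norm,
    inv_mul_cancel₀ h1.ne', mul_one, ← mul_add, div_eq_inv_mul, two_mul]
  gcongr
  rw [norm_sub_rev a]
  exact abs_norm_sub_norm_le b a

theorem kpos_int {F : Type} [NormedAddCommGroup F] [NormedSpace ℝ F] [CompleteSpace F]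
    {ρ : A N → ℝ} {f : A N → F} (h0 : ∀ b, 0 ≤ ρ b) (h1 : Integrable ρ)
    (h2 : Integrable fun b => ρ b • f b) (ℓ : F →L[ℝ] ℝ) {m : ℝ}
    (h : ∀ b, ρ b ≠ 0 → m ≤ ℓ (f b)) : (∫ b, ρ b) * m ≤ ℓ (∫ b, ρ b • f b) := by
  rw [← ℓ.integral_comp_comm h2, ← integral_mul_const]
  refine integral_mono (h1.mul_const m) (ℓ.integrable_comp h2) fun b => ?_
  simp only [map_smul, smul_eq_mul]
  by_cases hb : ρ b = 0
  · simp [hb]
  · exact mul_le_mul_of_nonneg_left (h b hb) (h0 b)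

namespace Pre
variable (X : Pre N)

/-- the forms that are averaged -/
def kposσ (q : ℝ × A N × A N × A N × A N) : E2 N :=
  pb (X.Cm q.1 q.2.1 q.2.2.1) (X.volL q.2.1 (X.Lb q.2.2.2))

theorem kposσ_sm : ContDiff ℝ ∞ X.kposσ := by
  have hπ := X.π_sm
  have hd : ContDiff ℝ ∞ (fderiv ℝ X.π) := hπ.fderiv_right (by simp)
  refine (contDiff_pb ?_).clm_apply ((X.volL_sm.comp (by fun_prop)).clm_apply
    (X.Lb_sm.comp (by fun_prop)))
  refine contDiff_clm_apply_iff.2 fun ξ => ?_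
  simp only [Cm, sub_apply, smul_apply,
    ContinuousLinearMap.comp_apply, ContinuousLinearMap.flip_apply]
  fun_prop

theorem kpos_om_swap (x a b : A N) : X.om x b a = -X.om x a b := by
  simp only [om, real_inner_comm (X.π x a), real_inner_comm (X.J x a)]
  ring

theorem kpos_ev (t : ℝ) (x b : A N) (z : A N × A N) (u u' : A N) :
    ev (X.kposσ (t, x, b, z)) u u' = X.Vol x (X.Cm t x b u) (X.Cm t x b u') z.2 (X.J z.1 z.2) := by
  rw [kposσ, ev_pb, Lb, ev_volL_biv]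

theorem kpos_wt_nonneg (x w b : A N) : 0 ≤ X.wt x w b :=
  mul_nonneg (bump_nonneg _) (bump_nonneg _)

theorem kpos_integrable {F : Type} [NormedAddCommGroup F] [NormedSpace ℝ F] (x w : A N)
    {f : A N → F} (hf : Continuous f) : Integrable fun b => X.wt x w b • f b := by
  have h1 : Continuous (X.wt x w) := by
    have := bump_sm.continuous
    unfold wt g
    fun_prop
  refine (h1.smul hf).integrable_of_hasCompactSupport
    (HasCompactSupport.intro (isCompact_closedBall 0 (2 + ‖w‖)) fun b hb => ?_)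
  rw [Pi.smul_apply', X.wt_eq_zero x w b (by simpa using (not_le.1 (mt mem_closedBall_zero_iff.2 hb)).le),
    zero_smul]

theorem kpos_integrable_σ (t : ℝ) (x w : A N) (z : A N × A N) :
    Integrable fun b => X.wt x w b • X.kposσ (t, x, b, z) :=
  X.kpos_integrable x w (X.kposσ_sm.continuous.comp (by fun_prop))

theorem kpos_adjoint (R t : ℝ) (x w : A N) (z : A N × A N) :
    ContinuousLinearMap.adjoint (X.Kk R (t, x, w)) (X.Lb z) =
      bump (‖w‖ ^ 2 / R ^ 2) • ∫ b, X.wt x w b • X.kposσ (t, x, b, z) := by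
  have hi := X.kpos_integrable_σ t x w z
  refine (X.anti_adjoint_Kk R _ _).ext (fun k l => ?_) fun u u' => ?_
  · have h := (EuclideanSpace.proj (k, l) + EuclideanSpace.proj (l, k) :
      E2 N →L[ℝ] ℝ).integral_comp_comm hi
    have h1 : ∀ b, (EuclideanSpace.proj (k, l) + EuclideanSpace.proj (l, k) : E2 N →L[ℝ] ℝ)
        (X.wt x w b • X.kposσ (t, x, b, z)) = 0 := fun b => by
      simp [kposσ, anti_pb _ _ k l]
    simp only [h1, integral_zero, add_apply, PiLp.proj_apply] at h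
    simp only [PiLp.smul_apply, smul_eq_mul]
    linear_combination (-bump (‖w‖ ^ 2 / R ^ 2)) * h
  · rw [Lb, ev_adjoint_Kk_biv, ev_smul, ev, real_inner_comm, ← integral_inner hi, Om]
    congr 2
    funext b
    rw [real_inner_smul_right, real_inner_comm, ← ev, kpos_ev]
    simp only [map_zero, sub_zero, zero_sub, Vol, X.kpos_om_swap x z.2 (X.Cm t x b _),
      X.kpos_om_swap x (X.J z.1 z.2) (X.Cm t x b _)]
    simp only [om, map_neg, inner_neg_left, inner_neg_right]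
    ring

end Pre

theorem Geo.kpos_null (G : Geo N) (t : ℝ) {x : A N} (hx : x ∈ G.S) (b : A N) (z : A N × A N) :
    ⟪G.st x (G.kposσ (t, x, b, z)), G.kposσ (t, x, b, z)⟫ = 0 := by
  obtain ⟨F⟩ := G.toSub.exists_frame hx
  rw [G.st_wedge hx F, wedge]
  simp only [Pre.kpos_ev, F.Vol_eq hx, det4]
  ring

theorem Sub.kpos_close (X : Sub N) {R : ℝ} (hR : 1 ≤ R) : ∃ D, 0 < D ∧ ∀ t, 0 < t → t ≤ 1 →
    ∀ x ∈ X.S, ∀ z ∈ X.SM, ‖z.1 - x‖ ≤ R * t → ‖z.2 - X.π x z.2‖ ≤ D * t ∧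
      ‖X.Lh z - X.Lh (x, X.π x z.2)‖ ≤ D * t ∧ ∀ b, ‖b‖ ≤ 2 + R →
        ‖X.kposσ (t, x, b, z) - X.volL x (X.Lb (x, X.π x z.2))‖ ≤ D * t := by
  obtain ⟨C₀, h₀, hC₀⟩ := X.toPre.exists_bound
  obtain ⟨C₁, h₁, hC₁⟩ := X.lipschitz
  obtain ⟨c, C', hc, -, hLb⟩ := X.toPre.Lb_bounds
  have hK := X.cpt.prod (isCompact_closedBall (0 : A N) C₀)
  obtain ⟨C₂, h₂, hC₂⟩ := kpos_lip X.Lb_sm hK
  obtain ⟨C₃, h₃, hC₃⟩ := kpos_lip X.kposσ_sm ((isCompact_Icc (a := (0 : ℝ)) (b := 1)).prod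
    (X.cpt.prod ((isCompact_closedBall (0 : A N) (2 + R)).prod hK)))
  refine ⟨(1 + 2 * C₂ / c + C₃) * ((1 + C₁) * R), by positivity, fun t ht ht1 x hx z hz hd => ?_⟩
  have hRt : 0 ≤ R * t := by positivity
  have hE : 0 ≤ (1 + C₁) * R * t := by positivity
  have hcc : 0 ≤ 2 * C₂ / c := by positivity
  have e1 : ‖z.2 - X.π x z.2‖ ≤ (1 + C₁) * R * t := by
    nth_rewrite 1 [← hz.2.1]
    rw [← sub_apply]
    refine ((X.π z.1 - X.π x).le_opNorm _).trans ?_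
    rw [hz.2.2, mul_one]
    nlinarith [(hC₁ x hx z.1 hz.1).1]
  have e2 : ‖z - (x, X.π x z.2)‖ ≤ (1 + C₁) * R * t :=
    norm_prod_le_iff.2 ⟨hd.trans (by nlinarith), e1⟩
  have m1 : z ∈ X.S ×ˢ Metric.closedBall (0 : A N) C₀ :=
    ⟨hz.1, mem_closedBall_zero_iff.2 (hz.2.2.trans_le h₀)⟩
  have m2 : (x, X.π x z.2) ∈ X.S ×ˢ Metric.closedBall (0 : A N) C₀ := by
    refine ⟨hx, mem_closedBall_zero_iff.2 (((X.π x).le_opNorm _).trans ?_)⟩
    rw [hz.2.2, mul_one]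
    exact (hC₀ x hx).1
  refine ⟨by nlinarith, ?_, fun b hb => ?_⟩
  · have h1 := (hLb z hz).1
    refine (kpos_normalize (norm_pos_iff.1 (hc.trans_le h1)) _).trans ?_
    have h2 := (hC₂ z m1 _ m2).trans (mul_le_mul_of_nonneg_left e2 h₂)
    calc _ ≤ 2 * (C₂ * ((1 + C₁) * R * t)) / c := by gcongr
      _ = 2 * C₂ / c * ((1 + C₁) * R * t) := by ring
      _ ≤ _ := by nlinarith
  · have h1 : X.volL x (X.Lb (x, X.π x z.2)) = X.kposσ (0, x, b, x, X.π x z.2) := by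
      simp only [Pre.kposσ, Pre.Cm, zero_smul, sub_zero]
      exact (Pre.Pt_volL hx _).symm
    have mb := mem_closedBall_zero_iff.2 hb
    have h2 := hC₃ (t, x, b, z) ⟨⟨ht.le, ht1⟩, hx, mb, m1⟩ (0, x, b, x, X.π x z.2)
      ⟨⟨le_rfl, zero_le_one⟩, hx, mb, m2⟩
    have h3 : ‖(t, x, b, z) - (0, x, b, x, X.π x z.2)‖ ≤ (1 + C₁) * R * t := by
      simp only [Prod.mk_sub_mk, sub_self, sub_zero, norm_prod_le_iff, norm_zero, hE, true_and,
        Real.norm_eq_abs, abs_of_pos ht]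
      exact ⟨by nlinarith [mul_nonneg h₁ hRt], norm_prod_le_iff.1 e2⟩
    rw [h1]
    nlinarith [mul_le_mul_of_nonneg_left h3 h₃]

theorem Geo.Kk_pos (G : Geo N) {R : ℝ} (hR : 1 ≤ R) : ∃ t₀ c C, 0 < t₀ ∧ 0 < c ∧ 0 < C ∧
    ∀ t, 0 < t → t ≤ t₀ → ∀ x ∈ G.S, ∀ z ∈ G.SM, ∀ z' ∈ G.SM,
      G.kz R (x, t⁻¹ • (z.1 - x)) * G.kz R (x, t⁻¹ • (z'.1 - x)) * (c * G.gap z z' - C * t ^ 2) ≤
        ⟪G.st x (ContinuousLinearMap.adjoint (G.Kk R (t, x, t⁻¹ • (z.1 - x))) (G.Lb z)),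
          ContinuousLinearMap.adjoint (G.Kk R (t, x, t⁻¹ • (z'.1 - x))) (G.Lb z')⟫ := by
  obtain ⟨c, C, τ₀, hc, hC, hτ, hpos⟩ := G.pos_alg
  obtain ⟨D, hD, hcl⟩ := G.toSub.kpos_close hR
  refine ⟨min 1 (min (1 / 2 / D) (τ₀ / D)), c / 2, (4 * c + C) * D ^ 2, by positivity,
    by positivity, by positivity, fun t ht ht₀ x hx z hz z' hz' => ?_⟩
  simp only [le_min_iff, le_div_iff₀' hD] at ht₀
  obtain ⟨ht1, ht2, ht3⟩ := ht₀
  rw [Pre.kpos_adjoint, Pre.kpos_adjoint, map_smul, real_inner_smul_left, real_inner_smul_right,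
    Pre.kz, Pre.kz]
  dsimp only
  by_cases hb : bump (‖t⁻¹ • (z.1 - x)‖ ^ 2 / R ^ 2) = 0
  · simp [hb]
  by_cases hb' : bump (‖t⁻¹ • (z'.1 - x)‖ ^ 2 / R ^ 2) = 0
  · simp [hb']
  have key : ∀ z ∈ G.SM, bump (‖t⁻¹ • (z.1 - x)‖ ^ 2 / R ^ 2) ≠ 0 →
      (1 / 2 ≤ ‖G.π x z.2‖ ∧ ‖G.π x z.2‖ ≤ 2) ∧ ‖G.Lh z - G.Lh (x, G.π x z.2)‖ ≤ D * t ∧
        ∀ b, G.wt x (t⁻¹ • (z.1 - x)) b ≠ 0 →
          ‖G.kposσ (t, x, b, z) - G.volL x (G.Lb (x, G.π x z.2))‖ ≤ D * t := by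
    intro z hz hb
    have h1 : ‖t⁻¹ • (z.1 - x)‖ ≤ R := by
      have h2 := not_le.1 (mt bump_eq_zero hb)
      rw [div_lt_one (by positivity)] at h2
      exact (abs_le_of_sq_le_sq' h2.le (by positivity)).2
    have h2 : ‖z.1 - x‖ ≤ R * t := by
      rwa [norm_smul, norm_inv, Real.norm_eq_abs, abs_of_pos ht, ← div_eq_inv_mul,
        div_le_iff₀ ht] at h1
    obtain ⟨h3, h4, h5⟩ := hcl t ht ht1 x hx z hz h2
    have h6 := abs_le.1 ((abs_norm_sub_norm_le _ _).trans h3)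
    rw [hz.2.2] at h6
    refine ⟨⟨by linarith [h6.2], by linarith [h6.1]⟩, h4, fun b hb => h5 b ?_⟩
    linarith [not_le.1 (mt (G.wt_eq_zero x _ b) hb)]
  obtain ⟨⟨a1, a2⟩, a3, a4⟩ := key z hz hb
  obtain ⟨⟨b1, b2⟩, b3, b4⟩ := key z' hz' hb'
  have hgap : G.gap z z' ≤ 2 * G.gap (x, G.π x z.2) (x, G.π x z'.2) + 8 * (D * t) ^ 2 := by
    have h1 : ‖G.Lh z - G.Lh z'‖ ≤ ‖G.Lh (x, G.π x z.2) - G.Lh (x, G.π x z'.2)‖ + 2 * (D * t) := by
      have := norm_sub_le_norm_sub_add_norm_sub (G.Lh z) (G.Lh (x, G.π x z.2)) (G.Lh z')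
      have := norm_sub_le_norm_sub_add_norm_sub (G.Lh (x, G.π x z.2)) (G.Lh (x, G.π x z'.2))
        (G.Lh z')
      rw [norm_sub_rev] at b3
      linarith
    unfold Pre.gap
    nlinarith [pow_le_pow_left₀ (norm_nonneg _) h1 2,
      sq_nonneg (‖G.Lh (x, G.π x z.2) - G.Lh (x, G.π x z'.2)‖ - 2 * (D * t))]
  have hi : ∀ w, Integrable (G.wt x w) := fun w => by
    simpa using G.kpos_integrable x w (f := fun _ => (1 : ℝ)) continuous_const
  have h := kpos_int (G.kpos_wt_nonneg x _) (hi _) (G.kpos_integrable_σ t x _ z')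
    (innerSL ℝ (G.st x (∫ b, G.wt x (t⁻¹ • (z.1 - x)) b • G.kposσ (t, x, b, z))))
    (m := (∫ b, G.wt x (t⁻¹ • (z.1 - x)) b) * (c / 2 * G.gap z z' - (4 * c + C) * D ^ 2 * t ^ 2))
    fun b' hb' => by
      have h := kpos_int (G.kpos_wt_nonneg x _) (hi _) (G.kpos_integrable_σ t x _ z)
        (innerSL ℝ (G.kposσ (t, x, b', z')) ∘L G.st x)
        (m := c / 2 * G.gap z z' - (4 * c + C) * D ^ 2 * t ^ 2) fun b hb => by
          have := hpos x hx _ _ _ _ (D * t) (G.ππ x hx _) (G.ππ x hx _) a1 a2 b1 b2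
            (by positivity) ht3 (G.kpos_null t hx b z) (G.kpos_null t hx b' z') (a4 b hb) (b4 b' hb')
          rw [ContinuousLinearMap.comp_apply, innerSL_apply_apply, real_inner_comm]
          nlinarith [mul_le_mul_of_nonneg_left hgap hc.le]
      rwa [ContinuousLinearMap.comp_apply, innerSL_apply_apply, real_inner_comm] at h
  rw [innerSL_apply_apply] at h
  have h' := mul_le_mul_of_nonneg_left (mul_le_mul_of_nonneg_left h
    (bump_nonneg (‖t⁻¹ • (z'.1 - x)‖ ^ 2 / R ^ 2))) (bump_nonneg (‖t⁻¹ • (z.1 - x)‖ ^ 2 / R ^ 2))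
  refine le_trans (le_of_eq ?_) h'
  ring

end Crest.Agent.R240
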