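import Crest.Agent.R240.KerOp
import Crest.Agent.R240.Poinc

/-! Row 240: commuting derivatives with the integral operators. -/

set_option autoImplicit false
set_option linter.unusedSectionVars false

open scoped ContDiff RealInnerProductSpace Topology
open MeasureTheory Set Filter

noncomputable section

namespace Crest.Agent.R240

variable {N : ℕ} {F E E' : Type} [NormedAddCommGroup F] [NormedSpace ℝ F] [CompleteSpace F]
  [NormedAddCommGroup E] [NormedSpace ℝ E] [NormedAddCommGroup E'] [NormedSpace ℝ E']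
  [CompleteSpace E] [CompleteSpace E']

theorem keru_fderiv_zero {κ : ℝ × A N × A N → F} {R : ℝ} (h : IsKer κ R) (t : ℝ) (x w : A N)
    (hw : R ≤ ‖w‖) : fderiv ℝ κ (t, x, w) = 0 := by
  have hopen : ∀ q : ℝ × A N × A N, R < ‖q.2.2‖ → fderiv ℝ κ q = 0 := by
    intro q hq
    have ho : IsOpen {q : ℝ × A N × A N | R < ‖q.2.2‖} :=
      isOpen_lt continuous_const (by fun_prop)
    have : κ =ᶠ[𝓝 q] fun _ => 0 := by
      filter_upwards [ho.mem_nhds hq] with q' hq'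
      exact h.supp q'.1 q'.2.1 q'.2.2 (le_of_lt hq')
    rw [this.fderiv_eq]
    simp
  by_cases hw0 : w = 0
  · have : κ = fun _ => 0 := by
      funext q
      refine h.supp q.1 q.2.1 q.2.2 (hw.trans ?_)
      rw [hw0, norm_zero]
      exact norm_nonneg _
    rw [this]
    simp
  · have hc : Continuous (fderiv ℝ κ) := h.sm.continuous_fderiv (by simp)
    have hc2 : Continuous fun s : ℝ => fderiv ℝ κ (t, x, s • w) := hc.comp (by fun_prop)
    have hz : ∀ s : ℝ, 1 < s → fderiv ℝ κ (t, x, s • w) = 0 := by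
      intro s hs
      apply hopen
      have hpos : 0 < ‖w‖ := norm_pos_iff.2 hw0
      simp only [norm_smul, Real.norm_eq_abs, abs_of_pos (zero_lt_one.trans hs)]
      nlinarith
    have hcl : IsClosed {s : ℝ | fderiv ℝ κ (t, x, s • w) = 0} :=
      isClosed_eq hc2 continuous_const
    have h1 : (1 : ℝ) ∈ closure (Ioi (1 : ℝ)) := by
      rw [closure_Ioi]
      exact le_refl (1 : ℝ)
    have := hcl.closure_subset_iff.2 (fun s (hs : s ∈ Ioi (1 : ℝ)) => hz s hs) h1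
    simpa using this

theorem keru_abs {κ : ℝ × A N × A N → F} {R : ℝ} (h : IsKer κ R) : IsKer κ |R| :=
  ⟨h.sm, fun t x w hw => h.supp t x w ((le_abs_self R).trans hw)⟩

theorem keru_fderiv_y {κ : ℝ × A N × A N → F} (h : ContDiff ℝ ∞ κ) (t : ℝ) (x y v : A N) :
    fderiv ℝ (fun y => kerAt κ t x y) y v
      = t⁻¹ ^ 4 • fderiv ℝ κ (t, x, t⁻¹ • (y - x)) (0, 0, t⁻¹ • v) := by
  have h1 : HasFDerivAt (fun y : A N => ((t, x, t⁻¹ • (y - x)) : ℝ × A N × A N))
      ((0 : A N →L[ℝ] ℝ).prod ((0 : A N →L[ℝ] A N).prod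
        (t⁻¹ • ContinuousLinearMap.id ℝ (A N)))) y :=
    (hasFDerivAt_const t y).prodMk ((hasFDerivAt_const x y).prodMk
      (((hasFDerivAt_id y).sub_const x).const_smul t⁻¹))
  have h2 := ((h.differentiable (by simp) _).hasFDerivAt.comp y h1).const_smul (t⁻¹ ^ 4)
  have h3 := h2.fderiv
  have e : (fun y => kerAt κ t x y) = t⁻¹ ^ 4 •
      (κ ∘ fun y : A N => ((t, x, t⁻¹ • (y - x)) : ℝ × A N × A N)) := rfl
  rw [e, h3]
  simp

theorem keru_fderiv_x {κ : ℝ × A N × A N → F} (h : ContDiff ℝ ∞ κ) (t : ℝ) (x y v : A N) :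
    fderiv ℝ (fun x => kerAt κ t x y) x v
      = t⁻¹ ^ 4 • fderiv ℝ κ (t, x, t⁻¹ • (y - x)) (0, v, -(t⁻¹ • v)) := by
  have h1 : HasFDerivAt (fun x : A N => ((t, x, t⁻¹ • (y - x)) : ℝ × A N × A N))
      ((0 : A N →L[ℝ] ℝ).prod ((ContinuousLinearMap.id ℝ (A N)).prod
        (t⁻¹ • -ContinuousLinearMap.id ℝ (A N)))) x :=
    (hasFDerivAt_const t x).prodMk ((hasFDerivAt_id x).prodMk
      (((hasFDerivAt_id x).const_sub y).const_smul t⁻¹))
  have h2 := ((h.differentiable (by simp) _).hasFDerivAt.comp x h1).const_smul (t⁻¹ ^ 4)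
  have h3 := h2.fderiv
  have e : (fun x => kerAt κ t x y) = t⁻¹ ^ 4 •
      (κ ∘ fun x : A N => ((t, x, t⁻¹ • (y - x)) : ℝ × A N × A N)) := rfl
  rw [e, h3]
  simp

/-- The sum of the derivatives in `x` and in `y` is again a kernel:
`κ' = ∂ₓκ (π x eₖ) + ∂_w κ ((π (x + t w) - π x) eₖ / t)`, the quotient being smooth by
`hadamard`. -/
theorem IsKer.exists_DD {κ : ℝ × A N × A N → F} {R : ℝ} (h : IsKer κ R)
    {π : A N → A N →L[ℝ] A N} (hπ : ContDiff ℝ ∞ π) (k : Fin N) : ∃ κ', IsKer κ' R ∧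
      ∀ t, t ≠ 0 → ∀ x y, D π k (fun y => kerAt κ t x y) y + D π k (fun x => kerAt κ t x y) x
        = kerAt κ' t x y := by
  have hρ : ContDiff ℝ ∞ fun q : ℝ × A N × A N => π (q.2.1 + q.1 • q.2.2) (eb k) :=
    (hπ.comp (by fun_prop)).clm_apply contDiff_const
  obtain ⟨ρ₁, hρ₁, hρe, -⟩ := Crest.Agent.R240.hadamard hρ
  refine ⟨fun q => fderiv ℝ κ q (0, π q.2.1 (eb k), ρ₁ q), ⟨?_, ?_⟩, ?_⟩
  · refine (h.sm.fderiv_right (m := ∞) (by simp)).clm_apply ?_
    exact contDiff_const.prodMk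
      (((hπ.comp (by fun_prop)).clm_apply contDiff_const).prodMk hρ₁)
  · intro t x w hw
    simp only [keru_fderiv_zero h t x w hw, zero_apply]
  · intro t ht x y
    simp only [D, keru_fderiv_y h.sm, keru_fderiv_x h.sm]
    rw [← smul_add, ← map_add]
    have e := hρe t (x, t⁻¹ • (y - x))
    simp only [smul_inv_smul₀ ht, add_sub_cancel, zero_smul, add_zero] at e
    have e2 : ρ₁ (t, x, t⁻¹ • (y - x)) = t⁻¹ • π y (eb k) + -(t⁻¹ • π x (eb k)) := by
      rw [e, smul_add, inv_smul_smul₀ ht]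
      abel
    simp only [kerAt, e2, Prod.mk_add_mk, add_zero, zero_add]

/-- the operator `u ↦ ∫ κ(x, y) (u x - u y)` -/
def UOp (m : Measure (A N)) (κ : ℝ × A N × A N → E →L[ℝ] E') (t : ℝ) (u : A N → E) (y : A N) :
    E' := Op m κ t u y - mass m κ t y (u y)

namespace Geo
variable (G : Geo N)

theorem keru_kerAt_x_sm {κ : ℝ × A N × A N → F} {R : ℝ} (h : IsKer κ R) (t : ℝ) (y : A N) :
    ContDiff ℝ ∞ fun x => kerAt κ t x y :=
  (h.kerAt_sm t).comp (contDiff_id.prodMk contDiff_const)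

theorem keru_fderiv_mass {κ : ℝ × A N × A N → F} {R : ℝ} (h : IsKer κ R) (t : ℝ) (y v : A N) :
    fderiv ℝ (mass G.m κ t) y v = ∫ x, fderiv ℝ (fun y => kerAt κ t x y) y v ∂G.m := by
  have hΦ : ContDiff ℝ ∞ fun q : A N × A N => kerAt κ t q.2 q.1 :=
    (h.kerAt_sm t).comp (contDiff_snd.prodMk contDiff_fst)
  have h1 := (contDiff_integral_cpt G.m G.cpt G.m_S (f := fun _ => (1 : ℝ))
    (integrable_const _) hΦ).2 y v
  simp only [one_smul] at h1
  have e : mass G.m κ t = fun q => ∫ x, kerAt κ t x q ∂G.m := rfl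
  rw [e, h1]
  refine integral_congr_ae (Eventually.of_forall fun x => ?_)
  have h2 : HasFDerivAt (fun y : A N => ((y, x) : A N × A N))
      ((ContinuousLinearMap.id ℝ (A N)).prod (0 : A N →L[ℝ] A N)) y :=
    (hasFDerivAt_id y).prodMk (hasFDerivAt_const x y)
  have h3 := ((hΦ.differentiable (by simp) _).hasFDerivAt.comp y h2).fderiv
  have e2 : (fun y => kerAt κ t x y) = (fun q : A N × A N => kerAt κ t q.2 q.1) ∘
      fun y : A N => ((y, x) : A N × A N) := rfl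
  simp only [e2, h3]
  simp

/-- the kernel `κ' + dv k x • κ` -/
def keruK (κ κ' : ℝ × A N × A N → F) (k : Fin N) : ℝ × A N × A N → F :=
  fun q => κ' q + G.dv k q.2.1 • κ q

theorem keruK_ker {κ κ' : ℝ × A N × A N → F} {R : ℝ} (h : IsKer κ R) (h' : IsKer κ' R)
    (k : Fin N) : IsKer (G.keruK κ κ' k) R := by
  refine ⟨h'.sm.add (((G.dv_sm k).comp (by fun_prop)).smul h.sm), fun t x w hw => ?_⟩
  simp only [keruK, h.supp t x w hw, h'.supp t x w hw, smul_zero, add_zero]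

theorem kerAt_keruK (κ κ' : ℝ × A N × A N → F) (k : Fin N) (t : ℝ) (x y : A N) :
    kerAt (G.keruK κ κ' k) t x y = kerAt κ' t x y + G.dv k x • kerAt κ t x y := by
  simp only [kerAt, keruK, smul_add]
  rw [smul_comm (G.dv k x)]

theorem keru_D_mass {κ κ' : ℝ × A N × A N → F} {R : ℝ} (h : IsKer κ R) (h' : IsKer κ' R)
    (k : Fin N) {t : ℝ} (e : ∀ x y, D G.π k (fun y => kerAt κ t x y) y
      + D G.π k (fun x => kerAt κ t x y) x = kerAt κ' t x y) :
    D G.π k (mass G.m κ t) = mass G.m (G.keruK κ κ' k) t := by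
  funext y
  have hx := keru_kerAt_x_sm h t y
  have hx' := keru_kerAt_x_sm h' t y
  have i1 : Integrable (fun x => kerAt κ' t x y) G.m := G.B.integrable_cont hx'.continuous
  have i2 : Integrable (D G.π k fun x => kerAt κ t x y) G.m :=
    G.B.integrable_cont (D_sm G.π_sm k hx).continuous
  have i3 : Integrable (fun x => G.dv k x • kerAt κ t x y) G.m :=
    G.B.integrable_cont ((G.dv_sm k).smul hx).continuous
  have e1 : D G.π k (mass G.m κ t) y
      = ∫ x, (kerAt κ' t x y - D G.π k (fun x => kerAt κ t x y) x) ∂G.m := by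
    rw [D, G.keru_fderiv_mass h]
    refine integral_congr_ae (Eventually.of_forall fun x => ?_)
    exact eq_sub_of_add_eq (e x y)
  rw [e1, integral_sub i1 i2, G.integral_D k hx, sub_neg_eq_add, ← integral_add i1 i3]
  simp only [mass, kerAt_keruK]

theorem keru_norm_mass_le {κ : ℝ × A N × A N → F} {R : ℝ} (h : IsKer κ R) {t C : ℝ}
    (ht : 0 < t) (hC : ∀ x ∈ G.S, ∀ w, ‖κ (t, x, w)‖ ≤ C) (y : A N) :
    ‖mass G.m κ t y‖ ≤ C * t⁻¹ ^ 4 * G.m.real (Metric.closedBall y (R * t)) := by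
  have e : mass G.m κ t y = ∫ x in Metric.closedBall y (R * t), kerAt κ t x y ∂G.m := by
    rw [mass, setIntegral_eq_integral_of_forall_compl_eq_zero]
    intro x hx
    apply h.kerAt_eq_zero ht
    rw [Metric.mem_closedBall, dist_eq_norm, norm_sub_rev] at hx
    exact (not_le.1 hx).le
  rw [e]
  refine norm_setIntegral_le_of_norm_le_const_ae (measure_lt_top _ _) ?_
  refine ae_restrict_of_ae ?_
  filter_upwards [G.B.ae_mem] with x hx
  rw [kerAt, norm_smul, Real.norm_eq_abs, abs_of_nonneg (by positivity), mul_comm]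
  exact mul_le_mul_of_nonneg_right (hC x hx _) (by positivity)

theorem keru_mass_bound {κ : ℝ × A N × A N → F} {R : ℝ} (h : IsKer κ R) :
    ∃ C, 0 ≤ C ∧ ∀ t, 0 < t → t ≤ 1 → ∀ y, ‖mass G.m κ t y‖ ≤ C := by
  obtain ⟨C, hC0, hC⟩ := h.bound G.cpt
  obtain ⟨V, hV0, hV⟩ := G.vol_le
  refine ⟨C * V * |R| ^ 4, by positivity, fun t ht ht1 y => ?_⟩
  refine (G.keru_norm_mass_le (keru_abs h) ht (hC t ht.le ht1) y).trans ?_
  calc C * t⁻¹ ^ 4 * G.m.real (Metric.closedBall y (|R| * t))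
      ≤ C * t⁻¹ ^ 4 * (V * (|R| * t) ^ 4) :=
        mul_le_mul_of_nonneg_left (hV y _ (by positivity)) (by positivity)
    _ = C * V * |R| ^ 4 := by field_simp

/-- with `κ'' = κ' + dv k x • κ` and `integral_D` -/
theorem exists_D_mass {κ : ℝ × A N × A N → F} {R : ℝ} (h : IsKer κ R) (k : Fin N) :
    ∃ κ'', IsKer κ'' R ∧ ∀ t, t ≠ 0 → D G.π k (mass G.m κ t) = mass G.m κ'' t := by
  obtain ⟨κ', h', e⟩ := h.exists_DD G.π_sm k
  exact ⟨G.keruK κ κ' k, G.keruK_ker h h' k, fun t ht => G.keru_D_mass h h' k (e t ht)⟩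

theorem exists_D_Op {κ : ℝ × A N × A N → E →L[ℝ] E'} {R : ℝ} (h : IsKer κ R) (k : Fin N) :
    ∃ κ'', IsKer κ'' R ∧ ∀ t, t ≠ 0 → D G.π k (mass G.m κ t) = mass G.m κ'' t ∧
      ∀ u, ContDiff ℝ ∞ u → D G.π k (Op G.m κ t u)
        = fun y => Op G.m κ t (D G.π k u) y + Op G.m κ'' t u y := by
  obtain ⟨κ', h', e⟩ := h.exists_DD G.π_sm k
  refine ⟨G.keruK κ κ' k, G.keruK_ker h h' k, fun t ht =>
    ⟨G.keru_D_mass h h' k (e t ht), fun u hu => ?_⟩⟩
  funext y
  have hx := keru_kerAt_x_sm h t y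
  have hx' := keru_kerAt_x_sm h' t y
  have hDu := D_sm G.π_sm k hu
  have i1 : Integrable (fun x => kerAt κ' t x y (u x)) G.m :=
    G.B.integrable_cont (hx'.clm_apply hu).continuous
  have i2 : Integrable (D G.π k fun x => kerAt κ t x y (u x)) G.m :=
    G.B.integrable_cont (D_sm G.π_sm k (hx.clm_apply hu)).continuous
  have i3 : Integrable (fun x => G.dv k x • kerAt κ t x y (u x)) G.m :=
    G.B.integrable_cont ((G.dv_sm k).smul (hx.clm_apply hu)).continuous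
  have i4 : Integrable (fun x => kerAt κ t x y (D G.π k u x)) G.m :=
    G.B.integrable_cont (hx.clm_apply hDu).continuous
  have e1 : D G.π k (Op G.m κ t u) y = ∫ x, (kerAt κ t x y (D G.π k u x) +
      (kerAt κ' t x y (u x) - D G.π k (fun x => kerAt κ t x y (u x)) x)) ∂G.m := by
    rw [D, G.fderiv_Op h t (G.B.integrable_cont hu.continuous)]
    refine integral_congr_ae (Eventually.of_forall fun x => ?_)
    have e2 := congrFun (D_clm_apply G.π k hx hu) x
    have e3 := congrArg (fun L : E →L[ℝ] E' => L (u x)) (e t ht x y)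
    simp only [add_apply] at e3
    beta_reduce
    rw [e2, ← e3]
    change D G.π k (fun y => kerAt κ t x y) y (u x) = _
    abel
  have i5 : Integrable (fun x => kerAt κ' t x y (u x)
      - D G.π k (fun x => kerAt κ t x y (u x)) x) G.m := i1.sub i2
  rw [e1, integral_add i4 i5, integral_sub i1 i2, G.integral_D k (hx.clm_apply hu),
    sub_neg_eq_add, ← integral_add i1 i3]
  simp only [Op, kerAt_keruK, add_apply, smul_apply]

theorem CB_mass {κ : ℝ × A N × A N → F} {R : ℝ} (h : IsKer κ R) (j : ℕ) :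
    ∃ C, 0 ≤ C ∧ ∀ t, 0 < t → t ≤ 1 → G.B.CB C j (mass G.m κ t) := by
  induction j generalizing κ with
  | zero =>
    obtain ⟨C, hC0, hC⟩ := G.keru_mass_bound h
    exact ⟨C, hC0, fun t ht ht1 y _ => hC t ht ht1 y⟩
  | succ j ih =>
    obtain ⟨C, hC0, hC⟩ := G.keru_mass_bound h
    choose κ'' hκ'' e using fun k => G.exists_D_mass h k
    choose C' hC'0 hC' using fun k => ih (hκ'' k)
    have hs : 0 ≤ ∑ k, C' k := Finset.sum_nonneg fun k _ => hC'0 k
    refine ⟨C + ∑ k, C' k, by positivity, fun t ht ht1 => ⟨fun y _ => ?_, fun k => ?_⟩⟩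
    · exact (hC t ht ht1 y).trans (le_add_of_nonneg_right hs)
    · have e' : D G.B.π k (mass G.m κ t) = mass G.m (κ'' k) t := e k t ht.ne'
      rw [e']
      refine (hC' k t ht ht1).mono ?_ le_rfl
      exact (Finset.single_le_sum (fun k _ => hC'0 k) (Finset.mem_univ k)).trans
        (le_add_of_nonneg_left hC0)

theorem CB_mass₀ {κ : ℝ × A N × A N → F} {R : ℝ} (h : IsKer κ R)
    (h0 : ∀ x ∈ G.S, ∀ w, κ (0, x, w) = 0) (j : ℕ) :
    ∃ C, 0 ≤ C ∧ ∀ t, 0 < t → t ≤ 1 → G.B.CB (C * t) j (mass G.m κ t) := by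
  obtain ⟨κ₁, h₁, e⟩ := h.hadamard
  obtain ⟨C, hC0, hC⟩ := G.CB_mass h₁ j
  refine ⟨C, hC0, fun t ht ht1 => ?_⟩
  have e1 : mass G.m κ t = fun y => t • mass G.m κ₁ t y := by
    funext y
    rw [mass, mass, ← integral_smul]
    refine integral_congr_ae ?_
    filter_upwards [G.B.ae_mem] with x hx
    rw [kerAt, kerAt, e, h0 x hx, zero_add, smul_comm]
  have := (hC t ht ht1).const_smul (G.mass_sm h₁ t) t
  rw [abs_of_pos ht, mul_comm] at this
  rw [e1]
  exact this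

theorem UOp_sm {κ : ℝ × A N × A N → E →L[ℝ] E'} {R : ℝ} (h : IsKer κ R) (t : ℝ) {u : A N → E}
    (hu : ContDiff ℝ ∞ u) : ContDiff ℝ ∞ (UOp G.m κ t u) :=
  (G.Op_sm h t (G.B.integrable_cont hu.continuous)).sub ((G.mass_sm h t).clm_apply hu)

theorem keru_D_UOp {κ : ℝ × A N × A N → E →L[ℝ] E'} {R : ℝ} (h : IsKer κ R) (k : Fin N) :
    ∃ κ'', IsKer κ'' R ∧ ∀ t, t ≠ 0 → ∀ u, ContDiff ℝ ∞ u → D G.π k (UOp G.m κ t u)
      = fun y => UOp G.m κ t (D G.π k u) y + UOp G.m κ'' t u y := by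
  obtain ⟨κ'', h'', e⟩ := G.exists_D_Op h k
  refine ⟨κ'', h'', fun t ht u hu => ?_⟩
  have e0 : UOp G.m κ t u = fun y => Op G.m κ t u y - mass G.m κ t y (u y) := rfl
  rw [e0, D_sub G.π k (G.Op_sm h t (G.B.integrable_cont hu.continuous))
    ((G.mass_sm h t).clm_apply hu), D_clm_apply G.π k (G.mass_sm h t) hu, (e t ht).1,
    (e t ht).2 u hu]
  funext y
  simp only [UOp]
  abel

theorem keru_UOp_eq {κ : ℝ × A N × A N → E →L[ℝ] E'} {R : ℝ} (h : IsKer κ R) (t : ℝ)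
    {u : A N → E} (hu : ContDiff ℝ ∞ u) (y : A N) :
    UOp G.m κ t u y = Op G.m κ t (fun x => u x - u y) y := by
  have hx := keru_kerAt_x_sm h t y
  have i1 : Integrable (fun x => kerAt κ t x y (u x)) G.m :=
    G.B.integrable_cont (hx.clm_apply hu).continuous
  have i2 : Integrable (fun x => kerAt κ t x y) G.m := G.B.integrable_cont hx.continuous
  have i3 : Integrable (fun x => kerAt κ t x y (u y)) G.m :=
    G.B.integrable_cont (hx.clm_apply contDiff_const).continuous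
  simp only [UOp, Op, mass, map_sub]
  rw [integral_sub i1 i3, ContinuousLinearMap.integral_apply i2]

theorem keru_sq_integral_le {α : Type} [MeasurableSpace α] (μ : Measure α) [IsFiniteMeasure μ]
    {f : α → ℝ} (hf : Integrable f μ) (hf2 : Integrable (fun x => f x ^ 2) μ) :
    (∫ x, f x ∂μ) ^ 2 ≤ μ.real univ * ∫ x, f x ^ 2 ∂μ := by
  have key : ∀ s : ℝ, 0 ≤ μ.real univ * (s * s) + (-2 * ∫ x, f x ∂μ) * s + ∫ x, f x ^ 2 ∂μ := by
    intro s
    have h0 : 0 ≤ ∫ x, (s - f x) ^ 2 ∂μ := integral_nonneg fun x => sq_nonneg _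
    have e : ∀ x, (s - f x) ^ 2 = (s * s + (-2 * s) * f x) + f x ^ 2 := fun x => by ring
    simp_rw [e] at h0
    have j1 : Integrable (fun x => -2 * s * f x) μ := hf.const_mul _
    have j2 : Integrable (fun x => s * s + -2 * s * f x) μ := (integrable_const _).add j1
    rw [integral_add j2 hf2, integral_add (integrable_const _) j1, integral_const,
      integral_const_mul, smul_eq_mul] at h0
    linarith
  have := discrim_le_zero key
  rw [discrim] at this
  nlinarith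

theorem keru_integrable_ball {u : A N → E} (hu : Continuous u) (r : ℝ) :
    Integrable (fun y => ∫ x in Metric.closedBall y r, ‖u x - u y‖ ^ 2 ∂G.m) G.m := by
  obtain ⟨M, hM⟩ := G.cpt.exists_bound_of_continuousOn hu.continuousOn
  have hc : Continuous fun p : A N × A N => ‖u p.2 - u p.1‖ ^ 2 := by fun_prop
  have hS : ∀ᵐ x ∂G.m, x ∈ G.S := G.B.ae_mem
  have h1 : ∀ᵐ p ∂G.m.prod G.m, p.1 ∈ G.S := Measure.quasiMeasurePreserving_fst.ae hS
  have h2 : ∀ᵐ p ∂G.m.prod G.m, p.2 ∈ G.S := Measure.quasiMeasurePreserving_snd.ae hS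
  have hi : Integrable (fun p : A N × A N => ‖u p.2 - u p.1‖ ^ 2) (G.m.prod G.m) := by
    refine Integrable.of_bound hc.aestronglyMeasurable ((M + M) ^ 2) ?_
    filter_upwards [h1, h2] with p hp1 hp2
    rw [Real.norm_eq_abs, abs_of_nonneg (by positivity)]
    exact pow_le_pow_left₀ (norm_nonneg _)
      ((norm_sub_le _ _).trans (add_le_add (hM _ hp2) (hM _ hp1))) 2
  have hm : MeasurableSet {p : A N × A N | dist p.2 p.1 ≤ r} :=
    (isClosed_le (by fun_prop) continuous_const).measurableSet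
  have := (hi.indicator hm).integral_prod_left
  refine this.congr (Eventually.of_forall fun y => ?_)
  beta_reduce
  rw [← integral_indicator Metric.isClosed_closedBall.measurableSet]
  rfl

theorem keru_L2_UOp₁ {κ : ℝ × A N × A N → E →L[ℝ] E'} {R : ℝ} (h : IsKer κ R) :
    ∃ C, 0 ≤ C ∧ ∀ t, 0 < t → t ≤ 1 → ∀ u, ContDiff ℝ ∞ u →
      G.B.L2 (UOp G.m κ t u) ≤ C * G.B.L2 u := by
  obtain ⟨C₁, hC₁0, hC₁⟩ := G.Hn_Op_le h 0
  obtain ⟨C₂, hC₂0, hC₂⟩ := G.keru_mass_bound h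
  refine ⟨C₁ + C₂, by positivity, fun t ht ht1 u hu => ?_⟩
  have hu2 : MemLp u 2 G.m := G.B.memLp_cont hu.continuous 2
  have s1 := G.Op_sm h t (G.B.integrable_cont hu.continuous)
  have s2 := (G.mass_sm h t).clm_apply hu
  have a := G.B.Hn_sub_le ht.le 0 s1 s2
  have b := hC₁ t ht ht1 u hu2
  have c := G.B.L2_le_mul (s2.continuous.aestronglyMeasurable) hu2 hC₂0 fun x _ =>
    ((mass G.m κ t x).le_opNorm (u x)).trans
      (mul_le_mul_of_nonneg_right (hC₂ t ht ht1 x) (norm_nonneg _))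
  rw [Base.Hn_zero, Base.Hn_zero, Base.Hn_zero] at a
  rw [Base.Hn_zero] at b
  calc G.B.L2 (UOp G.m κ t u) ≤ _ := a
    _ ≤ C₁ * G.B.L2 u + C₂ * G.B.L2 u := add_le_add b c
    _ = _ := by ring

theorem keru_L2_UOp₂ {κ : ℝ × A N × A N → E →L[ℝ] E'} {R : ℝ} (hR : 0 < R) (h : IsKer κ R)
    {P r₀ : ℝ} (hP0 : 0 ≤ P) (hP : ∀ r, 0 < r → r ≤ r₀ → ∀ u : A N → E, ContDiff ℝ ∞ u →
      ∫ y, ∫ x in Metric.closedBall y r, ‖u x - u y‖ ^ 2 ∂G.m ∂G.m
        ≤ P * r ^ 6 * G.B.Hs 1 u ^ 2) :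
    ∃ C, 0 ≤ C ∧ ∀ t, 0 < t → t ≤ 1 → R * t ≤ r₀ → ∀ u, ContDiff ℝ ∞ u →
      G.B.L2 (UOp G.m κ t u) ≤ C * t * G.B.Hs 1 u := by
  obtain ⟨C, hC0, hC⟩ := h.bound G.cpt
  obtain ⟨V, hV0, hV⟩ := G.vol_le
  refine ⟨C * √(V * P) * R ^ 5, by positivity, fun t ht ht1 htr u hu => ?_⟩
  have hU := G.UOp_sm h t hu
  have hU2 : MemLp (UOp G.m κ t u) 2 G.m := G.B.memLp_cont hU.continuous 2
  have hRt : 0 < R * t := by positivity
  have pt : ∀ y, ‖UOp G.m κ t u y‖ ^ 2 ≤ (C * t⁻¹ ^ 4) ^ 2 * (V * (R * t) ^ 4) *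
      ∫ x in Metric.closedBall y (R * t), ‖u x - u y‖ ^ 2 ∂G.m := by
    intro y
    have hc : Continuous fun x => u x - u y := hu.continuous.sub continuous_const
    have a := G.norm_Op_le h ht (hC t ht.le ht1) (G.B.integrable_cont hc) y
    rw [← G.keru_UOp_eq h t hu] at a
    have i1 : Integrable (fun x => ‖u x - u y‖) G.m := G.B.integrable_cont hc.norm
    have i2 : Integrable (fun x => ‖u x - u y‖ ^ 2) G.m := G.B.integrable_cont (hc.norm.pow 2)
    have b := keru_sq_integral_le (G.m.restrict (Metric.closedBall y (R * t)))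
      i1.restrict i2.restrict
    rw [measureReal_restrict_apply_univ] at b
    have c := hV y (R * t) hRt.le
    have d : 0 ≤ ∫ x in Metric.closedBall y (R * t), ‖u x - u y‖ ^ 2 ∂G.m :=
      integral_nonneg fun x => by positivity
    calc ‖UOp G.m κ t u y‖ ^ 2
        ≤ (C * t⁻¹ ^ 4 * ∫ x in Metric.closedBall y (R * t), ‖u x - u y‖ ∂G.m) ^ 2 :=
          pow_le_pow_left₀ (norm_nonneg _) a 2
      _ = (C * t⁻¹ ^ 4) ^ 2 * (∫ x in Metric.closedBall y (R * t), ‖u x - u y‖ ∂G.m) ^ 2 :=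
          mul_pow _ _ _
      _ ≤ (C * t⁻¹ ^ 4) ^ 2 * ((V * (R * t) ^ 4) *
            ∫ x in Metric.closedBall y (R * t), ‖u x - u y‖ ^ 2 ∂G.m) :=
          mul_le_mul_of_nonneg_left (b.trans (mul_le_mul_of_nonneg_right c d)) (by positivity)
      _ = _ := by ring
  have sq : G.B.L2 (UOp G.m κ t u) ^ 2 ≤ (C * √(V * P) * R ^ 5 * t * G.B.Hs 1 u) ^ 2 := by
    rw [G.B.L2_sq hU2]
    calc ∫ y, ‖UOp G.m κ t u y‖ ^ 2 ∂G.B.m
        ≤ ∫ y, (C * t⁻¹ ^ 4) ^ 2 * (V * (R * t) ^ 4) *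
            ∫ x in Metric.closedBall y (R * t), ‖u x - u y‖ ^ 2 ∂G.m ∂G.m :=
          integral_mono_of_nonneg (Eventually.of_forall fun y => by positivity)
            ((G.keru_integrable_ball hu.continuous _).const_mul _) (Eventually.of_forall pt)
      _ = (C * t⁻¹ ^ 4) ^ 2 * (V * (R * t) ^ 4) *
            ∫ y, ∫ x in Metric.closedBall y (R * t), ‖u x - u y‖ ^ 2 ∂G.m ∂G.m :=
          integral_const_mul _ _
      _ ≤ (C * t⁻¹ ^ 4) ^ 2 * (V * (R * t) ^ 4) * (P * (R * t) ^ 6 * G.B.Hs 1 u ^ 2) :=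
          mul_le_mul_of_nonneg_left (hP _ hRt htr u hu) (by positivity)
      _ = C ^ 2 * (V * P) * R ^ 10 * t ^ 2 * G.B.Hs 1 u ^ 2 := by field_simp
      _ = _ := by
          have : √(V * P) ^ 2 = V * P := Real.sq_sqrt (by positivity)
          rw [mul_pow, mul_pow, mul_pow, mul_pow, this]
          ring
  have hn := G.B.Hs_nonneg 1 u
  exact (pow_le_pow_iff_left₀ (G.B.L2_nonneg _) (by positivity) two_ne_zero).1 sq

/-- By induction on `j` (for all kernels), from `D (U κ u) = U κ (D u) + U κ'' u`; for `j = 0`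
use `Hn_Op_le`, `CB_mass` for the first bound and Cauchy-Schwarz, `vol_le`, `poincare` for the
second one. -/
theorem Hn_UOp_le {κ : ℝ × A N × A N → E →L[ℝ] E'} {R : ℝ} (hR : 0 < R) (h : IsKer κ R) :
    ∃ t₁, 0 < t₁ ∧ t₁ ≤ 1 ∧ ∀ j, ∃ C, 0 ≤ C ∧ ∀ t, 0 < t → t ≤ t₁ → ∀ u, ContDiff ℝ ∞ u →
      G.B.Hn 1 j (UOp G.m κ t u) ≤ C * G.B.Hn 1 j u ∧
      G.B.Hn 1 j (UOp G.m κ t u) ≤ C * t * G.B.Hn 1 (j + 1) u := by
  obtain ⟨P, r₀, hP0, hr₀, hP⟩ := G.poincare (E := E)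
  refine ⟨min 1 (r₀ / R), lt_min one_pos (by positivity), min_le_left _ _, fun j => ?_⟩
  have base : ∀ {κ : ℝ × A N × A N → E →L[ℝ] E'}, IsKer κ R → ∃ C, 0 ≤ C ∧ ∀ t, 0 < t →
      t ≤ min 1 (r₀ / R) → ∀ u, ContDiff ℝ ∞ u → G.B.L2 (UOp G.m κ t u) ≤ C * G.B.L2 u ∧
        G.B.L2 (UOp G.m κ t u) ≤ C * t * G.B.Hn 1 1 u := by
    intro κ h
    obtain ⟨C₁, hC₁0, hC₁⟩ := G.keru_L2_UOp₁ h
    obtain ⟨C₂, hC₂0, hC₂⟩ := G.keru_L2_UOp₂ hR h hP0 hP
    refine ⟨C₁ + C₂, by positivity, fun t ht htm u hu => ⟨?_, ?_⟩⟩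
    · exact (hC₁ t ht (htm.trans (min_le_left _ _)) u hu).trans
        (mul_le_mul_of_nonneg_right (le_add_of_nonneg_right hC₂0) (G.B.L2_nonneg u))
    · have h1 : R * t ≤ r₀ := by
        rw [mul_comm]
        exact (le_div_iff₀ hR).1 (htm.trans (min_le_right _ _))
      have h2 := G.B.Hs_le_Hn zero_le_one (le_refl 1) u
      rw [one_pow, one_mul] at h2
      refine (hC₂ t ht (htm.trans (min_le_left _ _)) h1 u hu).trans ?_
      exact mul_le_mul (mul_le_mul_of_nonneg_right (le_add_of_nonneg_left hC₁0) ht.le) h2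
        (G.B.Hs_nonneg 1 u) (by positivity)
  induction j generalizing κ with
  | zero =>
    obtain ⟨C, hC0, hC⟩ := base h
    refine ⟨C, hC0, fun t ht htm u hu => ?_⟩
    rw [Base.Hn_zero, Base.Hn_zero]
    exact hC t ht htm u hu
  | succ j ih =>
    obtain ⟨C₀, hC₀0, hC₀⟩ := base h
    obtain ⟨C₁, hC₁0, hC₁⟩ := ih h
    choose κ'' hκ'' e using fun k => G.keru_D_UOp h k
    choose C' hC'0 hC' using fun k => ih (hκ'' k)
    have hs : 0 ≤ ∑ k, (C₁ + C' k) := Finset.sum_nonneg fun k _ => add_nonneg hC₁0 (hC'0 k)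
    refine ⟨C₀ + ∑ k, (C₁ + C' k), by positivity, fun t ht htm u hu => ?_⟩
    have hD : ∀ k, G.B.Hn 1 j (D G.B.π k (UOp G.m κ t u)) ≤
        G.B.Hn 1 j (UOp G.m κ t (D G.π k u)) + G.B.Hn 1 j (UOp G.m (κ'' k) t u) := by
      intro k
      have e' : D G.B.π k (UOp G.m κ t u)
          = fun y => UOp G.m κ t (D G.π k u) y + UOp G.m (κ'' k) t u y := e k t ht.ne' u hu
      rw [e']
      exact G.B.Hn_add_le zero_le_one j (G.UOp_sm h t (D_sm G.π_sm k hu))
        (G.UOp_sm (hκ'' k) t hu)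
    constructor
    · rw [Base.Hn_succ, one_mul, add_mul, Finset.sum_mul]
      refine add_le_add ((hC₀ t ht htm u hu).1.trans
        (mul_le_mul_of_nonneg_left (G.B.L2_le_Hn zero_le_one _ u) hC₀0))
        (Finset.sum_le_sum fun k _ => (hD k).trans ?_)
      rw [add_mul]
      refine add_le_add ((hC₁ t ht htm _ (D_sm G.π_sm k hu)).1.trans
        (mul_le_mul_of_nonneg_left (G.B.Hn_D_le k j u) hC₁0))
        ((hC' k t ht htm u hu).1.trans
          (mul_le_mul_of_nonneg_left (G.B.Hn_mono_order zero_le_one (Nat.le_succ j) u) (hC'0 k)))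
    · rw [Base.Hn_succ, one_mul, add_mul, add_mul, Finset.sum_mul, Finset.sum_mul]
      refine add_le_add ((hC₀ t ht htm u hu).2.trans
        (mul_le_mul_of_nonneg_left (G.B.Hn_mono_order zero_le_one (by omega) u) (by positivity)))
        (Finset.sum_le_sum fun k _ => (hD k).trans ?_)
      rw [add_mul, add_mul]
      refine add_le_add ((hC₁ t ht htm _ (D_sm G.π_sm k hu)).2.trans
        (mul_le_mul_of_nonneg_left (G.B.Hn_D_le k (j + 1) u) (by positivity)))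
        ((hC' k t ht htm u hu).2.trans
          (mul_le_mul_of_nonneg_left (G.B.Hn_mono_order zero_le_one (Nat.le_succ _) u)
            (mul_nonneg (hC'0 k) ht.le)))

end Geo

end Crest.Agent.R240
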