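import Crest.Agent.R240.Chart

/-! Row 240: construction of the volume measure, the star operator and the divergences.

* transition maps: for charts `c, c'` the map `τ = c'.pr ∘ c.ψ` is a diffeomorphism from
  `c.U ∩ c.ψ⁻¹ c'.W` onto its image and `c.pf p = c'.pf (τ p) * det (dτ p)` (differentiate
  `c'.ψ ∘ τ = c.ψ`, `RawChart.Vol_eq`), so that the chart measures agree on overlaps
  (`lintegral_image_eq_lintegral_abs_det_fderiv_mul`);
* `m = ∑ i, (chart measure i).withDensity (χ i)` for a partition of unity (`exists_pou`), or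
  restrict the chart measures to a disjointed cover;
* `st x = matL fun p q => wedge (single p) (single q) (frame)`, independent of the choices: in a
  chart it equals `wedge _ _ (dψ e₀) … (dψ e₃) / pf` at `pr x`, which is smooth near `x`;
  glue with `exists_smooth_ext`;
* `dv k`: in a chart `dv k (ψ p) = (∑ j, ∂ⱼ (pf · aₖⱼ)) / pf` with
  `aₖⱼ p = pr (π (ψ p) (eb k)) j` (`RawChart.D_comp`, `integral_fderiv_eq_zero`-type lemma
  `integral_bilinear_hasLineDerivAt_right_eq_neg_left_of_integrable` or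
  `integral_mul_fderiv_eq_neg_fderiv_mul_of_integrable`). With a partition of unity `χ i`
  and the lifted functions `dvᵢ` define `dv k = ∑ i, χ i * dvᵢ`; then for smooth `u`
  `∫ D k u = ∑ ∫ D k (χ i u) = -∑ ∫ dvᵢ χ i u`. -/

set_option autoImplicit false

open scoped ContDiff RealInnerProductSpace Topology
open MeasureTheory Set Filter

noncomputable section

namespace Crest.Agent.R240

variable {N : ℕ}

/-- rank one operators -/
def measb_ro (u v : E2 N) : E2 N →L[ℝ] E2 N := matL fun p q => u p * v q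

theorem measb_inner_ro (u v η η' : E2 N) : ⟪measb_ro u v η, η'⟫ = ⟪η, v⟫ * ⟪η', u⟫ := by
  simp only [measb_ro, PiLp.inner_apply, matL_apply, RCLike.inner_apply, conj_trivial,
    Finset.mul_sum, Finset.sum_mul]
  exact Finset.sum_congr rfl fun p _ => Finset.sum_congr rfl fun q _ => by ring

theorem measb_ro_sm {u v : A N → E2 N} (hu : ContDiff ℝ ∞ u) (hv : ContDiff ℝ ∞ v) :
    ContDiff ℝ ∞ fun x => measb_ro (u x) (v x) :=
  contDiff_matL fun p q => (contDiff_euclidean.1 hu p).mul (contDiff_euclidean.1 hv q)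

/-- the wedge pairing on four fixed vectors -/
def measb_T (a b c d : A N) : E2 N →L[ℝ] E2 N :=
  measb_ro (biv c d) (biv a b) - measb_ro (biv b d) (biv a c) + measb_ro (biv b c) (biv a d)
    + measb_ro (biv a d) (biv b c) - measb_ro (biv a c) (biv b d) + measb_ro (biv a b) (biv c d)

theorem measb_inner_T (a b c d : A N) (η η' : E2 N) :
    ⟪measb_T a b c d η, η'⟫ = wedge η η' a b c d := by
  simp only [measb_T, add_apply, sub_apply, inner_add_left, inner_sub_left,
    measb_inner_ro, wedge, ev]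

theorem measb_T_sm {a b c d : A N → A N} (ha : ContDiff ℝ ∞ a) (hb : ContDiff ℝ ∞ b)
    (hc : ContDiff ℝ ∞ c) (hd : ContDiff ℝ ∞ d) :
    ContDiff ℝ ∞ fun x => measb_T (a x) (b x) (c x) (d x) :=
  (((((measb_ro_sm (contDiff_biv hc hd) (contDiff_biv ha hb)).sub
    (measb_ro_sm (contDiff_biv hb hd) (contDiff_biv ha hc))).add
    (measb_ro_sm (contDiff_biv hb hc) (contDiff_biv ha hd))).add
    (measb_ro_sm (contDiff_biv ha hd) (contDiff_biv hb hc))).sub
    (measb_ro_sm (contDiff_biv ha hc) (contDiff_biv hb hd))).add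
    (measb_ro_sm (contDiff_biv ha hb) (contDiff_biv hc hd))

theorem measb_ev4 (θ : E2 4) (a b : A 4) : ev θ a b =
    ev θ (eb 0) (eb 1) * (a 0 * b 1 - a 1 * b 0) + ev θ (eb 0) (eb 2) * (a 0 * b 2 - a 2 * b 0) +
    ev θ (eb 0) (eb 3) * (a 0 * b 3 - a 3 * b 0) + ev θ (eb 1) (eb 2) * (a 1 * b 2 - a 2 * b 1) +
    ev θ (eb 1) (eb 3) * (a 1 * b 3 - a 3 * b 1) + ev θ (eb 2) (eb 3) * (a 2 * b 3 - a 3 * b 2) := by
  simp [ev_eq_sum, Fin.sum_univ_four, eb_apply]
  ring

theorem measb_wedge4 (θ θ' : E2 4) (a b c d : A 4) :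
    wedge θ θ' a b c d = wedge θ θ' (eb 0) (eb 1) (eb 2) (eb 3) * det4 a b c d := by
  rw [wedge, wedge, det4, measb_ev4 θ a b, measb_ev4 θ a c, measb_ev4 θ a d, measb_ev4 θ b c,
    measb_ev4 θ b d, measb_ev4 θ c d, measb_ev4 θ' a b, measb_ev4 θ' a c, measb_ev4 θ' a d,
    measb_ev4 θ' b c, measb_ev4 θ' b d, measb_ev4 θ' c d]
  ring

theorem measb_wedge {X : Pre N} {x : A N} (hx : x ∈ X.S) (F : X.Frame x) (η η' : E2 N)
    (a b c d : A N) : wedge η η' (X.π x a) (X.π x b) (X.π x c) (X.π x d) =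
      wedge (pb F.B η) (pb F.B η') (eb 0) (eb 1) (eb 2) (eb 3) * X.Vol x a b c d := by
  rw [F.Vol_eq hx, ← measb_wedge4]
  simp only [wedge, ev_pb, F.BL]

theorem Sub.exists_star (X : Sub N) : ∃ st : A N → E2 N →L[ℝ] E2 N, ContDiff ℝ ∞ st ∧
    ∀ x ∈ X.S, ∀ η η' a b c d, X.π x a = a → X.π x b = b → X.π x c = c → X.π x d = d →
      ⟪st x η, η'⟫ * X.Vol x a b c d = wedge η η' a b c d := by
  let V : (Fin N × Fin N) × Fin N × Fin N → A N → ℝ := fun i x =>
    X.Vol x (eb i.1.1) (eb i.1.2) (eb i.2.1) (eb i.2.2)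
  have hV : ∀ i, ContDiff ℝ ∞ (V i) := fun i =>
    X.Vol_sm contDiff_id contDiff_const contDiff_const contDiff_const contDiff_const
  have hQ : ContDiff ℝ ∞ fun x => ∑ i, V i x ^ 2 := ContDiff.sum fun i _ => (hV i).pow 2
  have hpos : ∀ x ∈ X.S, 0 < ∑ i, V i x ^ 2 := by
    intro x hx
    obtain ⟨F⟩ := X.exists_frame hx
    refine lt_of_le_of_ne (by positivity) fun h => ?_
    have h1 : ∀ i, V i x = 0 := fun i => pow_eq_zero_iff two_ne_zero |>.1
      ((Finset.sum_eq_zero_iff_of_nonneg fun i _ => sq_nonneg (V i x)).1 h.symm i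
        (Finset.mem_univ i))
    have h2 : ∀ B, X.volL x B = 0 := by
      intro B
      ext p
      have h3 : ∀ q : Fin N × Fin N, X.Vol x (eb p.1) (eb p.2) (eb q.1) (eb q.2) = 0 :=
        fun q => h1 (p, q)
      simp [Pre.volL, matL_apply, h3]
    have h3 := X.ev_volL_biv x (F.B (eb 0)) (F.B (eb 1)) (F.B (eb 2)) (F.B (eb 3))
    rw [h2, F.Vol_eq hx, F.LB, F.LB, F.LB, F.LB, det4_eb, ev, inner_zero_left] at h3
    exact zero_ne_one h3
  obtain ⟨c, hc, hcS⟩ := X.cpt.exists_forall_le' hQ.continuous.continuousOn hpos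
  have hρ : ContDiff ℝ ∞ fun x => (∑ i, V i x ^ 2 + expNegInvGlue (c - ∑ i, V i x ^ 2))⁻¹ := by
    refine (hQ.add (expNegInvGlue.contDiff.comp (contDiff_const.sub hQ))).inv fun x => ?_
    rcases lt_or_ge (∑ i, V i x ^ 2) c with h | h
    · exact (add_pos_of_nonneg_of_pos (by positivity)
        (expNegInvGlue.pos_of_pos (sub_pos.2 h))).ne'
    · exact (add_pos_of_pos_of_nonneg (hc.trans_le h) (expNegInvGlue.nonneg _)).ne'
  have hπ : ∀ k, ContDiff ℝ ∞ fun x => X.π x (eb k) := fun k => X.π_sm.clm_apply contDiff_const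
  refine ⟨fun x => (∑ i, V i x ^ 2 + expNegInvGlue (c - ∑ i, V i x ^ 2))⁻¹ • ∑ i, V i x •
    measb_T (X.π x (eb i.1.1)) (X.π x (eb i.1.2)) (X.π x (eb i.2.1)) (X.π x (eb i.2.2)),
    hρ.smul (ContDiff.sum fun i _ => (hV i).smul (measb_T_sm (hπ _) (hπ _) (hπ _) (hπ _))),
    fun x hx η η' a b c' d ha hb hc' hd => ?_⟩
  obtain ⟨F⟩ := X.exists_frame hx
  have h1 := measb_wedge hx F η η' a b c' d
  rw [ha, hb, hc', hd] at h1
  beta_reduce
  rw [h1, expNegInvGlue.zero_of_nonpos (sub_nonpos.2 (hcS x hx)), add_zero]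
  congr 1
  simp only [smul_apply, sum_apply, real_inner_smul_left, sum_inner,
    measb_inner_T, measb_wedge hx F]
  rw [inv_mul_eq_iff_eq_mul₀ (hpos x hx).ne', Finset.sum_mul]
  exact Finset.sum_congr rfl fun i _ => by simp only [V]; ring

end Crest.Agent.R240
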