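import Crest.Agent.R240.MeasA
import Crest.Agent.R240.MeasB

/-! Row 240: construction of the volume measure, the star operator and the divergences.

* transition maps: for charts `c, c'` the map `τ = c'.pr ∘ c.ψ` is a diffeomorphism from
  `c.U ∩ c.ψ⁻¹ c'.W` onto its image and `c.pf p = c'.pf (τ p) * det (dτ p)` (differentiate
  `c'.ψ ∘ τ = c.ψ`, `RawChart.Vol_eq`), so that the chart measures agree on overlaps
  (`lintegral_image_eq_lintegral_abs_det_fderiv_mul`);
* `m = ∑ i, (chart measure i).withDensity (χ i)` for a partition of unity (`exists_pou`), or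
  restrict the chart measures to a disjointed cover;
* `st x = matL fun p q => wedge (single p) (single q) (frame)`, independent of the choices: in a
  chart it equals `wedge _ _ (dψ e₀) … (dψ e₃) / pf` at `pr x`, which is smooth near `x`;
  glue with `exists_smooth_ext`;
* `dv k`: in a chart `dv k (ψ p) = (∑ j, ∂ⱼ (pf · aₖⱼ)) / pf` with
  `aₖⱼ p = pr (π (ψ p) (eb k)) j` (`RawChart.D_comp`, `integral_fderiv_eq_zero`-type lemma
  `integral_bilinear_hasLineDerivAt_right_eq_neg_left_of_integrable` or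
  `integral_mul_fderiv_eq_neg_fderiv_mul_of_integrable`). With a partition of unity `χ i`
  and the lifted functions `dvᵢ` define `dv k = ∑ i, χ i * dvᵢ`; then for smooth `u`
  `∫ D k u = ∑ ∫ D k (χ i u) = -∑ ∫ dvᵢ χ i u`. -/

set_option autoImplicit false

open scoped ContDiff RealInnerProductSpace Topology
open MeasureTheory Set Filter

noncomputable section

namespace Crest.Agent.R240

variable {N : ℕ}

theorem meas_pf_sm {X : Pre N} (c : X.RawChart) : ContDiff ℝ ∞ c.pf := by
  have h : ∀ j : Fin 4, ContDiff ℝ ∞ fun p => fderiv ℝ c.ψ p (eb j) := fun j =>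
    (c.ψ_sm.fderiv_right (m := ∞) le_rfl).clm_apply contDiff_const
  exact X.Vol_sm c.ψ_sm (h 0) (h 1) (h 2) (h 3)

/-- the components of the field in a chart, times the density -/
def meas_b {X : Pre N} (c : X.RawChart) (k : Fin N) (j : Fin 4) (p : A 4) : ℝ :=
  c.pf p * c.pr (X.π (c.ψ p) (eb k)) j

theorem meas_b_sm {X : Pre N} (c : X.RawChart) (k : Fin N) (j : Fin 4) :
    ContDiff ℝ ∞ (meas_b c k j) := by
  refine (meas_pf_sm c).mul ?_
  have h : ContDiff ℝ ∞ fun p => c.pr (X.π (c.ψ p) (eb k)) :=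
    c.pr.contDiff.comp ((X.π_sm.comp c.ψ_sm).clm_apply contDiff_const)
  exact (EuclideanSpace.proj (𝕜 := ℝ) j).contDiff.comp h

/-- the coordinate divergence -/
def meas_div {X : Pre N} (c : X.RawChart) (k : Fin N) (p : A 4) : ℝ :=
  ∑ j, fderiv ℝ (meas_b c k j) p (eb j)

theorem meas_div_sm {X : Pre N} (c : X.RawChart) (k : Fin N) : ContDiff ℝ ∞ (meas_div c k) :=
  ContDiff.sum fun j _ =>
    ((meas_b_sm c k j).fderiv_right (m := ∞) le_rfl).clm_apply contDiff_const

theorem meas_local {X : Pre N} {m : Measure (A N)} (hm : m X.Sᶜ = 0) (c : X.Chart)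
    (hc : m.restrict c.W =
      Measure.map c.ψ ((volume.restrict c.U).withDensity fun p => ENNReal.ofReal (c.pf p)))
    (k : Fin N) {v : A N → ℝ} (hv : ContDiff ℝ ∞ v) (hW : tsupport v ⊆ c.W) :
    ∫ x, D X.π k v x ∂m = -∫ p in c.U, meas_div c.toRawChart k p * v (c.ψ p) := by
  have hK : IsCompact (c.pr '' (X.S ∩ tsupport v)) :=
    (X.cpt.inter_right (isClosed_tsupport v)).image c.pr.continuous
  have hKU : c.pr '' (X.S ∩ tsupport v) ⊆ c.U := by
    rintro _ ⟨x, hx, rfl⟩
    exact c.pr_mem x hx.1 (hW hx.2)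
  have h0 : ∀ p ∈ c.U, p ∉ c.pr '' (X.S ∩ tsupport v) → v (c.ψ p) = 0 := by
    intro p hp hpK
    by_contra h
    exact hpK ⟨c.ψ p, ⟨c.ψ_S p hp, subset_tsupport v h⟩, c.pr_ψ p hp⟩
  have hvψ : ContDiff ℝ ∞ fun p => v (c.ψ p) := hv.comp c.ψ_sm
  set g : A 4 → ℝ := c.U.indicator fun p => v (c.ψ p) with hg
  have hgs : ContDiff ℝ ∞ g := contDiff_indicator c.U_open hK hKU hvψ.contDiffOn h0
  have hg0 : ∀ p, p ∉ c.pr '' (X.S ∩ tsupport v) → g p = 0 := by
    intro p hp
    by_cases hpU : p ∈ c.U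
    · rw [hg, indicator_of_mem hpU]
      exact h0 p hpU hp
    · exact indicator_of_notMem hpU _
  have hgc : HasCompactSupport g := HasCompactSupport.intro hK hg0
  have hd : ∀ j : Fin 4, (fun p => fderiv ℝ g p (eb j)) =
      c.U.indicator fun p => fderiv ℝ (fun q => v (c.ψ q)) p (eb j) := by
    intro j
    funext p
    by_cases hpU : p ∈ c.U
    · rw [indicator_of_mem hpU]
      have h1 : g =ᶠ[𝓝 p] fun q => v (c.ψ q) := by
        filter_upwards [c.U_open.mem_nhds hpU] with q hq
        exact indicator_of_mem hq _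
      rw [h1.fderiv_eq]
    · rw [indicator_of_notMem hpU]
      have h1 : g =ᶠ[𝓝 p] fun _ => 0 := by
        filter_upwards [hK.isClosed.isOpen_compl.mem_nhds fun h => hpU (hKU h)] with q hq
        exact hg0 q hq
      rw [h1.fderiv_eq]
      simp
  have hdc : ∀ j : Fin 4, Continuous fun p => fderiv ℝ g p (eb j) := fun j =>
    (hgs.continuous_fderiv (by simp)).clm_apply continuous_const
  have hbc : ∀ j : Fin 4, Continuous fun p => fderiv ℝ (meas_b c.toRawChart k j) p (eb j) :=
    fun j => ((meas_b_sm c.toRawChart k j).continuous_fderiv (by simp)).clm_apply continuous_const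
  have hi1 : ∀ j : Fin 4, Integrable fun p => fderiv ℝ (meas_b c.toRawChart k j) p (eb j) * g p :=
    fun j => ((hbc j).mul hgs.continuous).integrable_of_hasCompactSupport hgc.mul_left
  have hi2 : ∀ j : Fin 4, Integrable fun p => meas_b c.toRawChart k j p * fderiv ℝ g p (eb j) :=
    fun j => ((meas_b_sm c.toRawChart k j).continuous.mul (hdc j)).integrable_of_hasCompactSupport
      (hgc.fderiv_apply ℝ (eb j)).mul_left
  have hibp : ∀ j : Fin 4, ∫ p, meas_b c.toRawChart k j p * fderiv ℝ g p (eb j) =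
      -∫ p, fderiv ℝ (meas_b c.toRawChart k j) p (eb j) * g p := fun j =>
    integral_mul_fderiv_eq_neg_fderiv_mul_of_integrable (hi1 j) (hi2 j)
      (((meas_b_sm c.toRawChart k j).continuous.mul
        hgs.continuous).integrable_of_hasCompactSupport hgc.mul_left)
      (fun p _ => (meas_b_sm c.toRawChart k j).differentiable (by simp) p)
      (fun p _ => hgs.differentiable (by simp) p)
  rw [integral_chart_of hm c hc (D_sm X.π_sm k hv).continuous.aestronglyMeasurable
    fun x _ hx => by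
      rw [D, fderiv_of_notMem_tsupport ℝ fun h => hx (hW h), zero_apply]]
  have h1 : ∫ p in c.U, c.pf p • D X.π k v (c.ψ p) =
      ∫ p, ∑ j, meas_b c.toRawChart k j p * fderiv ℝ g p (eb j) := by
    rw [← integral_indicator c.U_open.measurableSet]
    refine integral_congr_ae (Eventually.of_forall fun p => ?_)
    by_cases hpU : p ∈ c.U
    · rw [indicator_of_mem hpU, c.toRawChart.D_comp hv hpU, Finset.smul_sum]
      refine Finset.sum_congr rfl fun j _ => ?_
      rw [congrFun (hd j) p, indicator_of_mem hpU, meas_b, smul_eq_mul, smul_eq_mul, mul_assoc]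
      rfl
    · rw [indicator_of_notMem hpU]
      refine (Finset.sum_eq_zero fun j _ => ?_).symm
      rw [congrFun (hd j) p, indicator_of_notMem hpU, mul_zero]
  have h2 : ∫ p in c.U, meas_div c.toRawChart k p * v (c.ψ p) =
      ∫ p, ∑ j, fderiv ℝ (meas_b c.toRawChart k j) p (eb j) * g p := by
    rw [← integral_indicator c.U_open.measurableSet]
    refine integral_congr_ae (Eventually.of_forall fun p => ?_)
    beta_reduce
    rw [← Finset.sum_mul, hg]
    by_cases hpU : p ∈ c.U
    · rw [indicator_of_mem hpU, indicator_of_mem hpU, meas_div]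
    · rw [indicator_of_notMem hpU, indicator_of_notMem hpU, mul_zero]
  rw [h1, h2, integral_finsetSum _ fun j _ => hi2 j, integral_finsetSum _ fun j _ => hi1 j,
    ← Finset.sum_neg_distrib]
  exact Finset.sum_congr rfl fun j _ => hibp j

theorem meas_piece {X : Pre N} {m : Measure (A N)} (hm : m X.Sᶜ = 0) (c : X.Chart)
    (hc : m.restrict c.W =
      Measure.map c.ψ ((volume.restrict c.U).withDensity fun p => ENNReal.ofReal (c.pf p)))
    (k : Fin N) {χ : A N → ℝ} (hχ : ContDiff ℝ ∞ χ)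
    (hW : tsupport χ ⊆ c.W ∩ {y | 0 < c.pf (c.pr y)}) : ∃ dv : A N → ℝ, ContDiff ℝ ∞ dv ∧
      ∀ u : A N → ℝ, ContDiff ℝ ∞ u →
        ∫ x, D X.π k (fun y => χ y * u y) x ∂m = -∫ x, dv x * u x ∂m := by
  have hsm : ContDiff ℝ ∞ fun x => χ x * (meas_div c.toRawChart k (c.pr x) / c.pf (c.pr x)) := by
    refine contDiff_iff_contDiffAt.2 fun x => ?_
    by_cases hx : x ∈ tsupport χ
    · exact hχ.contDiffAt.mul (((meas_div_sm c.toRawChart k).comp c.pr.contDiff).contDiffAt.div
        ((meas_pf_sm c.toRawChart).comp c.pr.contDiff).contDiffAt (ne_of_gt (hW hx).2))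
    · refine (contDiffAt_const (c := (0 : ℝ))).congr_of_eventuallyEq ?_
      filter_upwards [notMem_tsupport_iff_eventuallyEq.1 hx] with y hy
      rw [hy, Pi.zero_apply, zero_mul]
  refine ⟨_, hsm, fun u hu => ?_⟩
  rw [meas_local hm c hc k (hχ.mul hu) (tsupport_mul_subset_left.trans fun x hx => (hW hx).1),
    integral_chart_of hm c hc (hsm.mul hu).continuous.aestronglyMeasurable fun x _ hx => by
      rw [image_eq_zero_of_notMem_tsupport fun h => hx (hW h).1, zero_mul, zero_mul]]
  congr 1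
  refine setIntegral_congr_fun c.U_open.measurableSet fun p hp => ?_
  have h1 := (c.pf_pos p hp).ne'
  beta_reduce
  rw [c.pr_ψ p hp, smul_eq_mul]
  field_simp

theorem Sub.exists_div (X : Sub N) {m : Measure (A N)} [IsFiniteMeasure m] (hm : m X.Sᶜ = 0)
    (hc : ∀ c : X.Chart, m.restrict c.W =
      Measure.map c.ψ ((volume.restrict c.U).withDensity fun p => ENNReal.ofReal (c.pf p)))
    (k : Fin N) : ∃ dv : A N → ℝ, ContDiff ℝ ∞ dv ∧
      ∀ u : A N → ℝ, ContDiff ℝ ∞ u → ∫ x, D X.π k u x ∂m = -∫ x, dv x * u x ∂m := by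
  classical
  have h1 : ∀ x : X.S, ∃ c : X.Chart, x.1 ∈ c.W := fun x => by
    obtain ⟨c, -, h, -⟩ := X.exists_chart x.2
    exact ⟨c, h⟩
  choose c hcW using h1
  obtain ⟨n, a, χ, ha, hχ, -, hsupp, -, -, hone⟩ := exists_pou X.cpt
    (fun x => if h : x ∈ X.S then (c ⟨x, h⟩).W ∩ {y | 0 < (c ⟨x, h⟩).pf ((c ⟨x, h⟩).pr y)}
      else univ) fun x hx => by
      rw [dif_pos hx]
      exact ⟨(c ⟨x, hx⟩).W_open.inter (isOpen_lt continuous_const
        ((meas_pf_sm (c ⟨x, hx⟩).toRawChart).continuous.comp (c ⟨x, hx⟩).pr.continuous)),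
        hcW ⟨x, hx⟩, (c ⟨x, hx⟩).pf_pos _ ((c ⟨x, hx⟩).pr_mem x hx (hcW ⟨x, hx⟩))⟩
  have h2 := fun i => meas_piece hm (c ⟨a i, ha i⟩) (hc _) k (hχ i) (by
    have h3 := hsupp i
    rwa [dif_pos (ha i)] at h3)
  choose dv hdv hd using h2
  let B : Base N := ⟨X.S, X.cpt, X.π, X.π_sm, m, inferInstance, hm⟩
  refine ⟨fun x => ∑ i, dv i x, ContDiff.sum fun i _ => hdv i, fun u hu => ?_⟩
  have h3 : ∫ x, D X.π k u x ∂m = ∫ x, ∑ i, D X.π k (fun y => χ i y * u y) x ∂m := by
    refine integral_congr_ae ?_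
    filter_upwards [B.ae_mem] with x hx
    have h4 : u =ᶠ[𝓝 x] fun y => ∑ i, χ i y * u y := by
      filter_upwards [hone x hx] with y hy
      rw [← Finset.sum_mul, hy, one_mul]
    unfold D
    rw [h4.fderiv_eq, fderiv_fun_sum fun i _ => ((hχ i).mul hu).differentiable (by simp) x,
      sum_apply]
  simp only [Finset.sum_mul]
  rw [h3, integral_finsetSum _ fun i _ =>
      B.integrable_cont (D_sm X.π_sm k ((hχ i).mul hu)).continuous,
    integral_finsetSum _ fun i _ => B.integrable_cont ((hdv i).mul hu).continuous,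
    ← Finset.sum_neg_distrib]
  exact Finset.sum_congr rfl fun i _ => hd i u hu

theorem Sub.exists_geo (X : Sub N) : ∃ G : Geo N, G.toSub = X := by
  obtain ⟨m, hf, hm, hc⟩ := X.exists_measure
  obtain ⟨st, hst, hs⟩ := X.exists_star
  choose dv hdv hd using fun k => X.exists_div hm hc k
  exact ⟨⟨X, m, hf, hm, hc, st, hst, hs, dv, hdv, hd⟩, rfl⟩

end Crest.Agent.R240
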