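import Crest.Agent.R240.Chart

/-! Row 240: construction of the volume measure, the star operator and the divergences.

* transition maps: for charts `c, c'` the map `τ = c'.pr ∘ c.ψ` is a diffeomorphism from
  `c.U ∩ c.ψ⁻¹ c'.W` onto its image and `c.pf p = c'.pf (τ p) * det (dτ p)` (differentiate
  `c'.ψ ∘ τ = c.ψ`, `RawChart.Vol_eq`), so that the chart measures agree on overlaps
  (`lintegral_image_eq_lintegral_abs_det_fderiv_mul`);
* `m = ∑ i, (chart measure i).withDensity (χ i)` for a partition of unity (`exists_pou`), or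
  restrict the chart measures to a disjointed cover;
* `st x = matL fun p q => wedge (single p) (single q) (frame)`, independent of the choices: in a
  chart it equals `wedge _ _ (dψ e₀) … (dψ e₃) / pf` at `pr x`, which is smooth near `x`;
  glue with `exists_smooth_ext`;
* `dv k`: in a chart `dv k (ψ p) = (∑ j, ∂ⱼ (pf · aₖⱼ)) / pf` with
  `aₖⱼ p = pr (π (ψ p) (eb k)) j` (`RawChart.D_comp`, `integral_fderiv_eq_zero`-type lemma
  `integral_bilinear_hasLineDerivAt_right_eq_neg_left_of_integrable` or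
  `integral_mul_fderiv_eq_neg_fderiv_mul_of_integrable`). With a partition of unity `χ i`
  and the lifted functions `dvᵢ` define `dv k = ∑ i, χ i * dvᵢ`; then for smooth `u`
  `∫ D k u = ∑ ∫ D k (χ i u) = -∑ ∫ dvᵢ χ i u`. -/

set_option autoImplicit false

open scoped ContDiff RealInnerProductSpace Topology
open MeasureTheory Set Filter

noncomputable section

namespace Crest.Agent.R240

variable {N : ℕ}

/-- the measure of a chart -/
def measaChart {X : Pre N} (c : X.Chart) : Measure (A N) :=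
  Measure.map c.ψ ((volume.restrict c.U).withDensity fun p => ENNReal.ofReal (c.pf p))

theorem measa_apply {X : Pre N} (c : X.Chart) {s : Set (A N)} (hs : MeasurableSet s) :
    measaChart c s = ∫⁻ p in c.ψ ⁻¹' s ∩ c.U, ENNReal.ofReal (c.pf p) := by
  have hψ : Measurable c.ψ := c.ψ_sm.continuous.measurable
  rw [measaChart, Measure.map_apply hψ hs, withDensity_apply _ (hψ hs),
    Measure.restrict_restrict (hψ hs)]

theorem measa_pf (X : Sub N) (c c' : X.Chart) {p : A 4} (hp : p ∈ c.U) (hp' : c.ψ p ∈ c'.W) :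
    c.pf p = c'.pf (c'.pr (c.ψ p)) * (c'.pr ∘L fderiv ℝ c.ψ p).det := by
  have hS := c.ψ_S p hp
  have hq := c'.pr_mem _ hS hp'
  have e := c'.ψ_pr _ hS hp'
  obtain ⟨F⟩ := X.exists_frame (c'.ψ_S _ hq)
  have h := c'.toRawChart.Vol_eq hq F (fderiv ℝ c.ψ p (eb 0)) (fderiv ℝ c.ψ p (eb 1))
    (fderiv ℝ c.ψ p (eb 2)) (fderiv ℝ c.ψ p (eb 3))
  rw [e, c.π_dψ p hp, c.π_dψ p hp, c.π_dψ p hp, c.π_dψ p hp] at h
  have h2 := det4_comp (c'.pr ∘L fderiv ℝ c.ψ p) (eb 0) (eb 1) (eb 2) (eb 3)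
  rw [det4_eb, mul_one] at h2
  rw [← h2]
  exact h

theorem measa_compat (X : Sub N) (c c' : X.Chart) {s : Set (A N)} (hs : MeasurableSet s)
    (h : s ⊆ c.W) (h' : s ⊆ c'.W) : measaChart c s = measaChart c' s := by
  have hψ : Measurable c.ψ := c.ψ_sm.continuous.measurable
  have hV : MeasurableSet (c.ψ ⁻¹' s ∩ c.U) := (hψ hs).inter c.U_open.measurableSet
  have him : (fun p => c'.pr (c.ψ p)) '' (c.ψ ⁻¹' s ∩ c.U) = c'.ψ ⁻¹' s ∩ c'.U := by
    ext q
    constructor
    · rintro ⟨p, ⟨h1, h2⟩, rfl⟩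
      have hS := c.ψ_S p h2
      refine ⟨?_, c'.pr_mem _ hS (h' h1)⟩
      rw [mem_preimage, c'.ψ_pr _ hS (h' h1)]
      exact h1
    · rintro ⟨h1, h2⟩
      have hS := c'.ψ_S q h2
      have e := c.ψ_pr _ hS (h h1)
      refine ⟨c.pr (c'.ψ q), ⟨?_, c.pr_mem _ hS (h h1)⟩, ?_⟩
      · rw [mem_preimage, e]
        exact h1
      · change c'.pr (c.ψ (c.pr (c'.ψ q))) = q
        rw [e, c'.pr_ψ q h2]
  have hinj : InjOn (fun p => c'.pr (c.ψ p)) (c.ψ ⁻¹' s ∩ c.U) := by
    rintro p ⟨h1, h2⟩ q ⟨h3, h4⟩ e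
    have e' : c'.ψ (c'.pr (c.ψ p)) = c'.ψ (c'.pr (c.ψ q)) := congrArg c'.ψ e
    rw [c'.ψ_pr _ (c.ψ_S p h2) (h' h1), c'.ψ_pr _ (c.ψ_S q h4) (h' h3)] at e'
    rw [← c.pr_ψ p h2, e', c.pr_ψ q h4]
  have hder : ∀ p ∈ c.ψ ⁻¹' s ∩ c.U, HasFDerivWithinAt (fun p => c'.pr (c.ψ p))
      (c'.pr ∘L fderiv ℝ c.ψ p) (c.ψ ⁻¹' s ∩ c.U) p := fun p _ =>
    (c'.pr.hasFDerivAt.comp p
      (c.ψ_sm.differentiable (by simp) p).hasFDerivAt).hasFDerivWithinAt
  rw [measa_apply c hs, measa_apply c' hs, ← him,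
    lintegral_image_eq_lintegral_abs_det_fderiv_mul volume hV hder hinj]
  refine setLIntegral_congr_fun hV fun p hp => ?_
  have e := measa_pf X c c' hp.2 (h' hp.1)
  have p1 := c.pf_pos p hp.2
  have p2 := c'.pf_pos _ (c'.pr_mem _ (c.ψ_S p hp.2) (h' hp.1))
  have p3 : 0 < (c'.pr ∘L fderiv ℝ c.ψ p).det := by
    rw [e] at p1
    exact (pos_iff_pos_of_mul_pos p1).1 p2
  change ENNReal.ofReal (c.pf p) = _
  rw [abs_of_pos p3, ← ENNReal.ofReal_mul p3.le, e, mul_comm]

theorem Sub.exists_measure (X : Sub N) : ∃ m : Measure (A N), IsFiniteMeasure m ∧ m X.Sᶜ = 0 ∧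
    ∀ c : X.Chart, m.restrict c.W =
      Measure.map c.ψ ((volume.restrict c.U).withDensity fun p => ENNReal.ofReal (c.pf p)) := by
  obtain ⟨n, c, p, r, δ, hδ, -, -, hcov⟩ := X.exists_atlas
  have hSm : MeasurableSet X.S := X.cpt.isClosed.measurableSet
  set T : Fin n → Set (A N) := fun i =>
    X.S ∩ (c i).W ∩ (c i).pr ⁻¹' Metric.closedBall (p i) (r i) with hT
  have hTm : ∀ i, MeasurableSet (T i) := fun i =>
    (hSm.inter (c i).W_open.measurableSet).inter
      ((c i).pr.continuous.measurable measurableSet_closedBall)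
  set T' : Fin n → Set (A N) := fun i => T i \ ⋃ j ∈ {j | j < i}, T j with hT'
  have hT'm : ∀ i, MeasurableSet (T' i) := fun i =>
    (hTm i).diff (MeasurableSet.biUnion (Set.to_countable _) fun j _ => hTm j)
  have hdisj : Pairwise (Function.onFun Disjoint T') := by
    intro i j hij
    rcases lt_or_gt_of_ne hij with hij | hij
    · exact Set.disjoint_left.2 fun x hx hx' => hx'.2 (mem_biUnion hij hx.1)
    · exact Set.disjoint_left.2 fun x hx hx' => hx.2 (mem_biUnion hij hx'.1)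
  have hun : ⋃ i, T' i = X.S := by
    refine Subset.antisymm (iUnion_subset fun i x hx => hx.1.1.1) fun x hx => ?_
    have hne : {i | x ∈ T i}.Nonempty := by
      obtain ⟨i, -, hi⟩ := hcov x hx
      obtain ⟨h1, h2⟩ := hi x hx (by simpa using hδ.le)
      exact ⟨i, ⟨hx, h1⟩, h2⟩
    obtain ⟨i, hi, hmin⟩ := wellFounded_lt.has_min _ hne
    refine mem_iUnion.2 ⟨i, hi, fun h => ?_⟩
    obtain ⟨j, hj, hj'⟩ := mem_iUnion₂.1 h
    exact hmin j hj' hj
  refine ⟨∑ i, (measaChart (c i)).restrict (T' i), ⟨?_⟩, ?_, fun c₀ => ?_⟩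
  · rw [Measure.finsetSum_apply]
    refine ENNReal.sum_lt_top.2 fun i _ => ?_
    rw [Measure.restrict_apply_univ, measa_apply _ (hT'm i)]
    refine lt_of_le_of_lt (lintegral_mono_set (t := Metric.closedBall (p i) (r i)) ?_) ?_
    · rintro q ⟨h1, h2⟩
      have h3 := h1.1.2
      rwa [mem_preimage, (c i).pr_ψ q h2] at h3
    · exact ((c i).pf_sm.continuous.continuousOn.integrableOn_compact
        (isCompact_closedBall _ _)).lintegral_lt_top
  · rw [Measure.finsetSum_apply]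
    refine Finset.sum_eq_zero fun i _ => ?_
    rw [Measure.restrict_apply hSm.compl]
    have : X.Sᶜ ∩ T' i = ∅ := eq_empty_of_forall_notMem fun x hx => hx.1 hx.2.1.1.1
    rw [this, measure_empty]
  · change _ = measaChart c₀
    ext s hs
    have hsW : MeasurableSet (s ∩ c₀.W) := hs.inter c₀.W_open.measurableSet
    rw [Measure.restrict_apply hs, Measure.finsetSum_apply]
    have e1 : ∀ i, (measaChart (c i)).restrict (T' i) (s ∩ c₀.W) =
        measaChart c₀ (s ∩ c₀.W ∩ T' i) := fun i => by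
      rw [Measure.restrict_apply hsW]
      exact measa_compat X _ _ (hsW.inter (hT'm i)) (fun x hx => hx.2.1.1.2) fun x hx => hx.1.2
    simp only [e1]
    rw [← tsum_fintype (L := .unconditional _), ← measure_iUnion
      (hdisj.mono fun i j h => h.mono inter_subset_right inter_subset_right)
      fun i => hsW.inter (hT'm i), ← inter_iUnion, hun, measa_apply _ (hsW.inter hSm),
      measa_apply _ hs]
    congr 2
    ext q
    exact ⟨fun h => ⟨h.1.1.1, h.2⟩, fun h => ⟨⟨⟨h.1, c₀.ψ_W q h.2⟩, c₀.ψ_S q h.2⟩, h.2⟩⟩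

/-- integration in a chart -/
theorem integral_chart_of {X : Pre N} {m : Measure (A N)} (hm : m X.Sᶜ = 0) (c : X.Chart)
    (hc : m.restrict c.W =
      Measure.map c.ψ ((volume.restrict c.U).withDensity fun p => ENNReal.ofReal (c.pf p)))
    {E : Type} [NormedAddCommGroup E] [NormedSpace ℝ E] {f : A N → E}
    (hf : AEStronglyMeasurable f m) (h0 : ∀ x ∈ X.S, x ∉ c.W → f x = 0) :
    ∫ x, f x ∂m = ∫ p in c.U, c.pf p • f (c.ψ p) := by
  have hS : ∀ᵐ x ∂m, x ∈ X.S := hm
  have hψ : Measurable c.ψ := c.ψ_sm.continuous.measurable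
  have hf' : AEStronglyMeasurable f (m.restrict c.W) := hf.restrict
  rw [← setIntegral_eq_integral_of_ae_compl_eq_zero (s := c.W) (hS.mono fun x hx => h0 x hx)]
  rw [hc] at hf' ⊢
  rw [integral_map hψ.aemeasurable hf', integral_withDensity_eq_integral_toReal_smul
    c.pf_sm.continuous.measurable.ennreal_ofReal (Eventually.of_forall fun _ => by simp)]
  refine setIntegral_congr_fun c.U_open.measurableSet fun p hp => ?_
  rw [ENNReal.toReal_ofReal (c.pf_pos p hp).le]

end Crest.Agent.R240
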