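import Crest.Agent.R240.Param

/-! Row 240: the profiles of the monotonicity formula: `H σ = (5 - σ) * bump (σ / 4)`,
`h σ = ∫ τ in 1/4..1, H (τ σ)` (so that `σ * h σ = ∫ s in σ/4..σ, H s`). -/

set_option autoImplicit false

open scoped ContDiff RealInnerProductSpace Topology
open MeasureTheory Set Filter

noncomputable section

namespace Crest.Agent.R240

/-- the outer profile -/
def profile_H (σ : ℝ) : ℝ := (5 - σ) * bump (σ / 4)

/-- its derivative -/
def profile_D (σ : ℝ) : ℝ := -bump (σ / 4) + (5 - σ) * (deriv bump (σ / 4) / 4)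

theorem profile_H_sm : ContDiff ℝ ∞ profile_H :=
  (contDiff_const.sub contDiff_id).mul (bump_sm.comp (contDiff_id.div_const 4))

theorem profile_hasDerivAt (σ : ℝ) : HasDerivAt profile_H (profile_D σ) σ := by
  have h1 : HasDerivAt bump (deriv bump (σ / 4)) (σ / 4) :=
    (bump_sm.differentiable (by simp) _).hasDerivAt
  have h2 : HasDerivAt (fun s : ℝ => bump (s / 4)) (deriv bump (σ / 4) * (1 / 4)) σ :=
    HasDerivAt.comp (h₂ := bump) (h := fun s : ℝ => s / 4) σ h1 ((hasDerivAt_id σ).div_const 4)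
  have h3 : HasDerivAt (fun s : ℝ => 5 - s) (-1) σ := by
    simpa using (hasDerivAt_id σ).const_sub 5
  have h4 := h3.mul h2
  have e : profile_D σ = -1 * bump (σ / 4) + (5 - σ) * (deriv bump (σ / 4) * (1 / 4)) := by
    unfold profile_D; ring
  rw [e]
  exact h4

theorem profile_D_cont : Continuous profile_D := by
  have : profile_D = deriv profile_H := funext fun σ => (profile_hasDerivAt σ).deriv.symm
  rw [this]
  exact profile_H_sm.continuous_deriv (by simp)

theorem profile_H_zero {σ : ℝ} (h : 4 ≤ σ) : profile_H σ = 0 := by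
  unfold profile_H
  rw [bump_eq_zero (by linarith), mul_zero]

theorem profile_H_nonneg (σ : ℝ) : 0 ≤ profile_H σ := by
  rcases le_total σ 4 with h | h
  · exact mul_nonneg (by linarith) (bump_nonneg _)
  · exact (profile_H_zero h).ge

theorem profile_H_le {σ : ℝ} (h : 0 ≤ σ) : profile_H σ ≤ 5 := by
  have h1 := bump_nonneg (σ / 4)
  have h2 := bump_le_one (σ / 4)
  unfold profile_H
  nlinarith

theorem profile_D_zero {σ : ℝ} (h : 4 ≤ σ) : profile_D σ = 0 := by
  unfold profile_D
  rw [bump_eq_zero (by linarith), deriv_bump_eq_zero (by linarith)]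
  simp

theorem profile_D_le (σ : ℝ) : profile_D σ ≤ -bump (σ / 4) := by
  rcases le_total σ 4 with h | h
  · have h1 : deriv bump (σ / 4) ≤ 0 := bump_antitone.deriv_nonpos
    unfold profile_D
    nlinarith
  · rw [profile_D_zero h, bump_eq_zero (by linarith)]
    simp

theorem profile_D_bound : ∃ C, 0 ≤ C ∧ ∀ σ, 0 ≤ σ → |profile_D σ| ≤ C := by
  obtain ⟨C, hC0, hC⟩ := deriv_bump_bound
  refine ⟨1 + 5 * C, by positivity, fun σ hσ => ?_⟩
  rcases le_total σ 4 with h | h
  · have h1 := bump_nonneg (σ / 4)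
    have h2 := bump_le_one (σ / 4)
    have h3 := abs_le.1 (hC (σ / 4))
    unfold profile_D
    rw [abs_le]
    constructor <;> nlinarith [h3.1, h3.2]
  · rw [profile_D_zero h, abs_zero]; positivity

/-- the inner profile -/
def profile_h (σ : ℝ) : ℝ := ∫ τ in Icc (1 / 4 : ℝ) 1, profile_H (τ * σ)

theorem profile_h_aux : ContDiff ℝ ∞ profile_h ∧
    ∀ σ, deriv profile_h σ = ∫ τ in Icc (1 / 4 : ℝ) 1, τ * profile_D (τ * σ) := by
  have hΦ : ContDiff ℝ ∞ fun z : ℝ × ℝ => profile_H (z.2 * z.1) :=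
    profile_H_sm.comp (contDiff_snd.mul contDiff_fst)
  obtain ⟨h1, h2⟩ := contDiff_integral_cpt (volume.restrict (Icc (1 / 4 : ℝ) 1))
    (K := Icc (1 / 4 : ℝ) 1) isCompact_Icc
    (by rw [Measure.restrict_apply measurableSet_Icc.compl]; simp)
    (f := fun _ => (1 : ℝ)) (integrable_const _) hΦ
  simp only [one_smul] at h1 h2
  refine ⟨h1, fun σ => ?_⟩
  have h3 := h2 σ 1
  rw [fderiv_apply_one_eq_deriv] at h3
  refine h3.trans (integral_congr_ae (Eventually.of_forall fun τ => ?_))
  have h4 : HasFDerivAt (fun z : ℝ × ℝ => profile_H (z.2 * z.1))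
      (fderiv ℝ (fun z : ℝ × ℝ => profile_H (z.2 * z.1)) (σ, τ)) (σ, τ) :=
    (hΦ.differentiable (by simp) _).hasFDerivAt
  have h5 : HasDerivAt (fun s : ℝ => ((s, τ) : ℝ × ℝ)) (1, 0) σ :=
    (hasDerivAt_id σ).prodMk (hasDerivAt_const σ τ)
  have h6 := h4.comp_hasDerivAt σ h5
  have h7 : HasDerivAt (fun s : ℝ => profile_H (τ * s)) (profile_D (τ * σ) * (τ * 1)) σ :=
    (profile_hasDerivAt (τ * σ)).comp σ ((hasDerivAt_id σ).const_mul τ)
  have h8 := h6.unique h7
  simp only [h8]
  ring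

/-- the profiles -/
theorem exists_profile : ∃ (H h : ℝ → ℝ) (c C : ℝ), 0 < c ∧ 0 ≤ C ∧ ContDiff ℝ ∞ H ∧
    ContDiff ℝ ∞ h ∧ (∀ σ, 0 ≤ σ → 0 ≤ H σ ∧ H σ ≤ C ∧ |h σ| ≤ C ∧ |deriv h σ| ≤ C ∧ deriv h σ ≤ 0) ∧
    (∀ σ, 4 ≤ σ → H σ = 0) ∧ (∀ σ, 16 ≤ σ → h σ = 0) ∧
    (∀ σ, h σ + σ * deriv h σ = H σ - H (σ / 4) / 4) ∧
    ∀ σ, 0 ≤ σ → σ ≤ 1 → c ≤ H σ ∧ c ≤ -deriv h σ := by
  obtain ⟨C, hC0, hC⟩ := profile_D_bound
  obtain ⟨hsm, hd⟩ := profile_h_aux
  have hvol : (volume : Measure ℝ).real (Icc (1 / 4 : ℝ) 1) = 3 / 4 := by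
    rw [Real.volume_real_Icc_of_le (by norm_num)]; norm_num
  have hfin : (volume : Measure ℝ) (Icc (1 / 4 : ℝ) 1) < ⊤ := measure_Icc_lt_top
  have cH : ∀ σ, Continuous fun τ : ℝ => profile_H (τ * σ) := fun σ =>
    profile_H_sm.continuous.comp (continuous_id.mul continuous_const)
  have cD : ∀ σ, Continuous fun τ : ℝ => τ * profile_D (τ * σ) := fun σ =>
    continuous_id.mul (profile_D_cont.comp (continuous_id.mul continuous_const))
  refine ⟨profile_H, profile_h, 3 / 16, 5 + C, by norm_num, by positivity, profile_H_sm, hsm,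
    fun σ hσ => ⟨profile_H_nonneg σ, (profile_H_le hσ).trans (by linarith), ?_, ?_, ?_⟩,
    fun σ hσ => profile_H_zero hσ, fun σ hσ => ?_, fun σ => ?_, fun σ h0 h1 => ⟨?_, ?_⟩⟩
  · have := norm_setIntegral_le_of_norm_le_const (f := fun τ => profile_H (τ * σ)) (C := 5) hfin
      (fun τ hτ => by
        rw [Real.norm_eq_abs, abs_of_nonneg (profile_H_nonneg _)]
        exact profile_H_le (mul_nonneg (by linarith [hτ.1]) hσ))
    rw [hvol, Real.norm_eq_abs] at this
    unfold profile_h
    linarith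
  · have := norm_setIntegral_le_of_norm_le_const (f := fun τ => τ * profile_D (τ * σ)) (C := C)
      hfin (fun τ hτ => by
        have h0 : 0 ≤ τ := by linarith [hτ.1]
        rw [Real.norm_eq_abs, abs_mul, abs_of_nonneg h0]
        have := hC (τ * σ) (mul_nonneg h0 hσ)
        nlinarith [hτ.2, abs_nonneg (profile_D (τ * σ))])
    rw [hvol, Real.norm_eq_abs] at this
    rw [hd]
    linarith
  · rw [hd]
    refine setIntegral_nonpos measurableSet_Icc fun τ hτ => ?_
    have h0 : 0 ≤ τ := by linarith [hτ.1]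
    have h1 := profile_D_le (τ * σ)
    have h2 := bump_nonneg (τ * σ / 4)
    nlinarith
  · unfold profile_h
    rw [setIntegral_congr_fun measurableSet_Icc (g := fun _ => (0 : ℝ))]
    · simp
    · intro τ hτ
      exact profile_H_zero (by nlinarith [hτ.1])
  · rw [hd]
    unfold profile_h
    rw [← integral_const_mul, ← integral_add ((cH σ).integrableOn_Icc)
      (((cD σ).integrableOn_Icc).const_mul σ), integral_Icc_eq_integral_Ioc,
      ← intervalIntegral.integral_of_le (by norm_num)]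
    rw [intervalIntegral.integral_eq_sub_of_hasDerivAt (f := fun τ => τ * profile_H (τ * σ))]
    · simp only [one_mul]
      rw [show 1 / 4 * σ = σ / 4 by ring]
      ring
    · intro τ _
      have h7 : HasDerivAt (fun s : ℝ => profile_H (s * σ)) (profile_D (τ * σ) * (1 * σ)) τ :=
        HasDerivAt.comp (h₂ := profile_H) (h := fun s : ℝ => s * σ) τ (profile_hasDerivAt (τ * σ))
          ((hasDerivAt_id τ).mul_const σ)
      have h8 := (hasDerivAt_id τ).mul h7
      have e : profile_H (τ * σ) + σ * (τ * profile_D (τ * σ)) =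
          1 * profile_H (τ * σ) + id τ * (profile_D (τ * σ) * (1 * σ)) := by
        simp only [id]; ring
      rw [e]
      exact h8
    · exact ((cH σ).add (continuous_const.mul (cD σ))).intervalIntegrable _ _
  · unfold profile_H
    rw [bump_eq_one (by linarith)]
    linarith
  · rw [hd, ← integral_neg]
    have := setIntegral_mono_on (μ := volume) (s := Icc (1 / 4 : ℝ) 1) (f := fun _ => (1 / 4 : ℝ))
      (g := fun τ => -(τ * profile_D (τ * σ))) (continuous_const.integrableOn_Icc)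
      ((cD σ).neg.integrableOn_Icc) measurableSet_Icc (fun τ hτ => by
        have h2 := profile_D_le (τ * σ)
        rw [bump_eq_one (by nlinarith [hτ.1, hτ.2])] at h2
        nlinarith [hτ.1])
    rw [setIntegral_const, hvol, smul_eq_mul] at this
    linarith

end Crest.Agent.R240
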