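import Crest.Agent.R240.Dens
import Crest.Agent.R240.Profile

/-! Row 240: the test one-form of the monotonicity formula (pointwise computations). -/

set_option autoImplicit false

open scoped ContDiff RealInnerProductSpace Topology
open MeasureTheory Set Filter

noncomputable section

namespace Crest.Agent.R240

variable {N : ℕ}

/-! ### algebra in `ℝ⁴` -/

theorem mono_inner4 (a b : A 4) : ⟪a, b⟫ = a 0 * b 0 + a 1 * b 1 + a 2 * b 2 + a 3 * b 3 := by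
  simp [PiLp.inner_apply, Fin.sum_univ_four, mul_comm]

theorem mono_bessel (a b : A 4) : ⟪a, b⟫ ^ 2 + ⟪Jst a, b⟫ ^ 2 ≤ ⟪b, b⟫ * ⟪a, a⟫ := by
  obtain ⟨h0, h1, h2, h3⟩ := Jst_apply a
  simp only [mono_inner4, h0, h1, h2, h3]
  nlinarith [sq_nonneg (a 0 * b 2 - a 1 * b 3 - a 2 * b 0 + a 3 * b 1),
    sq_nonneg (a 0 * b 3 + a 1 * b 2 - a 2 * b 1 - a 3 * b 0)]

theorem mono_proj (a b : A 4) (s r : ℝ) : ‖a - s • b - r • Jst b‖ ^ 2 =
    ⟪a, a⟫ - 2 * s * ⟪a, b⟫ + 2 * r * ⟪Jst a, b⟫ + (s ^ 2 + r ^ 2) * ⟪b, b⟫ := by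
  obtain ⟨h0, h1, h2, h3⟩ := Jst_apply a
  obtain ⟨k0, k1, k2, k3⟩ := Jst_apply b
  rw [← real_inner_self_eq_norm_sq]
  simp only [mono_inner4, PiLp.sub_apply, PiLp.smul_apply, smul_eq_mul, h0, h1, h2, h3, k0, k1,
    k2, k3]
  ring

/-! ### the test form -/

variable (X : Pre N) (h : ℝ → ℝ)

/-- a quadratic form which is nondegenerate on the ambient space -/
def mono_Q (x w : A N) : ℝ := X.g x w w + ⟪w - X.π x w, w - X.π x w⟫

/-- the one-form `om x w ·` -/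
def mono_Om (x : A N) : A N →L[ℝ] A N :=
  ContinuousLinearMap.adjoint (X.π x) ∘L X.J x - ContinuousLinearMap.adjoint (X.J x) ∘L X.π x

/-- the scaled test one-form -/
def mono_Z (x w : A N) : A N := h (mono_Q X x w) • mono_Om X x w

/-- its exterior derivative -/
def mono_L (x w : A N) : E2 N := d1 (mono_Z X h x) w

theorem mono_inner_Om (x w b : A N) : ⟪mono_Om X x w, b⟫ = X.om x w b := by
  simp only [mono_Om, ContinuousLinearMap.sub_apply, ContinuousLinearMap.comp_apply,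
    inner_sub_left, ContinuousLinearMap.adjoint_inner_left, Pre.om]

theorem mono_Q_eq (x w : A N) :
    mono_Q X x w = ‖X.π x w‖ ^ 2 + ‖X.J x w‖ ^ 2 + ‖w - X.π x w‖ ^ 2 := by
  simp only [mono_Q, Pre.g, real_inner_self_eq_norm_sq]

theorem mono_Q_nonneg (x w : A N) : 0 ≤ mono_Q X x w := by
  rw [mono_Q_eq]; positivity

theorem mono_Q_ge (x w : A N) : ‖w‖ ^ 2 / 2 ≤ mono_Q X x w := by
  rw [mono_Q_eq]
  have h1 : ‖w‖ ≤ ‖X.π x w‖ + ‖w - X.π x w‖ := by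
    simpa using norm_add_le (X.π x w) (w - X.π x w)
  have h2 : ‖w‖ ^ 2 ≤ (‖X.π x w‖ + ‖w - X.π x w‖) ^ 2 := by gcongr
  nlinarith [sq_nonneg (‖X.π x w‖ - ‖w - X.π x w‖), sq_nonneg ‖X.J x w‖]

theorem mono_Q_le {x : A N} {C : ℝ} (hC : 1 ≤ C) (h1 : ‖X.π x‖ ≤ C) (h2 : ‖X.J x‖ ≤ C) (w : A N) :
    mono_Q X x w ≤ 6 * C ^ 2 * ‖w‖ ^ 2 := by
  rw [mono_Q_eq]
  have a1 : ‖X.π x w‖ ≤ C * ‖w‖ := (X.π x).le_of_opNorm_le h1 w
  have a2 : ‖X.J x w‖ ≤ C * ‖w‖ := (X.J x).le_of_opNorm_le h2 w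
  have a3 : ‖w - X.π x w‖ ≤ 2 * C * ‖w‖ := by
    have := norm_sub_le w (X.π x w)
    nlinarith [norm_nonneg w]
  calc _ ≤ (C * ‖w‖) ^ 2 + (C * ‖w‖) ^ 2 + (2 * C * ‖w‖) ^ 2 := by gcongr
    _ = _ := by ring

theorem mono_Q_smul (x w : A N) (s : ℝ) : mono_Q X x (s • w) = s ^ 2 * mono_Q X x w := by
  simp only [mono_Q_eq, map_smul, ← smul_sub, norm_smul, mul_pow, Real.norm_eq_abs, sq_abs]
  ring

theorem mono_Q_sm {P : Type} [NormedAddCommGroup P] [NormedSpace ℝ P] {x w : P → A N}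
    (hx : ContDiff ℝ ∞ x) (hw : ContDiff ℝ ∞ w) :
    ContDiff ℝ ∞ fun p => mono_Q X (x p) (w p) := by
  have h1 : ContDiff ℝ ∞ fun p => w p - X.π (x p) (w p) :=
    hw.sub ((X.π_sm.comp hx).clm_apply hw)
  exact (X.g_sm hx hw hw).add (h1.inner ℝ h1)

theorem mono_Om_sm : ContDiff ℝ ∞ (mono_Om X) :=
  ((contDiff_adjoint X.π_sm).clm_comp X.J_sm).sub ((contDiff_adjoint X.J_sm).clm_comp X.π_sm)

variable {h}

theorem mono_Z_sm (hh : ContDiff ℝ ∞ h) {P : Type} [NormedAddCommGroup P] [NormedSpace ℝ P]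
    {x w : P → A N} (hx : ContDiff ℝ ∞ x) (hw : ContDiff ℝ ∞ w) :
    ContDiff ℝ ∞ fun p => mono_Z X h (x p) (w p) :=
  (hh.comp (mono_Q_sm X hx hw)).smul (((mono_Om_sm X).comp hx).clm_apply hw)

theorem mono_L_sm (hh : ContDiff ℝ ∞ h) {P : Type} [NormedAddCommGroup P] [NormedSpace ℝ P]
    {x w : P → A N} (hx : ContDiff ℝ ∞ x) (hw : ContDiff ℝ ∞ w) :
    ContDiff ℝ ∞ fun p => mono_L X h (x p) (w p) := by
  have h1 : ContDiff ℝ ∞ fun p => fderiv ℝ (mono_Z X h (x p)) (w p) :=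
    ContDiff.fderiv (m := ∞) (f := fun p => mono_Z X h (x p))
      (mono_Z_sm X hh (hx.comp contDiff_fst) contDiff_snd) hw (by simp)
  refine contDiff_toLp fun q => ?_
  exact (EuclideanSpace.proj q.2 : A N →L[ℝ] ℝ).contDiff.comp (h1.clm_apply contDiff_const)

theorem mono_L_zero (h0 : ∀ σ, 16 ≤ σ → h σ = 0) (x : A N) {w : A N} (hw : 6 ≤ ‖w‖) :
    mono_L X h x w = 0 := by
  have h1 : mono_Z X h x =ᶠ[𝓝 w] fun _ => 0 := by
    have : ∀ᶠ u in 𝓝 w, (23 / 4 : ℝ) < ‖u‖ :=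
      continuous_norm.continuousAt.eventually (eventually_gt_nhds (by linarith))
    filter_upwards [this] with u hu
    have h2 := mono_Q_ge X x u
    rw [mono_Z, h0 _ (by nlinarith), zero_smul]
  ext q
  simp [mono_L, d1, h1.fderiv_eq]

theorem mono_fderiv_Z (hh : ContDiff ℝ ∞ h) (x w a : A N) :
    fderiv ℝ (mono_Z X h x) w a = h (mono_Q X x w) • mono_Om X x a +
      (deriv h (mono_Q X x w) * (2 * (X.g x w a + ⟪w - X.π x w, a - X.π x a⟫))) •
        mono_Om X x w := by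
  have hπ := (X.π x).hasFDerivAt (x := w)
  have hJ := (X.J x).hasFDerivAt (x := w)
  have hn := (hasFDerivAt_id w).sub hπ
  have hQ : HasFDerivAt (mono_Q X x) _ w := ((hπ.inner ℝ hπ).add (hJ.inner ℝ hJ)).add (hn.inner ℝ hn)
  have hd : HasDerivAt h (deriv h (mono_Q X x w)) (mono_Q X x w) :=
    (hh.differentiable (by simp) _).hasDerivAt
  have hZ : HasFDerivAt (mono_Z X h x) _ w :=
    (hd.comp_hasFDerivAt w hQ).smul (mono_Om X x).hasFDerivAt
  rw [hZ.fderiv]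
  simp only [ContinuousLinearMap.add_apply, ContinuousLinearMap.smul_apply,
    ContinuousLinearMap.smulRight_apply, ContinuousLinearMap.comp_apply,
    ContinuousLinearMap.prod_apply, fderivInnerCLM_apply, ContinuousLinearMap.sub_apply,
    ContinuousLinearMap.id_apply, Function.comp_apply, smul_eq_mul, Pi.sub_apply, id, Pre.g]
  congr 2
  rw [real_inner_comm (X.π x w) (X.π x a), real_inner_comm (X.J x w) (X.J x a),
    real_inner_comm (w - X.π x w) (a - X.π x a)]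
  ring

theorem mono_om_swap (x a b : A N) : X.om x b a = -X.om x a b := by
  simp only [Pre.om]
  rw [real_inner_comm (X.π x a), real_inner_comm (X.J x a)]
  ring

/-- the test form on tangent vectors -/
theorem mono_ev_L (hh : ContDiff ℝ ∞ h) (x w : A N) {a b : A N} (ha : X.π x a = a)
    (hb : X.π x b = b) : ev (mono_L X h x w) a b = 2 * h (mono_Q X x w) * X.om x a b +
      2 * deriv h (mono_Q X x w) * (X.g x w a * X.om x w b - X.g x w b * X.om x w a) := by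
  rw [mono_L, ev_d1, mono_fderiv_Z X hh, mono_fderiv_Z X hh, ha, hb]
  simp only [sub_self, inner_zero_right, add_zero, inner_add_left, real_inner_smul_left,
    mono_inner_Om, mono_om_swap X x a b]
  ring

variable {X} {x : A N} (hx : x ∈ X.S)
include hx

theorem mono_g_π (a b : A N) : X.g x a (X.π x b) = X.g x a b := by
  simp only [Pre.g, X.ππ x hx, X.Jπ x hx]

theorem mono_om_π (a b : A N) : X.om x a (X.π x b) = X.om x a b := by
  simp only [Pre.om, X.ππ x hx, X.Jπ x hx]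

theorem mono_g_J (a b : A N) : X.g x a (X.J x b) = -X.om x a b := by
  simp only [Pre.g, Pre.om, X.πJ x hx, X.JJ x hx, inner_neg_right]
  ring

theorem mono_om_J (a b : A N) : X.om x a (X.J x b) = X.g x a b := by
  simp only [Pre.g, Pre.om, X.πJ x hx, X.JJ x hx, inner_neg_right]
  ring

theorem mono_om_πJ (a : A N) : X.om x (X.π x a) (X.J x a) = X.g x a a := by
  rw [mono_om_J hx]
  simp only [Pre.g, X.ππ x hx, X.Jπ x hx]

theorem mono_om_JJ (a b : A N) : X.om x (X.J x a) (X.J x b) = X.om x (X.π x a) (X.π x b) := by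
  simp only [Pre.om, X.πJ x hx, X.JJ x hx, X.ππ x hx, X.Jπ x hx, inner_neg_right, inner_neg_left]
  ring

/-- the test form is `J x`-invariant -/
theorem mono_Pm_L (hh : ContDiff ℝ ∞ h) (w : A N) : X.Pm x (mono_L X h x w) = 0 := by
  refine Anti.ext (anti_pm _ _ _) (fun k l => by simp) fun a b => ?_
  rw [Pre.Pm, ev_pm, mono_ev_L X hh x w (X.ππ x hx a) (X.ππ x hx b),
    mono_ev_L X hh x w (X.πJ x hx a) (X.πJ x hx b), mono_om_JJ hx, mono_g_π hx, mono_g_π hx,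
    mono_om_π hx w, mono_om_π hx w, mono_g_J hx, mono_g_J hx, mono_om_J hx, mono_om_J hx]
  simp only [ev, inner_zero_left]
  ring

/-- the test form on a complex line -/
theorem mono_ev_line (hh : ContDiff ℝ ∞ h) (w v : A N) :
    ev (mono_L X h x w) (X.π x v) (X.J x v) = 2 * h (mono_Q X x w) * X.g x v v +
      2 * deriv h (mono_Q X x w) * (X.g x w v ^ 2 + X.om x w v ^ 2) := by
  rw [mono_ev_L X hh x w (X.ππ x hx v) (X.πJ x hx v), mono_om_πJ hx, mono_g_π hx, mono_om_π hx,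
    mono_g_J hx, mono_om_J hx]
  ring

theorem mono_defect_nonneg (F : X.Frame x) (w v : A N) :
    0 ≤ X.g x v v * mono_Q X x w - X.g x w v ^ 2 - X.om x w v ^ 2 := by
  have h1 := mono_bessel (F.L w) (F.L v)
  rw [← F.g_eq hx, ← F.g_eq hx, ← F.g_eq hx, ← F.om_eq hx] at h1
  have h2 : 0 ≤ X.g x v v := by rw [F.g_eq hx]; exact real_inner_self_nonneg
  have h3 : 0 ≤ ⟪w - X.π x w, w - X.π x w⟫ := real_inner_self_nonneg
  rw [mono_Q]
  nlinarith [mul_nonneg h2 h3]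

/-- the distance to the complex line is controlled by the defect -/
theorem mono_perp2_le (F : X.Frame x) {z : A N × A N} (hz : z ∈ X.SM) {w : A N} {d : ℝ}
    (hw : mono_Q X x w ≤ 1) (hγ : 1 / 4 ≤ X.g x z.2 z.2) (h1 : ‖z.2 - X.π x z.2‖ ≤ d)
    (h2 : ‖X.J z.1 z.2 - X.J x z.2‖ ≤ d) :
    perp2 (X.Lh z) w ≤
      16 * (X.g x z.2 z.2 * mono_Q X x w - X.g x w z.2 ^ 2 - X.om x w z.2 ^ 2) + 32 * d ^ 2 := by
  set γ := X.g x z.2 z.2 with hγ'
  set α := X.g x w z.2 with hα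
  set β := X.om x w z.2 with hβ
  have hγ0 : 0 < γ := by linarith
  have hD := mono_defect_nonneg hx F w z.2
  rw [← hγ', ← hα, ← hβ] at hD
  set s := α / γ with hs
  set r := -β / γ with hr
  have e1 : α = s * γ := by rw [hs]; field_simp
  have e2 : β = -(r * γ) := by rw [hr]; field_simp
  have hp := mono_proj (F.L w) (F.L z.2) s r
  rw [← F.g_eq hx, ← F.g_eq hx, ← F.g_eq hx, ← F.om_eq hx, ← hγ', ← hα, ← hβ] at hp
  set u := F.L w - s • F.L z.2 - r • Jst (F.L z.2) with hu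
  set m := w - X.π x w with hm
  have hQ : mono_Q X x w = X.g x w w + ‖m‖ ^ 2 := by
    rw [mono_Q, real_inner_self_eq_norm_sq]
  have hBu : F.B u = X.π x w - s • X.π x z.2 - r • X.J x z.2 := by
    rw [hu, map_sub, map_sub, map_smul, map_smul, ← F.JB, F.BL, F.BL, X.Jπ x hx]
  have hdec : w - s • z.2 - r • X.J z.1 z.2 =
      (m + F.B u) - (s • (z.2 - X.π x z.2) + r • (X.J z.1 z.2 - X.J x z.2)) := by
    rw [hBu, hm, smul_sub, smul_sub]; abel
  have hd : 0 ≤ d := (norm_nonneg _).trans h1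
  -- the coefficients are bounded
  have hsr : (s ^ 2 + r ^ 2) * γ ≤ 1 := by
    have : γ * ((s ^ 2 + r ^ 2) * γ) ≤ γ * 1 := by
      have h3 : γ * mono_Q X x w ≤ γ * 1 := by gcongr
      rw [e1, e2] at hD
      nlinarith
    exact le_of_mul_le_mul_left this hγ0
  have hsr' : s ^ 2 + r ^ 2 ≤ 4 := by nlinarith [sq_nonneg s, sq_nonneg r]
  have n1 : ‖s • (z.2 - X.π x z.2) + r • (X.J z.1 z.2 - X.J x z.2)‖ ≤ (|s| + |r|) * d := by
    refine (norm_add_le _ _).trans ?_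
    rw [norm_smul, norm_smul, Real.norm_eq_abs, Real.norm_eq_abs, add_mul]
    gcongr
  have n2 : (|s| + |r|) ^ 2 ≤ 8 := by
    nlinarith [sq_abs s, sq_abs r, sq_nonneg (|s| - |r|)]
  have n3 : ‖m + F.B u‖ ≤ ‖m‖ + ‖u‖ := (norm_add_le _ _).trans (by gcongr; exact F.norm_B_le u)
  have n4 : ‖w - s • z.2 - r • X.J z.1 z.2‖ ≤ (‖m‖ + ‖u‖) + (|s| + |r|) * d := by
    rw [hdec]
    exact (norm_sub_le _ _).trans (add_le_add n3 n1)
  have n5 : γ * (‖m‖ ^ 2 + ‖u‖ ^ 2) = γ * mono_Q X x w - α ^ 2 - β ^ 2 := by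
    rw [hp, hQ, e1, e2]; ring
  have n6 : ‖m‖ ^ 2 + ‖u‖ ^ 2 ≤ 4 * (γ * mono_Q X x w - α ^ 2 - β ^ 2) := by
    rw [← n5]
    nlinarith [sq_nonneg ‖m‖, sq_nonneg ‖u‖]
  refine (Pre.perp2_le hz w s r).trans ?_
  calc _ ≤ ((‖m‖ + ‖u‖) + (|s| + |r|) * d) ^ 2 := by gcongr
    _ ≤ 4 * (‖m‖ ^ 2 + ‖u‖ ^ 2) + 2 * ((|s| + |r|) ^ 2 * d ^ 2) := by
      nlinarith [sq_nonneg (‖m‖ - ‖u‖), sq_nonneg ((‖m‖ + ‖u‖) - (|s| + |r|) * d)]
    _ ≤ 4 * (4 * (γ * mono_Q X x w - α ^ 2 - β ^ 2)) + 2 * (8 * d ^ 2) := by gcongr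
    _ ≤ _ := by nlinarith [sq_nonneg d]

omit hx in
/-- the test form at scale `ρ` -/
theorem mono_d1_scaled (hh : ContDiff ℝ ∞ h) (x : A N) {ρ : ℝ} (hρ : ρ ≠ 0) (y : A N) :
    d1 (fun y => ρ • mono_Z X h x (ρ⁻¹ • (y - x))) y = mono_L X h x (ρ⁻¹ • (y - x)) := by
  have h1 : HasFDerivAt (fun y : A N => ρ⁻¹ • (y - x)) (ρ⁻¹ • ContinuousLinearMap.id ℝ (A N)) y :=
    ((hasFDerivAt_id y).sub_const x).const_smul ρ⁻¹
  have h2 : DifferentiableAt ℝ (mono_Z X h x) (ρ⁻¹ • (y - x)) :=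
    (mono_Z_sm X hh contDiff_const contDiff_id).differentiable (by simp) _
  have h3 : HasFDerivAt (fun y => ρ • mono_Z X h x (ρ⁻¹ • (y - x))) _ y :=
    (h2.hasFDerivAt.comp y h1).const_smul ρ
  have h4 : fderiv ℝ (fun y => ρ • mono_Z X h x (ρ⁻¹ • (y - x))) y =
      fderiv ℝ (mono_Z X h x) (ρ⁻¹ • (y - x)) := by
    rw [h3.fderiv, ContinuousLinearMap.comp_smul, ContinuousLinearMap.comp_id, smul_smul,
      mul_inv_cancel₀ hρ, one_smul]
  rw [mono_L, d1, d1, h4]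

end Crest.Agent.R240
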