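import Crest.Agent.R240.Dens
import Crest.Agent.R240.Profile
import Crest.Agent.R240.MonoAux

/-! Row 240: one step of the monotonicity formula.

Fix `x ∈ S`, write `g₀ = g x`, `ω₀ = om x` (`ω₀ a b = g₀ (J x a) b`), `ξ = y - x`, `s = g₀ ξ ξ`,
`σ = s / ρ²`. Profile `H σ = (5 - σ) * bump (σ / 4)` (nonnegative, antitone, zero for `σ ≥ 4`,
`H' = -1` and `H ≥ 4` on `[0, 1)`), `h σ = ∫ τ in 1/4..1, H (τ σ)`: smooth, zero for `σ ≥ 16`,
`h σ + σ h' σ = H σ - H (σ / 4) / 4`, `h' ≤ 0` on `[0, ∞)` and `-h' ≥ c` on `[0, 1]`.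
Test one-form `ζ y = (ρ⁻² h σ * bump (‖ξ‖² / (Λ ρ)²) * ω₀ ξ (eb l))ₗ` with `Λ = 32`. On `S`, for
`ρ` small, `‖ξ‖ ≤ 2 Λ ρ` implies `s ≥ ‖π x ξ‖² ≥ ‖ξ‖² / 4` (`Sub.quad`), so the derivative of the
cut-off does not contribute at points of `S` (where it is not locally constant, `h` vanishes
near the point), and `ev (d1 ζ y) a b = bump(…) * Λ₀ a b`,
`Λ₀ a b = 2 ρ⁻² (h σ ω₀ a b + h' σ ρ⁻² (g₀ ξ a ω₀ ξ b - g₀ ξ b ω₀ ξ a))`, a `J x`-invariant form with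
`Λ₀ v (J x v) = 2 ρ⁻² g₀ v v (H σ - H (σ/4) / 4 - h' σ p₀ / ρ²)`,
`p₀ = s - (g₀ ξ v ^ 2 + ω₀ ξ v ^ 2) / g₀ v v ≥ 0` the squared `g₀`-distance from `ξ` to the complex
line of `v`. Put `I x ρ = ∫ ρ⁻² H σ * bump (‖ξ‖² / (Λ ρ)²) * g₀ v v dV`. `P.closed` for `d1 ζ` gives
`2 I x ρ - 2 I x (2ρ) + (good term) = O(ρ dens x (Λ ρ)) - φ (d1 ζ)` (`Sub.lipschitz` to replace
`J y v` by `J x v`). `φ (d1 ζ) = φ (y ↦ ρ⁻² • κ (ρ, x, ρ⁻¹ • (y - x)))` with the kernel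
`κ (t, x, w) = bump (‖w‖² / Λ²) • Pm (x + t w) (Λ₁ x w)`, `Λ₁ x w` the tensor of the scaled form; it
vanishes at `t = 0`, so `Hn_single_le₀` bounds it by `C ρ n`. Finally `perp2_le` (with the
coefficients of the `g₀`-orthogonal projection, `Sub.quad`, `Sub.lipschitz`) gives
`perp2 (Lh z) ξ ≤ 2 p₀ + C ρ⁴`.

(The proof below uses `s = g₀ ξ ξ + ‖ξ - π x ξ‖²` instead, which makes the cut-off unnecessary,
and multiplies `I` by a large constant.) -/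

set_option autoImplicit false

open scoped ContDiff RealInnerProductSpace Topology
open MeasureTheory Set Filter

noncomputable section

namespace Crest.Agent.R240

variable {N k : ℕ} {G : Geo N}

namespace Dual
variable (P : Dual G k)

/-- height excess at the point `x` -/
def hgt (x : A N) (r : ℝ) : ℝ :=
  (∫ z in {z : A N × A N | ‖x - z.1‖ ≤ r}, perp2 (G.Lh z) (x - z.1) ∂P.V) / r ^ 4

/-- the weighted mass -/
def mono_a (H : ℝ → ℝ) (x : A N) (ρ : ℝ) : ℝ :=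
  ∫ z, H (mono_Q G.toPre x (ρ⁻¹ • (z.1 - x))) * G.g x z.2 z.2 ∂P.V

/-- the good term -/
def mono_Gd (G : Geo N) (h : ℝ → ℝ) (x : A N) (ρ : ℝ) (z : A N × A N) : ℝ :=
  -deriv h (mono_Q G.toPre x (ρ⁻¹ • (z.1 - x))) *
    (G.g x z.2 z.2 * mono_Q G.toPre x (ρ⁻¹ • (z.1 - x)) - G.g x (ρ⁻¹ • (z.1 - x)) z.2 ^ 2 -
      G.om x (ρ⁻¹ • (z.1 - x)) z.2 ^ 2)

theorem mono_w_sm (x : A N) (ρ : ℝ) : ContDiff ℝ ∞ fun z : A N × A N => ρ⁻¹ • (z.1 - x) :=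
  (contDiff_fst.sub contDiff_const).const_smul _

theorem mono_q_cont (x : A N) (ρ : ℝ) :
    Continuous fun z : A N × A N => mono_Q G.toPre x (ρ⁻¹ • (z.1 - x)) :=
  (mono_Q_sm G.toPre contDiff_const (mono_w_sm x ρ)).continuous

theorem mono_g_cont (x : A N) : Continuous fun z : A N × A N => G.g x z.2 z.2 :=
  (G.g_sm contDiff_const contDiff_snd contDiff_snd).continuous

theorem mono_Gd_cont {h : ℝ → ℝ} (hh : ContDiff ℝ ∞ h) (x : A N) (ρ : ℝ) :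
    Continuous (mono_Gd G h x ρ) := by
  have h1 := (G.g_sm (contDiff_const (c := x)) (mono_w_sm x ρ) contDiff_snd).continuous
  have h2 := (G.om_sm (contDiff_const (c := x)) (mono_w_sm x ρ) contDiff_snd).continuous
  exact ((hh.continuous_deriv (by simp)).comp (mono_q_cont x ρ)).neg.mul
    ((((mono_g_cont x).mul (mono_q_cont x ρ)).sub (h1.pow 2)).sub (h2.pow 2))

theorem mono_meas (x : A N) (r : ℝ) :
    MeasurableSet {z : A N × A N | z.1 ∈ Metric.closedBall x r} :=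
  measurable_fst measurableSet_closedBall

theorem mono_norm_w {x y : A N} {ρ : ℝ} (hρ : 0 < ρ) : ‖ρ⁻¹ • (y - x)‖ * ρ = ‖y - x‖ := by
  rw [norm_smul, Real.norm_eq_abs, abs_of_pos (inv_pos.2 hρ)]
  field_simp

theorem mono_integral_ind (x : A N) (r b : ℝ) :
    ∫ z, {z : A N × A N | z.1 ∈ Metric.closedBall x r}.indicator (fun _ => b) z ∂P.V =
      b * P.V.real {z | z.1 ∈ Metric.closedBall x r} := by
  rw [integral_indicator_const _ (mono_meas x r), smul_eq_mul, mul_comm]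

theorem mono_integrable_ind (x : A N) (r b : ℝ) :
    Integrable ({z : A N × A N | z.1 ∈ Metric.closedBall x r}.indicator fun _ => b) P.V :=
  (integrable_const b).indicator (mono_meas x r)

/-- the test one-form at scale `ρ` -/
def mono_ζ (G : Geo N) (h : ℝ → ℝ) (x : A N) (ρ : ℝ) (y : A N) : A N :=
  ρ • mono_Z G.toPre h x (ρ⁻¹ • (y - x))

theorem mono_sw (x : A N) (ρ : ℝ) : ContDiff ℝ ∞ fun y : A N => ρ⁻¹ • (y - x) :=
  (contDiff_id.sub contDiff_const).const_smul _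

theorem mono_ζ_sm {h : ℝ → ℝ} (hh : ContDiff ℝ ∞ h) (x : A N) (ρ : ℝ) :
    ContDiff ℝ ∞ (mono_ζ G h x ρ) :=
  (mono_Z_sm G.toPre hh contDiff_const (mono_sw x ρ)).const_smul ρ

theorem mono_ζ_d1 {h : ℝ → ℝ} (hh : ContDiff ℝ ∞ h) (x : A N) {ρ : ℝ} (hρ : ρ ≠ 0) (y : A N) :
    d1 (mono_ζ G h x ρ) y = mono_L G.toPre h x (ρ⁻¹ • (y - x)) :=
  mono_d1_scaled hh x hρ y

/-- the kernel of the anti-invariant part -/
def mono_κ (G : Geo N) (h : ℝ → ℝ) (q : ℝ × A N × A N) : E2 N :=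
  G.Pm (q.2.1 + q.1 • q.2.2) (mono_L G.toPre h q.2.1 q.2.2)

theorem mono_ker₁ {h : ℝ → ℝ} (hh : ContDiff ℝ ∞ h) (hh0 : ∀ σ, 16 ≤ σ → h σ = 0) :
    IsKer (fun q : ℝ × A N × A N => mono_L G.toPre h q.2.1 q.2.2) 6 :=
  ⟨mono_L_sm G.toPre hh contDiff_snd.fst contDiff_snd.snd,
    fun _ x _ hw => mono_L_zero G.toPre hh0 x hw⟩

theorem mono_ker₂ {h : ℝ → ℝ} (hh : ContDiff ℝ ∞ h) (hh0 : ∀ σ, 16 ≤ σ → h σ = 0) :
    IsKer (mono_κ G h) 6 := by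
  refine ⟨?_, fun t x w hw => ?_⟩
  · unfold mono_κ
    exact (G.Pm_sm.comp (contDiff_snd.fst.add (contDiff_fst.smul contDiff_snd.snd))).clm_apply
      (mono_ker₁ hh hh0).sm
  · simp only [mono_κ, mono_L_zero G.toPre hh0 x hw, map_zero]

theorem mono_L_bound {h : ℝ → ℝ} (hh : ContDiff ℝ ∞ h) (hh0 : ∀ σ, 16 ≤ σ → h σ = 0) :
    ∃ C, 0 ≤ C ∧ ∀ x ∈ G.S, ∀ w, ‖mono_L G.toPre h x w‖ ≤ C := by
  obtain ⟨C₁, hC₁, hb₁⟩ := (mono_ker₁ (G := G) hh hh0).bound G.cpt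
  exact ⟨C₁, hC₁, fun x hx w => hb₁ 0 le_rfl zero_le_one x hx w⟩

/-- the functional is small on the test form -/
theorem mono_φ {h : ℝ → ℝ} (hh : ContDiff ℝ ∞ h) (hh0 : ∀ σ, 16 ≤ σ → h σ = 0) :
    ∃ C, 0 ≤ C ∧ ∀ x ∈ G.S, ∀ ρ, 0 < ρ → ρ ≤ 1 → ∀ n, 0 ≤ n → P.Bd ρ n →
      ∫ z, G.fv (d1 (mono_ζ G h x ρ)) z ∂P.V ≤ n * (C * ρ ^ 3) := by
  have k2 := mono_ker₂ (G := G) hh hh0
  obtain ⟨C₂, hC₂, hb₂⟩ := G.Hn_single_le₀ k2 (fun x hx w => by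
    simp only [mono_κ, zero_smul, add_zero]
    exact mono_Pm_L hx hh w) (k + 1)
  refine ⟨C₂, hC₂, fun x hx ρ hρ hρ1 n hn hBd => ?_⟩
  have sζ := mono_ζ_sm (G := G) hh x ρ
  have hcl := P.closed _ (contDiff_d1 sζ) (Pre.Closed_d1 sζ)
  have su : ContDiff ℝ ∞ fun y : A N => mono_κ G h (ρ, x, ρ⁻¹ • (y - x)) :=
    k2.sm.comp (contDiff_const.prodMk (contDiff_const.prodMk (mono_sw x ρ)))
  have e := P.φ_congr _ _ (contDiff_d1 sζ) su fun y hy => by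
    simp only [mono_κ, smul_smul, mul_inv_cancel₀ hρ.ne', one_smul, add_sub_cancel]
    rw [Pre.Pm_Pm hy, mono_ζ_d1 hh x hρ.ne']
  have h1 := (hBd _ su).trans (mul_le_mul_of_nonneg_left (hb₂ ρ hρ hρ1 x hx) hn)
  rw [← e] at h1
  linarith [(abs_le.1 h1).1]

/-- the pointwise inequality -/
theorem mono_pt {H h : ℝ → ℝ} (hh : ContDiff ℝ ∞ h) (hh0 : ∀ σ, 16 ≤ σ → h σ = 0)
    (hid : ∀ σ, h σ + σ * deriv h σ = H σ - H (σ / 4) / 4) :
    ∃ C, 0 ≤ C ∧ ∀ x ∈ G.S, ∀ ρ, 0 < ρ → ∀ z ∈ G.SM,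
      2 * (H (mono_Q G.toPre x (ρ⁻¹ • (z.1 - x))) * G.g x z.2 z.2 -
        H (mono_Q G.toPre x ((2 * ρ)⁻¹ • (z.1 - x))) * G.g x z.2 z.2 / 4 + mono_Gd G h x ρ z) ≤
      G.fv (d1 (mono_ζ G h x ρ)) z + {z : A N × A N | z.1 ∈ Metric.closedBall x (6 * ρ)}.indicator
        (fun _ => C * ρ) z := by
  obtain ⟨Cb, hCb1, hCb⟩ := G.toPre.exists_bound
  obtain ⟨CL, hCL0, hCL⟩ := G.toSub.lipschitz
  obtain ⟨C₁, hC₁, hb₁⟩ := mono_L_bound (G := G) hh hh0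
  refine ⟨24 * C₁ * Cb * CL, by positivity, fun x hx ρ hρ z hz => ?_⟩
  obtain ⟨hy, hπ, hv⟩ := hz
  have hq2 : mono_Q G.toPre x ((2 * ρ)⁻¹ • (z.1 - x)) =
      mono_Q G.toPre x (ρ⁻¹ • (z.1 - x)) / 4 := by
    rw [mul_inv, mul_smul, mono_Q_smul]; ring
  have e2 : G.fv (d1 (mono_ζ G h x ρ)) z =
      ev (mono_L G.toPre h x (ρ⁻¹ • (z.1 - x))) z.2 (G.J z.1 z.2) := by
    rw [Pre.fv, mono_ζ_d1 hh x hρ.ne', Pre.Lb, ev]
  have hn := mono_norm_w (x := x) (y := z.1) hρ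
  rw [e2, hq2, mono_Gd]
  generalize ρ⁻¹ • (z.1 - x) = w at hn ⊢
  have e1 := mono_ev_line hx hh w z.2
  have e0 := hid (mono_Q G.toPre x w)
  have hL := hb₁ x hx w
  have hZ := mono_L_zero G.toPre hh0 x (w := w)
  generalize mono_L G.toPre h x w = L at e1 hL hZ ⊢
  have e1' : 2 * (H (mono_Q G.toPre x w) * G.g x z.2 z.2 -
      H (mono_Q G.toPre x w / 4) * G.g x z.2 z.2 / 4 + -deriv h (mono_Q G.toPre x w) *
      (G.g x z.2 z.2 * mono_Q G.toPre x w - G.g x w z.2 ^ 2 - G.om x w z.2 ^ 2)) =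
      ev L (G.π x z.2) (G.J x z.2) := by
    rw [e1]
    linear_combination (-2 * G.g x z.2 z.2) * e0
  rw [e1']
  by_cases hB : z.1 ∈ Metric.closedBall x (6 * ρ)
  · rw [indicator_of_mem (by exact hB)]
    rw [mem_closedBall_iff_norm] at hB
    have a1 : ‖z.2 - G.π x z.2‖ ≤ CL * (6 * ρ) := by
      have := (G.π z.1 - G.π x).le_of_opNorm_le (hCL x hx z.1 hy).1 z.2
      rw [ContinuousLinearMap.sub_apply, hπ, hv, mul_one] at this
      exact this.trans (by gcongr)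
    have a2 : ‖G.J z.1 z.2 - G.J x z.2‖ ≤ CL * (6 * ρ) := by
      have := (G.J z.1 - G.J x).le_of_opNorm_le (hCL x hx z.1 hy).2 z.2
      rw [ContinuousLinearMap.sub_apply, hv, mul_one] at this
      exact this.trans (by gcongr)
    have a3 : ‖G.J z.1 z.2‖ ≤ Cb := by
      simpa [hv] using (G.J z.1).le_of_opNorm_le (hCb z.1 hy).2 z.2
    have a4 : ‖G.π x z.2‖ ≤ Cb := by
      simpa [hv] using (G.π x).le_of_opNorm_le (hCb x hx).1 z.2
    have e3 : ev L z.2 (G.J z.1 z.2) = ev L (z.2 - G.π x z.2) (G.J z.1 z.2) +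
        (ev L (G.π x z.2) (G.J z.1 z.2 - G.J x z.2) + ev L (G.π x z.2) (G.J x z.2)) := by
      rw [← ev_add_right, sub_add_cancel, ← ev_add_left, sub_add_cancel]
    have b1 : |ev L (z.2 - G.π x z.2) (G.J z.1 z.2)| ≤ 2 * C₁ * (CL * (6 * ρ)) * Cb :=
      (abs_ev_le _ _ _).trans (by gcongr)
    have b2 : |ev L (G.π x z.2) (G.J z.1 z.2 - G.J x z.2)| ≤ 2 * C₁ * Cb * (CL * (6 * ρ)) :=
      (abs_ev_le _ _ _).trans (by gcongr)
    rw [e3]
    linarith [(abs_le.1 b1).1, (abs_le.1 b2).1]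
  · rw [indicator_of_notMem (by exact hB)]
    rw [mem_closedBall_iff_norm, not_le, ← hn] at hB
    rw [hZ (lt_of_mul_lt_mul_right hB hρ.le).le]
    simp [ev]

/-- the integrated identity -/
theorem mono_int {H h : ℝ → ℝ} (hH : ContDiff ℝ ∞ H) (hh : ContDiff ℝ ∞ h)
    (hh0 : ∀ σ, 16 ≤ σ → h σ = 0) (hid : ∀ σ, h σ + σ * deriv h σ = H σ - H (σ / 4) / 4) :
    ∃ C, 0 ≤ C ∧ ∀ x ∈ G.S, ∀ ρ, 0 < ρ → ρ ≤ 1 → ∀ n, 0 ≤ n → P.Bd ρ n →
      P.mono_a H x ρ - P.mono_a H x (2 * ρ) / 4 + ∫ z, mono_Gd G h x ρ z ∂P.V ≤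
        C * ρ * (P.V.real {z | z.1 ∈ Metric.closedBall x (6 * ρ)} + n * ρ ^ 2) := by
  obtain ⟨C₁, hC₁, hb₁⟩ := mono_pt (G := G) hh hh0 hid
  obtain ⟨C₂, hC₂, hb₂⟩ := P.mono_φ hh hh0
  refine ⟨C₁ + C₂, by positivity, fun x hx ρ hρ hρ1 n hn hBd => ?_⟩
  have hφ := hb₂ x hx ρ hρ hρ1 n hn hBd
  have i1 : Integrable (fun z : A N × A N =>
      H (mono_Q G.toPre x (ρ⁻¹ • (z.1 - x))) * G.g x z.2 z.2) P.V :=
    P.integrable_cont ((hH.continuous.comp (mono_q_cont x ρ)).mul (mono_g_cont x))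
  have i2 : Integrable (fun z : A N × A N =>
      H (mono_Q G.toPre x ((2 * ρ)⁻¹ • (z.1 - x))) * G.g x z.2 z.2 / 4) P.V :=
    P.integrable_cont (((hH.continuous.comp (mono_q_cont x (2 * ρ))).mul
      (mono_g_cont x)).div_const 4)
  have i3 := P.integrable_cont (mono_Gd_cont (G := G) hh x ρ)
  have i4 := P.integrable_cont (G.fv_cont (contDiff_d1 (mono_ζ_sm (G := G) hh x ρ)).continuous)
  have i5 := P.mono_integrable_ind x (6 * ρ) (C₁ * ρ)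
  have i6 : Integrable (fun z : A N × A N =>
      H (mono_Q G.toPre x (ρ⁻¹ • (z.1 - x))) * G.g x z.2 z.2 -
      H (mono_Q G.toPre x ((2 * ρ)⁻¹ • (z.1 - x))) * G.g x z.2 z.2 / 4) P.V := i1.sub i2
  have hI : ∫ z, 2 * (H (mono_Q G.toPre x (ρ⁻¹ • (z.1 - x))) * G.g x z.2 z.2 -
        H (mono_Q G.toPre x ((2 * ρ)⁻¹ • (z.1 - x))) * G.g x z.2 z.2 / 4 + mono_Gd G h x ρ z)
        ∂P.V ≤ ∫ z, G.fv (d1 (mono_ζ G h x ρ)) z +
        {z : A N × A N | z.1 ∈ Metric.closedBall x (6 * ρ)}.indicator (fun _ => C₁ * ρ) z ∂P.V :=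
    integral_mono_ae ((i6.add i3).const_mul 2) (i4.add i5)
      (P.ae_SM.mono fun z hz => hb₁ x hx ρ hρ z hz)
  rw [integral_const_mul, integral_add i6 i3, integral_sub i1 i2, integral_div,
    integral_add i4 i5, P.mono_integral_ind] at hI
  have hV : 0 ≤ P.V.real {z | z.1 ∈ Metric.closedBall x (6 * ρ)} := measureReal_nonneg
  unfold mono_a
  generalize P.V.real {z | z.1 ∈ Metric.closedBall x (6 * ρ)} = V at hV hI ⊢
  have t1 : 0 ≤ C₂ * ρ * V := by positivity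
  have t2 : 0 ≤ C₁ * ρ * V := by positivity
  have t3 : 0 ≤ C₁ * ρ * (n * ρ ^ 2) := by positivity
  have t4 : 0 ≤ n * (C₂ * ρ ^ 3) := by positivity
  linarith

theorem mono_step : ∃ (I : A N → ℝ → ℝ) (c C Λ ρ₀ : ℝ), 0 < c ∧ c ≤ 1 ∧ 0 ≤ C ∧ 1 ≤ Λ ∧ 0 < ρ₀ ∧
    ρ₀ ≤ 1 ∧ ∀ x ∈ G.S, ∀ ρ, 0 < ρ → ρ ≤ ρ₀ →
      c * P.dens x (c * ρ) ≤ I x ρ ∧ I x ρ ≤ C * P.dens x (Λ * ρ) ∧
      ∀ n, 0 ≤ n → P.Bd ρ n → 2 * ρ ≤ ρ₀ →
        I x ρ + c * P.hgt x (c * ρ) ≤ I x (2 * ρ) + C * ρ * (P.dens x (Λ * ρ) + n) := by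
  obtain ⟨H, h, c₀, C₀, hc₀, hC₀, hH, hh, hb, hH0, hh0, hid, hlow⟩ := exists_profile
  obtain ⟨Cb, hCb1, hCb⟩ := G.toPre.exists_bound
  obtain ⟨CL, hCL0, hCL⟩ := G.toSub.lipschitz
  obtain ⟨C₁, hC₁, hint⟩ := P.mono_int hH hh hh0 hid
  set c : ℝ := (3 * Cb + 2 * CL)⁻¹ with hc
  have hD : 0 < 3 * Cb + 2 * CL := by positivity
  have hc0 : 0 < c := by positivity
  have hc1 : c * (3 * Cb + 2 * CL) = 1 := inv_mul_cancel₀ hD.ne'
  have hc2 : c * Cb ≤ 1 / 3 := by nlinarith [mul_nonneg hc0.le hCL0]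
  have hc3 : c * CL ≤ 1 / 2 := by nlinarith [mul_pos hc0 (one_pos.trans_le hCb1)]
  have hc4 : c ≤ 1 := by nlinarith
  set M : ℝ := 16 / (c₀ * c ^ 3) with hM
  have hM0 : 0 < M := by positivity
  refine ⟨fun x ρ => M * P.mono_a H x ρ / ρ ^ 2, c,
    M * (C₀ * (2 * Cb ^ 2)) * 36 + 36 * M * C₁ + 36 * (32 * CL ^ 2) / c ^ 3, 6, 1, hc0, hc4,
    by positivity, by norm_num, one_pos, le_rfl, fun x hx ρ hρ hρ1 => ?_⟩
  obtain ⟨F⟩ := G.toSub.exists_frame hx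
  have i1 : Integrable (fun z : A N × A N =>
      H (mono_Q G.toPre x (ρ⁻¹ • (z.1 - x))) * G.g x z.2 z.2) P.V :=
    P.integrable_cont ((hH.continuous.comp (mono_q_cont x ρ)).mul (mono_g_cont x))
  have hγ0 : ∀ v, 0 ≤ G.g x v v := fun v =>
    add_nonneg real_inner_self_nonneg real_inner_self_nonneg
  -- facts on the small ball
  have small : ∀ z ∈ G.SM, ‖z.1 - x‖ ≤ c * ρ → mono_Q G.toPre x (ρ⁻¹ • (z.1 - x)) ≤ 1 ∧
      1 / 4 ≤ G.g x z.2 z.2 ∧ ‖z.2 - G.π x z.2‖ ≤ CL * ρ ∧ ‖G.J z.1 z.2 - G.J x z.2‖ ≤ CL * ρ := by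
    rintro z ⟨hy, hπ, hv⟩ hB
    have a0 : c * ρ ≤ ρ := mul_le_of_le_one_left hρ.le hc4
    have a1 : ‖z.2 - G.π x z.2‖ ≤ CL * (c * ρ) := by
      have := (G.π z.1 - G.π x).le_of_opNorm_le (hCL x hx z.1 hy).1 z.2
      rw [ContinuousLinearMap.sub_apply, hπ, hv, mul_one] at this
      exact this.trans (by gcongr)
    have a2 : ‖G.J z.1 z.2 - G.J x z.2‖ ≤ CL * (c * ρ) := by
      have := (G.J z.1 - G.J x).le_of_opNorm_le (hCL x hx z.1 hy).2 z.2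
      rw [ContinuousLinearMap.sub_apply, hv, mul_one] at this
      exact this.trans (by gcongr)
    refine ⟨?_, ?_, a1.trans (by gcongr), a2.trans (by gcongr)⟩
    · rw [← mono_norm_w hρ] at hB
      have a3 := le_of_mul_le_mul_right hB hρ
      calc _ ≤ 6 * Cb ^ 2 * ‖ρ⁻¹ • (z.1 - x)‖ ^ 2 := mono_Q_le _ hCb1 (hCb x hx).1 (hCb x hx).2 _
        _ ≤ 6 * Cb ^ 2 * c ^ 2 := by gcongr
        _ = 6 * (c * Cb) ^ 2 := by ring
        _ ≤ 6 * (1 / 3) ^ 2 := by gcongr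
        _ ≤ 1 := by norm_num
    · have a3 : CL * (c * ρ) ≤ 1 / 2 := by
        calc CL * (c * ρ) = c * CL * ρ := by ring
          _ ≤ 1 / 2 * 1 := by gcongr
          _ = 1 / 2 := by norm_num
      have a4 : 1 / 2 ≤ ‖G.π x z.2‖ := by
        have := norm_sub_norm_le z.2 (G.π x z.2)
        linarith
      have a5 : (1 / 2) ^ 2 ≤ ‖G.π x z.2‖ ^ 2 := by gcongr
      rw [Pre.g, real_inner_self_eq_norm_sq, real_inner_self_eq_norm_sq]
      linarith [sq_nonneg ‖G.J x z.2‖]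
  set V₆ := P.V.real {z | z.1 ∈ Metric.closedBall x (6 * ρ)} with hV₆
  have hV₆0 : 0 ≤ V₆ := measureReal_nonneg
  have hdens : P.dens x (6 * ρ) = V₆ / (36 * ρ ^ 2) := by
    rw [dens, ← hV₆]; congr 1; ring
  have hdens0 := P.dens_nonneg x (6 * ρ)
  refine ⟨?_, ?_, fun n hn hBd _ => ?_⟩
  · have h1 : ∀ᵐ z ∂P.V, {z : A N × A N | z.1 ∈ Metric.closedBall x (c * ρ)}.indicator
        (fun _ => c₀ * (1 / 4)) z ≤ H (mono_Q G.toPre x (ρ⁻¹ • (z.1 - x))) * G.g x z.2 z.2 := by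
      filter_upwards [P.ae_SM] with z hz
      by_cases hB : z.1 ∈ Metric.closedBall x (c * ρ)
      · rw [indicator_of_mem (by exact hB)]
        obtain ⟨s1, s2, -⟩ := small z hz (mem_closedBall_iff_norm.1 hB)
        have s3 := (hlow _ (mono_Q_nonneg _ _ _) s1).1
        exact mul_le_mul s3 s2 (by norm_num) (hc₀.le.trans s3)
      · rw [indicator_of_notMem (by exact hB)]
        exact mul_nonneg (hb _ (mono_Q_nonneg _ _ _)).1 (hγ0 _)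
    have h2 := integral_mono_ae (P.mono_integrable_ind _ _ _) i1 h1
    rw [P.mono_integral_ind] at h2
    set Vc := P.V.real {z | z.1 ∈ Metric.closedBall x (c * ρ)} with hVc
    have hVc0 : 0 ≤ Vc := measureReal_nonneg
    have h3 : c ^ 2 ≤ 4 := by nlinarith
    calc c * P.dens x (c * ρ) = c ^ 2 * (Vc / (c ^ 3 * ρ ^ 2)) := by
          rw [dens, ← hVc]; field_simp
      _ ≤ 4 * (Vc / (c ^ 3 * ρ ^ 2)) := by gcongr
      _ = M * (c₀ * (1 / 4) * Vc) / ρ ^ 2 := by rw [hM]; field_simp; ring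
      _ ≤ M * P.mono_a H x ρ / ρ ^ 2 := by gcongr; exact h2
  · have h1 : ∀ᵐ z ∂P.V, H (mono_Q G.toPre x (ρ⁻¹ • (z.1 - x))) * G.g x z.2 z.2 ≤
        {z : A N × A N | z.1 ∈ Metric.closedBall x (6 * ρ)}.indicator
          (fun _ => C₀ * (2 * Cb ^ 2)) z := by
      filter_upwards [P.ae_SM] with z hz
      by_cases hB : z.1 ∈ Metric.closedBall x (6 * ρ)
      · rw [indicator_of_mem (by exact hB)]
        refine mul_le_mul (hb _ (mono_Q_nonneg _ _ _)).2.1 ?_ (hγ0 _) hC₀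
        have a3 : ‖G.J x z.2‖ ≤ Cb := by
          simpa [hz.2.2] using (G.J x).le_of_opNorm_le (hCb x hx).2 z.2
        have a4 : ‖G.π x z.2‖ ≤ Cb := by
          simpa [hz.2.2] using (G.π x).le_of_opNorm_le (hCb x hx).1 z.2
        rw [Pre.g, real_inner_self_eq_norm_sq, real_inner_self_eq_norm_sq, two_mul]
        gcongr
      · rw [indicator_of_notMem (by exact hB)]
        rw [mem_closedBall_iff_norm, not_le, ← mono_norm_w hρ] at hB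
        have a1 := lt_of_mul_lt_mul_right hB hρ.le
        have a2 := mono_Q_ge G.toPre x (ρ⁻¹ • (z.1 - x))
        rw [hH0 _ (by nlinarith), zero_mul]
    have h2 := integral_mono_ae i1 (P.mono_integrable_ind _ _ _) h1
    rw [P.mono_integral_ind, ← hV₆] at h2
    calc M * P.mono_a H x ρ / ρ ^ 2 ≤ M * (C₀ * (2 * Cb ^ 2) * V₆) / ρ ^ 2 := by
          gcongr; exact h2
      _ = M * (C₀ * (2 * Cb ^ 2)) * 36 * P.dens x (6 * ρ) := by rw [hdens]; field_simp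
      _ ≤ _ := by
          gcongr
          rw [add_assoc]
          exact le_add_of_nonneg_right (by positivity)
  · have i3 := P.integrable_cont (mono_Gd_cont (G := G) hh x ρ)
    have hGd : ∀ z, 0 ≤ mono_Gd G h x ρ z := fun z =>
      mul_nonneg (neg_nonneg.2 (hb _ (mono_Q_nonneg _ _ _)).2.2.2.2) (mono_defect_nonneg hx F _ _)
    have hset : MeasurableSet {z : A N × A N | ‖x - z.1‖ ≤ c * ρ} :=
      (isClosed_le (by fun_prop) continuous_const).measurableSet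
    have h1 : ∀ᵐ z ∂P.V, {z : A N × A N | ‖x - z.1‖ ≤ c * ρ}.indicator
        (fun z => perp2 (G.Lh z) (x - z.1)) z ≤ ρ ^ 2 * (16 / c₀) * mono_Gd G h x ρ z +
        {z : A N × A N | z.1 ∈ Metric.closedBall x (6 * ρ)}.indicator
          (fun _ => 32 * CL ^ 2 * ρ ^ 4) z := by
      filter_upwards [P.ae_SM] with z hz
      by_cases hB : ‖x - z.1‖ ≤ c * ρ
      · rw [indicator_of_mem (by exact hB)]
        rw [norm_sub_rev] at hB
        have a0 : c * ρ ≤ 6 * ρ := by gcongr; linarith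
        rw [indicator_of_mem (by exact mem_closedBall_iff_norm.2 (hB.trans a0))]
        obtain ⟨s1, s2, s3, s4⟩ := small z hz hB
        have s5 := mono_perp2_le hx F hz s1 s2 s3 s4
        have s6 := (hlow _ (mono_Q_nonneg _ _ _) s1).2
        have s7 := mul_le_mul_of_nonneg_right s6
          (mono_defect_nonneg hx F (ρ⁻¹ • (z.1 - x)) z.2)
        have e : x - z.1 = (-ρ) • ρ⁻¹ • (z.1 - x) := by
          rw [smul_smul, neg_mul, mul_inv_cancel₀ hρ.ne', neg_one_smul, neg_sub]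
        rw [e, Pre.perp2_smul, neg_sq]
        change c₀ * _ ≤ mono_Gd G h x ρ z at s7
        rw [← le_div_iff₀' hc₀] at s7
        calc _ ≤ ρ ^ 2 * (16 * (mono_Gd G h x ρ z / c₀) + 32 * (CL * ρ) ^ 2) := by
              gcongr
              exact s5.trans (by gcongr)
          _ = _ := by ring
      · rw [indicator_of_notMem (by exact hB)]
        exact add_nonneg (mul_nonneg (by positivity) (hGd z))
          (indicator_nonneg (fun _ _ => by positivity) _)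
    have h0 : 0 ≤ᵐ[P.V] {z : A N × A N | ‖x - z.1‖ ≤ c * ρ}.indicator
        (fun z => perp2 (G.Lh z) (x - z.1)) := by
      filter_upwards [P.ae_SM] with z hz
      exact indicator_apply_nonneg fun _ => Pre.perp2_nonneg hz _
    have h2 := integral_mono_of_nonneg h0
      ((i3.const_mul _).add (P.mono_integrable_ind _ _ _)) h1
    simp only [Pi.add_apply] at h2
    rw [integral_indicator hset, integral_add (i3.const_mul _) (P.mono_integrable_ind _ _ _),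
      integral_const_mul, P.mono_integral_ind, ← hV₆] at h2
    have h3 := hint x hx ρ hρ hρ1 n hn hBd
    rw [← hV₆] at h3
    set Gi := ∫ z, mono_Gd G h x ρ z ∂P.V
    have h4 : c * P.hgt x (c * ρ) ≤ M * Gi / ρ ^ 2 + 32 * CL ^ 2 / c ^ 3 * V₆ := by
      calc c * P.hgt x (c * ρ) ≤
            c * ((ρ ^ 2 * (16 / c₀) * Gi + 32 * CL ^ 2 * ρ ^ 4 * V₆) / (c * ρ) ^ 4) := by
            rw [hgt]; gcongr
        _ = _ := by rw [hM]; field_simp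
    have h5 : M * P.mono_a H x ρ / ρ ^ 2 + M * Gi / ρ ^ 2 ≤
        M * P.mono_a H x (2 * ρ) / (2 * ρ) ^ 2 + M * (C₁ * ρ * (V₆ + n * ρ ^ 2)) / ρ ^ 2 := by
      have e1 : M * P.mono_a H x ρ / ρ ^ 2 + M * Gi / ρ ^ 2 =
          M * P.mono_a H x (2 * ρ) / (2 * ρ) ^ 2 +
            M * (P.mono_a H x ρ - P.mono_a H x (2 * ρ) / 4 + Gi) / ρ ^ 2 := by
        field_simp; ring
      rw [e1]
      gcongr
    have e2 : V₆ = 36 * ρ ^ 2 * P.dens x (6 * ρ) := by rw [hdens]; field_simp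
    have h6 : M * (C₁ * ρ * (V₆ + n * ρ ^ 2)) / ρ ^ 2 ≤
        36 * M * C₁ * ρ * (P.dens x (6 * ρ) + n) := by
      calc _ = M * C₁ * ρ * (36 * P.dens x (6 * ρ) + n) := by rw [e2]; field_simp
        _ ≤ M * C₁ * ρ * (36 * P.dens x (6 * ρ) + 36 * n) := by gcongr; linarith
        _ = _ := by ring
    have h7 : 32 * CL ^ 2 / c ^ 3 * V₆ ≤
        36 * (32 * CL ^ 2) / c ^ 3 * ρ * (P.dens x (6 * ρ) + n) := by
      calc _ = 36 * (32 * CL ^ 2) / c ^ 3 * ρ * (ρ * P.dens x (6 * ρ)) := by rw [e2]; ring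
        _ ≤ _ := by
          gcongr
          nlinarith
    have h8 : 0 ≤ M * (C₀ * (2 * Cb ^ 2)) * 36 * ρ * (P.dens x (6 * ρ) + n) := by positivity
    linarith

end Dual

end Crest.Agent.R240
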