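import Crest.Agent.R240.Sob

/-! Row 240: the constant coefficient parametrix on `ℝ⁴`.

Let `Π₀ = pm id Jst`. For a Schwartz function `u` (here: smooth with compact support,
`HasCompactSupport.toSchwartzMap` or similar) put `r = (1 - Δ)⁻¹ Π₀ u` (Fourier multiplier
`(1 + 4π²|ξ|²)⁻¹`, see `SchwartzMap.fourierMultiplierCLM`,
`Function.hasTemperateGrowth_one_add_norm_sq_rpow`) and `s l = -κ ∑ k, ∂ₖ r (k, l)` for the right
constant `κ`: for `a` with values in the range of `Π₀` (antisymmetric, spanned by the tensors with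
entries `a02 = -a13`, `a03 = a12`, `a01 = a23 = 0`) one checks `Π₀ d1 (l ↦ ∑ k ∂ₖ a (k,l)) = Δ a / 4`
(or another positive constant; symmetry of second derivatives), so that
`Π₀ d1 s = -Δ r = Π₀ u - r`. The bounds follow from Plancherel since the symbols
`ξᵢ ξⱼ / (1 + 4π²|ξ|²)`, `ξᵢ / (1 + 4π²|ξ|²)`, `1 / (1 + 4π²|ξ|²)` are bounded. Multipliers commute
with derivatives. (An equivalent route: prove everything for scalar Schwartz functions:
a linear operator `T = (1 - Δ)⁻¹` on Schwartz space with `T f - Δ T f = f`, `∂ₖ T = T ∂ₖ` and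
`‖T f‖₂, ‖∂ᵢ T f‖₂, ‖∂ᵢ∂ⱼ T f‖₂ ≤ ‖f‖₂`; real-valuedness can be obtained by taking real parts.) -/

set_option autoImplicit false

open scoped ContDiff RealInnerProductSpace Topology
open MeasureTheory Set Filter

noncomputable section

namespace Crest.Agent.R240

/-- coordinate derivative on `ℝ⁴` -/
abbrev D₀ {E : Type} [NormedAddCommGroup E] [NormedSpace ℝ E] (k : Fin 4) (u : A 4 → E) :
    A 4 → E := D (fun _ => ContinuousLinearMap.id ℝ (A 4)) k u

section aux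

open scoped SchwartzMap FourierTransform LineDeriv

/-- the symbol of the resolvent -/
def resolv_g (ξ : A 4) : ℝ := (1 + ‖(2 * Real.pi) • ξ‖ ^ 2) ^ (-1 : ℝ)

theorem resolv_g_temp : resolv_g.HasTemperateGrowth :=
  (Function.hasTemperateGrowth_one_add_norm_sq_rpow (A 4) (-1)).comp
    ((2 * Real.pi) • ContinuousLinearMap.id ℝ (A 4)).hasTemperateGrowth

theorem resolv_g_eq (ξ : A 4) : resolv_g ξ = (1 + ∑ k, (2 * Real.pi * ξ k) ^ 2)⁻¹ := by
  rw [resolv_g, Real.rpow_neg_one, EuclideanSpace.real_norm_sq_eq]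
  rfl

/-- the resolvent on Schwartz space -/
def resolv_R (u : 𝓢(A 4, ℂ)) : 𝓢(A 4, ℂ) := SchwartzMap.fourierMultiplierCLM ℂ resolv_g u

theorem resolv_fourier_R (u : 𝓢(A 4, ℂ)) (ξ : A 4) :
    𝓕 (resolv_R u) ξ = resolv_g ξ * 𝓕 u ξ := by
  rw [resolv_R, SchwartzMap.fourierMultiplierCLM_apply, FourierTransform.fourier_fourierInv_eq,
    SchwartzMap.smulLeftCLM_apply_apply resolv_g_temp, Complex.real_smul]

theorem resolv_fourier_D (k : Fin 4) (u : 𝓢(A 4, ℂ)) (ξ : A 4) :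
    𝓕 (∂_{eb k} u) ξ = Complex.I * (2 * Real.pi * ξ k : ℝ) * 𝓕 u ξ := by
  rw [SchwartzMap.fourier_lineDerivOp_eq, smul_apply,
    SchwartzMap.smulLeftCLM_apply_apply (Function.hasTemperateGrowth_inner_left _)]
  simp only [eb, EuclideanSpace.inner_single_right, Complex.real_smul, smul_eq_mul]
  simp only [one_mul, conj_trivial]
  push_cast
  ring

theorem resolv_ext {u v : 𝓢(A 4, ℂ)} (h : ∀ ξ, 𝓕 u ξ = 𝓕 v ξ) : u = v := by
  rw [← FourierTransform.fourierInv_fourier_eq (F := 𝓢(A 4, ℂ)) u,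
    ← FourierTransform.fourierInv_fourier_eq (F := 𝓢(A 4, ℂ)) v, SchwartzMap.ext h]

theorem resolv_lpNorm_eq (u : 𝓢(A 4, ℂ)) :
    lpNorm u 2 volume = lpNorm (𝓕 u : 𝓢(A 4, ℂ)) 2 volume := by
  have h := SchwartzMap.norm_fourier_toL2_eq u
  rw [SchwartzMap.norm_toLp, SchwartzMap.norm_toLp, toReal_eLpNorm (u.memLp 2 volume).1,
    toReal_eLpNorm ((𝓕 u).memLp 2 volume).1] at h
  exact h.symm

theorem resolv_mono {E F : Type} [NormedAddCommGroup E] [NormedAddCommGroup F] {u : A 4 → E}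
    {v : A 4 → F} (hu : AEStronglyMeasurable u volume) (hv : MemLp v 2 volume)
    (h : ∀ x, ‖u x‖ ≤ ‖v x‖) : lpNorm u 2 volume ≤ lpNorm v 2 volume := by
  rw [← toReal_eLpNorm hu, ← toReal_eLpNorm hv.1]
  exact ENNReal.toReal_mono hv.2.ne (eLpNorm_mono h)

theorem resolv_le {u v : 𝓢(A 4, ℂ)} {c : A 4 → ℂ} (h : ∀ ξ, 𝓕 u ξ = c ξ * 𝓕 v ξ)
    (hc : ∀ ξ, ‖c ξ‖ ≤ 1) : lpNorm (fun p => (u p).re) 2 volume ≤ lpNorm v 2 volume := by
  refine (resolv_mono (Complex.continuous_re.comp u.continuous).aestronglyMeasurable (u.memLp 2)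
    fun x => Complex.abs_re_le_norm _).trans ?_
  rw [resolv_lpNorm_eq u, resolv_lpNorm_eq v]
  refine resolv_mono ((𝓕 u).memLp 2).1 ((𝓕 v).memLp 2) fun ξ => ?_
  rw [h, norm_mul]
  exact mul_le_of_le_one_left (norm_nonneg _) (hc ξ)

theorem resolv_D_re (k : Fin 4) (u : 𝓢(A 4, ℂ)) :
    D₀ k (fun p => (u p).re) = fun p => (∂_{eb k} u p).re := by
  funext p
  exact congrArg (fun L : A 4 →L[ℝ] ℝ => L (eb k))
    (Complex.reCLM.hasFDerivAt.comp p (u.hasFDerivAt p)).fderiv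

theorem resolv_comm (k : Fin 4) (u : 𝓢(A 4, ℂ)) :
    ∂_{eb k} (resolv_R u) = resolv_R (∂_{eb k} u) :=
  resolv_ext fun ξ => by
    rw [resolv_fourier_D, resolv_fourier_R, resolv_fourier_R, resolv_fourier_D]
    ring

theorem resolv_eq (u : 𝓢(A 4, ℂ)) :
    resolv_R u - ∑ k : Fin 4, ∂_{eb k} (∂_{eb k} (resolv_R u)) = u := by
  refine resolv_ext fun ξ => ?_
  have h : (0 : ℝ) < 1 + ∑ k, (2 * Real.pi * ξ k) ^ 2 := by positivity
  have h1 : ((resolv_g ξ * (1 + ∑ k, (2 * Real.pi * ξ k) ^ 2) : ℝ) : ℂ) = 1 := by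
    rw [resolv_g_eq, inv_mul_cancel₀ h.ne', Complex.ofReal_one]
  rw [← SchwartzMap.fourierTransformCLM_apply ℂ, map_sub, map_sum]
  simp only [SchwartzMap.fourierTransformCLM_apply, sub_apply, Fin.sum_univ_four,
    add_apply, resolv_fourier_D, resolv_fourier_R] at h1 ⊢
  push_cast at h1 ⊢
  linear_combination (𝓕 u ξ) * h1 - (resolv_g ξ * 𝓕 u ξ * (2 * Real.pi) ^ 2 *
    (ξ 0 ^ 2 + ξ 1 ^ 2 + ξ 2 ^ 2 + ξ 3 ^ 2)) * Complex.I_sq

theorem resolv_bd (ξ : A 4) {a b : ℝ}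
    (ha : a ^ 2 ≤ 1 + ∑ k, (2 * Real.pi * ξ k) ^ 2) (hb : b ^ 2 ≤ 1 + ∑ k, (2 * Real.pi * ξ k) ^ 2) :
    |a| * |b| * |resolv_g ξ| ≤ 1 := by
  have h : (0 : ℝ) < 1 + ∑ k, (2 * Real.pi * ξ k) ^ 2 := by positivity
  rw [resolv_g_eq, abs_of_pos (inv_pos.2 h), mul_inv_le_iff₀ h, one_mul]
  nlinarith [sq_nonneg (|a| - |b|), sq_abs a, sq_abs b]

theorem resolv_one_le (ξ : A 4) : (1 : ℝ) ^ 2 ≤ 1 + ∑ k, (2 * Real.pi * ξ k) ^ 2 := by
  rw [one_pow]
  exact le_add_of_nonneg_right (by positivity)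

theorem resolv_k_le (ξ : A 4) (i : Fin 4) :
    (2 * Real.pi * ξ i) ^ 2 ≤ 1 + ∑ k, (2 * Real.pi * ξ k) ^ 2 :=
  le_add_of_nonneg_of_le zero_le_one (Finset.single_le_sum
    (f := fun k => (2 * Real.pi * ξ k) ^ 2) (fun _ _ => sq_nonneg _) (Finset.mem_univ i))

/-- a real function as a Schwartz function -/
def resolv_S {f : A 4 → ℝ} (h : ContDiff ℝ ∞ f ∧ HasCompactSupport f) : 𝓢(A 4, ℂ) :=
  (h.2.comp_left (g := Complex.ofReal) rfl).toSchwartzMap (Complex.ofRealCLM.contDiff.comp h.1)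

theorem resolv_S_apply {f : A 4 → ℝ} (h : ContDiff ℝ ∞ f ∧ HasCompactSupport f) (p : A 4) :
    resolv_S h p = f p := rfl

theorem resolv_D_sm {f : A 4 → ℝ} (h : ContDiff ℝ ∞ f ∧ HasCompactSupport f) (k : Fin 4) :
    ContDiff ℝ ∞ (D₀ k f) ∧ HasCompactSupport (D₀ k f) :=
  ⟨(h.1.fderiv_right (m := ∞) le_rfl).clm_apply contDiff_const, h.2.fderiv_apply ℝ (eb k)⟩

theorem resolv_S_D {f : A 4 → ℝ} (h : ContDiff ℝ ∞ f ∧ HasCompactSupport f) (k : Fin 4) :
    resolv_S (resolv_D_sm h k) = ∂_{eb k} (resolv_S h) := by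
  ext p
  exact (congrArg (fun L : A 4 →L[ℝ] ℂ => L (eb k)) (Complex.ofRealCLM.hasFDerivAt.comp p
    (h.1.differentiable (by simp) p).hasFDerivAt).fderiv).symm

end aux

/-- the resolvent `(1 - Δ)⁻¹` on compactly supported scalar functions -/
theorem exists_resolvent : ∃ T : (A 4 → ℝ) → A 4 → ℝ, ∀ f : A 4 → ℝ, ContDiff ℝ ∞ f →
    HasCompactSupport f → ContDiff ℝ ∞ (T f) ∧ (∀ p, T f p - ∑ k, D₀ k (D₀ k (T f)) p = f p) ∧
      (∀ k, D₀ k (T f) = T (D₀ k f)) ∧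
      MemLp (T f) 2 volume ∧ lpNorm (T f) 2 volume ≤ lpNorm f 2 volume ∧
      (∀ i, lpNorm (D₀ i (T f)) 2 volume ≤ lpNorm f 2 volume) ∧
      ∀ i j, lpNorm (D₀ i (D₀ j (T f))) 2 volume ≤ lpNorm f 2 volume := by
  classical
  refine ⟨fun f => if h : ContDiff ℝ ∞ f ∧ HasCompactSupport f then
    fun p => (resolv_R (resolv_S h) p).re else 0, fun f h1 h2 => ?_⟩
  have h : ContDiff ℝ ∞ f ∧ HasCompactSupport f := ⟨h1, h2⟩
  have h3 : lpNorm (resolv_S h) 2 volume ≤ lpNorm f 2 volume :=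
    resolv_mono ((resolv_S h).memLp 2).1 (h1.continuous.memLp_of_hasCompactSupport h2)
      fun x => (Complex.norm_real _).le
  simp only [dif_pos h, resolv_D_re]
  refine ⟨Complex.reCLM.contDiff.comp ((resolv_R (resolv_S h)).smooth ⊤), fun p => ?_,
    fun k => by rw [resolv_comm, dif_pos (resolv_D_sm h k), resolv_S_D],
    ((resolv_R (resolv_S h)).memLp 2).re, ?_, fun i => ?_, fun i j => ?_⟩
  · have h4 := congrArg (fun u : SchwartzMap (A 4) ℂ => (u p).re) (resolv_eq (resolv_S h))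
    simpa only [sub_apply, Fin.sum_univ_four, add_apply, Complex.sub_re,
      Complex.add_re, resolv_S_apply, Complex.ofReal_re] using h4
  · refine (resolv_le (resolv_fourier_R _) fun ξ => ?_).trans h3
    simpa using resolv_bd ξ (resolv_one_le ξ) (resolv_one_le ξ)
  · refine (resolv_le (c := fun ξ => Complex.I * (2 * Real.pi * ξ i : ℝ) * resolv_g ξ)
      (fun ξ => by rw [resolv_fourier_D, resolv_fourier_R]; ring) fun ξ => ?_).trans h3
    have h4 := resolv_bd ξ (resolv_one_le ξ) (resolv_k_le ξ i)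
    rw [abs_one] at h4
    simpa only [norm_mul, Complex.norm_I, Complex.norm_real, Real.norm_eq_abs, abs_mul] using h4
  · refine (resolv_le (c := fun ξ => Complex.I * (2 * Real.pi * ξ i : ℝ) *
        (Complex.I * (2 * Real.pi * ξ j : ℝ)) * resolv_g ξ)
      (fun ξ => by rw [resolv_fourier_D, resolv_fourier_D, resolv_fourier_R]; ring)
      fun ξ => ?_).trans h3
    simpa only [norm_mul, Complex.norm_I, Complex.norm_real, Real.norm_eq_abs, one_mul, abs_mul]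
      using resolv_bd ξ (resolv_k_le ξ i) (resolv_k_le ξ j)

end Crest.Agent.R240
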