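import Crest.Agent.R240.Basic

/-! Row 240: the derivations `D`, `L²` norms, Riesz representation. -/

set_option autoImplicit false
set_option linter.unusedSectionVars false
set_option linter.unusedVariables false

open scoped ContDiff RealInnerProductSpace Topology
open MeasureTheory Set Filter

noncomputable section

namespace Crest.Agent.R240

variable {N : ℕ} {E F : Type} [NormedAddCommGroup E] [NormedSpace ℝ E] [NormedAddCommGroup F]
  [NormedSpace ℝ F]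

/-- the values of `π` are tangent to `S` -/
def Base.Tan (B : Base N) : Prop := ∀ x ∈ B.S, ∀ v, B.π x v ∈ tangentConeAt ℝ B.S x

theorem ballBase_tan (p₀ : A 4) {r : ℝ} (hr : 0 < r) : (ballBase p₀ r).Tan := by
  intro x hx v
  change v ∈ tangentConeAt ℝ (Metric.closedBall p₀ r) x
  have hx' : ‖x - p₀‖ ≤ r := mem_closedBall_iff_norm.1 hx
  obtain ⟨σ, hσ, hσ'⟩ : ∃ σ : ℝ, σ * σ = 1 ∧ σ * ⟪x - p₀, v⟫ ≤ 0 := by
    rcases le_total ⟪x - p₀, v⟫ (0 : ℝ) with h | h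
    · exact ⟨1, by norm_num, by linarith⟩
    · exact ⟨-1, by norm_num, by linarith⟩
  set K := ‖v‖ ^ 2 / r ^ 2 with hK
  have hK0 : 0 ≤ K := by positivity
  have hKr : K * r ^ 2 = ‖v‖ ^ 2 := by rw [hK]; field_simp
  refine mem_tangentConeAt_of_seq (𝓝[>] (0 : ℝ)) (fun t => σ / t)
    (fun t => (σ * t) • v - (K * t ^ 2) • (x - p₀)) ?_ ?_ ?_
  · refine tendsto_nhdsWithin_of_tendsto_nhds (Continuous.tendsto' (by fun_prop) _ _ (by simp))
  · have h1 : ∀ᶠ t : ℝ in 𝓝[>] 0, K * t ^ 2 < 1 :=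
      nhdsWithin_le_nhds ((Continuous.tendsto' (f := fun t : ℝ => K * t ^ 2) (by fun_prop) 0 0
        (by simp)).eventually_lt_const one_pos)
    filter_upwards [h1, self_mem_nhdsWithin] with t ht ht0
    have ht0' : 0 < t := ht0
    rw [mem_closedBall_iff_norm]
    have e : x + ((σ * t) • v - (K * t ^ 2) • (x - p₀)) - p₀ =
        (1 - K * t ^ 2) • (x - p₀) + (σ * t) • v := by module
    rw [e]
    refine le_of_sq_le_sq ?_ hr.le
    rw [norm_add_sq_real, inner_smul_left, inner_smul_right, norm_smul, norm_smul, mul_pow, mul_pow,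
      Real.norm_eq_abs, Real.norm_eq_abs, sq_abs, sq_abs, conj_trivial]
    have h2 : 0 ≤ K * t ^ 2 := by positivity
    have h3 : ‖x - p₀‖ ^ 2 ≤ r ^ 2 := pow_le_pow_left₀ (norm_nonneg _) hx' 2
    have h4 : (1 - K * t ^ 2) ^ 2 * ‖x - p₀‖ ^ 2 ≤ (1 - K * t ^ 2) * r ^ 2 :=
      mul_le_mul (by nlinarith) h3 (by positivity) (by linarith)
    have h5 : (1 - K * t ^ 2) * (σ * t * ⟪x - p₀, v⟫) ≤ 0 := by
      have : σ * t * ⟪x - p₀, v⟫ ≤ 0 := by nlinarith
      exact mul_nonpos_of_nonneg_of_nonpos (by linarith) this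
    have h6 : (σ * t) ^ 2 * ‖v‖ ^ 2 = K * t ^ 2 * r ^ 2 := by
      rw [← hKr]; linear_combination (t ^ 2 * K * r ^ 2) * hσ
    linarith
  · have h1 : Tendsto (fun t : ℝ => v - (σ * K * t) • (x - p₀)) (𝓝[>] 0) (𝓝 v) :=
      tendsto_nhdsWithin_of_tendsto_nhds (Continuous.tendsto' (by fun_prop) _ _ (by simp))
    refine h1.congr' ?_
    filter_upwards [self_mem_nhdsWithin] with t ht0
    have ht0' : t ≠ 0 := ne_of_gt ht0
    rw [smul_sub (σ / t), smul_smul, smul_smul]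
    have e1 : σ / t * (σ * t) = 1 := by field_simp; linarith
    have e2 : σ / t * (K * t ^ 2) = σ * K * t := by field_simp
    rw [e1, e2, one_smul]

theorem D_sm {π : A N → A N →L[ℝ] A N} (hπ : ContDiff ℝ ∞ π) (k : Fin N) {u : A N → E}
    (hu : ContDiff ℝ ∞ u) : ContDiff ℝ ∞ (D π k u) := by
  exact (hu.fderiv_right (m := ∞) (by simp)).clm_apply (hπ.clm_apply contDiff_const)

theorem D_add (π : A N → A N →L[ℝ] A N) (k : Fin N) {u v : A N → E} (hu : ContDiff ℝ ∞ u)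
    (hv : ContDiff ℝ ∞ v) : D π k (fun x => u x + v x) = fun x => D π k u x + D π k v x := by
  funext x
  simp only [D]
  rw [fderiv_fun_add (hu.differentiable (by simp) x) (hv.differentiable (by simp) x)]
  rfl

theorem D_sub (π : A N → A N →L[ℝ] A N) (k : Fin N) {u v : A N → E} (hu : ContDiff ℝ ∞ u)
    (hv : ContDiff ℝ ∞ v) : D π k (fun x => u x - v x) = fun x => D π k u x - D π k v x := by
  funext x
  simp only [D]
  rw [fderiv_fun_sub (hu.differentiable (by simp) x) (hv.differentiable (by simp) x)]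
  rfl

theorem D_const_smul (π : A N → A N →L[ℝ] A N) (k : Fin N) (s : ℝ) {u : A N → E}
    (hu : ContDiff ℝ ∞ u) : D π k (fun x => s • u x) = fun x => s • D π k u x := by
  funext x
  simp only [D]
  rw [fderiv_fun_const_smul (hu.differentiable (by simp) x)]
  rfl

theorem D_clm_apply (π : A N → A N →L[ℝ] A N) (k : Fin N) {b : A N → E →L[ℝ] F} {u : A N → E}
    (hb : ContDiff ℝ ∞ b) (hu : ContDiff ℝ ∞ u) :
    D π k (fun x => b x (u x)) = fun x => D π k b x (u x) + b x (D π k u x) := by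
  funext x
  simp only [D]
  rw [fderiv_clm_apply (hb.differentiable (by simp) x) (hu.differentiable (by simp) x)]
  simp [add_comm]

/-- the tangential derivative is recovered from the `D π k` -/
theorem fderiv_π_eq_sum (π : A N → A N →L[ℝ] A N) (u : A N → E) (x v : A N) :
    fderiv ℝ u x (π x v) = ∑ k, v k • D π k u x := by
  conv_lhs => rw [← sum_eb v]
  simp only [map_sum, map_smul, D]

namespace Base
variable (B : Base N)

theorem ae_mem : ∀ᵐ x ∂B.m, x ∈ B.S := by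
  exact B.m_S

theorem memLp_cont {u : A N → E} (hu : Continuous u) (p : ENNReal) : MemLp u p B.m := by
  obtain ⟨C, hC⟩ := B.cpt.exists_bound_of_continuousOn hu.continuousOn
  exact MemLp.of_bound hu.aestronglyMeasurable C (B.ae_mem.mono hC)

theorem integrable_cont {u : A N → E} (hu : Continuous u) : Integrable u B.m := by
  exact memLp_one_iff_integrable.1 (B.memLp_cont hu 1)

/-! `L2` for square integrable functions -/

theorem L2_nonneg (u : A N → E) : 0 ≤ B.L2 u := by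
  exact lpNorm_nonneg

theorem L2_sq {u : A N → E} (hu : MemLp u 2 B.m) : B.L2 u ^ 2 = ∫ x, ‖u x‖ ^ 2 ∂B.m := by
  unfold L2
  rw [lpNorm_eq_integral_norm_rpow_toReal (by norm_num) (by norm_num) hu.1]
  have h0 : 0 ≤ ∫ x, ‖u x‖ ^ 2 ∂B.m := integral_nonneg fun x => by positivity
  simp only [ENNReal.toReal_ofNat, Real.rpow_ofNat]
  exact Real.rpow_inv_natCast_pow h0 two_ne_zero

theorem L2_add_le {u v : A N → E} (hu : MemLp u 2 B.m) (hv : MemLp v 2 B.m) :
    B.L2 (fun x => u x + v x) ≤ B.L2 u + B.L2 v := by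
  exact lpNorm_add_le (g := v) hu (by norm_num)

theorem L2_const_smul (s : ℝ) {u : A N → E} (hu : MemLp u 2 B.m) :
    B.L2 (fun x => s • u x) = |s| * B.L2 u := by
  exact lpNorm_const_smul s u B.m

theorem L2_congr_ae {u v : A N → E} (h : u =ᵐ[B.m] v) : B.L2 u = B.L2 v := by
  unfold L2 lpNorm
  rw [eLpNorm_congr_ae h]
  by_cases hu : AEStronglyMeasurable u B.m
  · rw [if_pos hu, if_pos (hu.congr h)]
  · rw [if_neg hu, if_neg fun hv => hu (hv.congr h.symm)]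

theorem L2_le_mul {u : A N → E} {v : A N → F} (hu : AEStronglyMeasurable u B.m)
    (hv : MemLp v 2 B.m) {c : ℝ} (hc : 0 ≤ c) (h : ∀ x ∈ B.S, ‖u x‖ ≤ c * ‖v x‖) :
    B.L2 u ≤ c * B.L2 v := by
  have h1 : eLpNorm u 2 B.m ≤ ENNReal.ofReal c * eLpNorm v 2 B.m :=
    eLpNorm_le_mul_eLpNorm_of_ae_le_mul (B.ae_mem.mono h) 2
  unfold L2
  rw [← toReal_eLpNorm hu, ← toReal_eLpNorm hv.1, ← ENNReal.toReal_ofReal hc, ← ENNReal.toReal_mul]
  exact ENNReal.toReal_mono (ENNReal.mul_ne_top ENNReal.ofReal_ne_top hv.eLpNorm_ne_top) h1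

/-- a function bounded by `c` on `W` and vanishing on `S \ W` -/
theorem L2_le_of_bound {u : A N → E} (hu : AEStronglyMeasurable u B.m) {W : Set (A N)}
    (hW : MeasurableSet W) {c : ℝ} (hc : 0 ≤ c) (h : ∀ x ∈ B.S, x ∈ W → ‖u x‖ ≤ c)
    (h0 : ∀ x ∈ B.S, x ∉ W → u x = 0) : B.L2 u ≤ c * √(B.m.real W) := by
  have hv : MemLp (W.indicator fun _ => (1 : ℝ)) 2 B.m := (memLp_const 1).indicator hW
  have h1 := B.L2_le_mul hu hv hc fun x hx => by
    by_cases hxW : x ∈ W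
    · simpa [hxW] using h x hx hxW
    · simp [hxW, h0 x hx hxW]
  have h2 : B.L2 (W.indicator fun _ => (1 : ℝ)) = √(B.m.real W) := by
    rw [← Real.sqrt_sq (B.L2_nonneg (W.indicator fun _ => (1 : ℝ))), B.L2_sq hv,
      ← integral_indicator_one hW]
    congr 2
    funext x
    by_cases hxW : x ∈ W <;> simp [hxW]
  rwa [h2] at h1

theorem sobl2_norm_toLp {u : A N → E} (hu : MemLp u 2 B.m) : ‖hu.toLp u‖ = B.L2 u := by
  rw [Lp.norm_toLp, toReal_eLpNorm hu.1]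
  rfl

theorem sobl2_inner_toLp {H : Type} [NormedAddCommGroup H] [InnerProductSpace ℝ H]
    {u v : A N → H} (hu : MemLp u 2 B.m) (hv : MemLp v 2 B.m) :
    ⟪hu.toLp u, hv.toLp v⟫ = ∫ x, ⟪u x, v x⟫ ∂B.m := by
  rw [L2.inner_def]
  refine integral_congr_ae ?_
  filter_upwards [hu.coeFn_toLp, hv.coeFn_toLp] with x h1 h2
  rw [h1, h2]

theorem sobl2_cs {H : Type} [NormedAddCommGroup H] [InnerProductSpace ℝ H]
    {u v : A N → H} (hu : MemLp u 2 B.m) (hv : MemLp v 2 B.m) :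
    |∫ x, ⟪u x, v x⟫ ∂B.m| ≤ B.L2 u * B.L2 v := by
  rw [← B.sobl2_inner_toLp hu hv, ← B.sobl2_norm_toLp hu, ← B.sobl2_norm_toLp hv]
  exact abs_real_inner_le_norm _ _

theorem integral_norm_mul_le {u : A N → E} {v : A N → F} (hu : MemLp u 2 B.m)
    (hv : MemLp v 2 B.m) : ∫ x, ‖u x‖ * ‖v x‖ ∂B.m ≤ B.L2 u * B.L2 v := by
  have h := B.sobl2_cs hu.norm hv.norm
  unfold L2 at h ⊢
  rw [lpNorm_norm hu.1, lpNorm_norm hv.1] at h
  refine le_trans (le_of_eq ?_) ((le_abs_self _).trans h)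
  simp [mul_comm]

theorem abs_integral_inner_le {ι : Type} [Fintype ι] {u v : A N → EuclideanSpace ℝ ι}
    (hu : MemLp u 2 B.m) (hv : MemLp v 2 B.m) :
    |∫ x, ⟪u x, v x⟫ ∂B.m| ≤ B.L2 u * B.L2 v := by
  exact B.sobl2_cs hu hv

theorem memLp_clm_apply {b : A N → E →L[ℝ] F} (hb : Continuous b) {u : A N → E}
    (hu : MemLp u 2 B.m) : MemLp (fun x => b x (u x)) 2 B.m := by
  obtain ⟨C, hC⟩ := B.cpt.exists_bound_of_continuousOn hb.continuousOn
  have hm : AEStronglyMeasurable (fun x => b x (u x)) B.m :=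
    (isBoundedBilinearMap_apply (𝕜 := ℝ) (E := E) (F := F)).continuous.comp_aestronglyMeasurable
      (hb.aestronglyMeasurable.prodMk hu.1)
  refine MemLp.of_le_mul (c := C) hu hm (B.ae_mem.mono fun x hx => ?_)
  exact ((b x).le_opNorm _).trans (mul_le_mul_of_nonneg_right (hC x hx) (norm_nonneg _))

/-- duality: the norm of an `L²` function is attained by testing -/
theorem L2_le_of_forall {ι : Type} [Fintype ι] {g : A N → EuclideanSpace ℝ ι}
    (hg : MemLp g 2 B.m) {a : ℝ} (ha : 0 ≤ a)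
    (h : ∀ w, MemLp w 2 B.m → |∫ x, ⟪g x, w x⟫ ∂B.m| ≤ a * B.L2 w) : B.L2 g ≤ a := by
  have h1 := h g hg
  have h2 : ∫ x, ⟪g x, g x⟫ ∂B.m = B.L2 g ^ 2 := by
    rw [B.L2_sq hg]
    simp only [real_inner_self_eq_norm_sq]
  rw [h2, abs_of_nonneg (sq_nonneg _)] at h1
  have h3 := B.L2_nonneg g
  by_contra hc
  push Not at hc
  nlinarith

/-- the map from a space of square integrable functions to `L²` -/
def sobl2_T (Z : Submodule ℝ (A N → E)) (hZ : ∀ z ∈ Z, MemLp z 2 B.m) : Z →ₗ[ℝ] Lp E 2 B.m where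
  toFun z := (hZ z z.2).toLp z
  map_add' z z' := MemLp.toLp_add (hZ z z.2) (hZ z' z'.2)
  map_smul' s z := MemLp.toLp_const_smul s (hZ z z.2)

theorem sobl2_rep {ι : Type} [Fintype ι] (Z : Submodule ℝ (A N → EuclideanSpace ℝ ι))
    (hZ : ∀ z ∈ Z, MemLp z 2 B.m) (β : Z →ₗ[ℝ] ℝ) {a : ℝ} (hbd : ∀ u : Z, |β u| ≤ a * B.L2 u.1) :
    ∃ g, MemLp g 2 B.m ∧ ∀ u : Z, β u = ∫ x, ⟪g x, u.1 x⟫ ∂B.m := by
  set T := B.sobl2_T Z hZ with hT
  have hTn : ∀ u : Z, ‖T u‖ = B.L2 u.1 := fun u => B.sobl2_norm_toLp (hZ u u.2)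
  obtain ⟨σ, hσ⟩ := T.rangeRestrict.exists_rightInverse_of_surjective T.range_rangeRestrict
  have hσ' : ∀ y : LinearMap.range T, T (σ y) = y := fun y =>
    congrArg Subtype.val (LinearMap.congr_fun hσ y)
  have hf : ∀ y : LinearMap.range T, ‖(β ∘ₗ σ) y‖ ≤ a * ‖y‖ := fun y => by
    have := hbd (σ y)
    rw [← hTn, hσ'] at this
    exact this
  obtain ⟨φ, hφ, -⟩ := exists_extension_norm_eq (LinearMap.range T)
    ((β ∘ₗ σ).mkContinuous a hf)
  set G := (InnerProductSpace.toDual ℝ (Lp (EuclideanSpace ℝ ι) 2 B.m)).symm φ with hG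
  refine ⟨G, Lp.memLp G, fun u => ?_⟩
  have h1 : β u = β (σ ⟨T u, u, rfl⟩) := by
    have := hbd (u - σ ⟨T u, u, rfl⟩)
    rw [← hTn, map_sub T, hσ', sub_self, norm_zero, mul_zero, map_sub] at this
    exact sub_eq_zero.1 (abs_nonpos_iff.1 this)
  have h2 : φ (T u) = β (σ ⟨T u, u, rfl⟩) := hφ ⟨T u, u, rfl⟩
  rw [h1, ← h2, ← InnerProductSpace.toDual_symm_apply, ← hG,
    ← B.sobl2_inner_toLp (Lp.memLp G) (hZ u u.2), Lp.toLp_coeFn]
  rfl

/-- Riesz representation of a functional on `L²` functions -/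
theorem exists_rep_memLp {ι : Type} [Fintype ι] (β : (A N → EuclideanSpace ℝ ι) → ℝ)
    (hadd : ∀ u v, MemLp u 2 B.m → MemLp v 2 B.m → β (fun x => u x + v x) = β u + β v)
    (hsmul : ∀ (s : ℝ) u, MemLp u 2 B.m → β (fun x => s • u x) = s * β u) {a : ℝ}
    (hbd : ∀ u, MemLp u 2 B.m → |β u| ≤ a * B.L2 u) :
    ∃ g, MemLp g 2 B.m ∧ ∀ u, MemLp u 2 B.m → β u = ∫ x, ⟪g x, u x⟫ ∂B.m := by
  let Z : Submodule ℝ (A N → EuclideanSpace ℝ ι) :=
    { carrier := {u | MemLp u 2 B.m}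
      add_mem' := fun hu hv => MemLp.add hu hv
      zero_mem' := MemLp.zero
      smul_mem' := fun s _ hu => MemLp.const_smul hu s }
  obtain ⟨g, hg, h⟩ := B.sobl2_rep Z (fun z hz => hz)
    { toFun := fun u => β u.1
      map_add' := fun u v => hadd u.1 v.1 u.2 v.2
      map_smul' := fun s u => hsmul s u.1 u.2 } (a := a) fun u => hbd u.1 u.2
  exact ⟨g, hg, fun u hu => h ⟨u, hu⟩⟩

/-- Riesz representation of a functional on smooth functions bounded for the `L²` norm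
(Hahn-Banach `Real.exists_extension_norm_eq` on the range in `Lp`, or
`exists_extension_of_le_sublinear`). -/
theorem exists_rep_smooth {ι : Type} [Fintype ι] (β : (A N → EuclideanSpace ℝ ι) →ₗ[ℝ] ℝ) {a : ℝ}
    (hbd : ∀ u, ContDiff ℝ ∞ u → |β u| ≤ a * B.L2 u) :
    ∃ g, MemLp g 2 B.m ∧ ∀ u, ContDiff ℝ ∞ u → β u = ∫ x, ⟪g x, u x⟫ ∂B.m := by
  let Z : Submodule ℝ (A N → EuclideanSpace ℝ ι) :=
    { carrier := {u | ContDiff ℝ ∞ u}
      add_mem' := fun {u v} (hu : ContDiff ℝ ∞ u) (hv : ContDiff ℝ ∞ v) => hu.add hv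
      zero_mem' := (contDiff_const : ContDiff ℝ ∞ fun _ : A N => (0 : EuclideanSpace ℝ ι))
      smul_mem' := fun s u (hu : ContDiff ℝ ∞ u) => hu.const_smul s }
  obtain ⟨g, hg, h⟩ := B.sobl2_rep Z 
    (fun z (hz : ContDiff ℝ ∞ z) => B.memLp_cont hz.continuous 2)
    (β.domRestrict Z) (a := a) fun u => hbd u.1 u.2
  exact ⟨g, hg, fun u hu => h ⟨u, hu⟩⟩

/-- a function orthogonal to the orthogonal complement of a subspace lies in its closure -/
theorem exists_approx_of_orth {ι : Type} [Fintype ι] (Z : Submodule ℝ (A N → EuclideanSpace ℝ ι))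
    (hZ : ∀ z ∈ Z, MemLp z 2 B.m) {g : A N → EuclideanSpace ℝ ι} (hg : MemLp g 2 B.m)
    (h : ∀ w, MemLp w 2 B.m → (∀ z ∈ Z, ∫ x, ⟪w x, z x⟫ ∂B.m = 0) → ∫ x, ⟪g x, w x⟫ ∂B.m = 0)
    {ε : ℝ} (hε : 0 < ε) : ∃ z ∈ Z, B.L2 (fun x => g x - z x) ≤ ε := by
  set T := B.sobl2_T Z hZ with hT
  have h1 : hg.toLp g ∈ (LinearMap.range T)ᗮᗮ := by
    rw [Submodule.mem_orthogonal']
    intro w hw
    have h2 := h w (Lp.memLp w) fun z hz => by
      rw [← B.sobl2_inner_toLp (Lp.memLp w) (hZ z hz), Lp.toLp_coeFn]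
      exact (Submodule.mem_orthogonal' _ _).1 hw _ ⟨⟨z, hz⟩, rfl⟩
    rwa [← B.sobl2_inner_toLp hg (Lp.memLp w), Lp.toLp_coeFn] at h2
  rw [Submodule.orthogonal_orthogonal_eq_closure] at h1
  obtain ⟨_, ⟨z, rfl⟩, hz⟩ := Metric.mem_closure_iff.1 h1 ε hε
  refine ⟨z, z.2, ?_⟩
  rw [← B.sobl2_norm_toLp (u := fun x => g x - z.1 x) (hg.sub (hZ z z.2))]
  rw [dist_eq_norm] at hz
  exact (le_of_eq (congrArg norm (MemLp.toLp_sub hg (hZ z z.2)))).trans hz.le

end Base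

end Crest.Agent.R240
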