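import Crest.Agent.R240.Chart
import Crest.Prelude.Def_ManifoldTwoForm

/-! Row 240: a compact almost complex four-manifold as a submanifold of Euclidean space.

Take an embedding `e : M → EuclideanSpace ℝ (Fin N)` (`exists_embedding_euclidean_of_compact`:
smooth, closed embedding, injective differential). For `m₀ : M` let `φ = extChartAt (𝓡 4) m₀`,
`f = e ∘ φ.symm` (smooth near `φ m₀`), `pr` a left inverse of `fderiv f (φ m₀)`. By the inverse
function theorem (`ContDiffAt.toOpenPartialHomeomorph`, `ContDiffAt.to_localInverse`) `pr ∘ f`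
has a smooth local inverse `κ`, and `ψ₀ = f ∘ κ` parametrises `S = range e` near `e m₀` as a graph
over `pr`; multiply by a bump function to make it globally smooth (`exists_smooth_ext` on a small
closed ball); `W` comes from the embedding property. On `S` define `π (e m)` as the orthogonal
projection onto the range of `mfderiv e m` and `J (e m) v = mfderiv e m (J m u)` where
`mfderiv e m u = π (e m) v`. Near `e m₀` these are restrictions of smooth functions of `pr x`: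
`π = B (B† B)⁻¹ B†` with `B = fderiv ψ p` (`ContinuousLinearMap.inverse`, `contDiffAt_map_inverse`),
`J = B ∘ J̃ p ∘ pr ∘ π` with `J̃` the smooth expression of `J` in the chart
(`contMDiffAt_hom_bundle`, `inCoordinates`); glue with `exists_smooth_ext`. -/

set_option autoImplicit false

open scoped Manifold ContDiff RealInnerProductSpace Topology
open Set Filter Crest.GeometryTopology.TwoForm

noncomputable section

namespace Crest.Agent.R240

/-- the differential of a map into the ambient space -/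
def dA {N : ℕ} {M : Type*} [TopologicalSpace M] [ChartedSpace (A 4) M] (e : M → A N) (m : M) :
    TangentSpace (𝓡 4) m →L[ℝ] A N := mfderiv (𝓡 4) (𝓡 N) e m

/-- the data relating `M` with its model -/
structure IsModel {N : ℕ} (M : Type*) [TopologicalSpace M] [ChartedSpace (A 4) M]
    (J : Π x : M, TangentSpace (𝓡 4) x →L[ℝ] TangentSpace (𝓡 4) x) (X : Pre N) (e : M → A N) :
    Prop where
  sm : ContMDiff (𝓡 4) (𝓡 N) ∞ e
  emb : Topology.IsClosedEmbedding e
  range_eq : range e = X.S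
  inj : ∀ m, Function.Injective (dA e m)
  π_d : ∀ m (v : TangentSpace (𝓡 4) m),
    X.π (e m) (dA e m v) = dA e m v
  π_mem : ∀ m (a : A N), ∃ v : TangentSpace (𝓡 4) m, X.π (e m) a = dA e m v
  J_d : ∀ m (v : TangentSpace (𝓡 4) m),
    X.J (e m) (dA e m v) = dA e m (J m v)

section
variable {N : ℕ} {M : Type*} [TopologicalSpace M] [ChartedSpace (A 4) M] [IsManifold (𝓡 4) ∞ M]

/-- Graph parametrisations of an embedded manifold; `σ = e⁻¹ ∘ ψ` is a smooth local
parametrisation of `M`. -/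
theorem exists_graph {e : M → A N} (he : ContMDiff (𝓡 4) (𝓡 N) ∞ e)
    (hemb : Topology.IsEmbedding e) (hinj : ∀ m, Function.Injective (dA e m))
    (m₀ : M) : ∃ (ψ : A 4 → A N) (pr : A N →L[ℝ] A 4) (U : Set (A 4)) (W : Set (A N))
      (σ : A 4 → M), IsOpen U ∧ IsOpen W ∧ ContDiff ℝ ∞ ψ ∧ e m₀ ∈ W ∧
      ContMDiffOn (𝓡 4) (𝓡 4) ∞ σ U ∧ (∀ m, e m ∈ W → pr (e m) ∈ U ∧ σ (pr (e m)) = m) ∧
      (∀ p ∈ U, e (σ p) = ψ p ∧ ψ p ∈ W ∧ pr (ψ p) = p) ∧
      ∀ p ∈ U, Function.Surjective (mfderiv (𝓡 4) (𝓡 4) σ p) := by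
  set c := chartAt (A 4) m₀ with hc
  have hm₀ : m₀ ∈ c.source := mem_chart_source _ _
  have hy₀ : c m₀ ∈ c.target := c.map_source hm₀
  have hcs : ContMDiffOn (𝓡 4) (𝓡 4) ∞ c.symm c.target := contMDiffOn_chart_symm
  have hcd : c.MDifferentiable (𝓡 4) (𝓡 4) := mdifferentiable_chart m₀
  set f : A 4 → A N := e ∘ c.symm with hf
  have hfs : ContDiffOn ℝ ∞ f c.target :=
    contMDiffOn_iff_contDiffOn.1 (he.comp_contMDiffOn hcs)
  have hfat : ∀ y ∈ c.target, ContDiffAt ℝ ∞ f y := fun y hy =>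
    hfs.contDiffAt (c.open_target.mem_nhds hy)
  have hBinj : Function.Injective (fderiv ℝ f (c m₀)) := by
    rw [← mfderiv_eq_fderiv, hf, mfderiv_comp (I' := 𝓡 4) _ (he.mdifferentiableAt (by simp))
      (hcd.mdifferentiableAt_symm hy₀)]
    exact (hinj _).comp (hcd.symm.mfderiv_injective hy₀)
  obtain ⟨pr', hpr'⟩ := (fderiv ℝ f (c m₀) : A 4 →ₗ[ℝ] A N).exists_leftInverse_of_injective
    (LinearMap.ker_eq_bot.2 hBinj)
  set pr : A N →L[ℝ] A 4 := LinearMap.toContinuousLinearMap pr' with hpr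
  set g : A 4 → A 4 := pr ∘ f with hg
  have hgs : ContDiffOn ℝ ∞ g c.target := pr.contDiff.comp_contDiffOn hfs
  have hgat : ∀ y ∈ c.target, ContDiffAt ℝ ∞ g y := fun y hy =>
    hgs.contDiffAt (c.open_target.mem_nhds hy)
  have hg' : HasFDerivAt g (ContinuousLinearEquiv.refl ℝ (A 4) : A 4 →L[ℝ] A 4) (c m₀) := by
    have h1 := pr.hasFDerivAt.comp (c m₀) ((hfat _ hy₀).differentiableAt (by simp)).hasFDerivAt
    have h2 : pr.comp (fderiv ℝ f (c m₀)) =
        (ContinuousLinearEquiv.refl ℝ (A 4) : A 4 →L[ℝ] A 4) :=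
      ContinuousLinearMap.ext fun v => LinearMap.congr_fun hpr' v
    rw [← h2]
    exact h1
  set V : Set (A 4) := c.target ∩ fderiv ℝ g ⁻¹'
    range ((↑) : (A 4 ≃L[ℝ] A 4) → A 4 →L[ℝ] A 4) with hV
  have hVo : IsOpen V :=
    (hgs.continuousOn_fderiv_of_isOpen c.open_target (by simp)).isOpen_inter_preimage
      c.open_target ContinuousLinearEquiv.isOpen
  have hy₀V : c m₀ ∈ V := ⟨hy₀, _, hg'.fderiv.symm⟩
  set Φ := ((hgat _ hy₀).toOpenPartialHomeomorph g hg' (by simp)).restrOpen V hVo with hΦ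
  have hΦg : ∀ y, Φ y = g y := fun _ => rfl
  have hΦV : Φ.source ⊆ V := fun _ h => h.2
  have hy₀Φ : c m₀ ∈ Φ.source :=
    ⟨(hgat _ hy₀).mem_toOpenPartialHomeomorph_source hg' (by simp), hy₀V⟩
  have hκ : ∀ p ∈ Φ.target, ContDiffAt ℝ ∞ Φ.symm p ∧
      ∃ L : A 4 ≃L[ℝ] A 4, HasFDerivAt Φ.symm (L : A 4 →L[ℝ] A 4) p := by
    intro p hp
    obtain ⟨h1, L, hL⟩ := hΦV (Φ.map_target hp)
    have h2 : HasFDerivAt Φ (L : A 4 →L[ℝ] A 4) (Φ.symm p) := by
      rw [hL]
      exact ((hgat _ h1).differentiableAt (by simp)).hasFDerivAt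
    exact ⟨Φ.contDiffAt_symm hp h2 (hgat _ h1), L.symm, Φ.hasFDerivAt_symm hp h2⟩
  have hκt : ∀ p ∈ Φ.target, Φ.symm p ∈ c.target := fun p hp => (hΦV (Φ.map_target hp)).1
  obtain ⟨r, hr, hball⟩ := Metric.nhds_basis_closedBall.mem_iff.1
    (Φ.open_target.mem_nhds (Φ.map_source hy₀Φ))
  have hUt : Metric.ball (Φ (c m₀)) r ⊆ Φ.target := Metric.ball_subset_closedBall.trans hball
  obtain ⟨ψ, hψ, hψe⟩ := exists_smooth_ext (S := Metric.closedBall (Φ (c m₀)) r)
    Metric.isClosed_closedBall (f ∘ Φ.symm) fun x hx => ⟨Φ.target, f ∘ Φ.symm, Φ.open_target,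
      hball hx, fun p hp => ((hfat _ (hκt p hp)).comp p (hκ p hp).1).contDiffWithinAt,
      fun _ _ _ => rfl⟩
  have hO : IsOpen (c.source ∩ c ⁻¹' (Φ.source ∩ Φ ⁻¹' Metric.ball (Φ (c m₀)) r)) :=
    c.isOpen_inter_preimage (Φ.isOpen_inter_preimage Metric.isOpen_ball)
  obtain ⟨W, hW, hWe⟩ := hemb.isInducing.isOpen_iff.1 hO
  have hmemW : ∀ m, e m ∈ W ↔
      m ∈ c.source ∧ c m ∈ Φ.source ∧ Φ (c m) ∈ Metric.ball (Φ (c m₀)) r := fun m => by
    change m ∈ e ⁻¹' W ↔ _
    rw [hWe]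
    rfl
  refine ⟨ψ, pr, Metric.ball (Φ (c m₀)) r, W, c.symm ∘ Φ.symm, Metric.isOpen_ball, hW, hψ,
    (hmemW m₀).2 ⟨hm₀, hy₀Φ, Metric.mem_ball_self hr⟩, ?_, ?_, ?_, ?_⟩
  · refine hcs.comp (contMDiffOn_iff_contDiffOn.2 fun p hp => (hκ p (hUt hp)).1.contDiffWithinAt)
      fun p hp => hκt p (hUt hp)
  · intro m hm
    obtain ⟨h1, h2, h3⟩ := (hmemW m).1 hm
    have h4 : pr (e m) = Φ (c m) := by
      rw [hΦg, hg, hf]
      simp only [Function.comp_apply, c.left_inv h1]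
    rw [h4]
    refine ⟨h3, ?_⟩
    simp only [Function.comp_apply, Φ.left_inv h2, c.left_inv h1]
  · intro p hp
    have h1 := hUt hp
    have h2 : ψ p = e (c.symm (Φ.symm p)) := hψe p (Metric.ball_subset_closedBall hp)
    refine ⟨h2.symm, ?_, ?_⟩
    · rw [h2, hmemW, c.right_inv (hκt p h1), Φ.right_inv h1]
      exact ⟨c.map_target (hκt p h1), Φ.map_target h1, hp⟩
    · rw [h2]
      exact Φ.right_inv h1
  · intro p hp
    have h1 := hUt hp
    obtain ⟨-, L, hL⟩ := hκ p h1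
    rw [mfderiv_comp (I' := 𝓡 4) _ (hcd.mdifferentiableAt_symm (hκt p h1))
      hL.differentiableAt.mdifferentiableAt, mfderiv_eq_fderiv, hL.fderiv]
    exact (hcd.symm.mfderiv_surjective (hκt p h1)).comp L.surjective

end

end Crest.Agent.R240
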