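import Crest.Agent.R240.Trans0

/-! Row 240: a compact almost complex four-manifold as a submanifold of Euclidean space.

Take an embedding `e : M → EuclideanSpace ℝ (Fin N)` (`exists_embedding_euclidean_of_compact`:
smooth, closed embedding, injective differential). For `m₀ : M` let `φ = extChartAt (𝓡 4) m₀`,
`f = e ∘ φ.symm` (smooth near `φ m₀`), `pr` a left inverse of `fderiv f (φ m₀)`. By the inverse
function theorem (`ContDiffAt.toOpenPartialHomeomorph`, `ContDiffAt.to_localInverse`) `pr ∘ f`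
has a smooth local inverse `κ`, and `ψ₀ = f ∘ κ` parametrises `S = range e` near `e m₀` as a graph
over `pr`; multiply by a bump function to make it globally smooth (`exists_smooth_ext` on a small
closed ball); `W` comes from the embedding property. On `S` define `π (e m)` as the orthogonal
projection onto the range of `mfderiv e m` and `J (e m) v = mfderiv e m (J m u)` where
`mfderiv e m u = π (e m) v`. Near `e m₀` these are restrictions of smooth functions of `pr x`:
`π = B (B† B)⁻¹ B†` with `B = fderiv ψ p` (`ContinuousLinearMap.inverse`, `contDiffAt_map_inverse`),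
`J = B ∘ J̃ p ∘ pr ∘ π` with `J̃` the smooth expression of `J` in the chart
(`contMDiffAt_hom_bundle`, `inCoordinates`); glue with `exists_smooth_ext`. -/

set_option autoImplicit false

open scoped Manifold ContDiff RealInnerProductSpace Topology
open Set Filter Crest.GeometryTopology.TwoForm

noncomputable section

namespace Crest.Agent.R240

/-- the pseudo-inverse of an injective linear map -/
def trans1_pinv {N : ℕ} (B : A 4 →L[ℝ] A N) : A N →L[ℝ] A 4 :=
  ((ContinuousLinearMap.adjoint B) ∘L B).inverse ∘L ContinuousLinearMap.adjoint B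

theorem trans1_isInvertible {N : ℕ} {B : A 4 →L[ℝ] A N} (hB : Function.Injective B) :
    ((ContinuousLinearMap.adjoint B) ∘L B).IsInvertible := by
  have h1 : Function.Injective ((ContinuousLinearMap.adjoint B) ∘L B) := by
    rw [injective_iff_map_eq_zero]
    intro v hv
    have h2 : ⟪B v, B v⟫ = 0 := by
      rw [← ContinuousLinearMap.adjoint_inner_right]
      have : ContinuousLinearMap.adjoint B (B v) = 0 := hv
      rw [this, inner_zero_right]
    exact hB (by rw [inner_self_eq_zero.1 h2, map_zero])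
  have h2 : Function.Bijective ((ContinuousLinearMap.adjoint B) ∘L B).toLinearMap :=
    ⟨h1, LinearMap.injective_iff_surjective.1 h1⟩
  exact ⟨(LinearEquiv.ofBijective _ h2).toContinuousLinearEquiv, by ext; rfl⟩

theorem trans1_pinv_eq_iff {N : ℕ} {B : A 4 →L[ℝ] A N} (hB : Function.Injective B) (a : A N)
    (u : A 4) : trans1_pinv B a = u ↔
      ContinuousLinearMap.adjoint B a = ContinuousLinearMap.adjoint B (B u) :=
  (trans1_isInvertible hB).inverse_apply_eq

theorem trans1_pinv_apply {N : ℕ} {B : A 4 →L[ℝ] A N} (hB : Function.Injective B) (u : A 4) :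
    trans1_pinv B (B u) = u := (trans1_pinv_eq_iff hB _ _).2 rfl

theorem trans1_pinv_comp {N : ℕ} {B : A 4 →L[ℝ] A N} (hB : Function.Injective B)
    {T T' : A 4 →L[ℝ] A 4} (h1 : ∀ v, T (T' v) = v) (h2 : ∀ v, T' (T v) = v) (a : A N) :
    trans1_pinv (B ∘L T) a = T' (trans1_pinv B a) := by
  have hT : Function.Injective T := Function.LeftInverse.injective h2
  have hBT : Function.Injective (B ∘L T) := hB.comp hT
  rw [trans1_pinv_eq_iff hBT, ContinuousLinearMap.adjoint_comp]
  simp only [ContinuousLinearMap.comp_apply, h1]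
  rw [(trans1_pinv_eq_iff hB a _).1 rfl]

theorem trans1_contDiff_adjoint {N : ℕ} :
    ContDiff ℝ ∞ fun B : A 4 →L[ℝ] A N => ContinuousLinearMap.adjoint B :=
  contDiff_adjoint contDiff_id

theorem trans1_contDiffAt_pinv {N : ℕ} {B : A 4 →L[ℝ] A N} (hB : Function.Injective B) :
    ContDiffAt ℝ ∞ trans1_pinv B := by
  have h1 : ContDiff ℝ ∞ fun B : A 4 →L[ℝ] A N => (ContinuousLinearMap.adjoint B) ∘L B :=
    trans1_contDiff_adjoint.clm_comp contDiff_id
  have h2 := (trans1_isInvertible hB).contDiffAt_map_inverse (n := ∞)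
  exact (ContDiffAt.comp (f := fun B : A 4 →L[ℝ] A N => (ContinuousLinearMap.adjoint B) ∘L B) B h2
    h1.contDiffAt).clm_comp trans1_contDiff_adjoint.contDiffAt

section
variable {N : ℕ} {M : Type*} [TopologicalSpace M] [ChartedSpace (A 4) M] [IsManifold (𝓡 4) ∞ M]

/-- smooth functions on `M` extend to the ambient space -/
theorem trans1_ext {E : Type} [NormedAddCommGroup E] [NormedSpace ℝ E] {e : M → A N}
    (he : ContMDiff (𝓡 4) (𝓡 N) ∞ e) (hemb : Topology.IsClosedEmbedding e)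
    (hinj : ∀ m, Function.Injective (dA e m)) {F : M → E} (hF : ContMDiff (𝓡 4) 𝓘(ℝ, E) ∞ F) :
    ∃ g : A N → E, ContDiff ℝ ∞ g ∧ ∀ m, g (e m) = F m := by
  classical
  obtain ⟨g, hg, hg'⟩ := exists_smooth_ext hemb.isClosed_range
    (Function.extend e F 0) (by
      rintro _ ⟨m₀, rfl⟩
      obtain ⟨ψ, pr, U, W, σ, hU, hW, -, h0, hσ, h1, -, -⟩ :=
        exists_graph he hemb.isEmbedding hinj m₀
      refine ⟨W ∩ pr ⁻¹' U, fun y => F (σ (pr y)), hW.inter (hU.preimage pr.continuous),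
        ⟨h0, (h1 m₀ h0).1⟩, ?_, ?_⟩
      · have h2 : ContDiffOn ℝ ∞ (fun p => F (σ p)) U :=
          contMDiffOn_iff_contDiffOn.1 (hF.comp_contMDiffOn hσ)
        exact h2.comp pr.contDiff.contDiffOn fun y hy => hy.2
      · rintro _ ⟨m, rfl⟩ hm
        rw [hemb.injective.extend_apply]
        simp only [(h1 m hm.1).2])
  exact ⟨g, hg, fun m => by rw [hg' _ ⟨m, rfl⟩, hemb.injective.extend_apply]⟩

/-- the differential, between model spaces -/
def trans1_dB (e : M → A N) (m : M) : A 4 →L[ℝ] A N := dA e m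

/-- coordinate changes -/
def trans1_T (m₀ m : M) : A 4 →L[ℝ] A 4 :=
  (trivializationAt (A 4) (TangentSpace (𝓡 4)) m₀).symmL ℝ m

/-- coordinate changes -/
def trans1_T' (m₀ m : M) : A 4 →L[ℝ] A 4 :=
  (trivializationAt (A 4) (TangentSpace (𝓡 4)) m₀).continuousLinearMapAt ℝ m

theorem trans1_TT (m₀ : M) : ∀ᶠ m in 𝓝 m₀, (∀ v, trans1_T m₀ m (trans1_T' m₀ m v) = v) ∧
    ∀ v, trans1_T' m₀ m (trans1_T m₀ m v) = v := by
  filter_upwards [(trivializationAt (A 4) (TangentSpace (𝓡 4)) m₀).open_baseSet.mem_nhds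
    (FiberBundle.mem_baseSet_trivializationAt' m₀)] with m hm
  exact ⟨fun v => Bundle.Trivialization.symmL_continuousLinearMapAt _ hm v,
    fun v => Bundle.Trivialization.continuousLinearMapAt_symmL _ hm v⟩

theorem trans1_dB_sm {e : M → A N} (he : ContMDiff (𝓡 4) (𝓡 N) ∞ e) (m₀ : M) :
    ContMDiffAt (𝓡 4) 𝓘(ℝ, A 4 →L[ℝ] A N) ∞ (fun m => trans1_dB e m ∘L trans1_T m₀ m) m₀ := by
  have h := (he m₀).mfderiv_const (m := ∞) (by simp)
  refine h.congr_of_eventuallyEq (Eventually.of_forall fun m => ?_)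
  simp only [inTangentCoordinates, ContinuousLinearMap.inCoordinates,
    TangentBundle.continuousLinearMapAt_model_space]
  rfl

/-- the almost complex structure, on the model space -/
def trans1_J (J : Π x : M, TangentSpace (𝓡 4) x →L[ℝ] TangentSpace (𝓡 4) x) (m : M) :
    A 4 →L[ℝ] A 4 := J m

theorem trans1_J_sm {J : Π x : M, TangentSpace (𝓡 4) x →L[ℝ] TangentSpace (𝓡 4) x}
    (hJ : IsAlmostComplexStructure (𝓡 4) M J) (m₀ : M) :
    ContMDiffAt (𝓡 4) 𝓘(ℝ, A 4 →L[ℝ] A 4) ∞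
      (fun m => trans1_T' m₀ m ∘L trans1_J J m ∘L trans1_T m₀ m) m₀ :=
  ((contMDiffAt_hom_bundle _).1 (hJ.contMDiff m₀)).2

theorem trans1_field_sm {e : M → A N} (he : ContMDiff (𝓡 4) (𝓡 N) ∞ e)
    (hinj : ∀ m, Function.Injective (dA e m)) {K : M → A 4 →L[ℝ] A 4}
    (hK : ∀ m₀, ContMDiffAt (𝓡 4) 𝓘(ℝ, A 4 →L[ℝ] A 4) ∞
      (fun m => trans1_T' m₀ m ∘L K m ∘L trans1_T m₀ m) m₀) :
    ContMDiff (𝓡 4) 𝓘(ℝ, A N →L[ℝ] A N) ∞
      fun m => trans1_dB e m ∘L K m ∘L trans1_pinv (trans1_dB e m) := by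
  intro m₀
  have h0 := (trans1_TT m₀).self_of_nhds
  have h1 := trans1_dB_sm he m₀
  have hi : Function.Injective (trans1_dB e m₀ ∘L trans1_T m₀ m₀) :=
    (hinj m₀).comp (Function.LeftInverse.injective h0.2)
  have h2 : ContMDiffAt (𝓡 4) 𝓘(ℝ, A N →L[ℝ] A 4) ∞
      (fun m => trans1_pinv (trans1_dB e m ∘L trans1_T m₀ m)) m₀ :=
    ContDiffAt.comp_contMDiffAt (f := fun m => trans1_dB e m ∘L trans1_T m₀ m)
      (trans1_contDiffAt_pinv hi) h1
  refine (h1.clm_comp ((hK m₀).clm_comp h2)).congr_of_eventuallyEq ?_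
  filter_upwards [trans1_TT m₀] with m hm
  ext1 a
  simp only [ContinuousLinearMap.comp_apply]
  rw [trans1_pinv_comp (B := trans1_dB e m) (hinj m) hm.1 hm.2, hm.1, hm.1]

end

section
variable {N : ℕ} {M : Type*} [TopologicalSpace M] [ChartedSpace (A 4) M] [IsManifold (𝓡 4) ∞ M]

theorem exists_model [T2Space M] [CompactSpace M]
    (J : Π x : M, TangentSpace (𝓡 4) x →L[ℝ] TangentSpace (𝓡 4) x)
    (hJ : IsAlmostComplexStructure (𝓡 4) M J) :
    ∃ (N : ℕ) (X : Sub N) (e : M → A N), IsModel M J X.toPre e := by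
  obtain ⟨N, e, he, hemb, hinj⟩ := exists_embedding_euclidean_of_compact (I := 𝓡 4) (M := M)
  have hinj' : ∀ m, Function.Injective (trans1_dB e m) := hinj
  obtain ⟨π, hπ, hπ'⟩ := trans1_ext he hemb hinj (trans1_field_sm he hinj
    (K := fun _ => ContinuousLinearMap.id ℝ _) (fun m₀ =>
      (contMDiffAt_const (c := ContinuousLinearMap.id ℝ (A 4))).congr_of_eventuallyEq (by
        filter_upwards [trans1_TT m₀] with m hm
        ext1 a
        exact hm.2 a)))
  obtain ⟨J', hJ', hJ''⟩ := trans1_ext he hemb hinj (trans1_field_sm he hinj (trans1_J_sm hJ))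
  have e1 : ∀ m a, π (e m) a = trans1_dB e m (trans1_pinv (trans1_dB e m) a) := fun m a => by
    rw [hπ']; rfl
  have e2 : ∀ m a, J' (e m) a = trans1_dB e m (trans1_J J m (trans1_pinv (trans1_dB e m) a)) :=
    fun m a => by rw [hJ'']; rfl
  have e3 : ∀ m v, π (e m) (trans1_dB e m v) = trans1_dB e m v := fun m v => by
    rw [e1, trans1_pinv_apply (hinj' m)]
  have e4 : ∀ m v, J' (e m) (trans1_dB e m v) = trans1_dB e m (trans1_J J m v) := fun m v => by
    rw [e2, trans1_pinv_apply (hinj' m)]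
  let X : Pre N :=
    { S := range e
      cpt := isCompact_range he.continuous
      π := π
      π_sm := hπ
      J := J'
      J_sm := hJ'
      ππ := by
        rintro _ ⟨m, rfl⟩ a
        rw [e1 m a, e3]
      πJ := by
        rintro _ ⟨m, rfl⟩ a
        rw [e2 m a, e3]
      Jπ := by
        rintro _ ⟨m, rfl⟩ a
        rw [e1 m a, e4, e2]
      JJ := by
        rintro _ ⟨m, rfl⟩ a
        rw [e2 m a, e4, e1, ← map_neg]
        exact congrArg _ (hJ.sq_eq_neg m _) }
  refine ⟨N, ⟨X, ?_⟩, e, he, hemb, rfl, hinj, e3, fun m a => ⟨_, e1 m a⟩, e4⟩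
  rintro _ ⟨m₀, rfl⟩
  obtain ⟨ψ, pr, U, W, σ, hU, hW, hψ, h0, hσ, h1, h2, h3⟩ :=
    exists_graph he hemb.isEmbedding hinj m₀
  have hd : ∀ p ∈ U, ∀ a, fderiv ℝ ψ p a =
      trans1_dB e (σ p) (mfderiv (𝓡 4) (𝓡 4) σ p a) := by
    intro p hp a
    have hev : ψ =ᶠ[𝓝 p] e ∘ σ := by
      filter_upwards [hU.mem_nhds hp] with q hq using (h2 q hq).1.symm
    have hσp : MDifferentiableAt (𝓡 4) (𝓡 4) σ p :=
      (hσ.contMDiffAt (hU.mem_nhds hp)).mdifferentiableAt (by simp)
    have hc := mfderiv_comp p ((he (σ p)).mdifferentiableAt (by simp)) hσp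
    rw [← mfderiv_eq_fderiv, hev.mfderiv_eq, hc]
    rfl
  have hpr : ∀ p ∈ U, ∀ a, pr (fderiv ℝ ψ p a) = a := by
    intro p hp a
    have hev : (fun q => pr (ψ q)) =ᶠ[𝓝 p] id := by
      filter_upwards [hU.mem_nhds hp] with q hq using (h2 q hq).2.2
    have h4 : HasFDerivAt (fun q => pr (ψ q)) (pr ∘L fderiv ℝ ψ p) p :=
      pr.hasFDerivAt.comp p (hψ.differentiable (by simp) p).hasFDerivAt
    have h5 := h4.unique ((hasFDerivAt_id p).congr_of_eventuallyEq hev)
    exact congrArg (fun L : A 4 →L[ℝ] A 4 => L a) h5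
  refine ⟨
    { ψ := ψ
      pr := pr
      U := U
      W := W
      U_open := hU
      W_open := hW
      ψ_sm := hψ
      pr_mem := ?_
      ψ_pr := ?_
      ψ_S := fun p hp => ⟨σ p, (h2 p hp).1⟩
      ψ_W := fun p hp => (h2 p hp).2.1
      pr_ψ := fun p hp => (h2 p hp).2.2
      π_dψ := ?_
      dψ_pr := ?_ }, h0⟩
  · rintro _ ⟨m, rfl⟩ hm
    exact (h1 m hm).1
  · rintro _ ⟨m, rfl⟩ hm
    rw [← (h2 _ (h1 m hm).1).1, (h1 m hm).2]
  · intro p hp a
    rw [hd p hp a, ← (h2 p hp).1]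
    exact e3 _ _
  · intro p hp v
    have h4 : X.π (ψ p) v = trans1_dB e (σ p) (trans1_pinv (trans1_dB e (σ p)) v) := by
      rw [← (h2 p hp).1]
      exact e1 _ _
    obtain ⟨a, ha⟩ := h3 p hp (trans1_pinv (trans1_dB e (σ p)) v)
    rw [h4, ← ha, ← hd p hp a, hpr p hp a]

end

end Crest.Agent.R240
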