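import Crest.Agent.R240.Trans1

/-! Row 240: transfer of two-forms between `M` and its model. -/

set_option autoImplicit false

open scoped Manifold ContDiff RealInnerProductSpace Topology
open Set Filter Crest.GeometryTopology.TwoForm

noncomputable section

namespace Crest.Agent.R240

variable {N : ℕ} {M : Type*} [TopologicalSpace M] [ChartedSpace (A 4) M] [IsManifold (𝓡 4) ∞ M]
  {J : Π x : M, TangentSpace (𝓡 4) x →L[ℝ] TangentSpace (𝓡 4) x} {X : Sub N} {e : M → A N}

/-- `α` is the pull-back of `η` -/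
def IsPull (e : M → A N) (η : A N → E2 N)
    (α : Π x : M, TangentSpace (𝓡 4) x →L[ℝ] TangentSpace (𝓡 4) x →L[ℝ] ℝ) : Prop :=
  ∀ m (u v : TangentSpace (𝓡 4) m),
    α m u v = ev (η (e m)) (dA e m u) (dA e m v)

/-- the bilinear form `ev η (B ·) (B ·)` -/
def trans2_form (η : E2 N) (B : A 4 →L[ℝ] A N) : A 4 →L[ℝ] A 4 →L[ℝ] ℝ :=
  LinearMap.mkContinuous₂
    (LinearMap.mk₂ ℝ (fun u v => ev η (B u) (B v))
      (fun a b c => by rw [map_add, ev_add_left])
      (fun c a b => by rw [map_smul, ev_smul_left, smul_eq_mul])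
      (fun a b c => by rw [map_add, ev_add_right])
      (fun c a b => by rw [map_smul, ev_smul_right, smul_eq_mul]))
    (2 * ‖η‖ * ‖B‖ * ‖B‖) fun u v => by
      rw [LinearMap.mk₂_apply, Real.norm_eq_abs]
      refine (abs_ev_le _ _ _).trans ?_
      have h1 := B.le_opNorm u
      have h2 := B.le_opNorm v
      calc 2 * ‖η‖ * ‖B u‖ * ‖B v‖ ≤ 2 * ‖η‖ * (‖B‖ * ‖u‖) * (‖B‖ * ‖v‖) := by gcongr
        _ = _ := by ring

theorem trans2_form_apply (η : E2 N) (B : A 4 →L[ℝ] A N) (u v : A 4) :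
    trans2_form η B u v = ev η (B u) (B v) := rfl

theorem trans2_form_contDiff :
    ContDiff ℝ ∞ fun q : E2 N × (A 4 →L[ℝ] A N) => trans2_form q.1 q.2 := by
  refine contDiff_clm_apply_iff.2 fun u => contDiff_clm_apply_iff.2 fun v => ?_
  simp only [trans2_form_apply, ev]
  exact contDiff_fst.inner ℝ
    (contDiff_biv (contDiff_snd.clm_apply contDiff_const) (contDiff_snd.clm_apply contDiff_const))

theorem trans2_field (h : IsModel M J X.toPre e) (a : A N) :
    ∃ Y : Π x : M, TangentSpace (𝓡 4) x, IsSmoothVectorField (𝓡 4) M Y ∧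
      ∀ m, dA e m (Y m) = X.π (e m) a := by
  refine ⟨fun m => trans1_pinv (trans1_dB e m) (X.π (e m) a), fun m₀ => ?_, fun m => ?_⟩
  · have h0 := (trans1_TT m₀).self_of_nhds
    have h1 := trans1_dB_sm h.sm m₀
    have hi : Function.Injective (trans1_dB e m₀ ∘L trans1_T m₀ m₀) :=
      (h.inj m₀).comp (Function.LeftInverse.injective h0.2)
    have h2 : ContMDiffAt (𝓡 4) 𝓘(ℝ, A N →L[ℝ] A 4) ∞
        (fun m => trans1_pinv (trans1_dB e m ∘L trans1_T m₀ m)) m₀ :=
      ContDiffAt.comp_contMDiffAt (f := fun m => trans1_dB e m ∘L trans1_T m₀ m)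
        (trans1_contDiffAt_pinv hi) h1
    have h3 : ContMDiffAt (𝓡 4) 𝓘(ℝ, A N) ∞ (fun m => X.π (e m) a) m₀ :=
      ContDiffAt.comp_contMDiffAt (g := fun x => X.π x a) (f := e)
        (X.π_sm.clm_apply contDiff_const).contDiffAt (h.sm m₀)
    refine (Bundle.contMDiffAt_section m₀).2 ((h2.clm_apply h3).congr_of_eventuallyEq ?_)
    filter_upwards [trans1_TT m₀, (trivializationAt (A 4) (TangentSpace (𝓡 4)) m₀).open_baseSet.mem_nhds
      (FiberBundle.mem_baseSet_trivializationAt' m₀)] with m hm hb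
    rw [trans1_pinv_comp (B := trans1_dB e m) (h.inj m) hm.1 hm.2]
    exact (Bundle.Trivialization.continuousLinearMapAt_apply_of_mem (R := ℝ) _ hb _).symm
  · obtain ⟨v, hv⟩ := h.π_mem m a
    have h1 : trans1_pinv (trans1_dB e m) (X.π (e m) a) = v := by
      rw [hv]
      exact trans1_pinv_apply (B := trans1_dB e m) (h.inj m) v
    exact (congrArg (dA e m) h1).trans hv.symm

/-- the pull-back of a smooth ambient form is a smooth two-form -/
theorem exists_pull (h : IsModel M J X.toPre e) {η : A N → E2 N} (hη : ContDiff ℝ ∞ η) :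
    ∃ α, IsSmoothTwoForm (𝓡 4) M α ∧ IsPull e η α := by
  refine ⟨fun m => trans2_form (η (e m)) (trans1_dB e m), ⟨fun m v => ev_self _ _, fun m₀ => ?_⟩,
    fun m u v => rfl⟩
  refine (contMDiffAt_hom_bundle _).2 ⟨contMDiffAt_id, ?_⟩
  have h1 := trans1_dB_sm h.sm m₀
  have h2 : ContMDiffAt (𝓡 4) 𝓘(ℝ, E2 N) ∞ (fun m => η (e m)) m₀ :=
    ContDiffAt.comp_contMDiffAt (g := η) (f := e) hη.contDiffAt (h.sm m₀)
  have h3 : ContMDiffAt (𝓡 4) 𝓘(ℝ, A 4 →L[ℝ] A 4 →L[ℝ] ℝ) ∞
      (fun m => trans2_form (η (e m)) (trans1_dB e m ∘L trans1_T m₀ m)) m₀ :=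
    ContDiffAt.comp_contMDiffAt
      (g := fun q : E2 N × (A 4 →L[ℝ] A N) => trans2_form q.1 q.2)
      (f := fun m => (η (e m), trans1_dB e m ∘L trans1_T m₀ m))
      trans2_form_contDiff.contDiffAt (h2.prodMk_space h1)
  refine h3.congr_of_eventuallyEq ?_
  filter_upwards [(trivializationAt (A 4) (TangentSpace (𝓡 4)) m₀).open_baseSet.mem_nhds
    (FiberBundle.mem_baseSet_trivializationAt' m₀)] with m hb
  ext1 u
  ext1 v
  rw [inCoordinates_apply_eq₂ hb hb (by simp)]
  simp only [Bundle.Trivial.fiberBundle_trivializationAt', Bundle.Trivial.linearMapAt_trivialization,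
    LinearMap.id_coe, id_eq]
  rw [← Bundle.Trivialization.symmL_apply (R := ℝ) _ hb, ← Bundle.Trivialization.symmL_apply (R := ℝ) _ hb]
  rfl

/-- Every smooth two-form is a pull-back: on `S` put `η (e m) (k, l) = α m uₖ uₗ / 2` where
`mfderiv e m uₖ = π (e m) (eb k)`; these `uₖ` are smooth vector fields (`exists_graph`), so
`η ∘ e` is smooth on `M`, and smooth functions on `M` extend to the ambient space
(`exists_graph`, `exists_smooth_ext`). -/
theorem exists_push (h : IsModel M J X.toPre e)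
    {α : Π x : M, TangentSpace (𝓡 4) x →L[ℝ] TangentSpace (𝓡 4) x →L[ℝ] ℝ}
    (hα : IsSmoothTwoForm (𝓡 4) M α) : ∃ η, ContDiff ℝ ∞ η ∧ IsPull e η α := by
  choose Y hY hY' using fun k => trans2_field h (eb k)
  have h1 : ∀ k l, ContMDiff (𝓡 4) 𝓘(ℝ, ℝ) ∞ fun m => α m (Y k m) (Y l m) := by
    intro k l m₀
    have h2 := (hα.contMDiff m₀).clm_bundle_apply₂ (hY k m₀) (hY l m₀)
    simp only [Bundle.contMDiffAt_totalSpace] at h2
    exact h2.2
  have h2 : ContMDiff (𝓡 4) 𝓘(ℝ, E2 N) ∞ fun m =>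
      (WithLp.toLp 2 fun p : Fin N × Fin N => α m (Y p.1 m) (Y p.2 m) / 2 : E2 N) := by
    have h3 : ContMDiff (𝓡 4) 𝓘(ℝ, Fin N × Fin N → ℝ) ∞ fun m =>
        fun p : Fin N × Fin N => α m (Y p.1 m) (Y p.2 m) :=
      contMDiff_pi_space.2 fun p => h1 p.1 p.2
    have h4 : ContDiff ℝ ∞ fun z : Fin N × Fin N → ℝ =>
        (WithLp.toLp 2 fun p => z p / 2 : E2 N) :=
      contDiff_toLp fun p => (contDiff_apply ℝ ℝ p).div_const 2
    exact h4.comp_contMDiff h3
  obtain ⟨η, hη, hη'⟩ := trans1_ext h.sm h.emb h.inj h2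
  refine ⟨η, hη, fun m u v => ?_⟩
  have h3 : ∀ w : TangentSpace (𝓡 4) m, w = ∑ k, dA e m w k • Y k m := by
    intro w
    apply h.inj m
    rw [map_sum]
    simp only [map_smul, hY']
    conv_lhs => rw [← h.π_d m w, ← sum_eb (dA e m w), map_sum]
    simp only [map_smul]
  have h4 : ∀ w w' : TangentSpace (𝓡 4) m, α m w w' =
      ∑ k, ∑ l, α m (Y k m) (Y l m) * (dA e m w k * dA e m w' l) := by
    intro w w'
    conv_lhs => rw [h3 w, h3 w']
    simp only [map_sum, map_smul, sum_apply, smul_apply,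
      smul_eq_mul, Finset.mul_sum]
    rw [Finset.sum_comm]
    exact Finset.sum_congr rfl fun k _ => Finset.sum_congr rfl fun l _ => by ring
  have h5 : α m v u = -α m u v := by
    have h6 := hα.alternating m (u + v)
    simp only [map_add, add_apply, hα.alternating] at h6
    linarith
  have h6 : ev (η (e m)) (dA e m u) (dA e m v) = (α m u v - α m v u) / 2 := by
    rw [ev_eq_sum, hη', h4 u v, h4 v u, ← Finset.sum_sub_distrib, Finset.sum_div]
    refine Finset.sum_congr rfl fun k _ => ?_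
    rw [← Finset.sum_sub_distrib, Finset.sum_div]
    refine Finset.sum_congr rfl fun l _ => ?_
    ring
  rw [h6, h5]
  ring

/-- the vector field on `M` induced by the ambient field `x ↦ π x a` -/
theorem exists_field (h : IsModel M J X.toPre e) (a : A N) :
    ∃ Y : Π x : M, TangentSpace (𝓡 4) x, IsSmoothVectorField (𝓡 4) M Y ∧
      ∀ m, dA e m (Y m) = X.π (e m) a := by
  exact trans2_field h a

end Crest.Agent.R240
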