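import Crest.Agent.R240.Trans2

/-! Row 240: the invariant formula for the exterior derivative of a pull-back. -/

set_option autoImplicit false

open scoped Manifold ContDiff RealInnerProductSpace Topology
open Set Filter Crest.GeometryTopology.TwoForm

noncomputable section

namespace Crest.Agent.R240

variable {N : ℕ} {M : Type*} [TopologicalSpace M] [ChartedSpace (A 4) M] [IsManifold (𝓡 4) ∞ M]
  {e : M → A N}

theorem contMDiff_push (he : ContMDiff (𝓡 4) (𝓡 N) ∞ e) {Y : Π x : M, TangentSpace (𝓡 4) x}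
    (hY : IsSmoothVectorField (𝓡 4) M Y) :
    ContMDiff (𝓡 4) (𝓡 N) ∞ fun x => dA e x (Y x) :=
  (contMDiff_snd_tangentBundle_modelSpace (A N) (𝓡 N)).comp
    ((he.contMDiff_tangentMap (m := ∞) (by simp)).comp hY)

theorem trans3_chart {g : M → A N} (hg : ContMDiff (𝓡 4) (𝓡 N) ∞ g) (m : M) {q : A 4}
    (hq : q ∈ (extChartAt (𝓡 4) m).target) (Y : Π x : M, TangentSpace (𝓡 4) x) :
    fderivWithin ℝ (g ∘ (extChartAt (𝓡 4) m).symm) (range (𝓡 4)) q
      (VectorField.mpullbackWithin 𝓘(ℝ, A 4) (𝓡 4) (extChartAt (𝓡 4) m).symm Y (range (𝓡 4)) q) =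
      dA g ((extChartAt (𝓡 4) m).symm q) (Y ((extChartAt (𝓡 4) m).symm q)) := by
  have h1 := mfderiv_comp_mfderivWithin (I := 𝓘(ℝ, A 4)) (I' := 𝓡 4) (I'' := 𝓡 N) q
    (hg.mdifferentiableAt (x := (extChartAt (𝓡 4) m).symm q) (by simp))
    (mdifferentiableWithinAt_extChartAt_symm hq)
    ((𝓡 4).uniqueMDiffOn q (extChartAt_target_subset_range m hq))
  rw [mfderivWithin_eq_fderivWithin] at h1
  have h2 := (isInvertible_mfderivWithin_extChartAt_symm hq).self_apply_inverse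
    (Y ((extChartAt (𝓡 4) m).symm q))
  exact (DFunLike.congr_fun h1 _).trans (congrArg (dA g ((extChartAt (𝓡 4) m).symm q)) h2)

theorem trans3_has {F : Type} [NormedAddCommGroup F] [NormedSpace ℝ F] {g : M → F} {m : M}
    {g' : A 4 →L[ℝ] F} : HasMFDerivAt (𝓡 4) 𝓘(ℝ, F) g m g' ↔ ContinuousAt g m ∧
      HasFDerivWithinAt (g ∘ (extChartAt (𝓡 4) m).symm) g' (range (𝓡 4)) (extChartAt (𝓡 4) m m) :=
  Iff.rfl

/-- The differential of `e` applied to a Lie bracket. In the chart at `m`, with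
`f = e ∘ (extChartAt m).symm` and `Y₀, Z₀` the pulled back fields (`mlieBracket` is defined by
`mpullback`/`lieBracketWithin`, see `VectorField.mlieBracketWithin_apply`), the functions
`m ↦ mfderiv e m (Z m)` read `p ↦ fderiv f p (Z₀ p)`, and the second derivative of `f` is
symmetric. -/
theorem mfderiv_mlieBracket (he : ContMDiff (𝓡 4) (𝓡 N) ∞ e)
    {Y Z : Π x : M, TangentSpace (𝓡 4) x} (hY : IsSmoothVectorField (𝓡 4) M Y)
    (hZ : IsSmoothVectorField (𝓡 4) M Z) (m : M) :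
    dA e m (VectorField.mlieBracket (𝓡 4) Y Z m) =
      dA (fun x => dA e x (Z x)) m (Y m) - dA (fun x => dA e x (Y x)) m (Z m) := by
  have hp := mem_extChartAt_target (I := 𝓡 4) m
  have hr : extChartAt (𝓡 4) m m ∈ range (𝓡 4) := extChartAt_target_subset_range m hp
  have hf : ContDiffWithinAt ℝ ∞ (e ∘ (extChartAt (𝓡 4) m).symm) (range (𝓡 4))
      (extChartAt (𝓡 4) m m) :=
    (he.contMDiffAt.comp_contMDiffWithinAt _
      (contMDiffWithinAt_extChartAt_symm_range m hp)).contDiffWithinAt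
  have hd : ∀ {W : Π x : M, TangentSpace (𝓡 4) x}, IsSmoothVectorField (𝓡 4) M W →
      DifferentiableWithinAt ℝ
        (VectorField.mpullbackWithin 𝓘(ℝ, A 4) (𝓡 4) (extChartAt (𝓡 4) m).symm W (range (𝓡 4)))
        (range (𝓡 4)) (extChartAt (𝓡 4) m m) := by
    intro W hW
    have := ((hW m).mdifferentiableAt (by simp)).mdifferentiableWithinAt (s := univ)
      |>.differentiableWithinAt_mpullbackWithin_vectorField
    rwa [preimage_univ, univ_inter] at this
  have key := VectorField.fderivWithin_apply_lieBracket hf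
    (by rw [minSmoothness_of_isRCLikeNormedField]; exact ENat.LEInfty.out) (𝓡 4).uniqueDiffOn
    ((𝓡 4).range_subset_closure_interior hr) hr (hd hZ) (hd hY)
  have h2 : ∀ {W W' : Π x : M, TangentSpace (𝓡 4) x}, IsSmoothVectorField (𝓡 4) M W →
      fderivWithin ℝ (fun q => fderivWithin ℝ (e ∘ (extChartAt (𝓡 4) m).symm) (range (𝓡 4)) q
        (VectorField.mpullbackWithin 𝓘(ℝ, A 4) (𝓡 4) (extChartAt (𝓡 4) m).symm W (range (𝓡 4)) q))
        (range (𝓡 4)) (extChartAt (𝓡 4) m m)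
        (VectorField.mpullbackWithin 𝓘(ℝ, A 4) (𝓡 4) (extChartAt (𝓡 4) m).symm W' (range (𝓡 4))
          (extChartAt (𝓡 4) m m)) = dA (fun x => dA e x (W x)) m (W' m) := by
    intro W W' hW
    have e1 : (fun q => fderivWithin ℝ (e ∘ (extChartAt (𝓡 4) m).symm) (range (𝓡 4)) q
        (VectorField.mpullbackWithin 𝓘(ℝ, A 4) (𝓡 4) (extChartAt (𝓡 4) m).symm W (range (𝓡 4)) q))
        =ᶠ[𝓝[range (𝓡 4)] (extChartAt (𝓡 4) m m)]
        (fun x => dA e x (W x)) ∘ (extChartAt (𝓡 4) m).symm := by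
      filter_upwards [extChartAt_target_mem_nhdsWithin m] with q hq
      exact trans3_chart he m hq W
    rw [e1.fderivWithin_eq (trans3_chart he m hp W), trans3_chart (contMDiff_push he hW) m hp W']
    exact congrArg (fun x => dA (fun x => dA e x (W x)) x (W' x)) (extChartAt_to_inv m)
  rw [h2 hZ, h2 hY] at key
  rw [← key]
  have h3 := (trans3_has.1 (he.mdifferentiableAt (x := m) (by simp)).hasMFDerivAt).2.fderivWithin
    ((𝓡 4).uniqueDiffOn _ hr)
  rw [h3]
  have h4 : VectorField.mlieBracket (𝓡 4) Y Z m = VectorField.lieBracketWithin ℝ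
      (VectorField.mpullbackWithin 𝓘(ℝ, A 4) (𝓡 4) (extChartAt (𝓡 4) m).symm Y (range (𝓡 4)))
      (VectorField.mpullbackWithin 𝓘(ℝ, A 4) (𝓡 4) (extChartAt (𝓡 4) m).symm Z (range (𝓡 4)))
      (range (𝓡 4)) (extChartAt (𝓡 4) m m) := by
    rw [← VectorField.mlieBracketWithin_univ, VectorField.mlieBracketWithin_apply,
      mfderiv_extChartAt_self, preimage_univ, univ_inter]
    exact DFunLike.congr_fun ContinuousLinearMap.inverse_id _
  rw [h4]
  rfl

/-- the bivector as a continuous bilinear map -/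
def trans3_bivL : A N →L[ℝ] A N →L[ℝ] E2 N :=
  LinearMap.mkContinuous₂ (LinearMap.mk₂ ℝ biv
    (fun a a' b => by ext p; simp [biv, tens_apply]; ring)
    (fun c a b => by ext p; simp [biv, tens_apply]; ring)
    (fun a b b' => by ext p; simp [biv, tens_apply]; ring)
    (fun c a b => by ext p; simp [biv, tens_apply]; ring)) 2 norm_biv_le

theorem trans3_leibniz (he : ContMDiff (𝓡 4) (𝓡 N) ∞ e) {η : A N → E2 N} (hη : ContDiff ℝ ∞ η)
    {a b : M → A N} (ha : ContMDiff (𝓡 4) (𝓡 N) ∞ a) (hb : ContMDiff (𝓡 4) (𝓡 N) ∞ b)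
    (Y : Π x : M, TangentSpace (𝓡 4) x) (m : M) :
    lieDerivFun (𝓡 4) M Y (fun x => ev (η (e x)) (a x) (b x)) m =
      ev (fderiv ℝ η (e m) (dA e m (Y m))) (a m) (b m) + ev (η (e m)) (dA a m (Y m)) (b m) +
        ev (η (e m)) (a m) (dA b m (Y m)) := by
  obtain ⟨c1, d1⟩ := trans3_has.1 (he.mdifferentiableAt (x := m) (by simp)).hasMFDerivAt
  obtain ⟨c2, d2⟩ := trans3_has.1 (ha.mdifferentiableAt (x := m) (by simp)).hasMFDerivAt
  obtain ⟨c3, d3⟩ := trans3_has.1 (hb.mdifferentiableAt (x := m) (by simp)).hasMFDerivAt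
  have d4 := (hη.differentiable (by simp) _).hasFDerivAt.comp_hasFDerivWithinAt _ d1
  have d5 := ((trans3_bivL (N := N)).hasFDerivAt.comp_hasFDerivWithinAt _ d2).clm_apply d3
  have d6 := d4.inner ℝ d5
  have c4 : ContinuousAt (fun x => ev (η (e x)) (a x) (b x)) m :=
    (hη.continuous.continuousAt.comp c1).inner
      (((trans3_bivL (N := N)).continuous.continuousAt.comp c2).clm_apply c3)
  have h := (trans3_has (g := fun x => ev (η (e x)) (a x) (b x)).2 ⟨c4, d6⟩).mfderiv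
  refine (DFunLike.congr_fun h (Y m)).trans ?_
  simp only [Function.comp_apply, extChartAt_to_inv]
  change ⟪η (e m), biv (a m) (dA b m (Y m)) + biv (dA a m (Y m)) (b m)⟫ +
    ev (fderiv ℝ η (e m) (dA e m (Y m))) (a m) (b m) = _
  rw [inner_add_right]
  simp only [ev]
  ring

theorem trans3_ev_sub_left (η : E2 N) (a a' b : A N) : ev η (a - a') b = ev η a b - ev η a' b := by
  rw [eq_sub_iff_add_eq, ← ev_add_left, sub_add_cancel]

/-- Leibniz rule for `x ↦ ev (η (e x)) (de Y x) (de Z x)` and `mfderiv_mlieBracket` -/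
theorem extDeriv_pull (he : ContMDiff (𝓡 4) (𝓡 N) ∞ e) {η : A N → E2 N} (hη : ContDiff ℝ ∞ η)
    {α : Π x : M, TangentSpace (𝓡 4) x →L[ℝ] TangentSpace (𝓡 4) x →L[ℝ] ℝ} (h : IsPull e η α)
    {Y₁ Y₂ Y₃ : Π x : M, TangentSpace (𝓡 4) x} (h₁ : IsSmoothVectorField (𝓡 4) M Y₁)
    (h₂ : IsSmoothVectorField (𝓡 4) M Y₂) (h₃ : IsSmoothVectorField (𝓡 4) M Y₃) (m : M) :
    extDerivOnFields (𝓡 4) M α Y₁ Y₂ Y₃ m = d2 η (e m) (dA e m (Y₁ m))
      (dA e m (Y₂ m)) (dA e m (Y₃ m)) := by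
  have p₁ := contMDiff_push he h₁
  have p₂ := contMDiff_push he h₂
  have p₃ := contMDiff_push he h₃
  unfold extDerivOnFields d2
  simp only [h _ _ _]
  rw [trans3_leibniz he hη p₂ p₃, trans3_leibniz he hη p₁ p₃, trans3_leibniz he hη p₁ p₂,
    mfderiv_mlieBracket he h₁ h₂, mfderiv_mlieBracket he h₁ h₃, mfderiv_mlieBracket he h₂ h₃]
  simp only [trans3_ev_sub_left]
  rw [ev_swap _ (dA (fun x => dA e x (Y₃ x)) m (Y₁ m)) (dA e m (Y₂ m)),
    ev_swap _ (dA (fun x => dA e x (Y₃ x)) m (Y₂ m)) (dA e m (Y₁ m)),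
    ev_swap _ (dA (fun x => dA e x (Y₂ x)) m (Y₃ m)) (dA e m (Y₁ m))]
  ring

end Crest.Agent.R240
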