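import Crest.Agent.R240.Meas

/-! Row 240: volume growth, the Poincaré inequality at small scales and finite rank
approximation. -/

set_option autoImplicit false

open scoped ContDiff RealInnerProductSpace Topology
open MeasureTheory Set Filter

noncomputable section

namespace Crest.Agent.R240

variable {N : ℕ}

namespace Geo
variable (G : Geo N)

theorem integral_chart (c : G.Chart) {E : Type} [NormedAddCommGroup E] [NormedSpace ℝ E]
    {f : A N → E} (hf : AEStronglyMeasurable f G.m) (h0 : ∀ x ∈ G.S, x ∉ c.W → f x = 0) :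
    ∫ x, f x ∂G.m = ∫ p in c.U, c.pf p • f (c.ψ p) :=
  integral_chart_of G.m_S c (G.m_chart c) hf h0

theorem lintegral_chart (c : G.Chart) {f : A N → ENNReal} (hf : Measurable f) :
    ∫⁻ x in c.W, f x ∂G.m = ∫⁻ p in c.U, ENNReal.ofReal (c.pf p) * f (c.ψ p) := by
  have hψ : Measurable c.ψ := c.ψ_sm.continuous.measurable
  have hpf : Measurable fun p => ENNReal.ofReal (c.pf p) :=
    c.pf_sm.continuous.measurable.ennreal_ofReal
  rw [G.m_chart c, lintegral_map hf hψ]
  exact lintegral_withDensity_eq_lintegral_mul _ hpf (hf.comp hψ)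

theorem vol_inter_W (c : G.Chart) {s : Set (A N)} (hs : MeasurableSet s) :
    G.m (s ∩ c.W) = ∫⁻ p in c.ψ ⁻¹' s ∩ c.U, ENNReal.ofReal (c.pf p) := by
  rw [← Measure.restrict_apply hs, G.m_chart c]
  exact measa_apply c hs

theorem vol_chart_le (c : G.Chart) (p : A 4) (r : ℝ) : ∃ C, 0 ≤ C ∧ ∀ (x : A N) (ρ : ℝ), 0 ≤ ρ →
    ∀ s : Set (A N), MeasurableSet s → s ⊆ Metric.closedBall x ρ →
      (∀ y ∈ G.S, y ∈ s → y ∈ c.W ∧ c.pr y ∈ Metric.closedBall p r) →
        G.m.real s ≤ C * ρ ^ 4 := by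
  obtain ⟨M, hM⟩ := (isCompact_closedBall p r).exists_bound_of_continuousOn
    c.pf_sm.continuous.continuousOn
  refine ⟨|M| * (‖c.pr‖ ^ 4 * (volume : Measure (A 4)).real (Metric.ball 0 1)), by positivity,
    fun x ρ hρ s hs hsub h => ?_⟩
  have h1 : G.m s ≤ G.m (s ∩ c.W) := by
    calc G.m s ≤ G.m ((s ∩ c.W) ∪ G.Sᶜ) := measure_mono fun y hy => by
          by_cases hyS : y ∈ G.S
          · exact Or.inl ⟨hy, (h y hyS hy).1⟩
          · exact Or.inr hyS
      _ ≤ G.m (s ∩ c.W) + G.m G.Sᶜ := measure_union_le _ _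
      _ = _ := by rw [G.m_S, add_zero]
  have hψ : Measurable c.ψ := c.ψ_sm.continuous.measurable
  have h2 : G.m (s ∩ c.W) ≤ ENNReal.ofReal |M| *
      volume (Metric.closedBall (c.pr x) (‖c.pr‖ * ρ)) := by
    rw [G.vol_inter_W c hs]
    calc ∫⁻ q in c.ψ ⁻¹' s ∩ c.U, ENNReal.ofReal (c.pf q)
        ≤ ∫⁻ _ in c.ψ ⁻¹' s ∩ c.U, ENNReal.ofReal |M| := by
          refine setLIntegral_mono' ((hψ hs).inter c.U_open.measurableSet) fun q hq => ?_
          have h3 := (h _ (c.ψ_S q hq.2) hq.1).2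
          rw [c.pr_ψ q hq.2] at h3
          exact ENNReal.ofReal_le_ofReal
            ((le_abs_self _).trans ((hM q h3).trans (le_abs_self _)))
      _ = ENNReal.ofReal |M| * volume (c.ψ ⁻¹' s ∩ c.U) := setLIntegral_const _ _
      _ ≤ _ := by
          gcongr
          intro q hq
          have h3 := hsub hq.1
          rw [Metric.mem_closedBall, dist_eq_norm] at h3 ⊢
          rw [← c.pr_ψ q hq.2, ← map_sub]
          exact (c.pr.le_opNorm _).trans (mul_le_mul_of_nonneg_left h3 (norm_nonneg _))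
  have h4 := ENNReal.toReal_mono
    (ENNReal.mul_ne_top ENNReal.ofReal_ne_top (isCompact_closedBall _ _).measure_lt_top.ne)
    (h1.trans h2)
  rw [ENNReal.toReal_mul, ENNReal.toReal_ofReal (abs_nonneg _), ← measureReal_def,
    ← measureReal_def, Measure.addHaar_real_closedBall _ _ (by positivity),
    finrank_euclideanSpace_fin] at h4
  refine h4.trans (le_of_eq ?_)
  ring

/-- upper volume growth (atlas `Sub.exists_atlas`; `pr` is Lipschitz, `pf` is bounded on the
closed balls; large radii by finiteness of `m`) -/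
theorem vol_le : ∃ C, 0 < C ∧ ∀ (x : A N) (r : ℝ), 0 ≤ r →
    G.m.real (Metric.closedBall x r) ≤ C * r ^ 4 := by
  obtain ⟨n, c, p, r, δ, hδ, -, -, hcov⟩ := G.toSub.exists_atlas
  choose C hC0 hC using fun i => G.vol_chart_le (c i) (p i) (r i)
  have hsum : ∀ i, C i ≤ ∑ j, C j := fun i =>
    Finset.single_le_sum (f := C) (fun j _ => hC0 j) (Finset.mem_univ i)
  have hs0 : 0 ≤ ∑ j, C j := Finset.sum_nonneg fun j _ => hC0 j
  have hm0 : 0 ≤ G.m.real univ := measureReal_nonneg
  refine ⟨1 + (∑ j, C j) * 2 ^ 4 + G.m.real univ * (2 / δ) ^ 4, by positivity, fun x ρ hρ => ?_⟩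
  have hρ4 : 0 ≤ ρ ^ 4 := by positivity
  have h1 : 0 ≤ (∑ j, C j) * 2 ^ 4 * ρ ^ 4 := by positivity
  have h2 : 0 ≤ G.m.real univ * (2 / δ) ^ 4 * ρ ^ 4 := by positivity
  by_cases hne : ∃ x' ∈ G.S, x' ∈ Metric.closedBall x ρ
  · obtain ⟨x', hx', hxx'⟩ := hne
    by_cases hsm : 2 * ρ ≤ δ
    · obtain ⟨i, -, hi⟩ := hcov x' hx'
      have hsub : Metric.closedBall x ρ ⊆ Metric.closedBall x' (2 * ρ) := by
        intro y hy
        rw [Metric.mem_closedBall] at hy hxx' ⊢
        have := dist_triangle y x x'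
        rw [dist_comm x x'] at this
        linarith
      have h3 := hC i x' (2 * ρ) (by positivity) _ measurableSet_closedBall hsub
        fun y hy hy' => hi y hy (by
          have := hsub hy'
          rw [Metric.mem_closedBall, dist_eq_norm] at this
          exact this.trans hsm)
      have h4 : C i * (2 * ρ) ^ 4 ≤ (∑ j, C j) * 2 ^ 4 * ρ ^ 4 := by
        rw [mul_pow, ← mul_assoc]
        gcongr
        exact hsum i
      nlinarith
    · push Not at hsm
      have h3 : G.m.real (Metric.closedBall x ρ) ≤ G.m.real univ :=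
        measureReal_mono (subset_univ _)
      have h4 : 1 ≤ (2 / δ) ^ 4 * ρ ^ 4 := by
        rw [← mul_pow]
        refine one_le_pow₀ ?_
        rw [div_mul_eq_mul_div, le_div_iff₀ hδ]
        linarith
      have h5 : G.m.real univ ≤ G.m.real univ * (2 / δ) ^ 4 * ρ ^ 4 := by
        rw [mul_assoc]
        exact le_mul_of_one_le_right hm0 h4
      nlinarith
  · have h3 : G.m (Metric.closedBall x ρ) = 0 :=
      measure_mono_null (fun y hy hy' => hne ⟨y, hy', hy⟩) G.m_S
    rw [measureReal_def, h3, ENNReal.toReal_zero]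
    positivity

theorem vol_chart_ge (c : G.Chart) {p : A 4} {r : ℝ} (hr : 0 < r)
    (hU : Metric.closedBall p r ⊆ c.U) : ∃ κ, 0 < κ ∧ ∀ x ∈ G.S, x ∈ c.W →
      c.pr x ∈ Metric.closedBall p (r / 2) → ∀ ρ : ℝ, 0 ≤ ρ → ρ ≤ 1 →
        κ * ρ ^ 4 ≤ G.m.real (Metric.closedBall x ρ) := by
  obtain ⟨q₀, hq₀, hmin⟩ := (isCompact_closedBall p r).exists_isMinOn
    ⟨p, Metric.mem_closedBall_self hr.le⟩ c.pf_sm.continuous.continuousOn
  have hμ : 0 < c.pf q₀ := c.pf_pos _ (hU hq₀)
  obtain ⟨L, hL⟩ := (isCompact_closedBall p r).exists_bound_of_continuousOn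
    (c.ψ_sm.continuous_fderiv (by simp)).continuousOn
  have hL0 : 0 ≤ L := (norm_nonneg _).trans (hL p (Metric.mem_closedBall_self hr.le))
  set a := min (r / 2) (1 / (L + 1)) with ha
  have ha0 : 0 < a := lt_min (by positivity) (by positivity)
  have hω : 0 < (volume : Measure (A 4)).real (Metric.ball 0 1) :=
    ENNReal.toReal_pos (Metric.measure_ball_pos _ _ one_pos).ne' measure_ball_lt_top.ne
  refine ⟨c.pf q₀ * (a ^ 4 * (volume : Measure (A 4)).real (Metric.ball 0 1)), by positivity,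
    fun x hx hxW hxp ρ hρ hρ1 => ?_⟩
  have haρ : a * ρ ≤ r / 2 := (mul_le_of_le_one_right ha0.le hρ1).trans (min_le_left _ _)
  have hsub : Metric.closedBall (c.pr x) (a * ρ) ⊆ Metric.closedBall p r := by
    intro q hq
    rw [Metric.mem_closedBall] at hq hxp ⊢
    have := dist_triangle q (c.pr x) p
    linarith
  have hsub2 : Metric.closedBall (c.pr x) (a * ρ) ⊆ c.ψ ⁻¹' Metric.closedBall x ρ ∩ c.U := by
    intro q hq
    refine ⟨?_, hU (hsub hq)⟩
    have h1 := (convex_closedBall p r).norm_image_sub_le_of_norm_fderiv_le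
      (fun y _ => c.ψ_sm.differentiable (by simp) y) hL
      (hsub (Metric.mem_closedBall_self (by positivity))) (hsub hq)
    rw [c.ψ_pr x hx hxW] at h1
    rw [Metric.mem_closedBall, dist_eq_norm] at hq
    rw [mem_preimage, Metric.mem_closedBall, dist_eq_norm]
    have h2 : L * a ≤ 1 := by
      have h3 : a ≤ 1 / (L + 1) := min_le_right _ _
      rw [le_div_iff₀ (by positivity)] at h3
      nlinarith
    calc ‖c.ψ q - x‖ ≤ L * ‖q - c.pr x‖ := h1
      _ ≤ L * (a * ρ) := mul_le_mul_of_nonneg_left hq hL0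
      _ = (L * a) * ρ := by ring
      _ ≤ 1 * ρ := mul_le_mul_of_nonneg_right h2 hρ
      _ = ρ := one_mul ρ
  have h2 : ENNReal.ofReal (c.pf q₀) * volume (Metric.closedBall (c.pr x) (a * ρ)) ≤
      G.m (Metric.closedBall x ρ) := by
    calc ENNReal.ofReal (c.pf q₀) * volume (Metric.closedBall (c.pr x) (a * ρ))
        = ∫⁻ _ in Metric.closedBall (c.pr x) (a * ρ), ENNReal.ofReal (c.pf q₀) :=
          (setLIntegral_const _ _).symm
      _ ≤ ∫⁻ q in Metric.closedBall (c.pr x) (a * ρ), ENNReal.ofReal (c.pf q) :=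
          setLIntegral_mono' measurableSet_closedBall fun q hq =>
            ENNReal.ofReal_le_ofReal (hmin (hsub hq))
      _ ≤ ∫⁻ q in c.ψ ⁻¹' Metric.closedBall x ρ ∩ c.U, ENNReal.ofReal (c.pf q) :=
          lintegral_mono_set hsub2
      _ = G.m (Metric.closedBall x ρ ∩ c.W) := (G.vol_inter_W c measurableSet_closedBall).symm
      _ ≤ _ := measure_mono inter_subset_left
  have h4 := ENNReal.toReal_mono (measure_ne_top _ _) h2
  rw [ENNReal.toReal_mul, ENNReal.toReal_ofReal hμ.le, ← measureReal_def,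
    ← measureReal_def, Measure.addHaar_real_closedBall _ _ (by positivity),
    finrank_euclideanSpace_fin] at h4
  refine le_trans (le_of_eq ?_) h4
  ring

/-- lower volume growth (`ψ` is Lipschitz on the closed balls, `pf` is bounded below) -/
theorem vol_ge : ∃ c, 0 < c ∧ ∀ x ∈ G.S, ∀ r : ℝ, 0 ≤ r → r ≤ 1 →
    c * r ^ 4 ≤ G.m.real (Metric.closedBall x r) := by
  obtain ⟨n, c, p, r, δ, hδ, hr, hU, hcov⟩ := G.toSub.exists_atlas
  choose κ hκ0 hκ using fun i => G.vol_chart_ge (c i) (hr i) (hU i)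
  have hev : ∀ᶠ a in 𝓝[>] (0 : ℝ), ∀ i, a ≤ κ i :=
    eventually_all.2 fun i => mem_nhdsWithin_of_mem_nhds (Iic_mem_nhds (hκ0 i))
  obtain ⟨a, ha, ha0⟩ := (hev.and self_mem_nhdsWithin).exists
  refine ⟨a, ha0, fun x hx ρ hρ hρ1 => ?_⟩
  obtain ⟨i, h1, h2⟩ := hcov x hx
  refine le_trans ?_ (hκ i x hx (h2 x hx (by simpa using hδ.le)).1 h1 ρ hρ hρ1)
  exact mul_le_mul_of_nonneg_right (ha i) (by positivity)

/-- integration by parts for vector valued functions -/
theorem integral_D {E : Type} [NormedAddCommGroup E] [NormedSpace ℝ E] [CompleteSpace E]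
    (k : Fin N) {u : A N → E} (hu : ContDiff ℝ ∞ u) :
    ∫ x, D G.π k u x ∂G.m = -∫ x, G.dv k x • u x ∂G.m := by
  have h1 : Integrable (D G.π k u) G.m := G.B.integrable_cont (D_sm G.π_sm k hu).continuous
  have h2 : Integrable (fun x => G.dv k x • u x) G.m :=
    G.B.integrable_cont ((G.dv_sm k).continuous.smul hu.continuous)
  rw [SeparatingDual.eq_iff_forall_dual_eq (R := ℝ)]
  intro φ
  rw [map_neg, ← φ.integral_comp_comm h1, ← φ.integral_comp_comm h2]
  have h3 := G.dv_spec k (fun x => φ (u x)) (φ.contDiff.comp hu)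
  have e1 : ∀ x, D G.π k (fun x => φ (u x)) x = φ (D G.π k u x) := fun x => by
    unfold D
    have := (φ.hasFDerivAt.comp x (hu.differentiable (by simp) x).hasFDerivAt).fderiv
    exact congrArg (fun L : A N →L[ℝ] ℝ => L (G.π x (eb k))) this
  simp only [e1] at h3
  simp only [map_smul, smul_eq_mul]
  exact h3

end Geo

end Crest.Agent.R240
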